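import Mathlib

/-!
Broadcasting through the three-state Potts channel, and the abstract joining step
for families of likelihood vectors.
-/

open scoped BigOperators

namespace Vale.Agent.P154

/-- Spins. -/
abbrev Spin := Fin 3

/-- The transition probability of the three-state Potts channel. -/
noncomputable def chan (l : ℝ) (i j : Spin) : ℝ := (if i = j then l else 0) + (1 - l) / 3

/-- Likelihood pushed through one edge. -/
noncomputable def push (l : ℝ) (g : Spin → ℝ) (i : Spin) : ℝ := ∑ j, chan l i j * g j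

lemma push_eq (l : ℝ) (g : Spin → ℝ) (i : Spin) :
    push l g i = l * g i + (1 - l) / 3 * ∑ j, g j := by
  simp only [push, chan, add_mul, Finset.sum_add_distrib, ite_mul, zero_mul,
    Finset.sum_ite_eq, Finset.mem_univ, if_true, Finset.mul_sum]

lemma chan_nonneg {l : ℝ} (hl : -(1 / 2) ≤ l) (hu : l ≤ 1) (i j : Spin) : 0 ≤ chan l i j := by
  unfold chan; split_ifs <;> linarith

/-- Posterior ratio vectors: nonnegative, with mean one. -/
def InS (a : Spin → ℝ) : Prop := (∀ i, 0 ≤ a i) ∧ a 0 + a 1 + a 2 = 3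

/-- Half the normalised squared distance to the uniform vector. -/
noncomputable def sq (a : Spin → ℝ) : ℝ :=
  ((a 0 - 1) ^ 2 + (a 1 - 1) ^ 2 + (a 2 - 1) ^ 2) / 6

/-- The cubic invariant. -/
noncomputable def cub (a : Spin → ℝ) : ℝ := (a 0 - 1) * (a 1 - 1) * (a 2 - 1) / 2

/-- The normalising weight of two children. -/
noncomputable def zw (a b : Spin → ℝ) : ℝ := (∑ i, a i * b i) / 3

/-- The combined posterior. -/
noncomputable def comb (a b : Spin → ℝ) : Spin → ℝ := fun i => a i * b i / zw a b

/-- The image of a posterior ratio under the channel. -/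
def img (l : ℝ) (y : Spin → ℝ) : Spin → ℝ := fun i => 1 + l * (y i - 1)

/-- A potential which is subadditive with respect to joining, at edge parameter `l`. -/
structure Pot (l c C dl : ℝ) (φ : (Spin → ℝ) → ℝ) : Prop where
  one : φ (fun _ => 1) = 0
  low : ∀ a, InS a → c * sq a ≤ φ a
  high : ∀ a, InS a → φ a ≤ C * sq a
  sub : ∀ a y, InS a → InS y →
    (1 / 6 : ℝ) * ∑ σ : Equiv.Perm Spin,
        zw a (fun i => img l y (σ i)) * φ (comb a (fun i => img l y (σ i)))
      ≤ φ a + l ^ 2 * φ y - dl * l ^ 2 * sq a * sq y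

/-- A family of likelihood vectors of a symmetric experiment. -/
structure Fam {ι : Type} [Fintype ι] (f : ι → Spin → ℝ) : Prop where
  nonneg : ∀ k i, 0 ≤ f k i
  mass : ∀ i, ∑ k, f k i = 1
  equiv : ∀ σ : Equiv.Perm Spin, ∃ e : ι ≃ ι, ∀ k i, f (e k) i = f k (σ i)

variable {ι κ : Type} [Fintype ι] [Fintype κ]

/-- Probability of one observation. -/
noncomputable def wt (g : Spin → ℝ) : ℝ := (∑ i, g i) / 3

/-- Posterior ratio of one observation (the uniform vector if it has probability zero). -/
noncomputable def post (g : Spin → ℝ) : Spin → ℝ :=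
  if wt g = 0 then fun _ => 1 else fun i => g i / wt g

/-- Expectation of a function of the posterior ratio. -/
noncomputable def expect (φ : (Spin → ℝ) → ℝ) (f : ι → Spin → ℝ) : ℝ :=
  ∑ k, wt (f k) * φ (post (f k))

lemma wt_nonneg {g : Spin → ℝ} (h : ∀ i, 0 ≤ g i) : 0 ≤ wt g :=
  div_nonneg (Finset.sum_nonneg fun i _ => h i) (by norm_num)

lemma post_inS {g : Spin → ℝ} (h : ∀ i, 0 ≤ g i) : InS (post g) := by
  unfold post
  split_ifs with h0
  · exact ⟨fun i => zero_le_one, by norm_num⟩
  · refine ⟨fun i => div_nonneg (h i) (wt_nonneg h), ?_⟩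
    rw [← add_div, ← add_div, div_eq_iff h0]
    simp only [wt, Fin.sum_univ_three]; ring

lemma wt_mul_post {g : Spin → ℝ} (h : ∀ i, 0 ≤ g i) (i : Spin) :
    wt g * post g i = g i := by
  unfold post
  split_ifs with h0
  · have hs : ∑ j, g j = 0 := by
      unfold wt at h0; linarith [(div_eq_zero_iff.mp h0).resolve_right (by norm_num)]
    have := (Finset.sum_eq_zero_iff_of_nonneg (fun j _ => h j)).mp hs i (Finset.mem_univ i)
    simp [h0, this]
  · field_simp

/-- Joining a family with a child family through an edge. -/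
noncomputable def join (l : ℝ) (f : ι → Spin → ℝ) (g : κ → Spin → ℝ) :
    ι × κ → Spin → ℝ := fun p i => f p.1 i * push l (g p.2) i

lemma Fam.join {l : ℝ} (hl : -(1 / 2) ≤ l) (hu : l ≤ 1)
    {f : ι → Spin → ℝ} {g : κ → Spin → ℝ} (hf : Fam f) (hg : Fam g) :
    Fam (P154.join l f g) := by
  refine ⟨fun p i => mul_nonneg (hf.nonneg _ _) (Finset.sum_nonneg fun j _ =>
    mul_nonneg (chan_nonneg hl hu i j) (hg.nonneg _ _)), fun i => ?_, fun σ => ?_⟩
  · simp only [P154.join, push_eq, Fintype.sum_prod_type, ← Finset.mul_sum,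
      Finset.sum_add_distrib]
    rw [← Finset.sum_mul, hf.mass, one_mul, Finset.sum_comm, Fin.sum_univ_three, hg.mass, hg.mass,
      hg.mass, hg.mass]
    ring
  · obtain ⟨e, he⟩ := hf.equiv σ
    obtain ⟨e', he'⟩ := hg.equiv σ
    refine ⟨e.prodCongr e', fun p i => ?_⟩
    have hs : ∑ j, g (e' p.2) j = ∑ j, g p.2 j := by
      rw [← Equiv.sum_comp σ (g p.2)]; exact Finset.sum_congr rfl fun j _ => he' _ j
    simp only [P154.join, Equiv.prodCongr_apply, Prod.map_fst, Prod.map_snd, push_eq, he, hs]
    rw [he']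

lemma img_post {l : ℝ} {g : Spin → ℝ} (h : ∀ i, 0 ≤ g i) (i : Spin) :
    push l g i = wt g * img l (post g) i := by
  have := wt_mul_post h i
  rw [push_eq, img, mul_add, mul_one, mul_left_comm, mul_sub, mul_one, this]
  simp only [wt]; ring

lemma join_term {l : ℝ} (φ : (Spin → ℝ) → ℝ) {u v : Spin → ℝ}
    (hu : ∀ i, 0 ≤ u i) (hv : ∀ i, 0 ≤ v i) :
    wt (fun i => u i * push l v i) * φ (post fun i => u i * push l v i)
      = wt u * wt v * (zw (post u) (img l (post v)) * φ (comb (post u) (img l (post v)))) := by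
  have e : ∀ i, u i * push l v i = wt u * wt v * (post u i * img l (post v) i) := fun i => by
    rw [img_post hv]; nth_rewrite 1 [← wt_mul_post hu i]; ring
  have hw : wt (fun i => u i * push l v i) = wt u * wt v * zw (post u) (img l (post v)) := by
    simp only [wt, zw, e, ← Finset.mul_sum]; ring
  by_cases h0 : wt (fun i => u i * push l v i) = 0
  · rw [h0, zero_mul, ← mul_assoc, ← hw, h0, zero_mul]
  · have hz : zw (post u) (img l (post v)) ≠ 0 := fun hz => h0 (by rw [hw, hz, mul_zero])
    have huv : wt u * wt v ≠ 0 := fun hz' => h0 (by rw [hw, hz', zero_mul])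
    have hp : post (fun i => u i * push l v i) = comb (post u) (img l (post v)) := by
      rw [post, if_neg h0]; funext i
      rw [e i, hw, comb, mul_div_mul_left _ _ huv]
    rw [hp, hw]; ring

lemma post_perm {g h : Spin → ℝ} (σ : Equiv.Perm Spin) (e : ∀ i, h i = g (σ i)) :
    wt h = wt g ∧ ∀ i, post h i = post g (σ i) := by
  have hw : wt h = wt g := by
    simp only [wt, e]; rw [Equiv.sum_comp σ g]
  refine ⟨hw, fun i => ?_⟩
  simp only [post, hw]; split_ifs <;> simp [e i]

lemma expect_join_le {l c C dl : ℝ} {φ : (Spin → ℝ) → ℝ} (hP : Pot l c C dl φ)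
    {f : ι → Spin → ℝ} {g : κ → Spin → ℝ} (hf : Fam f) (hg : Fam g) :
    expect φ (join l f g) ≤ expect φ f + l ^ 2 * expect φ g
      - dl * l ^ 2 * expect sq f * expect sq g := by
  classical
  have hwf : ∑ j, wt (f j) = 1 := by
    simp only [wt, ← Finset.sum_div]; rw [Finset.sum_comm, Fin.sum_univ_three, hf.mass, hf.mass,
      hf.mass]; norm_num
  have hwg : ∑ j, wt (g j) = 1 := by
    simp only [wt, ← Finset.sum_div]; rw [Finset.sum_comm, Fin.sum_univ_three, hg.mass, hg.mass,
      hg.mass]; norm_num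
  set T : Spin → ℝ := fun _ => 0 with hT
  let F : (Spin → ℝ) → (Spin → ℝ) → ℝ := fun a b => zw a b * φ (comb a b)
  have h1 : expect φ (join l f g) = ∑ j, ∑ k, wt (f j) * wt (g k) *
      F (post (f j)) (img l (post (g k))) := by
    simp only [expect, Fintype.sum_prod_type]
    exact Finset.sum_congr rfl fun j _ => Finset.sum_congr rfl fun k _ =>
      join_term φ (hf.nonneg j) (hg.nonneg k)
  have h2 : ∀ σ : Equiv.Perm Spin, ∀ j, ∑ k, wt (f j) * wt (g k) *
      F (post (f j)) (img l (post (g k))) = ∑ k, wt (f j) * wt (g k) *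
      F (post (f j)) (fun i => img l (post (g k)) (σ i)) := fun σ j => by
    obtain ⟨e, he⟩ := hg.equiv σ
    rw [← Equiv.sum_comp e (fun k => wt (f j) * wt (g k) * F (post (f j)) (img l (post (g k))))]
    refine Finset.sum_congr rfl fun k _ => ?_
    obtain ⟨hw, hp⟩ := post_perm σ (he k)
    have : img l (post (g (e k))) = fun i => img l (post (g k)) (σ i) := by
      funext i; simp [img, hp i]
    rw [hw, this]
  have h3 : ∀ j, ∑ k, wt (f j) * wt (g k) * F (post (f j)) (img l (post (g k)))
      = ∑ k, wt (f j) * wt (g k) * ((1 / 6 : ℝ) * ∑ σ : Equiv.Perm Spin,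
          F (post (f j)) (fun i => img l (post (g k)) (σ i))) := fun j => by
    have h6 : (Fintype.card (Equiv.Perm Spin) : ℝ) = 6 := by
      rw [Fintype.card_perm, Fintype.card_fin]; norm_num [Nat.factorial]
    calc ∑ k, wt (f j) * wt (g k) * F (post (f j)) (img l (post (g k)))
        = (1 / 6 : ℝ) * ∑ _σ : Equiv.Perm Spin,
            ∑ k, wt (f j) * wt (g k) * F (post (f j)) (img l (post (g k))) := by
          rw [Finset.sum_const, Finset.card_univ, nsmul_eq_mul, h6]; ring
      _ = _ := by
          rw [Finset.sum_congr rfl fun σ _ => h2 σ j, Finset.sum_comm, Finset.mul_sum]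
          refine Finset.sum_congr rfl fun k _ => ?_
          rw [← Finset.mul_sum]; ring
  rw [h1, Finset.sum_congr rfl fun j _ => h3 j]
  calc _ ≤ ∑ j, ∑ k, wt (f j) * wt (g k) * (φ (post (f j)) + l ^ 2 * φ (post (g k))
        - dl * l ^ 2 * sq (post (f j)) * sq (post (g k))) :=
        Finset.sum_le_sum fun j _ => Finset.sum_le_sum fun k _ =>
          mul_le_mul_of_nonneg_left (hP.sub _ _ (post_inS (hf.nonneg j)) (post_inS (hg.nonneg k)))
            (mul_nonneg (wt_nonneg (hf.nonneg j)) (wt_nonneg (hg.nonneg k)))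
    _ = _ := by
        have a1 : expect φ f = ∑ j, ∑ k, wt (f j) * wt (g k) * φ (post (f j)) := by
          refine Finset.sum_congr rfl fun j _ => ?_
          rw [← Finset.sum_mul, ← Finset.mul_sum, hwg, mul_one]
        have a2 : expect φ g = ∑ j, ∑ k, wt (f j) * wt (g k) * φ (post (g k)) := by
          rw [Finset.sum_comm]
          refine Finset.sum_congr rfl fun k _ => ?_
          rw [← Finset.sum_mul, ← Finset.sum_mul, hwf, one_mul]
        have a3 : expect sq f * expect sq g
            = ∑ j, ∑ k, wt (f j) * wt (g k) * (sq (post (f j)) * sq (post (g k))) := by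
          rw [expect, expect, Finset.sum_mul_sum]
          exact Finset.sum_congr rfl fun j _ => Finset.sum_congr rfl fun k _ => by ring
        rw [mul_assoc (dl * l ^ 2), a1, a2, a3]
        simp only [Finset.mul_sum, ← Finset.sum_add_distrib, ← Finset.sum_sub_distrib]
        exact Finset.sum_congr rfl fun j _ => Finset.sum_congr rfl fun k _ => by ring

end Vale.Agent.P154
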