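import Vale.Agent.P154.UniPackFast

/-!
The polynomial inequality behind the binary-tree certificate, checked by subdivision.
-/

namespace Vale.Agent.P154.Bin

/-- The certified polynomial in the invariants of the two children. -/
noncomputable def cert (l S T S2 T2 : ℝ) : ℝ :=
  (5031:ℝ)/125000 * (T2^2)
  + (-909:ℝ)/25000 * (T2^3)
  + (-16353:ℝ)/100000 * (S2 * T2)
  + (1299:ℝ)/3125 * (S2 * T2^2)
  + (31167:ℝ)/250000 * (S2^2)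
  + (-261387:ℝ)/500000 * (S2^2 * T2)
  + (45279:ℝ)/250000 * (S2^3)
  + (-73629:ℝ)/100000 * (S2^3 * T2)
  + (35073:ℝ)/50000 * (S2^4)
  + (-901:ℝ)/4000 * (T * T2)
  + (1511:ℝ)/8000 * l * (T * T2^2)
  + (39:ℝ)/50 * l * (T * S2)
  + (-1563:ℝ)/16000 * (T * S2 * T2)
  + (-259:ℝ)/960 * l * (T * S2^2)
  + (5031:ℝ)/125000 * (T^2)
  + (1511:ℝ)/8000 * l * (T^2 * T2)
  + (-347:ℝ)/4000 * (T^2 * T2^2)
  + (-8431:ℝ)/12000 * l * (T^2 * S2 * T2)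
  + (449:ℝ)/1600 * (T^2 * S2 * T2^2)
  + (-83:ℝ)/640 * l * (T^2 * S2^2 * T2)
  + (2899:ℝ)/32000 * (T^2 * S2^3)
  + (-449:ℝ)/3200 * (T^2 * S2^4)
  + (-909:ℝ)/25000 * (T^3)
  + (39:ℝ)/50 * l * (S * T2)
  + (-11:ℝ)/100 * (S * S2)
  + (-3023:ℝ)/12000 * l * (S * S2 * T2)
  + (1297:ℝ)/12000 * (S * S2^2)
  + (-16353:ℝ)/100000 * (S * T)
  + (-1563:ℝ)/16000 * (S * T * T2)
  + (-8431:ℝ)/12000 * l * (S * T * T2^2)
  + (-3023:ℝ)/12000 * l * (S * T * S2)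
  + (53:ℝ)/800 * (S * T * S2 * T2)
  + (449:ℝ)/1600 * l * (S * T * S2 * T2^2)
  + (3739:ℝ)/4000 * l * (S * T * S2^2)
  + (-4769:ℝ)/6400 * (S * T * S2^2 * T2)
  + (-161:ℝ)/256 * l * (S * T * S2^3)
  + (1299:ℝ)/3125 * (S * T^2)
  + (449:ℝ)/1600 * (S * T^2 * T2^2)
  + (449:ℝ)/1600 * l * (S * T^2 * S2 * T2)
  + (449:ℝ)/8000 * (S * T^2 * S2 * T2^2)
  + (1347:ℝ)/3200 * l * (S * T^2 * S2^2 * T2)
  + (-449:ℝ)/3200 * (S * T^2 * S2^3)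
  + (1347:ℝ)/32000 * (S * T^2 * S2^4)
  + (31167:ℝ)/250000 * (S^2)
  + (-259:ℝ)/960 * l * (S^2 * T2)
  + (1297:ℝ)/12000 * (S^2 * S2)
  + (3739:ℝ)/4000 * l * (S^2 * S2 * T2)
  + (-13271:ℝ)/24000 * (S^2 * S2^2)
  + (-163:ℝ)/320 * l * (S^2 * S2^2 * T2)
  + (173:ℝ)/1280 * (S^2 * S2^3)
  + (-261387:ℝ)/500000 * (S^2 * T)
  + (-83:ℝ)/640 * l * (S^2 * T * T2^2)
  + (-4769:ℝ)/6400 * (S^2 * T * S2 * T2)
  + (1347:ℝ)/3200 * l * (S^2 * T * S2 * T2^2)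
  + (-163:ℝ)/320 * l * (S^2 * T * S2^2)
  + (9997:ℝ)/8000 * (S^2 * T * S2^2 * T2)
  + (231:ℝ)/1280 * l * (S^2 * T * S2^3)
  + (4041:ℝ)/6400 * l * (S^2 * T * S2^4)
  + (45279:ℝ)/250000 * (S^3)
  + (2899:ℝ)/32000 * (S^3 * T2^2)
  + (-161:ℝ)/256 * l * (S^3 * S2 * T2)
  + (-449:ℝ)/3200 * (S^3 * S2 * T2^2)
  + (173:ℝ)/1280 * (S^3 * S2^2)
  + (231:ℝ)/1280 * l * (S^3 * S2^2 * T2)
  + (-31341:ℝ)/16000 * (S^3 * S2^3)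
  + (4939:ℝ)/6400 * (S^3 * S2^4)
  + (-73629:ℝ)/100000 * (S^3 * T)
  + (35073:ℝ)/50000 * (S^4)
  + (-449:ℝ)/3200 * (S^4 * T2^2)
  + (1347:ℝ)/32000 * (S^4 * S2 * T2^2)
  + (4041:ℝ)/6400 * l * (S^4 * S2^2 * T2)
  + (4939:ℝ)/6400 * (S^4 * S2^3)
  + (1347:ℝ)/16000 * (S^4 * S2^4)

/-- Scaled coefficients at the rational lower bound of the edge parameter. -/
noncomputable def coef : List (List (List (List ℤ))) :=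
  [[[[5984064000, 0, 0, 0], [0, 0, 0, 0], [-5304000000, 0, 0, 0], [0, 0, 0, 0], [5984064000, 0, 0, 0], [0, 0, 0, 0], [0, 0, 0, 0], [0, 0, 0, 0], [0, 0, 0, 0], [0, 0, 0, 0]], [[0, 0, 0, 0], [0, 0, 0, 0], [0, 0, 0, 0], [0, 0, 0, 0], [0, 0, 0, 0], [0, 0, 0, 0], [0, 0, 0, 0], [0, 0, 0, 0], [0, 0, 0, 0], [0, 0, 0, 0]], [[0, 0, 0, 0], [0, 0, 0, 0], [0, 0, 0, 0], [0, 0, 0, 0], [0, 0, 0, 0], [0, 0, 0, 0], [0, 0, 0, 0], [0, 0, 0, 0], [0, 0, 0, 0], [0, 0, 0, 0]], [[0, 0, 0, 0], [0, 0, 0, 0], [0, 0, 0, 0], [0, 0, 0, 0], [0, 0, 0, 0], [0, 0, 0, 0], [0, 0, 0, 0], [0, 0, 0, 0], [0, 0, 0, 0], [0, 0, 0, 0]]],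
    [[[7849440000, 0, 0, 0], [0, 0, 0, 0], [-26474048640, 0, 0, 0], [-26474048640, 52948097280, 0, 0], [0, 0, 0, 0], [7849440000, -15698880000, 0, 0], [0, 0, 0, 0], [0, 0, 0, 0], [0, 0, 0, 0], [0, 0, 0, 0]], [[-15698880000, 0, 0, 0], [0, 0, 0, 0], [52948097280, 0, 0, 0], [0, 0, 0, 0], [0, 0, 0, 0], [0, 0, 0, 0], [0, 0, 0, 0], [0, 0, 0, 0], [0, 0, 0, 0], [0, 0, 0, 0]], [[0, 0, 0, 0], [0, 0, 0, 0], [0, 0, 0, 0], [0, 0, 0, 0], [0, 0, 0, 0], [0, 0, 0, 0], [0, 0, 0, 0], [0, 0, 0, 0], [0, 0, 0, 0], [0, 0, 0, 0]], [[0, 0, 0, 0], [0, 0, 0, 0], [0, 0, 0, 0], [0, 0, 0, 0], [0, 0, 0, 0], [0, 0, 0, 0], [0, 0, 0, 0], [0, 0, 0, 0], [0, 0, 0, 0], [0, 0, 0, 0]]],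
    [[[10625472000, 0, 0, 0], [0, 0, 0, 0], [5188000000, 0, 0, 0], [-10812000000, 21624000000, 0, 0], [5188000000, 0, 0, 0], [0, 0, 0, 0], [10625472000, -7727616000, 7727616000, 0], [0, 0, 0, 0], [0, 0, 0, 0], [0, 0, 0, 0]], [[-7727616000, 0, 0, 0], [0, 0, 0, 0], [0, 0, 0, 0], [21624000000, -43248000000, 0, 0], [0, 0, 0, 0], [0, 0, 0, 0], [0, 0, 0, 0], [0, 0, 0, 0], [0, 0, 0, 0], [0, 0, 0, 0]], [[7727616000, 0, 0, 0], [0, 0, 0, 0], [0, 0, 0, 0], [0, 0, 0, 0], [0, 0, 0, 0], [0, 0, 0, 0], [0, 0, 0, 0], [0, 0, 0, 0], [0, 0, 0, 0], [0, 0, 0, 0]], [[0, 0, 0, 0], [0, 0, 0, 0], [0, 0, 0, 0], [0, 0, 0, 0], [0, 0, 0, 0], [0, 0, 0, 0], [0, 0, 0, 0], [0, 0, 0, 0], [0, 0, 0, 0], [0, 0, 0, 0]]],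
    [[[25093152000, 0, 0, 0], [0, 0, 0, 0], [8550325752, 0, 0, 0], [9157022700, -18314045400, 0, 0], [9157022700, 0, 0, 0], [8550325752, -17100651504, 0, 0], [0, 0, 0, 0], [25093152000, -50186304000, 0, 0], [0, 0, 0, 0], [0, 0, 0, 0]], [[-50186304000, 0, 0, 0], [0, 0, 0, 0], [-17100651504, 0, 0, 0], [0, 0, 0, 0], [-18314045400, 0, 0, 0], [0, 0, 0, 0], [0, 0, 0, 0], [0, 0, 0, 0], [0, 0, 0, 0], [0, 0, 0, 0]], [[0, 0, 0, 0], [0, 0, 0, 0], [0, 0, 0, 0], [0, 0, 0, 0], [0, 0, 0, 0], [0, 0, 0, 0], [0, 0, 0, 0], [0, 0, 0, 0], [0, 0, 0, 0], [0, 0, 0, 0]], [[0, 0, 0, 0], [0, 0, 0, 0], [0, 0, 0, 0], [0, 0, 0, 0], [0, 0, 0, 0], [0, 0, 0, 0], [0, 0, 0, 0], [0, 0, 0, 0], [0, 0, 0, 0], [0, 0, 0, 0]]],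
    [[[53622720000, 0, 0, 0], [0, 0, 0, 0], [0, 0, 0, 0], [-4689000000, 9378000000, 0, 0], [-26542000000, 0, 0, 0], [-4689000000, 9378000000, 0, 0], [0, 0, 0, 0], [0, 0, 0, 0], [53622720000, -79810560000, 79810560000, 0], [0, 0, 0, 0]], [[-79810560000, 0, 0, 0], [0, 0, 0, 0], [0, 0, 0, 0], [9378000000, -18756000000, 0, 0], [0, 0, 0, 0], [9378000000, -18756000000, 0, 0], [0, 0, 0, 0], [0, 0, 0, 0], [0, 0, 0, 0], [0, 0, 0, 0]], [[79810560000, 0, 0, 0], [0, 0, 0, 0], [0, 0, 0, 0], [0, 0, 0, 0], [0, 0, 0, 0], [0, 0, 0, 0], [0, 0, 0, 0], [0, 0, 0, 0], [0, 0, 0, 0], [0, 0, 0, 0]], [[0, 0, 0, 0], [0, 0, 0, 0], [0, 0, 0, 0], [0, 0, 0, 0], [0, 0, 0, 0], [0, 0, 0, 0], [0, 0, 0, 0], [0, 0, 0, 0], [0, 0, 0, 0], [0, 0, 0, 0]]],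
    [[[37087200000, 0, 0, 0], [0, 0, 0, 0], [0, 0, 0, 0], [-6410622996, 12821245992, 0, 0], [-31726432008, 0, 0, 0], [-31726432008, 63452864016, 0, 0], [-6410622996, 25642491984, -25642491984, 0], [0, 0, 0, 0], [0, 0, 0, 0], [37087200000, -81155520000, 20943360000, -13962240000]], [[-81155520000, 0, 0, 0], [0, 0, 0, 0], [0, 0, 0, 0], [25642491984, -51284983968, 0, 0], [63452864016, 0, 0, 0], [0, 0, 0, 0], [12821245992, -51284983968, 51284983968, 0], [0, 0, 0, 0], [0, 0, 0, 0], [0, 0, 0, 0]], [[20943360000, 0, 0, 0], [0, 0, 0, 0], [0, 0, 0, 0], [-25642491984, 51284983968, 0, 0], [0, 0, 0, 0], [0, 0, 0, 0], [0, 0, 0, 0], [0, 0, 0, 0], [0, 0, 0, 0], [0, 0, 0, 0]], [[-13962240000, 0, 0, 0], [0, 0, 0, 0], [0, 0, 0, 0], [0, 0, 0, 0], [0, 0, 0, 0], [0, 0, 0, 0], [0, 0, 0, 0], [0, 0, 0, 0], [0, 0, 0, 0], [0, 0, 0, 0]]],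
    [[[0, 0, 0, 0], [0, 0, 0, 0], [0, 0, 0, 0], [0, 0, 0, 0], [6487500000, 0, 0, 0], [3180000000, -6360000000, 0, 0], [6487500000, 0, 0, 0], [0, 0, 0, 0], [0, 0, 0, 0], [0, 0, 0, 0]], [[0, 0, 0, 0], [0, 0, 0, 0], [0, 0, 0, 0], [0, 0, 0, 0], [0, 0, 0, 0], [-6360000000, 12720000000, 0, 0], [0, 0, 0, 0], [0, 0, 0, 0], [0, 0, 0, 0], [0, 0, 0, 0]], [[0, 0, 0, 0], [0, 0, 0, 0], [0, 0, 0, 0], [0, 0, 0, 0], [0, 0, 0, 0], [0, 0, 0, 0], [0, 0, 0, 0], [0, 0, 0, 0], [0, 0, 0, 0], [0, 0, 0, 0]], [[0, 0, 0, 0], [0, 0, 0, 0], [0, 0, 0, 0], [0, 0, 0, 0], [0, 0, 0, 0], [0, 0, 0, 0], [0, 0, 0, 0], [0, 0, 0, 0], [0, 0, 0, 0], [0, 0, 0, 0]]],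
    [[[0, 0, 0, 0], [0, 0, 0, 0], [0, 0, 0, 0], [0, 0, 0, 0], [17288741700, 0, 0, 0], [45192205119, -90384410238, 0, 0], [45192205119, -95385770976, 95385770976, 0], [17288741700, -34577483400, 0, 0], [0, 0, 0, 0], [0, 0, 0, 0]], [[0, 0, 0, 0], [0, 0, 0, 0], [0, 0, 0, 0], [0, 0, 0, 0], [-34577483400, 0, 0, 0], [-95385770976, 190771541952, 0, 0], [-90384410238, 190771541952, -190771541952, 0], [0, 0, 0, 0], [0, 0, 0, 0], [0, 0, 0, 0]], [[0, 0, 0, 0], [0, 0, 0, 0], [0, 0, 0, 0], [0, 0, 0, 0], [0, 0, 0, 0], [95385770976, -190771541952, 0, 0], [0, 0, 0, 0], [0, 0, 0, 0], [0, 0, 0, 0], [0, 0, 0, 0]], [[0, 0, 0, 0], [0, 0, 0, 0], [0, 0, 0, 0], [0, 0, 0, 0], [0, 0, 0, 0], [0, 0, 0, 0], [0, 0, 0, 0], [0, 0, 0, 0], [0, 0, 0, 0], [0, 0, 0, 0]]],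
    [[[0, 0, 0, 0], [0, 0, 0, 0], [0, 0, 0, 0], [0, 0, 0, 0], [0, 0, 0, 0], [-35767500000, 71535000000, 0, 0], [-89490000000, -738000000, 738000000, 0], [-35767500000, 71535000000, 0, 0], [0, 0, 0, 0], [0, 0, 0, 0]], [[0, 0, 0, 0], [0, 0, 0, 0], [0, 0, 0, 0], [0, 0, 0, 0], [0, 0, 0, 0], [71535000000, -143070000000, 0, 0], [-738000000, -66624000000, 66624000000, 0], [71535000000, -143070000000, 0, 0], [0, 0, 0, 0], [0, 0, 0, 0]], [[0, 0, 0, 0], [0, 0, 0, 0], [0, 0, 0, 0], [0, 0, 0, 0], [0, 0, 0, 0], [0, 0, 0, 0], [738000000, 66624000000, -66624000000, 0], [0, 0, 0, 0], [0, 0, 0, 0], [0, 0, 0, 0]], [[0, 0, 0, 0], [0, 0, 0, 0], [0, 0, 0, 0], [0, 0, 0, 0], [0, 0, 0, 0], [0, 0, 0, 0], [0, 0, 0, 0], [0, 0, 0, 0], [0, 0, 0, 0], [0, 0, 0, 0]]],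
    [[[0, 0, 0, 0], [0, 0, 0, 0], [0, 0, 0, 0], [0, 0, 0, 0], [0, 0, 0, 0], [-9524717820, 19049435640, 0, 0], [-1723570875, -17606939400, 17606939400, 0], [-1723570875, 3447141750, 0, 0], [-9524717820, 38098871280, -38098871280, 0], [0, 0, 0, 0]], [[0, 0, 0, 0], [0, 0, 0, 0], [0, 0, 0, 0], [0, 0, 0, 0], [0, 0, 0, 0], [38098871280, -76197742560, 0, 0], [3447141750, 35213878800, -35213878800, 0], [-17606939400, 35213878800, 0, 0], [19049435640, -76197742560, 76197742560, 0], [0, 0, 0, 0]], [[0, 0, 0, 0], [0, 0, 0, 0], [0, 0, 0, 0], [0, 0, 0, 0], [0, 0, 0, 0], [-38098871280, 76197742560, 0, 0], [0, 0, 0, 0], [17606939400, -35213878800, 0, 0], [0, 0, 0, 0], [0, 0, 0, 0]], [[0, 0, 0, 0], [0, 0, 0, 0], [0, 0, 0, 0], [0, 0, 0, 0], [0, 0, 0, 0], [0, 0, 0, 0], [0, 0, 0, 0], [0, 0, 0, 0], [0, 0, 0, 0], [0, 0, 0, 0]]],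
    [[[0, 0, 0, 0], [0, 0, 0, 0], [0, 0, 0, 0], [0, 0, 0, 0], [0, 0, 0, 0], [0, 0, 0, 0], [37042500000, -26940000000, 26940000000, 0], [59982000000, -119964000000, 0, 0], [37042500000, -26940000000, 26940000000, 0], [0, 0, 0, 0]], [[0, 0, 0, 0], [0, 0, 0, 0], [0, 0, 0, 0], [0, 0, 0, 0], [0, 0, 0, 0], [0, 0, 0, 0], [-26940000000, 215520000000, -215520000000, 0], [-119964000000, 239928000000, 0, 0], [-26940000000, 215520000000, -215520000000, 0], [0, 0, 0, 0]], [[0, 0, 0, 0], [0, 0, 0, 0], [0, 0, 0, 0], [0, 0, 0, 0], [0, 0, 0, 0], [0, 0, 0, 0], [26940000000, -215520000000, 215520000000, 0], [0, 0, 0, 0], [26940000000, -215520000000, 215520000000, 0], [0, 0, 0, 0]], [[0, 0, 0, 0], [0, 0, 0, 0], [0, 0, 0, 0], [0, 0, 0, 0], [0, 0, 0, 0], [0, 0, 0, 0], [0, 0, 0, 0], [0, 0, 0, 0], [0, 0, 0, 0], [0, 0, 0, 0]]],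
    [[[0, 0, 0, 0], [0, 0, 0, 0], [0, 0, 0, 0], [0, 0, 0, 0], [0, 0, 0, 0], [0, 0, 0, 0], [0, 0, 0, 0], [-35717691825, 71435383650, 0, 0], [-35717691825, 57148306920, -57148306920, 0], [0, 0, 0, 0]], [[0, 0, 0, 0], [0, 0, 0, 0], [0, 0, 0, 0], [0, 0, 0, 0], [0, 0, 0, 0], [0, 0, 0, 0], [0, 0, 0, 0], [57148306920, -114296613840, 0, 0], [71435383650, -114296613840, 114296613840, 0], [0, 0, 0, 0]], [[0, 0, 0, 0], [0, 0, 0, 0], [0, 0, 0, 0], [0, 0, 0, 0], [0, 0, 0, 0], [0, 0, 0, 0], [0, 0, 0, 0], [-57148306920, 114296613840, 0, 0], [0, 0, 0, 0], [0, 0, 0, 0]], [[0, 0, 0, 0], [0, 0, 0, 0], [0, 0, 0, 0], [0, 0, 0, 0], [0, 0, 0, 0], [0, 0, 0, 0], [0, 0, 0, 0], [0, 0, 0, 0], [0, 0, 0, 0], [0, 0, 0, 0]]],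
    [[[0, 0, 0, 0], [0, 0, 0, 0], [0, 0, 0, 0], [0, 0, 0, 0], [0, 0, 0, 0], [0, 0, 0, 0], [0, 0, 0, 0], [0, 0, 0, 0], [10776000000, -18858000000, 18858000000, 0], [0, 0, 0, 0]], [[0, 0, 0, 0], [0, 0, 0, 0], [0, 0, 0, 0], [0, 0, 0, 0], [0, 0, 0, 0], [0, 0, 0, 0], [0, 0, 0, 0], [0, 0, 0, 0], [-18858000000, 43104000000, -43104000000, 0], [0, 0, 0, 0]], [[0, 0, 0, 0], [0, 0, 0, 0], [0, 0, 0, 0], [0, 0, 0, 0], [0, 0, 0, 0], [0, 0, 0, 0], [0, 0, 0, 0], [0, 0, 0, 0], [18858000000, -43104000000, 43104000000, 0], [0, 0, 0, 0]], [[0, 0, 0, 0], [0, 0, 0, 0], [0, 0, 0, 0], [0, 0, 0, 0], [0, 0, 0, 0], [0, 0, 0, 0], [0, 0, 0, 0], [0, 0, 0, 0], [0, 0, 0, 0], [0, 0, 0, 0]]]]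

theorem good1 : Pack.Ok 4 [(2, 0), (0, 0), (0, 0), (0, 0)] coef :=
  Pack.ok_leafR (ds := [13, 4, 10, 4]) (W := 86) (by decide +kernel)

theorem good2 : Pack.Ok 4 [(2, 1), (0, 0), (0, 0), (0, 0)] coef :=
  Pack.ok_leafR (ds := [13, 4, 10, 4]) (W := 87) (by decide +kernel)

theorem good3 : Pack.Ok 4 [(1, 0), (0, 0), (0, 0), (0, 0)] coef :=
  Pack.ok_node 0 1 0 rfl good1 good2

theorem good4 : Pack.Ok 4 [(1, 1), (1, 0), (0, 0), (0, 0)] coef :=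
  Pack.ok_leafR (ds := [13, 4, 10, 4]) (W := 80) (by decide +kernel)

theorem good5 : Pack.Ok 4 [(1, 1), (2, 2), (0, 0), (0, 0)] coef :=
  Pack.ok_leafR (ds := [13, 4, 10, 4]) (W := 84) (by decide +kernel)

theorem good6 : Pack.Ok 4 [(1, 1), (2, 3), (1, 0), (0, 0)] coef :=
  Pack.ok_leafR (ds := [13, 4, 10, 4]) (W := 93) (by decide +kernel)

theorem good7 : Pack.Ok 4 [(1, 1), (2, 3), (1, 1), (1, 0)] coef :=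
  Pack.ok_leafR (ds := [13, 4, 10, 4]) (W := 97) (by decide +kernel)

theorem good8 : Pack.Ok 4 [(1, 1), (2, 3), (1, 1), (2, 2)] coef :=
  Pack.ok_leafR (ds := [13, 4, 10, 4]) (W := 100) (by decide +kernel)

theorem good9 : Pack.Ok 4 [(2, 2), (2, 3), (1, 1), (2, 3)] coef :=
  Pack.ok_leafR (ds := [13, 4, 10, 4]) (W := 111) (by decide +kernel)

theorem good10 : Pack.Ok 4 [(2, 3), (2, 3), (2, 2), (2, 3)] coef :=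
  Pack.ok_leafR (ds := [13, 4, 10, 4]) (W := 121) (by decide +kernel)

theorem good11 : Pack.Ok 4 [(2, 3), (2, 3), (3, 6), (2, 3)] coef :=
  Pack.ok_leafR (ds := [13, 4, 10, 4]) (W := 131) (by decide +kernel)

theorem good12 : Pack.Ok 4 [(2, 3), (2, 3), (3, 7), (2, 3)] coef :=
  Pack.ok_leafR (ds := [13, 4, 10, 4]) (W := 132) (by decide +kernel)

theorem good13 : Pack.Ok 4 [(2, 3), (2, 3), (2, 3), (2, 3)] coef :=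
  Pack.ok_node 2 2 3 rfl good11 good12

theorem good14 : Pack.Ok 4 [(2, 3), (2, 3), (1, 1), (2, 3)] coef :=
  Pack.ok_node 2 1 1 rfl good10 good13

theorem good15 : Pack.Ok 4 [(1, 1), (2, 3), (1, 1), (2, 3)] coef :=
  Pack.ok_node 0 1 1 rfl good9 good14

theorem good16 : Pack.Ok 4 [(1, 1), (2, 3), (1, 1), (1, 1)] coef :=
  Pack.ok_node 3 1 1 rfl good8 good15

theorem good17 : Pack.Ok 4 [(1, 1), (2, 3), (1, 1), (0, 0)] coef :=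
  Pack.ok_node 3 0 0 rfl good7 good16

theorem good18 : Pack.Ok 4 [(1, 1), (2, 3), (0, 0), (0, 0)] coef :=
  Pack.ok_node 2 0 0 rfl good6 good17

theorem good19 : Pack.Ok 4 [(1, 1), (1, 1), (0, 0), (0, 0)] coef :=
  Pack.ok_node 1 1 1 rfl good5 good18

theorem good20 : Pack.Ok 4 [(1, 1), (0, 0), (0, 0), (0, 0)] coef :=
  Pack.ok_node 1 0 0 rfl good4 good19

theorem good21 : Pack.Ok 4 [(0, 0), (0, 0), (0, 0), (0, 0)] coef :=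
  Pack.ok_node 0 0 0 rfl good3 good20

theorem coef_nonneg (x : ℕ → ℝ) (hx : ∀ i, 0 ≤ x i ∧ x i ≤ 1) : 0 ≤ Bern.ev 4 coef x :=
  Pack.good_of_ok (n := 4) good21 x hx

theorem ev4_eq (a : List (List (List (List ℤ)))) (x : ℕ → ℝ) : Bern.ev 4 a x =
    a.foldr (fun (c : List (List (List ℤ))) r => c.foldr (fun (c : List (List ℤ)) r =>
      c.foldr (fun (c : List ℤ) r => c.foldr (fun (c : ℤ) r => (c : ℝ) + x 3 * r) 0 + x 2 * r) 0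
        + x 1 * r) 0 + x 0 * r) 0 := rfl

/-- The point of the blown-up chart. -/
def pt (w t r s : ℝ) : ℕ → ℝ
  | 0 => w
  | 1 => t
  | 2 => r
  | _ => s

set_option maxRecDepth 30000 in
theorem cert_lo_eq (w t r s : ℝ) :
    cert (707106/1000000) (w ^ 2) (w ^ 3 * (2 * t - 1)) (r ^ 2 * w ^ 2) (r ^ 3 * w ^ 3 * (2 * s - 1)) * 48000000000
      - 24000000 * (w ^ 2 * (r ^ 2 * w ^ 2)) =
      w ^ 4 * Bern.ev 4 coef (pt w t r s) := by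
  simp only [cert, ev4_eq, coef, pt, List.foldr_cons, List.foldr_nil, Int.cast_ofNat, Int.cast_neg, Int.cast_zero, Int.cast_one]
  ring

end Vale.Agent.P154.Bin
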