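import Vale.Agent.P154.BinBern

/-!
One-variable polynomial positivity facts for the binary-tree certificate.
-/

namespace Vale.Agent.P154.Bin

/-- Scaled coefficients on the unit interval. -/
noncomputable def cW : List ℤ := [1, 21834, -83979, -49653, 439182, -327321, 0]

theorem goodW : Bern.Good 1 [] cW :=
  (Bern.good_node (p := []) 0 6 (by norm_num) (by decide +kernel)
      (Bern.good_node (p := [(0, 6, false)]) 0 6 (by norm_num) (by decide +kernel)
      (Bern.good_leaf (p := [(0, 6, false), (0, 6, false)]) (by decide +kernel))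
      (Bern.good_node (p := [(0, 6, false), (0, 6, true)]) 0 6 (by norm_num) (by decide +kernel)
      (Bern.good_leaf (p := [(0, 6, false), (0, 6, true), (0, 6, false)]) (by decide +kernel))
      (Bern.good_node (p := [(0, 6, false), (0, 6, true), (0, 6, true)]) 0 6 (by norm_num) (by decide +kernel)
      (Bern.good_node (p := [(0, 6, false), (0, 6, true), (0, 6, true), (0, 6, false)]) 0 6 (by norm_num) (by decide +kernel)
      (Bern.good_leaf (p := [(0, 6, false), (0, 6, true), (0, 6, true), (0, 6, false), (0, 6, false)]) (by decide +kernel))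
      (Bern.good_leaf (p := [(0, 6, false), (0, 6, true), (0, 6, true), (0, 6, false), (0, 6, true)]) (by decide +kernel)))
      (Bern.good_leaf (p := [(0, 6, false), (0, 6, true), (0, 6, true), (0, 6, true)]) (by decide +kernel)))))
      (Bern.good_leaf (p := [(0, 6, true)]) (by decide +kernel)))

theorem W_nonneg (z : ℝ) (h0 : (-1:ℝ)/2 ≤ z) (h1 : z ≤ (1:ℝ)) :
    0 ≤ (23:ℝ)/1000 + (-487:ℝ)/1000 * z + (2107:ℝ)/1000 * z ^ 2 + (6379:ℝ)/1000 * z ^ 3 + (-1313:ℝ)/500 * z ^ 4 + (-1347:ℝ)/250 * z ^ 5 := by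
  have e : Bern.ev 1 cW (fun _ => ((z - ((-1:ℝ)/2)) / ((3:ℝ)/2))) = 8000 * ((23:ℝ)/1000 + (-487:ℝ)/1000 * z + (2107:ℝ)/1000 * z ^ 2 + (6379:ℝ)/1000 * z ^ 3 + (-1313:ℝ)/500 * z ^ 4 + (-1347:ℝ)/250 * z ^ 5) := by
    show List.foldr (fun (c : ℤ) r => (c : ℝ) + ((z - ((-1:ℝ)/2)) / ((3:ℝ)/2)) * r) 0 cW = _
    simp only [cW, List.foldr_cons, List.foldr_nil]
    norm_num
    ring
  have h := goodW (fun _ => ((z - ((-1:ℝ)/2)) / ((3:ℝ)/2))) fun _ => ⟨div_nonneg (by linarith) (by norm_num), (div_le_one (by norm_num)).2 (by linarith)⟩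
  change 0 ≤ Bern.ev 1 cW _ at h
  rw [e] at h
  exact nonneg_of_mul_nonneg_right h (by norm_num)

/-- Scaled coefficients on the unit interval. -/
noncomputable def cGlo : List ℤ := [36611750000, -461782293555, 735770506878, 14829731978202, -96365270305854, 245964787525773, -287134399925280, 126514323647820, 0]

theorem goodGlo : Bern.Good 1 [] cGlo :=
  (Bern.good_node (p := []) 0 8 (by norm_num) (by decide +kernel)
      (Bern.good_node (p := [(0, 8, false)]) 0 8 (by norm_num) (by decide +kernel)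
      (Bern.good_node (p := [(0, 8, false), (0, 8, false)]) 0 8 (by norm_num) (by decide +kernel)
      (Bern.good_leaf (p := [(0, 8, false), (0, 8, false), (0, 8, false)]) (by decide +kernel))
      (Bern.good_node (p := [(0, 8, false), (0, 8, false), (0, 8, true)]) 0 8 (by norm_num) (by decide +kernel)
      (Bern.good_leaf (p := [(0, 8, false), (0, 8, false), (0, 8, true), (0, 8, false)]) (by decide +kernel))
      (Bern.good_leaf (p := [(0, 8, false), (0, 8, false), (0, 8, true), (0, 8, true)]) (by decide +kernel))))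
      (Bern.good_node (p := [(0, 8, false), (0, 8, true)]) 0 8 (by norm_num) (by decide +kernel)
      (Bern.good_leaf (p := [(0, 8, false), (0, 8, true), (0, 8, false)]) (by decide +kernel))
      (Bern.good_leaf (p := [(0, 8, false), (0, 8, true), (0, 8, true)]) (by decide +kernel))))
      (Bern.good_node (p := [(0, 8, true)]) 0 8 (by norm_num) (by decide +kernel)
      (Bern.good_node (p := [(0, 8, true), (0, 8, false)]) 0 8 (by norm_num) (by decide +kernel)
      (Bern.good_leaf (p := [(0, 8, true), (0, 8, false), (0, 8, false)]) (by decide +kernel))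
      (Bern.good_node (p := [(0, 8, true), (0, 8, false), (0, 8, true)]) 0 8 (by norm_num) (by decide +kernel)
      (Bern.good_leaf (p := [(0, 8, true), (0, 8, false), (0, 8, true), (0, 8, false)]) (by decide +kernel))
      (Bern.good_node (p := [(0, 8, true), (0, 8, false), (0, 8, true), (0, 8, true)]) 0 8 (by norm_num) (by decide +kernel)
      (Bern.good_leaf (p := [(0, 8, true), (0, 8, false), (0, 8, true), (0, 8, true), (0, 8, false)]) (by decide +kernel))
      (Bern.good_leaf (p := [(0, 8, true), (0, 8, false), (0, 8, true), (0, 8, true), (0, 8, true)]) (by decide +kernel)))))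
      (Bern.good_leaf (p := [(0, 8, true), (0, 8, true)]) (by decide +kernel))))

theorem Glo_nonneg (u : ℝ) (h0 : (-1:ℝ) ≤ u) (h1 : u ≤ (2:ℝ)) :
    0 ≤ (83:ℝ)/375000 + (310626149:ℝ)/187500000000 * u + (3339962781:ℝ)/125000000000 * u ^ 2 + (99472113:ℝ)/1250000000 * u ^ 3 + (-4038032093:ℝ)/250000000000 * u ^ 4 + (-45410046383:ℝ)/250000000000 * u ^ 5 + (36880149:ℝ)/2500000000 * u ^ 6 + (964139031:ℝ)/12500000000 * u ^ 7 := by
  have e : Bern.ev 1 cGlo (fun _ => ((u - ((-1:ℝ))) / ((3:ℝ)))) = 750000000000 * ((83:ℝ)/375000 + (310626149:ℝ)/187500000000 * u + (3339962781:ℝ)/125000000000 * u ^ 2 + (99472113:ℝ)/1250000000 * u ^ 3 + (-4038032093:ℝ)/250000000000 * u ^ 4 + (-45410046383:ℝ)/250000000000 * u ^ 5 + (36880149:ℝ)/2500000000 * u ^ 6 + (964139031:ℝ)/12500000000 * u ^ 7) := by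
    show List.foldr (fun (c : ℤ) r => (c : ℝ) + ((u - ((-1:ℝ))) / ((3:ℝ))) * r) 0 cGlo = _
    simp only [cGlo, List.foldr_cons, List.foldr_nil]
    norm_num
    ring
  have h := goodGlo (fun _ => ((u - ((-1:ℝ))) / ((3:ℝ)))) fun _ => ⟨div_nonneg (by linarith) (by norm_num), (div_le_one (by norm_num)).2 (by linarith)⟩
  change 0 ≤ Bern.ev 1 cGlo _ at h
  rw [e] at h
  exact nonneg_of_mul_nonneg_right h (by norm_num)

/-- Scaled coefficients on the unit interval. -/
noncomputable def cGhi : List ℤ := [24407750000, -307853384515, 490499420094, 9886562470746, -64243732401342, 163976892294429, -191423260225440, 84343001710860, 0]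

theorem goodGhi : Bern.Good 1 [] cGhi :=
  (Bern.good_node (p := []) 0 8 (by norm_num) (by decide +kernel)
      (Bern.good_node (p := [(0, 8, false)]) 0 8 (by norm_num) (by decide +kernel)
      (Bern.good_node (p := [(0, 8, false), (0, 8, false)]) 0 8 (by norm_num) (by decide +kernel)
      (Bern.good_leaf (p := [(0, 8, false), (0, 8, false), (0, 8, false)]) (by decide +kernel))
      (Bern.good_node (p := [(0, 8, false), (0, 8, false), (0, 8, true)]) 0 8 (by norm_num) (by decide +kernel)
      (Bern.good_leaf (p := [(0, 8, false), (0, 8, false), (0, 8, true), (0, 8, false)]) (by decide +kernel))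
      (Bern.good_leaf (p := [(0, 8, false), (0, 8, false), (0, 8, true), (0, 8, true)]) (by decide +kernel))))
      (Bern.good_node (p := [(0, 8, false), (0, 8, true)]) 0 8 (by norm_num) (by decide +kernel)
      (Bern.good_leaf (p := [(0, 8, false), (0, 8, true), (0, 8, false)]) (by decide +kernel))
      (Bern.good_leaf (p := [(0, 8, false), (0, 8, true), (0, 8, true)]) (by decide +kernel))))
      (Bern.good_node (p := [(0, 8, true)]) 0 8 (by norm_num) (by decide +kernel)
      (Bern.good_node (p := [(0, 8, true), (0, 8, false)]) 0 8 (by norm_num) (by decide +kernel)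
      (Bern.good_leaf (p := [(0, 8, true), (0, 8, false), (0, 8, false)]) (by decide +kernel))
      (Bern.good_node (p := [(0, 8, true), (0, 8, false), (0, 8, true)]) 0 8 (by norm_num) (by decide +kernel)
      (Bern.good_leaf (p := [(0, 8, true), (0, 8, false), (0, 8, true), (0, 8, false)]) (by decide +kernel))
      (Bern.good_node (p := [(0, 8, true), (0, 8, false), (0, 8, true), (0, 8, true)]) 0 8 (by norm_num) (by decide +kernel)
      (Bern.good_leaf (p := [(0, 8, true), (0, 8, false), (0, 8, true), (0, 8, true), (0, 8, false)]) (by decide +kernel))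
      (Bern.good_leaf (p := [(0, 8, true), (0, 8, false), (0, 8, true), (0, 8, true), (0, 8, true)]) (by decide +kernel)))))
      (Bern.good_leaf (p := [(0, 8, true), (0, 8, true)]) (by decide +kernel))))

theorem Ghi_nonneg (u : ℝ) (h0 : (-1:ℝ) ≤ u) (h1 : u ≤ (2:ℝ)) :
    0 ≤ (83:ℝ)/375000 + (621283631:ℝ)/375000000000 * u + (6679932039:ℝ)/250000000000 * u ^ 2 + (198944247:ℝ)/2500000000 * u ^ 3 + (-8076027367:ℝ)/500000000000 * u ^ 4 + (-90820126877:ℝ)/500000000000 * u ^ 5 + (73759631:ℝ)/5000000000 * u ^ 6 + (1928280789:ℝ)/25000000000 * u ^ 7 := by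
  have e : Bern.ev 1 cGhi (fun _ => ((u - ((-1:ℝ))) / ((3:ℝ)))) = 500000000000 * ((83:ℝ)/375000 + (621283631:ℝ)/375000000000 * u + (6679932039:ℝ)/250000000000 * u ^ 2 + (198944247:ℝ)/2500000000 * u ^ 3 + (-8076027367:ℝ)/500000000000 * u ^ 4 + (-90820126877:ℝ)/500000000000 * u ^ 5 + (73759631:ℝ)/5000000000 * u ^ 6 + (1928280789:ℝ)/25000000000 * u ^ 7) := by
    show List.foldr (fun (c : ℤ) r => (c : ℝ) + ((u - ((-1:ℝ))) / ((3:ℝ))) * r) 0 cGhi = _
    simp only [cGhi, List.foldr_cons, List.foldr_nil]
    norm_num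
    ring
  have h := goodGhi (fun _ => ((u - ((-1:ℝ))) / ((3:ℝ)))) fun _ => ⟨div_nonneg (by linarith) (by norm_num), (div_le_one (by norm_num)).2 (by linarith)⟩
  change 0 ≤ Bern.ev 1 cGhi _ at h
  rw [e] at h
  exact nonneg_of_mul_nonneg_right h (by norm_num)

end Vale.Agent.P154.Bin
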