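import Vale.Agent.P154.BinAvg
import Vale.Agent.P154.BinCert
import Vale.Agent.P154.BinOne

/-!
The assembled polynomial inequality at the critical edge parameter of the binary tree.
-/

namespace Vale.Agent.P154.Bin

/-- Lower polynomial for the one-child slack, at deviation `u`. -/
noncomputable def hpoly (l u : ℝ) : ℝ :=
  (l / 2 - 1 / 2) / 18 * u ^ 3 + (3463:ℝ)/500000 * u ^ 4 + (-5451:ℝ)/1000000 * u ^ 5 + (1677:ℝ)/500000 * u ^ 6 + (-4149:ℝ)/1000000 * u ^ 7 + (433:ℝ)/100000 * u ^ 8 + (-303:ℝ)/200000 * u ^ 9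

/-- Its higher part summed over a posterior, in the invariants. -/
noncomputable def slackPoly (S T : ℝ) : ℝ :=
  (5031:ℝ)/125000 * (T^2) + (-909:ℝ)/25000 * (T^3) + (-16353:ℝ)/100000 * (S^1*T^1) + (1299:ℝ)/3125 * (S^1*T^2) + (31167:ℝ)/250000 * (S^2) + (-261387:ℝ)/500000 * (S^2*T^1) + (45279:ℝ)/250000 * (S^3) + (-73629:ℝ)/100000 * (S^3*T^1) + (35073:ℝ)/50000 * (S^4)

theorem sum_hpoly (l a b : ℝ) :
    hpoly l a + hpoly l b + hpoly l (-a - b) = (l / 2 - 1 / 2) / 3 * iT a b + slackPoly (iS a b) (iT a b) := by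
  simp only [hpoly, slackPoly, iS, iT]
  ring

/-- Upper bound for the reciprocal. -/
noncomputable def rec1 (z : ℝ) : ℝ := (1:ℝ) + (-1:ℝ) * z + (1:ℝ) * z ^ 2 + (-1:ℝ) * z ^ 3 + (3:ℝ)/2 * z ^ 4 + (-1:ℝ) * z ^ 5

/-- Upper bound for the reciprocal of the square. -/
noncomputable def rec2 (z : ℝ) : ℝ := (1:ℝ) + (-2:ℝ) * z + (3023:ℝ)/1000 * z ^ 2 + (-4533:ℝ)/1000 * z ^ 3 + (163:ℝ)/20 * z ^ 4 + (-1347:ℝ)/250 * z ^ 5

/-- The averaged upper bound of the joined potential, in the invariants. -/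
noncomputable def upper (S T S2 T2 : ℝ) : ℝ :=
  -(S * S2) + T * T2 / 3 + (17:ℝ)/75 * ((1:ℝ) * iB0 S T S2 T2 + (-1:ℝ) * iB1 S T S2 T2 + (1:ℝ) * iB2 S T S2 T2 + (-1:ℝ) * iB3 S T S2 T2 + (3:ℝ)/2 * iB4 S T S2 T2 + (-1:ℝ) * iB5 S T S2 T2)
    + (1 / 3) * ((1:ℝ) * iQ0 S T S2 T2 + (-2:ℝ) * iQ1 S T S2 T2 + (3023:ℝ)/1000 * iQ2 S T S2 T2 + (-4533:ℝ)/1000 * iQ3 S T S2 T2 + (163:ℝ)/20 * iQ4 S T S2 T2 + (-1347:ℝ)/250 * iQ5 S T S2 T2)

/-- The bound on the average of the joined potential, before averaging. -/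
noncomputable def term (a b u v w : ℝ) : ℝ :=
  (-zf a b u v w - zf a b u v w ^ 2 / 2 + zf a b u v w ^ 3 / 6) + (17:ℝ)/75 * (nS a b u v w * rec1 (zf a b u v w))
    + (1 / 3) * (((1 + zf a b u v w) * nS a b u v w + nT a b u v w) * rec2 (zf a b u v w))

theorem avg_term (a b c d : ℝ) : avg6 (term a b) c d = upper (iS a b) (iT a b) (iS c d) (iT c d) := by
  simp only [upper, ← avg_zlog, ← avg_B0, ← avg_Q0, ← avg_B1, ← avg_Q1, ← avg_B2, ← avg_Q2, ← avg_B3, ← avg_Q3, ← avg_B4, ← avg_Q4, ← avg_B5, ← avg_Q5, avg6, term, rec1, rec2]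
  ring

theorem cert_eq (l S T S2 T2 : ℝ) (hl : l ^ 2 = 1 / 2) :
    (l / 2 - 1 / 2) / 3 * T + slackPoly S T + ((l / 2 - 1 / 2) / 3 * T2 + slackPoly S2 T2)
      + l ^ 2 * (((14:ℝ)/25) * S + T / 3) + l ^ 2 * (((14:ℝ)/25) * S2 + T2 / 3)
      - upper (l ^ 2 * S) (l ^ 3 * T) (l ^ 2 * S2) (l ^ 3 * T2) = cert l S T S2 T2 := by
  simp only [slackPoly, upper, cert, iB0, iQ0, iB1, iQ1, iB2, iQ2, iB3, iQ3, iB4, iQ4, iB5, iQ5]
  ring_nf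
  have h3 : l ^ 3 = (1 / 2) ^ 1 * l := by
    rw [show (3 : ℕ) = 2 * 1 + 1 from rfl, pow_succ, pow_mul, hl]
  have h4 : l ^ 4 = (1 / 2) ^ 2 := by
    rw [show (4 : ℕ) = 2 * 2 from rfl, pow_mul, hl]
  have h5 : l ^ 5 = (1 / 2) ^ 2 * l := by
    rw [show (5 : ℕ) = 2 * 2 + 1 from rfl, pow_succ, pow_mul, hl]
  have h6 : l ^ 6 = (1 / 2) ^ 3 := by
    rw [show (6 : ℕ) = 2 * 3 from rfl, pow_mul, hl]
  have h7 : l ^ 7 = (1 / 2) ^ 3 * l := by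
    rw [show (7 : ℕ) = 2 * 3 + 1 from rfl, pow_succ, pow_mul, hl]
  have h8 : l ^ 8 = (1 / 2) ^ 4 := by
    rw [show (8 : ℕ) = 2 * 4 from rfl, pow_mul, hl]
  have h9 : l ^ 9 = (1 / 2) ^ 4 * l := by
    rw [show (9 : ℕ) = 2 * 4 + 1 from rfl, pow_succ, pow_mul, hl]
  have h10 : l ^ 10 = (1 / 2) ^ 5 := by
    rw [show (10 : ℕ) = 2 * 5 from rfl, pow_mul, hl]
  have h11 : l ^ 11 = (1 / 2) ^ 5 * l := by
    rw [show (11 : ℕ) = 2 * 5 + 1 from rfl, pow_succ, pow_mul, hl]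
  have h12 : l ^ 12 = (1 / 2) ^ 6 := by
    rw [show (12 : ℕ) = 2 * 6 from rfl, pow_mul, hl]
  have h13 : l ^ 13 = (1 / 2) ^ 6 * l := by
    rw [show (13 : ℕ) = 2 * 6 + 1 from rfl, pow_succ, pow_mul, hl]
  have h14 : l ^ 14 = (1 / 2) ^ 7 := by
    rw [show (14 : ℕ) = 2 * 7 from rfl, pow_mul, hl]
  have h15 : l ^ 15 = (1 / 2) ^ 7 * l := by
    rw [show (15 : ℕ) = 2 * 7 + 1 from rfl, pow_succ, pow_mul, hl]
  have h16 : l ^ 16 = (1 / 2) ^ 8 := by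
    rw [show (16 : ℕ) = 2 * 8 from rfl, pow_mul, hl]
  have h17 : l ^ 17 = (1 / 2) ^ 8 * l := by
    rw [show (17 : ℕ) = 2 * 8 + 1 from rfl, pow_succ, pow_mul, hl]
  have h18 : l ^ 18 = (1 / 2) ^ 9 := by
    rw [show (18 : ℕ) = 2 * 9 from rfl, pow_mul, hl]
  have h19 : l ^ 19 = (1 / 2) ^ 9 * l := by
    rw [show (19 : ℕ) = 2 * 9 + 1 from rfl, pow_succ, pow_mul, hl]
  have h20 : l ^ 20 = (1 / 2) ^ 10 := by
    rw [show (20 : ℕ) = 2 * 10 from rfl, pow_mul, hl]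
  have h21 : l ^ 21 = (1 / 2) ^ 10 * l := by
    rw [show (21 : ℕ) = 2 * 10 + 1 from rfl, pow_succ, pow_mul, hl]
  have h22 : l ^ 22 = (1 / 2) ^ 11 := by
    rw [show (22 : ℕ) = 2 * 11 from rfl, pow_mul, hl]
  have h23 : l ^ 23 = (1 / 2) ^ 11 * l := by
    rw [show (23 : ℕ) = 2 * 11 + 1 from rfl, pow_succ, pow_mul, hl]
  have h24 : l ^ 24 = (1 / 2) ^ 12 := by
    rw [show (24 : ℕ) = 2 * 12 from rfl, pow_mul, hl]
  have h25 : l ^ 25 = (1 / 2) ^ 12 * l := by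
    rw [show (25 : ℕ) = 2 * 12 + 1 from rfl, pow_succ, pow_mul, hl]
  have h26 : l ^ 26 = (1 / 2) ^ 13 := by
    rw [show (26 : ℕ) = 2 * 13 from rfl, pow_mul, hl]
  have h27 : l ^ 27 = (1 / 2) ^ 13 * l := by
    rw [show (27 : ℕ) = 2 * 13 + 1 from rfl, pow_succ, pow_mul, hl]
  have h28 : l ^ 28 = (1 / 2) ^ 14 := by
    rw [show (28 : ℕ) = 2 * 14 from rfl, pow_mul, hl]
  have h29 : l ^ 29 = (1 / 2) ^ 14 * l := by
    rw [show (29 : ℕ) = 2 * 14 + 1 from rfl, pow_succ, pow_mul, hl]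
  have h30 : l ^ 30 = (1 / 2) ^ 15 := by
    rw [show (30 : ℕ) = 2 * 15 from rfl, pow_mul, hl]
  have h31 : l ^ 31 = (1 / 2) ^ 15 * l := by
    rw [show (31 : ℕ) = 2 * 15 + 1 from rfl, pow_succ, pow_mul, hl]
  have h32 : l ^ 32 = (1 / 2) ^ 16 := by
    rw [show (32 : ℕ) = 2 * 16 from rfl, pow_mul, hl]
  have h33 : l ^ 33 = (1 / 2) ^ 16 * l := by
    rw [show (33 : ℕ) = 2 * 16 + 1 from rfl, pow_succ, pow_mul, hl]
  have h34 : l ^ 34 = (1 / 2) ^ 17 := by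
    rw [show (34 : ℕ) = 2 * 17 from rfl, pow_mul, hl]
  have h35 : l ^ 35 = (1 / 2) ^ 17 * l := by
    rw [show (35 : ℕ) = 2 * 17 + 1 from rfl, pow_succ, pow_mul, hl]
  have h36 : l ^ 36 = (1 / 2) ^ 18 := by
    rw [show (36 : ℕ) = 2 * 18 from rfl, pow_mul, hl]
  simp only [hl, h3, h4, h5, h6, h7, h8, h9, h10, h11, h12, h13, h14, h15, h16, h17, h18, h19, h20, h21, h22, h23, h24, h25, h26, h27, h28, h29, h30, h31, h32, h33, h34, h35, h36]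
  ring

theorem cert_affine (l l0 S T S2 T2 : ℝ) :
    cert l S T S2 T2 = cert l0 S T S2 T2 + (l - l0) * (cert 1 S T S2 T2 - cert 0 S T S2 T2) := by
  simp only [cert]
  ring

theorem mono_le {S T : ℝ} (hS0 : 0 ≤ S) (hS1 : S ≤ 1) (hT : |T| ≤ S) {i j : ℕ} (h : 1 ≤ i + j) :
    |S ^ i * T ^ j| ≤ S := by
  rw [abs_mul, abs_pow, abs_pow, abs_of_nonneg hS0]
  refine le_trans (mul_le_mul_of_nonneg_left (pow_le_pow_left₀ (abs_nonneg T) hT j) (pow_nonneg hS0 i)) ?_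
  rw [← pow_add]
  exact pow_le_of_le_one hS0 hS1 (by omega)

theorem mono_le2 {S T S2 T2 : ℝ} (h0 : 0 ≤ S) (h1 : S ≤ 1) (hT : |T| ≤ S) (g0 : 0 ≤ S2) (g1 : S2 ≤ 1) (gT : |T2| ≤ S2)
    (i j k m : ℕ) (h : 1 ≤ i + j) (g : 1 ≤ k + m) : |S ^ i * T ^ j * (S2 ^ k * T2 ^ m)| ≤ S * S2 := by
  rw [abs_mul]
  exact mul_le_mul (mono_le h0 h1 hT h) (mono_le g0 g1 gT g) (abs_nonneg _) h0

theorem cert_slope {S T S2 T2 : ℝ} (h0 : 0 ≤ S) (h1 : S ≤ 1) (hT : |T| ≤ S) (g0 : 0 ≤ S2) (g1 : S2 ≤ 1) (gT : |T2| ≤ S2) :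
    -(12 * (S * S2)) ≤ cert 1 S T S2 T2 - cert 0 S T S2 T2 := by
  have m0 := abs_le.1 (mono_le2 h0 h1 hT g0 g1 gT 0 1 0 2 (by norm_num) (by norm_num))
  have m1 := abs_le.1 (mono_le2 h0 h1 hT g0 g1 gT 0 1 1 0 (by norm_num) (by norm_num))
  have m2 := abs_le.1 (mono_le2 h0 h1 hT g0 g1 gT 0 1 2 0 (by norm_num) (by norm_num))
  have m3 := abs_le.1 (mono_le2 h0 h1 hT g0 g1 gT 0 2 0 1 (by norm_num) (by norm_num))
  have m4 := abs_le.1 (mono_le2 h0 h1 hT g0 g1 gT 0 2 1 1 (by norm_num) (by norm_num))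
  have m5 := abs_le.1 (mono_le2 h0 h1 hT g0 g1 gT 0 2 2 1 (by norm_num) (by norm_num))
  have m6 := abs_le.1 (mono_le2 h0 h1 hT g0 g1 gT 1 0 0 1 (by norm_num) (by norm_num))
  have m7 := abs_le.1 (mono_le2 h0 h1 hT g0 g1 gT 1 0 1 1 (by norm_num) (by norm_num))
  have m8 := abs_le.1 (mono_le2 h0 h1 hT g0 g1 gT 1 1 0 2 (by norm_num) (by norm_num))
  have m9 := abs_le.1 (mono_le2 h0 h1 hT g0 g1 gT 1 1 1 0 (by norm_num) (by norm_num))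
  have m10 := abs_le.1 (mono_le2 h0 h1 hT g0 g1 gT 1 1 1 2 (by norm_num) (by norm_num))
  have m11 := abs_le.1 (mono_le2 h0 h1 hT g0 g1 gT 1 1 2 0 (by norm_num) (by norm_num))
  have m12 := abs_le.1 (mono_le2 h0 h1 hT g0 g1 gT 1 1 3 0 (by norm_num) (by norm_num))
  have m13 := abs_le.1 (mono_le2 h0 h1 hT g0 g1 gT 1 2 1 1 (by norm_num) (by norm_num))
  have m14 := abs_le.1 (mono_le2 h0 h1 hT g0 g1 gT 1 2 2 1 (by norm_num) (by norm_num))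
  have m15 := abs_le.1 (mono_le2 h0 h1 hT g0 g1 gT 2 0 0 1 (by norm_num) (by norm_num))
  have m16 := abs_le.1 (mono_le2 h0 h1 hT g0 g1 gT 2 0 1 1 (by norm_num) (by norm_num))
  have m17 := abs_le.1 (mono_le2 h0 h1 hT g0 g1 gT 2 0 2 1 (by norm_num) (by norm_num))
  have m18 := abs_le.1 (mono_le2 h0 h1 hT g0 g1 gT 2 1 0 2 (by norm_num) (by norm_num))
  have m19 := abs_le.1 (mono_le2 h0 h1 hT g0 g1 gT 2 1 1 2 (by norm_num) (by norm_num))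
  have m20 := abs_le.1 (mono_le2 h0 h1 hT g0 g1 gT 2 1 2 0 (by norm_num) (by norm_num))
  have m21 := abs_le.1 (mono_le2 h0 h1 hT g0 g1 gT 2 1 3 0 (by norm_num) (by norm_num))
  have m22 := abs_le.1 (mono_le2 h0 h1 hT g0 g1 gT 2 1 4 0 (by norm_num) (by norm_num))
  have m23 := abs_le.1 (mono_le2 h0 h1 hT g0 g1 gT 3 0 1 1 (by norm_num) (by norm_num))
  have m24 := abs_le.1 (mono_le2 h0 h1 hT g0 g1 gT 3 0 2 1 (by norm_num) (by norm_num))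
  have m25 := abs_le.1 (mono_le2 h0 h1 hT g0 g1 gT 4 0 2 1 (by norm_num) (by norm_num))
  simp only [pow_zero, pow_one, one_mul, mul_one] at m0 m1 m2 m3 m4 m5 m6 m7 m8 m9 m10 m11 m12 m13 m14 m15 m16 m17 m18 m19 m20 m21 m22 m23 m24 m25
  simp only [cert]
  linarith only [m0.1, m1.1, m2.2, m3.1, m4.2, m5.2, m6.1, m7.2, m8.2, m9.2, m10.1, m11.1, m12.2, m13.1, m14.1, m15.2, m16.1, m17.2, m18.2, m19.1, m20.2, m21.1, m22.1, m23.2, m24.1, m25.1, mul_nonneg h0 g0]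

theorem cert_swap (l S T S2 T2 : ℝ) : cert l S T S2 T2 = cert l S2 T2 S T := by
  simp only [cert]
  ring

end Vale.Agent.P154.Bin
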