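import Vale.Agent.P154.BinMain

/-!
The antiferromagnetic side of the binary tree: the squared distance already contracts at
`l = -1/2`, hence for every `l` in `[-1/2, 0]`.
-/

namespace Vale.Agent.P154.Bin

open Filter

lemma inv_bound {z : ℝ} (h : -(1 / 4) ≤ z) : (1 + z)⁻¹ ≤ 1 - z + 4 / 3 * z ^ 2 := by
  rw [inv_le_iff_one_le_mul₀ (by linarith)]
  have : 0 ≤ z ^ 2 * (1 / 3 + 4 / 3 * z) := mul_nonneg (sq_nonneg z) (by linarith)
  nlinarith

/-- One joined term. -/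
lemma sq_term {a b : Spin → ℝ} (ha3 : a 0 + a 1 + a 2 = 3) (hb3 : b 0 + b 1 + b 2 = 3)
    (hz : 3 / 4 ≤ zw a b) :
    zw a b * sq (comb a b) ≤ nS (a 0 - 1) (a 1 - 1) (b 0 - 1) (b 1 - 1) (b 2 - 1) *
      (1 - zf (a 0 - 1) (a 1 - 1) (b 0 - 1) (b 1 - 1) (b 2 - 1) +
        4 / 3 * zf (a 0 - 1) (a 1 - 1) (b 0 - 1) (b 1 - 1) (b 2 - 1) ^ 2) := by
  set Z := zw a b with hZ
  have hZe : Z = (a 0 * b 0 + a 1 * b 1 + a 2 * b 2) / 3 := by
    rw [hZ, zw, Fin.sum_univ_three]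
  have hZ0 : 0 < Z := by linarith
  set z := zf (a 0 - 1) (a 1 - 1) (b 0 - 1) (b 1 - 1) (b 2 - 1) with hzd
  have ea2 : a 2 = 3 - a 0 - a 1 := by linarith
  have eb2 : b 2 = 3 - b 0 - b 1 := by linarith
  have ez : Z = 1 + z := by rw [hZe, hzd, zf, ea2, eb2]; ring
  have hsq : Z * sq (comb a b) = nS (a 0 - 1) (a 1 - 1) (b 0 - 1) (b 1 - 1) (b 2 - 1) / Z := by
    rw [nS]
    simp only [← hzd]
    rw [show z = Z - 1 by linarith]
    simp only [P154.sq, comb, ← hZ]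
    rw [ea2, eb2]
    field_simp
    ring
  rw [hsq, div_eq_mul_inv, ez]
  exact mul_le_mul_of_nonneg_left (inv_bound (by linarith)) (by rw [nS]; positivity)

lemma anti_poly {S T S2 T2 : ℝ} (h0 : 0 ≤ S) (h1 : S ≤ 1 / 4) (hT : |T| ≤ S / 2)
    (g0 : 0 ≤ S2) (g1 : S2 ≤ 1 / 4) (gT : |T2| ≤ S2 / 2) :
    iB0 S T S2 T2 - iB1 S T S2 T2 + 4 / 3 * iB2 S T S2 T2 ≤ 13 / 8 * (S + S2) := by
  obtain ⟨t1, t1'⟩ := abs_le.1 hT
  obtain ⟨t2, t2'⟩ := abs_le.1 gT
  simp only [iB0, iB1, iB2]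
  have hp := mul_nonneg h0 g0
  have a1 := mul_le_mul_of_nonneg_left g1 h0
  have a2 := mul_le_mul_of_nonneg_left h1 g0
  have b1 := mul_le_mul_of_nonneg_left t2 h0
  have b2 := mul_le_mul_of_nonneg_left t1 g0
  have b3 := mul_le_mul_of_nonneg_left t2' (pow_nonneg h0 2)
  have b4 := mul_le_mul_of_nonneg_left t1' (pow_nonneg g0 2)
  have b5 : T * T2 ≤ S / 2 * (S2 / 2) :=
    (le_abs_self _).trans ((abs_mul T T2).trans_le (mul_le_mul hT gT (abs_nonneg _) (by linarith)))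
  have c1 := mul_le_mul_of_nonneg_left h1 hp
  have c2 := mul_le_mul_of_nonneg_left g1 hp
  have c3 := mul_le_mul c1 g1 g0 (by positivity)
  nlinarith

/-- The two-child inequality at `l = -1/2`. -/
theorem anti_step {x y : Spin → ℝ} (hx : InS x) (hy : InS y) :
    (1 / 6 : ℝ) * ∑ σ : Equiv.Perm Spin, zw (img (-1 / 2) x) (fun i => img (-1 / 2) y (σ i)) *
        sq (comb (img (-1 / 2) x) (fun i => img (-1 / 2) y (σ i)))
      ≤ 13 / 8 * sq (img (-1 / 2) x) + (-1 / 2) ^ 2 * (13 / 8 * sq y) - 0 * sq (img (-1 / 2) x) * sq y := by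
  set a := img (-1 / 2) x with ha
  have hfun : ∀ σ : Equiv.Perm Spin, (fun i => img (-1 / 2) y (σ i)) =
      ![img (-1 / 2) y (σ 0), img (-1 / 2) y (σ 1), img (-1 / 2) y (σ 2)] := fun σ => by
    funext i; fin_cases i <;> rfl
  simp only [hfun]
  rw [sum_perm_spin (fun i j k => zw a ![img (-1 / 2) y i, img (-1 / 2) y j, img (-1 / 2) y k] *
    sq (comb a ![img (-1 / 2) y i, img (-1 / 2) y j, img (-1 / 2) y k]))]
  have hs : ∀ {w : Spin → ℝ}, InS w → img (-1 / 2) w 0 + img (-1 / 2) w 1 + img (-1 / 2) w 2 = 3 := by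
    intro w hw; simp only [img]; linear_combination (-1 / 2 : ℝ) * hw.2
  let G : ℝ → ℝ → ℝ → ℝ := fun u v w => nS (a 0 - 1) (a 1 - 1) u v w *
    (1 - zf (a 0 - 1) (a 1 - 1) u v w + 4 / 3 * zf (a 0 - 1) (a 1 - 1) u v w ^ 2)
  have t : ∀ i j k : Spin, y i + y j + y k = 3 →
      zw a ![img (-1 / 2) y i, img (-1 / 2) y j, img (-1 / 2) y k] *
        sq (comb a ![img (-1 / 2) y i, img (-1 / 2) y j, img (-1 / 2) y k])
      ≤ G (img (-1 / 2) y i - 1) (img (-1 / 2) y j - 1) (img (-1 / 2) y k - 1) := by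
    intro i j k h
    have hz : 3 / 4 ≤ zw a ![img (-1 / 2) y i, img (-1 / 2) y j, img (-1 / 2) y k] := by
      simp only [zw, Fin.sum_univ_three, ha, img]
      simp
      nlinarith [mul_nonneg (hx.1 0) (hy.1 i), mul_nonneg (hx.1 1) (hy.1 j),
        mul_nonneg (hx.1 2) (hy.1 k), hx.2, h]
    have := sq_term (b := ![img (-1 / 2) y i, img (-1 / 2) y j, img (-1 / 2) y k]) (hs hx)
      (by simp only [img]; simp; linear_combination (-1 / 2 : ℝ) * h) hz
    simpa [G] using this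
  have hy3 := hy.2
  have s1 := t 0 1 2 (by linarith); have s2 := t 0 2 1 (by linarith)
  have s3 := t 1 0 2 (by linarith); have s4 := t 1 2 0 (by linarith)
  have s5 := t 2 0 1 (by linarith); have s6 := t 2 1 0 (by linarith)
  have e0 := avg_B0 (a 0 - 1) (a 1 - 1) (img (-1 / 2) y 0 - 1) (img (-1 / 2) y 1 - 1)
  have e1 := avg_B1 (a 0 - 1) (a 1 - 1) (img (-1 / 2) y 0 - 1) (img (-1 / 2) y 1 - 1)
  have e2 := avg_B2 (a 0 - 1) (a 1 - 1) (img (-1 / 2) y 0 - 1) (img (-1 / 2) y 1 - 1)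
  simp only [avg6, pow_zero, pow_one, mul_one,
    show -(img (-1 / 2) y 0 - 1) - (img (-1 / 2) y 1 - 1) = img (-1 / 2) y 2 - 1 by
      linarith [hs hy]] at e0 e1 e2
  simp only [G] at s1 s2 s3 s4 s5 s6
  have hi : ∀ {w : Spin → ℝ}, InS w →
      iS (img (-1 / 2) w 0 - 1) (img (-1 / 2) w 1 - 1) = sq (img (-1 / 2) w) ∧
      sq (img (-1 / 2) w) = 1 / 4 * sq w ∧
      iT (img (-1 / 2) w 0 - 1) (img (-1 / 2) w 1 - 1) = -1 / 8 * cub w := by
    intro w hw
    have e : w 2 = 3 - w 0 - w 1 := by linarith [hw.2]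
    refine ⟨?_, ?_, ?_⟩ <;> simp only [P154.sq, cub, iS, iT, img, e] <;> ring
  obtain ⟨x0, x1, -, xT, -⟩ := inS_facts hx
  obtain ⟨y0, y1, -, yT, -⟩ := inS_facts hy
  obtain ⟨p1, p2, p3⟩ := hi hx
  obtain ⟨q1, q2, q3⟩ := hi hy
  rw [← ha] at p1 p2 p3
  rw [p1, p2, p3, q1, q2, q3] at e0 e1 e2
  have key := anti_poly (S := 1 / 4 * sq x) (T := -1 / 8 * cub x) (S2 := 1 / 4 * sq y)
    (T2 := -1 / 8 * cub y) (by linarith) (by linarith)
    (by rw [abs_mul]; norm_num; linarith) (by linarith) (by linarith)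
    (by rw [abs_mul]; norm_num; linarith)
  rw [p2]
  linarith

/-- Two children contract the squared distance. -/
lemma two_kids_le {κ : Type} [Fintype κ] {g : κ → Spin → ℝ} (hg : Fam g) :
    expect sq (kids (-1 / 2) fun _ : Fin 2 => g) ≤ 13 / 16 * expect sq g := by
  have hl : -(1 / 2) ≤ (-1 / 2 : ℝ) := by norm_num
  have hu : (-1 / 2 : ℝ) ≤ 1 := by norm_num
  have hF : Fam (kids (-1 / 2) fun _ : Fin 1 => g) :=
    Fam.kids hl hu (ι := fun _ : Fin 1 => κ) fun _ => hg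
  have hD : ∀ c, wt (kids (-1 / 2) (fun _ : Fin 1 => g) c) ≠ 0 →
      ∃ x, InS x ∧ post (kids (-1 / 2) (fun _ : Fin 1 => g) c) = img (-1 / 2) x := fun c hc =>
    ⟨_, post_inS (hg.nonneg (c 0)), (post_kids_one (l := -1 / 2) hg c).2
      ((post_kids_one (l := -1 / 2) hg c).1 ▸ hc)⟩
  have hj := expect_join_le_on (D := fun a => ∃ x, InS x ∧ a = img (-1 / 2) x)
    (χ := fun a => 13 / 8 * sq a) (ψ := sq) (φ := fun a => 13 / 8 * sq a) (δ := 0) hF hg hD
    (fun a y ⟨x, hx, e⟩ hy => by subst e; exact anti_step hx hy)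
  have hsplit := kids_split (l := (-1 / 2 : ℝ)) (ι := fun _ : Fin 2 => κ) fun _ => g
  rw [← expect_reindex (splitFirst fun _ : Fin 2 => κ), hsplit]
  have e1 := expect_sq_single hl hu (ι := fun _ : Fin 1 => κ) fun _ => hg
  have e3 : ∀ {α : Type} [Fintype α] (f : α → Spin → ℝ),
      expect (fun a => 13 / 8 * sq a) f = 13 / 8 * expect sq f := fun {α} _ f => by
    simp only [expect, Finset.mul_sum]; exact Finset.sum_congr rfl fun _ _ => by ring
  rw [e3, e3, e1] at hj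
  linarith

/-- Nonreconstruction on the binary tree for `-1/2 ≤ l ≤ 0`. -/
theorem tendsto_tv_binary_neg {l : ℝ} (h0 : -(1 / 2) ≤ l) (h : l ≤ 0) :
    Tendsto (fun n => tv l n (regular 2 n)) atTop (nhds 0) := by
  have hl : -(1 / 2) ≤ (-1 / 2 : ℝ) := by norm_num
  have hu : (-1 / 2 : ℝ) ≤ 1 := by norm_num
  set S : ℕ → ℝ := fun n => expect sq (lik (-1 / 2) n (regular 2 n)) with hS
  have hS0 : ∀ n, 0 ≤ S n := fun n => expect_sq_nonneg (fam_lik hl hu n _)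
  have hrec : ∀ n, S (n + 1) ≤ 13 / 16 * S n := fun n =>
    two_kids_le (fam_lik hl hu n (regular 2 n))
  have hgeo : ∀ n, S n ≤ (13 / 16) ^ n * S 0 := fun n => by
    induction n with
    | zero => simp
    | succ n ih => rw [pow_succ]; nlinarith [hrec n]
  have hSlim : Tendsto S atTop (nhds 0) := squeeze_zero hS0 hgeo
    (by simpa using (tendsto_pow_atTop_nhds_zero_of_lt_one (by norm_num : (0 : ℝ) ≤ 13 / 16)
      (by norm_num)).mul_const (S 0))
  rw [Metric.tendsto_atTop] at hSlim ⊢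
  intro ε hε
  obtain ⟨N, hN⟩ := hSlim (ε / 3 * (ε / 3)) (by positivity)
  refine ⟨N, fun n hn => ?_⟩
  have h1 := tv_le hl hu n (regular 2 n) (by positivity : 0 < ε / 3)
  have h2 := hN n hn
  rw [Real.dist_eq, sub_zero, abs_of_nonneg (hS0 n)] at h2
  have h3 : S n / (ε / 3) < ε / 3 := by rw [div_lt_iff₀ (by positivity)]; exact h2
  have hm := tv_mono (l := (-1 / 2 : ℝ)) (m := -2 * l) hl hu (by linarith) (by linarith) n (regular 2 n)
  rw [show (-1 / 2 : ℝ) * (-2 * l) = l by ring] at hm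
  have h4 : 0 ≤ tv l n (regular 2 n) := by
    rw [tv_eq h0 (by linarith)]; exact Finset.sum_nonneg fun c _ => by positivity
  rw [Real.dist_eq, sub_zero, abs_of_nonneg h4]
  have : S n = expect sq (lik (-1 / 2) n (regular 2 n)) := rfl
  rw [← this] at h1
  linarith

/-- Nonreconstruction on the binary tree for every admissible `l` with `2 l² ≤ 1`. -/
theorem tendsto_tv_binary_all {l : ℝ} (h0 : -(1 / 2) ≤ l) (h : 2 * l ^ 2 ≤ 1) :
    Tendsto (fun n => tv l n (regular 2 n)) atTop (nhds 0) := by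
  rcases le_total l 0 with h' | h'
  · exact tendsto_tv_binary_neg h0 h'
  · exact tendsto_tv_binary h' h

end Vale.Agent.P154.Bin
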