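import Vale.Agent.P154.OrbitForm

/-!
The permutation averages of the joining numerators, in the invariants of the two arguments.
-/

namespace Vale.Agent.P154.Bin

/-- The second invariant of `(a, b, -a - b)`. -/
noncomputable def iS (a b : ℝ) : ℝ := (a ^ 2 + b ^ 2 + (-a - b) ^ 2) / 6

/-- The third invariant of `(a, b, -a - b)`. -/
noncomputable def iT (a b : ℝ) : ℝ := a * b * (-a - b) / 2

/-- The excess of the normalising weight. -/
noncomputable def zf (a b c d e : ℝ) : ℝ := (a * c + b * d + (-a - b) * e) / 3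

/-- Numerator of the squared distance of the joined posterior. -/
noncomputable def nS (a b c d e : ℝ) : ℝ :=
  ((a + c + a * c - zf a b c d e) ^ 2 + (b + d + b * d - zf a b c d e) ^ 2
    + (-a - b + e + (-a - b) * e - zf a b c d e) ^ 2) / 6

/-- Numerator of the cubic invariant of the joined posterior. -/
noncomputable def nT (a b c d e : ℝ) : ℝ :=
  (a + c + a * c - zf a b c d e) * (b + d + b * d - zf a b c d e)
    * (-a - b + e + (-a - b) * e - zf a b c d e) / 2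

/-- Average over the six orders of `(c, d, -c - d)`. -/
noncomputable def avg6 (F : ℝ → ℝ → ℝ → ℝ) (c d : ℝ) : ℝ :=
  (F c d (-c - d) + F c (-c - d) d + F d c (-c - d) + F d (-c - d) c + F (-c - d) c d + F (-c - d) d c) / 6

lemma iS_eq (a b : ℝ) : iS a b = sI a b := by simp only [iS, sI]; ring

lemma iT_eq (a b : ℝ) : iT a b = tI a b := by simp only [iT, tI]; ring

lemma zf_eq (a b x y : ℝ) : zf a b x y (-x - y) = wM a b x y := by
  simp only [zf, wM]; ring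

lemma nS_eq (a b x y : ℝ) : nS a b x y (-x - y)
    = (OForm.joinS (sI a b) (tI a b) (sI x y) (tI x y)).val a b x y := by
  simp only [nS, zf, OForm.joinS, OForm.val, sI, wM, pM, rM]; ring

lemma nT_eq (a b x y : ℝ) : nT a b x y (-x - y)
    = (OForm.joinT (sI a b) (tI a b) (sI x y) (tI x y)).val a b x y := by
  simp only [nT, zf, OForm.joinT, OForm.val, sI, tI, wM, pM, rM]; ring

/-- The average of a function that has a normal form at every arrangement. -/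
lemma avg6_form (F : ℝ → ℝ → ℝ → ℝ) (a b c d : ℝ) (N : ℝ → ℝ → ℝ → ℝ → OForm)
    (h : ∀ x y, F x y (-x - y) = (N (sI a b) (tI a b) (sI x y) (tI x y)).val a b x y) :
    avg6 F c d = OForm.avg (iS a b) (iT a b) (iS c d) (iT c d)
      (N (iS a b) (iT a b) (iS c d) (iT c d)) := by
  have e := OForm.orbit_eq (fun x y => F x y (-x - y)) a b c d N h
  have e1 : -c - (-c - d) = d := by ring
  have e2 : -d - (-c - d) = c := by ring
  have e3 : -(-c - d) - c = d := by ring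
  have e4 : -(-c - d) - d = c := by ring
  have e5 : -d - c = -c - d := by ring
  simp only [orbit, e1, e2, e3, e4, e5] at e
  simp only [iS_eq, iT_eq, avg6]
  linarith

lemma avg6_B (a b c d : ℝ) (k : ℕ) : avg6 (fun u v w => nS a b u v w * zf a b u v w ^ k) c d =
    OForm.avg (iS a b) (iT a b) (iS c d) (iT c d)
      (OForm.pw (iS a b) (iT a b) (iS c d) (iT c d) k
        (OForm.joinS (iS a b) (iT a b) (iS c d) (iT c d))) :=
  avg6_form _ a b c d (fun S T P Q => OForm.pw S T P Q k (OForm.joinS S T P Q)) fun x y => by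
    rw [OForm.val_pw, nS_eq, zf_eq, mul_comm]

lemma avg6_Q (a b c d : ℝ) (k : ℕ) :
    avg6 (fun u v w => ((1 + zf a b u v w) * nS a b u v w + nT a b u v w) * zf a b u v w ^ k) c d =
    OForm.avg (iS a b) (iT a b) (iS c d) (iT c d)
      (OForm.pw (iS a b) (iT a b) (iS c d) (iT c d) k
        (OForm.add (OForm.add (OForm.joinS (iS a b) (iT a b) (iS c d) (iT c d))
          (OForm.mulw (iS a b) (iT a b) (iS c d) (iT c d)
            (OForm.joinS (iS a b) (iT a b) (iS c d) (iT c d))))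
          (OForm.joinT (iS a b) (iT a b) (iS c d) (iT c d)))) :=
  avg6_form _ a b c d (fun S T P Q => OForm.pw S T P Q k (OForm.add (OForm.add
    (OForm.joinS S T P Q) (OForm.mulw S T P Q (OForm.joinS S T P Q))) (OForm.joinT S T P Q)))
    fun x y => by
    rw [OForm.val_pw, OForm.val_add, OForm.val_add, OForm.val_mulw, ← nS_eq, ← nT_eq, zf_eq]; ring

lemma avg6_F (a b c d : ℝ) (k : ℕ) :
    avg6 (fun u v w => nS a b u v w ^ 2 * zf a b u v w ^ k) c d =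
    OForm.avg (iS a b) (iT a b) (iS c d) (iT c d)
      (OForm.pw (iS a b) (iT a b) (iS c d) (iT c d) k
        (OForm.mul (iS a b) (iT a b) (iS c d) (iT c d)
          (OForm.joinS (iS a b) (iT a b) (iS c d) (iT c d))
          (OForm.joinS (iS a b) (iT a b) (iS c d) (iT c d)))) :=
  avg6_form _ a b c d (fun S T P Q => OForm.pw S T P Q k
    (OForm.mul S T P Q (OForm.joinS S T P Q) (OForm.joinS S T P Q))) fun x y => by
    rw [OForm.val_pw, OForm.val_mul, ← nS_eq, zf_eq]; ring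

lemma avg6_Z (a b c d : ℝ) (k : ℕ) : avg6 (fun u v w => zf a b u v w ^ k) c d =
    OForm.avg (iS a b) (iT a b) (iS c d) (iT c d)
      (OForm.pw (iS a b) (iT a b) (iS c d) (iT c d) k ⟨1, 0, 0, 0, 0, 0, 0, 0⟩) :=
  avg6_form _ a b c d (fun S T P Q => OForm.pw S T P Q k ⟨1, 0, 0, 0, 0, 0, 0, 0⟩) fun x y => by
    rw [OForm.val_pw, zf_eq]; simp [OForm.val]

/-- Invariant form, index 0. -/
noncomputable def iB0 (S T S2 T2 : ℝ) : ℝ :=
  (1:ℝ) * (S2)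
    + (1:ℝ) * (S)
    + (1:ℝ) * (S * S2)

theorem avg_B0 (a b c d : ℝ) : avg6 (fun u v w => nS a b u v w * zf a b u v w ^ 0) c d =
    iB0 (iS a b) (iT a b) (iS c d) (iT c d) := by
  rw [avg6_B]
  simp only [iB0, OForm.avg, OForm.pw, OForm.mulw, OForm.mulp, OForm.mulR, OForm.mul, OForm.add, OForm.smul, OForm.joinS, OForm.joinT]
  ring

/-- Invariant form, index 1. -/
noncomputable def iB1 (S T S2 T2 : ℝ) : ℝ :=
  (2:ℝ) * (T * S2)
    + (2:ℝ) * (S * T2)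
    + (2:ℝ) * (S * S2)

theorem avg_B1 (a b c d : ℝ) : avg6 (fun u v w => nS a b u v w * zf a b u v w ^ 1) c d =
    iB1 (iS a b) (iT a b) (iS c d) (iT c d) := by
  rw [avg6_B]
  simp only [iB1, OForm.avg, OForm.pw, OForm.mulw, OForm.mulp, OForm.mulR, OForm.mul, OForm.add, OForm.smul, OForm.joinS, OForm.joinT]
  ring

/-- Invariant form, index 2. -/
noncomputable def iB2 (S T S2 T2 : ℝ) : ℝ :=
  (2:ℝ) * (T * T2)
    + (2:ℝ) * (T * S2^2)
    + (2:ℝ) * (S * S2^2)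
    + (2:ℝ) * (S^2 * T2)
    + (2:ℝ) * (S^2 * S2)
    + (2:ℝ) * (S^2 * S2^2)

theorem avg_B2 (a b c d : ℝ) : avg6 (fun u v w => nS a b u v w * zf a b u v w ^ 2) c d =
    iB2 (iS a b) (iT a b) (iS c d) (iT c d) := by
  rw [avg6_B]
  simp only [iB2, OForm.avg, OForm.pw, OForm.mulw, OForm.mulp, OForm.mulR, OForm.mul, OForm.add, OForm.smul, OForm.joinS, OForm.joinT]
  ring

/-- Invariant form, index 3. -/
noncomputable def iB3 (S T S2 T2 : ℝ) : ℝ :=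
  (2:ℝ) * (T * S2 * T2)
    + (2:ℝ) * (S * T * T2)
    + (2:ℝ) * (S * T * S2 * T2)
    + (6:ℝ) * (S * T * S2^2)
    + (6:ℝ) * (S^2 * S2 * T2)
    + (6:ℝ) * (S^2 * S2^2)

theorem avg_B3 (a b c d : ℝ) : avg6 (fun u v w => nS a b u v w * zf a b u v w ^ 3) c d =
    iB3 (iS a b) (iT a b) (iS c d) (iT c d) := by
  rw [avg6_B]
  simp only [iB3, OForm.avg, OForm.pw, OForm.mulw, OForm.mulp, OForm.mulR, OForm.mul, OForm.add, OForm.smul, OForm.joinS, OForm.joinT]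
  ring

/-- Invariant form, index 4. -/
noncomputable def iB4 (S T S2 T2 : ℝ) : ℝ :=
  (4:ℝ) * (T^2 * S2 * T2)
    + (4:ℝ) * (S * T * T2^2)
    + (10:ℝ) * (S * T * S2 * T2)
    + (6:ℝ) * (S * T * S2^3)
    + (6:ℝ) * (S^2 * S2^3)
    + (6:ℝ) * (S^3 * S2 * T2)
    + (6:ℝ) * (S^3 * S2^2)
    + (6:ℝ) * (S^3 * S2^3)

theorem avg_B4 (a b c d : ℝ) : avg6 (fun u v w => nS a b u v w * zf a b u v w ^ 4) c d =
    iB4 (iS a b) (iT a b) (iS c d) (iT c d) := by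
  rw [avg6_B]
  simp only [iB4, OForm.avg, OForm.pw, OForm.mulw, OForm.mulp, OForm.mulR, OForm.mul, OForm.add, OForm.smul, OForm.joinS, OForm.joinT]
  ring

/-- Invariant form, index 5. -/
noncomputable def iB5 (S T S2 T2 : ℝ) : ℝ :=
  (8:ℝ) * (T^2 * T2^2)
    + (4:ℝ) * (T^2 * S2^2 * T2)
    + (-4:ℝ) * (T^2 * S2^3)
    + (10:ℝ) * (S * T * S2^2 * T2)
    + (4:ℝ) * (S^2 * T * T2^2)
    + (10:ℝ) * (S^2 * T * S2 * T2)
    + (10:ℝ) * (S^2 * T * S2^2 * T2)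
    + (18:ℝ) * (S^2 * T * S2^3)
    + (-4:ℝ) * (S^3 * T2^2)
    + (18:ℝ) * (S^3 * S2^2 * T2)
    + (22:ℝ) * (S^3 * S2^3)

theorem avg_B5 (a b c d : ℝ) : avg6 (fun u v w => nS a b u v w * zf a b u v w ^ 5) c d =
    iB5 (iS a b) (iT a b) (iS c d) (iT c d) := by
  rw [avg6_B]
  simp only [iB5, OForm.avg, OForm.pw, OForm.mulw, OForm.mulp, OForm.mulR, OForm.mul, OForm.add, OForm.smul, OForm.joinS, OForm.joinT]
  ring

/-- Invariant form, index 0. -/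
noncomputable def iQ0 (S T S2 T2 : ℝ) : ℝ :=
  (1:ℝ) * (T2)
    + (1:ℝ) * (S2)
    + (1:ℝ) * (T)
    + (1:ℝ) * (T * T2)
    + (2:ℝ) * (T * S2)
    + (1:ℝ) * (S)
    + (2:ℝ) * (S * T2)
    + (9:ℝ) * (S * S2)

theorem avg_Q0 (a b c d : ℝ) : avg6 (fun u v w => ((1 + zf a b u v w) * nS a b u v w + nT a b u v w) * zf a b u v w ^ 0) c d =
    iQ0 (iS a b) (iT a b) (iS c d) (iT c d) := by
  rw [avg6_Q]
  simp only [iQ0, OForm.avg, OForm.pw, OForm.mulw, OForm.mulp, OForm.mulR, OForm.mul, OForm.add, OForm.smul, OForm.joinS, OForm.joinT]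
  ring

/-- Invariant form, index 1. -/
noncomputable def iQ1 (S T S2 T2 : ℝ) : ℝ :=
  (2:ℝ) * (T * T2)
    + (5:ℝ) * (T * S2)
    + (5:ℝ) * (T * S2^2)
    + (5:ℝ) * (S * T2)
    + (2:ℝ) * (S * S2)
    + (5:ℝ) * (S * S2^2)
    + (5:ℝ) * (S^2 * T2)
    + (5:ℝ) * (S^2 * S2)
    + (2:ℝ) * (S^2 * S2^2)

theorem avg_Q1 (a b c d : ℝ) : avg6 (fun u v w => ((1 + zf a b u v w) * nS a b u v w + nT a b u v w) * zf a b u v w ^ 1) c d =
    iQ1 (iS a b) (iT a b) (iS c d) (iT c d) := by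
  rw [avg6_Q]
  simp only [iQ1, OForm.avg, OForm.pw, OForm.mulw, OForm.mulp, OForm.mulR, OForm.mul, OForm.add, OForm.smul, OForm.joinS, OForm.joinT]
  ring

/-- Invariant form, index 2. -/
noncomputable def iQ2 (S T S2 T2 : ℝ) : ℝ :=
  (2:ℝ) * (T * T2)
    + (5:ℝ) * (T * S2 * T2)
    + (5:ℝ) * (T * S2^2)
    + (2:ℝ) * (S * S2 * T2)
    + (2:ℝ) * (S * S2^2)
    + (5:ℝ) * (S * T * T2)
    + (2:ℝ) * (S * T * S2)
    + (4:ℝ) * (S * T * S2 * T2)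
    + (9:ℝ) * (S * T * S2^2)
    + (5:ℝ) * (S^2 * T2)
    + (2:ℝ) * (S^2 * S2)
    + (9:ℝ) * (S^2 * S2 * T2)
    + (20:ℝ) * (S^2 * S2^2)

theorem avg_Q2 (a b c d : ℝ) : avg6 (fun u v w => ((1 + zf a b u v w) * nS a b u v w + nT a b u v w) * zf a b u v w ^ 2) c d =
    iQ2 (iS a b) (iT a b) (iS c d) (iT c d) := by
  rw [avg6_Q]
  simp only [iQ2, OForm.avg, OForm.pw, OForm.mulw, OForm.mulp, OForm.mulR, OForm.mul, OForm.add, OForm.smul, OForm.joinS, OForm.joinT]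
  ring

/-- Invariant form, index 3. -/
noncomputable def iQ3 (S T S2 T2 : ℝ) : ℝ :=
  (2:ℝ) * (T * T2^2)
    + (2:ℝ) * (T * S2 * T2)
    + (2:ℝ) * (T^2 * T2)
    + (4:ℝ) * (T^2 * S2 * T2)
    + (2:ℝ) * (T^2 * S2^3)
    + (2:ℝ) * (S * T * T2)
    + (4:ℝ) * (S * T * T2^2)
    + (24:ℝ) * (S * T * S2 * T2)
    + (15:ℝ) * (S * T * S2^2)
    + (15:ℝ) * (S * T * S2^3)
    + (15:ℝ) * (S^2 * S2 * T2)
    + (6:ℝ) * (S^2 * S2^2)
    + (15:ℝ) * (S^2 * S2^3)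
    + (2:ℝ) * (S^3 * T2^2)
    + (15:ℝ) * (S^3 * S2 * T2)
    + (15:ℝ) * (S^3 * S2^2)
    + (4:ℝ) * (S^3 * S2^3)

theorem avg_Q3 (a b c d : ℝ) : avg6 (fun u v w => ((1 + zf a b u v w) * nS a b u v w + nT a b u v w) * zf a b u v w ^ 3) c d =
    iQ3 (iS a b) (iT a b) (iS c d) (iT c d) := by
  rw [avg6_Q]
  simp only [iQ3, OForm.avg, OForm.pw, OForm.mulw, OForm.mulp, OForm.mulR, OForm.mul, OForm.add, OForm.smul, OForm.joinS, OForm.joinT]
  ring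

/-- Invariant form, index 4. -/
noncomputable def iQ4 (S T S2 T2 : ℝ) : ℝ :=
  (8:ℝ) * (T^2 * T2^2)
    + (10:ℝ) * (T^2 * S2 * T2)
    + (10:ℝ) * (T^2 * S2^2 * T2)
    + (-4:ℝ) * (T^2 * S2^3)
    + (10:ℝ) * (S * T * T2^2)
    + (10:ℝ) * (S * T * S2 * T2)
    + (25:ℝ) * (S * T * S2^2 * T2)
    + (15:ℝ) * (S * T * S2^3)
    + (6:ℝ) * (S^2 * S2^2 * T2)
    + (6:ℝ) * (S^2 * S2^3)
    + (10:ℝ) * (S^2 * T * T2^2)
    + (25:ℝ) * (S^2 * T * S2 * T2)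
    + (6:ℝ) * (S^2 * T * S2^2)
    + (16:ℝ) * (S^2 * T * S2^2 * T2)
    + (27:ℝ) * (S^2 * T * S2^3)
    + (-4:ℝ) * (S^3 * T2^2)
    + (15:ℝ) * (S^3 * S2 * T2)
    + (6:ℝ) * (S^3 * S2^2)
    + (27:ℝ) * (S^3 * S2^2 * T2)
    + (64:ℝ) * (S^3 * S2^3)

theorem avg_Q4 (a b c d : ℝ) : avg6 (fun u v w => ((1 + zf a b u v w) * nS a b u v w + nT a b u v w) * zf a b u v w ^ 4) c d =
    iQ4 (iS a b) (iT a b) (iS c d) (iT c d) := by
  rw [avg6_Q]
  simp only [iQ4, OForm.avg, OForm.pw, OForm.mulw, OForm.mulp, OForm.mulR, OForm.mul, OForm.add, OForm.smul, OForm.joinS, OForm.joinT]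
  ring

/-- Invariant form, index 5. -/
noncomputable def iQ5 (S T S2 T2 : ℝ) : ℝ :=
  (8:ℝ) * (T^2 * T2^2)
    + (20:ℝ) * (T^2 * S2 * T2^2)
    + (10:ℝ) * (T^2 * S2^2 * T2)
    + (-4:ℝ) * (T^2 * S2^3)
    + (-10:ℝ) * (T^2 * S2^4)
    + (10:ℝ) * (S * T * S2 * T2^2)
    + (10:ℝ) * (S * T * S2^2 * T2)
    + (20:ℝ) * (S * T^2 * T2^2)
    + (10:ℝ) * (S * T^2 * S2 * T2)
    + (8:ℝ) * (S * T^2 * S2 * T2^2)
    + (30:ℝ) * (S * T^2 * S2^2 * T2)
    + (-10:ℝ) * (S * T^2 * S2^3)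
    + (6:ℝ) * (S * T^2 * S2^4)
    + (10:ℝ) * (S^2 * T * T2^2)
    + (10:ℝ) * (S^2 * T * S2 * T2)
    + (30:ℝ) * (S^2 * T * S2 * T2^2)
    + (112:ℝ) * (S^2 * T * S2^2 * T2)
    + (45:ℝ) * (S^2 * T * S2^3)
    + (45:ℝ) * (S^2 * T * S2^4)
    + (-4:ℝ) * (S^3 * T2^2)
    + (-10:ℝ) * (S^3 * S2 * T2^2)
    + (45:ℝ) * (S^3 * S2^2 * T2)
    + (22:ℝ) * (S^3 * S2^3)
    + (55:ℝ) * (S^3 * S2^4)
    + (-10:ℝ) * (S^4 * T2^2)
    + (6:ℝ) * (S^4 * S2 * T2^2)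
    + (45:ℝ) * (S^4 * S2^2 * T2)
    + (55:ℝ) * (S^4 * S2^3)
    + (12:ℝ) * (S^4 * S2^4)

theorem avg_Q5 (a b c d : ℝ) : avg6 (fun u v w => ((1 + zf a b u v w) * nS a b u v w + nT a b u v w) * zf a b u v w ^ 5) c d =
    iQ5 (iS a b) (iT a b) (iS c d) (iT c d) := by
  rw [avg6_Q]
  simp only [iQ5, OForm.avg, OForm.pw, OForm.mulw, OForm.mulp, OForm.mulR, OForm.mul, OForm.add, OForm.smul, OForm.joinS, OForm.joinT]
  ring

theorem avg_zlog (a b c d : ℝ) : avg6 (fun u v w => -zf a b u v w - zf a b u v w ^ 2 / 2 + zf a b u v w ^ 3 / 6) c d =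
    -(iS a b * iS c d) + iT a b * iT c d / 3 := by
  rw [avg6_form _ a b c d (fun _ _ _ _ => ⟨0, -1, -(1 / 2), 1 / 6, 0, 0, 0, 0⟩)
    (fun x y => by rw [zf_eq]; simp only [OForm.val]; ring)]
  simp only [OForm.avg]
  ring

end Vale.Agent.P154.Bin
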