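import Mathlib

/-!
A verified Bernstein-subdivision check of nonnegativity of an integer polynomial on the unit cube.
Polynomials in `n` variables are nested coefficient lists, the outermost list in the variable `0`.
-/

namespace Vale.Agent.P154.Bern

/-- Polynomials in `n` variables. -/
def MP : ℕ → Type
  | 0 => ℤ
  | n + 1 => List (MP n)

/-- Coefficientwise sum of two lists, the longer one padded. -/
def zipPad {α : Type} (f : α → α → α) : List α → List α → List α
  | [], b => b
  | a, [] => a
  | x :: a, y :: b => f x y :: zipPad f a b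

/-- The sum. -/
def add : (n : ℕ) → MP n → MP n → MP n
  | 0, a, b => (Int.add a b : ℤ)
  | n + 1, a, b => zipPad (add n) a b

/-- Multiplication by an integer. -/
def smul : (n : ℕ) → ℤ → MP n → MP n
  | 0, k, a => (Int.mul k a : ℤ)
  | n + 1, k, a => List.map (smul n k) a

/-- The zero polynomial. -/
def zero : (n : ℕ) → MP n
  | 0 => (0 : ℤ)
  | _ + 1 => []

/-- The value at a point. -/
noncomputable def ev : (n : ℕ) → MP n → (ℕ → ℝ) → ℝ
  | 0, a, _ => ((show ℤ from a) : ℝ)
  | n + 1, a, x => List.foldr (fun c r => ev n c (fun i => x (i + 1)) + x 0 * r) 0 a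

lemma ev_succ_nil (n : ℕ) (x : ℕ → ℝ) : ev (n + 1) [] x = 0 := rfl

lemma ev_succ_cons (n : ℕ) (c : MP n) (a : List (MP n)) (x : ℕ → ℝ) :
    ev (n + 1) (c :: a) x = ev n c (fun i => x (i + 1)) + x 0 * ev (n + 1) a x := rfl

lemma ev_zero : ∀ (n : ℕ) (x : ℕ → ℝ), ev n (zero n) x = 0
  | 0, x => by simp [ev, zero]
  | _ + 1, _ => rfl

lemma ev_add : ∀ (n : ℕ) (a b : MP n) (x : ℕ → ℝ), ev n (add n a b) x = ev n a x + ev n b x
  | 0, a, b, x => by
    show (((Int.add a b : ℤ)) : ℝ) = _
    exact Int.cast_add a b
  | n + 1, a, b, x => by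
    show ev (n + 1) (zipPad (add n) a b) x = _
    induction a generalizing b with
    | nil => cases b <;> simp [zipPad, ev_succ_nil]
    | cons c a ih =>
      cases b with
      | nil => simp [zipPad, ev_succ_nil]
      | cons e b =>
        simp only [zipPad, ev_succ_cons, ev_add n, ih b]
        ring

lemma ev_smul : ∀ (n : ℕ) (k : ℤ) (a : MP n) (x : ℕ → ℝ), ev n (smul n k a) x = k * ev n a x
  | 0, k, a, x => by
    show (((Int.mul k a : ℤ)) : ℝ) = _
    exact Int.cast_mul k a
  | n + 1, k, a, x => by
    show ev (n + 1) (List.map (smul n k) a) x = _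
    induction a with
    | nil => simp [ev_succ_nil]
    | cons c a ih =>
      simp only [List.map_cons, ev_succ_cons, ev_smul n, ih]
      ring

/-- The homogenised value of a list of numbers. -/
def hom (t u : ℝ) : List ℝ → ℝ
  | [] => 0
  | a :: r => a * u ^ r.length + t * hom t u r

lemma hom_zipPad (t u : ℝ) : ∀ a b : List ℝ, a.length = b.length →
    hom t u (zipPad (· + ·) a b) = hom t u a + hom t u b ∧
      (zipPad (· + ·) a b).length = a.length
  | [], [], _ => by simp [zipPad, hom]
  | [], _ :: _, h => by simp at h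
  | _ :: _, [], h => by simp at h
  | x :: a, y :: b, h => by
    simp only [List.length_cons, Nat.add_right_cancel_iff] at h
    obtain ⟨h1, h2⟩ := hom_zipPad t u a b h
    refine ⟨?_, by simp [zipPad, h2]⟩
    simp only [zipPad, hom, h1, h2, h]
    ring

lemma hom_snoc (t u c : ℝ) : ∀ a : List ℝ, hom t u (a ++ [c]) = u * hom t u a + c * t ^ a.length
  | [] => by simp [hom]
  | x :: a => by
    simp only [List.cons_append, hom, hom_snoc t u c a, List.length_append, List.length_cons,
      List.length_nil, Nat.zero_add, pow_succ]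
    ring

lemma map_zipPad (n : ℕ) (x : ℕ → ℝ) : ∀ a b : List (MP n),
    (zipPad (add n) a b).map (fun c => ev n c x) =
      zipPad (· + ·) (a.map fun c => ev n c x) (b.map fun c => ev n c x)
  | [], b => by cases b <;> simp [zipPad]
  | _ :: _, [] => by simp [zipPad]
  | c :: a, e :: b => by simp [zipPad, ev_add, map_zipPad n x a b]

/-- The Bernstein coefficients (scaled by binomial coefficients) in the first variable, for the
reversed coefficient list. -/
def bern (n : ℕ) : List (MP n) → List (MP n)
  | [] => []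
  | a :: r => zipPad (add n) (bern n r ++ [zero n]) (a :: bern n r)

lemma hom_bern (n : ℕ) (x : ℕ → ℝ) (t u : ℝ) (h : t + u = 1) : ∀ L : List (MP n),
    ((bern n L).map fun c => ev n c x).length = L.length ∧
    hom u t ((bern n L).map fun c => ev n c x) = hom 1 t (L.map fun c => ev n c x)
  | [] => by simp [bern, hom]
  | a :: r => by
    obtain ⟨hl, hr⟩ := hom_bern n x t u h r
    simp only [bern, map_zipPad, List.map_append, List.map_cons, List.map_nil, ev_zero]
    obtain ⟨h1, h2⟩ := hom_zipPad u t (((bern n r).map fun c => ev n c x) ++ [0])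
      (ev n a x :: (bern n r).map fun c => ev n c x) (by simp)
    refine ⟨by rw [h2]; simpa using hl, ?_⟩
    rw [h1, hom_snoc]
    simp only [hom, hl, hr, zero_mul, add_zero, List.length_map, one_mul]
    linear_combination hom 1 t (r.map fun c => ev n c x) * h

lemma hom_one_reverse (n : ℕ) (x : ℕ → ℝ) (t : ℝ) : ∀ a : List (MP n),
    hom 1 t (a.reverse.map fun c => ev n c x) = List.foldr (fun c r => ev n c x + t * r) 0 a
  | [] => rfl
  | c :: a => by
    rw [List.reverse_cons, List.map_append, List.map_cons, List.map_nil, hom_snoc,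
      hom_one_reverse n x t a, List.foldr_cons, one_pow]
    ring

lemma hom_nonneg {t u : ℝ} (ht : 0 ≤ t) (hu : 0 ≤ u) : ∀ {a : List ℝ}, (∀ v ∈ a, 0 ≤ v) →
    0 ≤ hom t u a
  | [], _ => le_refl _
  | v :: a, h => add_nonneg (mul_nonneg (h v (List.mem_cons_self ..)) (pow_nonneg hu _))
      (mul_nonneg ht (hom_nonneg ht hu fun w hw => h w (List.mem_cons_of_mem _ hw)))

/-- Evaluates a natural number before passing it on. -/
def forceN (m : ℕ) (k : ℕ → Bool) : Bool :=
  match m with
  | 0 => k 0
  | m + 1 => k (m + 1)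

lemma forceN_eq : ∀ (m : ℕ) (k : ℕ → Bool), forceN m k = k m
  | 0, _ => rfl
  | _ + 1, _ => rfl

/-- Evaluates an integer before passing it on. -/
def forceZ (a : ℤ) (k : ℤ → Bool) : Bool :=
  match a with
  | .ofNat m => forceN m fun m' => k (.ofNat m')
  | .negSucc m => forceN m fun m' => k (.negSucc m')

lemma forceZ_eq : ∀ (a : ℤ) (k : ℤ → Bool), forceZ a k = k a
  | .ofNat m, k => forceN_eq m fun m' => k (.ofNat m')
  | .negSucc m, k => forceN_eq m fun m' => k (.negSucc m')

/-- Evaluates a list before passing it on. -/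
def forceL {α : Type} (f : α → (α → Bool) → Bool) : List α → (List α → Bool) → Bool
  | [], k => k []
  | a :: r, k => f a fun a' => forceL f r fun r' => k (a' :: r')

lemma forceL_eq {α : Type} (f : α → (α → Bool) → Bool) (hf : ∀ a k, f a k = k a) :
    ∀ (a : List α) (k : List α → Bool), forceL f a k = k a
  | [], _ => rfl
  | _ :: r, k => by simp only [forceL, hf, forceL_eq f hf r]

/-- Evaluates a polynomial before passing it on. -/
def force : (n : ℕ) → MP n → (MP n → Bool) → Bool
  | 0, a, k => forceZ a k
  | n + 1, a, k => forceL (force n) a k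

lemma force_eq : ∀ (n : ℕ) (a : MP n) (k : MP n → Bool), force n a k = k a
  | 0, a, k => forceZ_eq a k
  | n + 1, a, k => forceL_eq (force n) (force_eq n) a k

/-- All Bernstein coefficients are nonnegative. -/
def nn : (n : ℕ) → MP n → Bool
  | 0, a => decide ((0 : ℤ) ≤ (show ℤ from a))
  | n + 1, a => force (n + 1) (bern n (List.reverse a)) fun b => List.all b (nn n)

lemma ev_nonneg_of_nn : ∀ (n : ℕ) (a : MP n), nn n a = true → ∀ x : ℕ → ℝ,
    (∀ i, 0 ≤ x i ∧ x i ≤ 1) → 0 ≤ ev n a x
  | 0, a, h, x, _ => by
    simp only [nn, decide_eq_true_eq] at h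
    show (0 : ℝ) ≤ ((show ℤ from a) : ℝ)
    exact Int.cast_nonneg h
  | n + 1, a, h, x, hx => by
    have e := ((hom_bern n (fun i => x (i + 1)) (x 0) (1 - x 0) (by ring) (List.reverse a)).2).trans
      (hom_one_reverse n (fun i => x (i + 1)) (x 0) a)
    show 0 ≤ List.foldr (fun c r => ev n c (fun i => x (i + 1)) + x 0 * r) 0 a
    rw [← e]
    refine hom_nonneg (by linarith [(hx 0).2]) (hx 0).1 fun v hv => ?_
    rw [List.mem_map] at hv
    obtain ⟨c, hc, rfl⟩ := hv
    have h : List.all (bern n (List.reverse (show List (MP n) from a))) (nn n) = true :=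
      (force_eq (n + 1) _ (fun b => List.all b (nn n))).symm.trans h
    exact ev_nonneg_of_nn n c (List.all_eq_true.mp h c hc) _ fun i => hx (i + 1)

/-- Substitution `t ↦ t / 2` in the first variable, scaled by `2 ^ k`. -/
def halve (n : ℕ) : ℕ → List (MP n) → List (MP n)
  | _, [] => []
  | k, a :: r => smul n (2 ^ k) a :: halve n (k - 1) r

/-- Substitution `t ↦ 1 + t` in the first variable. -/
def shift (n : ℕ) : List (MP n) → List (MP n)
  | [] => []
  | a :: r => zipPad (add n) (zipPad (add n) [a] (shift n r)) (zero n :: shift n r)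

lemma ev_shift (n : ℕ) : ∀ (a : List (MP n)) (x y : ℕ → ℝ), y 0 = 1 + x 0 →
    (∀ i, y (i + 1) = x (i + 1)) → ev (n + 1) (shift n a) x = ev (n + 1) a y
  | [], _, _, _, _ => rfl
  | a :: r, x, y, h0, h => by
    have hy : (fun i => y (i + 1)) = fun i => x (i + 1) := funext h
    have e1 := ev_add (n + 1) (zipPad (add n) [a] (shift n r)) (zero n :: shift n r) x
    have e2 := ev_add (n + 1) [a] (shift n r) x
    simp only [add] at e1 e2
    simp only [shift, e1, e2, ev_succ_cons, ev_succ_nil, ev_zero, ev_shift n r x y h0 h, hy, h0]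
    ring

lemma ev_halve (n : ℕ) : ∀ (k : ℕ) (a : List (MP n)) (x y : ℕ → ℝ), a.length ≤ k + 1 →
    y 0 = x 0 / 2 → (∀ i, y (i + 1) = x (i + 1)) →
    ev (n + 1) (halve n k a) x = 2 ^ k * ev (n + 1) a y
  | _, [], _, _, _, _, _ => by simp [halve, ev_succ_nil]
  | k, a :: r, x, y, hl, h0, h => by
    rw [List.length_cons] at hl
    have hy : (fun i => y (i + 1)) = fun i => x (i + 1) := funext h
    simp only [halve, ev_succ_cons, ev_smul, hy, Int.cast_pow, Int.cast_ofNat, h0]
    cases k with
    | zero =>
      have : r = [] := List.length_eq_zero_iff.mp (by omega)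
      subst this
      simp [halve, ev_succ_nil]
    | succ k =>
      rw [Nat.add_sub_cancel, ev_halve n k r x y (by omega) h0 h, pow_succ]
      ring

/-- The lists in variable `i` are short enough for the degree `k`. -/
def fits : (n : ℕ) → ℕ → ℕ → MP n → Bool
  | 0, _, _, _ => true
  | _ + 1, 0, k, a => decide (List.length a ≤ k + 1)
  | n + 1, i + 1, k, a => List.all a (fits n i k)

/-- The restriction to the lower (`b = false`) or upper (`b = true`) half in the variable `i`. -/
def half : (n : ℕ) → ℕ → ℕ → Bool → MP n → MP n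
  | 0, _, _, _, a => a
  | n + 1, 0, k, b, a => if b then shift n (halve n k a) else halve n k a
  | n + 1, i + 1, k, b, a => List.map (half n i k b) a

lemma ev_half : ∀ (n i k : ℕ) (b : Bool) (a : MP n), fits n i k a = true → i < n →
    ∀ x y : ℕ → ℝ, (∀ j, j ≠ i → y j = x j) →
      y i = (if b then (1 + x i) / 2 else x i / 2) →
      ev n (half n i k b a) x = 2 ^ k * ev n a y
  | 0, i, _, _, _, _, hi, _, _, _, _ => absurd hi (Nat.not_lt_zero i)
  | n + 1, 0, k, b, a, hf, _, x, y, hy, h0 => by
    simp only [fits, decide_eq_true_eq] at hf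
    cases b with
    | false =>
      exact ev_halve n k a x y hf (by simpa using h0) fun i => hy (i + 1) (by omega)
    | true =>
      show ev (n + 1) (shift n (halve n k a)) x = _
      rw [ev_shift n _ x (fun j => if j = 0 then 1 + x 0 else x j) rfl fun i => by simp]
      exact ev_halve n k a _ y hf (by simpa using h0) fun i => by simpa using hy (i + 1) (by omega)
  | n + 1, i + 1, k, b, a, hf, hi, x, y, hy, h0 => by
    have hf' : ∀ c ∈ (show List (MP n) from a), fits n i k c = true := List.all_eq_true.mp hf
    clear hf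
    show ev (n + 1) (List.map (half n i k b) a) x = _
    induction a with
    | nil => simp [ev_succ_nil]
    | cons c r ih =>
      simp only [List.map_cons, ev_succ_cons, ih fun c hc => hf' c (List.mem_cons_of_mem _ hc)]
      rw [ev_half n i k b c (hf' c (List.mem_cons_self ..)) (by omega) (fun j => x (j + 1))
        (fun j => y (j + 1)) (fun j hj => hy (j + 1) (by omega)) h0, hy 0 (by omega)]
      ring

/-- A polynomial restricted successively to halves. -/
def cut (n : ℕ) : List (ℕ × ℕ × Bool) → MP n → MP n
  | [], a => a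
  | (i, k, b) :: p, a => cut n p (half n i k b a)

/-- The continuation applied to the restricted polynomial, evaluated step by step. -/
def cutK (n : ℕ) : List (ℕ × ℕ × Bool) → MP n → (MP n → Bool) → Bool
  | [], a, c => c a
  | (i, k, b) :: p, a, c => force n (half n i k b a) fun a' => cutK n p a' c

lemma cutK_eq (n : ℕ) : ∀ (p : List (ℕ × ℕ × Bool)) (a : MP n) (c : MP n → Bool),
    cutK n p a c = c (cut n p a)
  | [], _, _ => rfl
  | (i, k, b) :: p, a, c => by rw [cutK, force_eq, cutK_eq n p, cut]

lemma cut_snoc (n i k : ℕ) (b : Bool) : ∀ (p : List (ℕ × ℕ × Bool)) (a : MP n),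
    cut n (p ++ [(i, k, b)]) a = half n i k b (cut n p a)
  | [], _ => rfl
  | _ :: p, a => cut_snoc n i k b p _

/-- The restricted polynomial is nonnegative on the unit cube. -/
def Good (n : ℕ) (p : List (ℕ × ℕ × Bool)) (a : MP n) : Prop :=
  ∀ x : ℕ → ℝ, (∀ i, 0 ≤ x i ∧ x i ≤ 1) → 0 ≤ ev n (cut n p a) x

theorem good_leaf {n : ℕ} {p : List (ℕ × ℕ × Bool)} {a : MP n}
    (h : cutK n p a (nn n) = true) : Good n p a :=
  ev_nonneg_of_nn n _ ((cutK_eq n p a _).symm.trans h)

theorem good_node {n : ℕ} {p : List (ℕ × ℕ × Bool)} {a : MP n} (i k : ℕ) (hi : i < n)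
    (h : cutK n p a (fits n i k) = true) (hl : Good n (p ++ [(i, k, false)]) a)
    (hr : Good n (p ++ [(i, k, true)]) a) : Good n p a := by
  intro x hx
  have hf := (cutK_eq n p a _).symm.trans h
  simp only [Good, cut_snoc] at hl hr
  by_cases hm : x i ≤ 1 / 2
  · have h1 := hl (fun j => if j = i then 2 * x i else x j) fun j => by
      by_cases hj : j = i
      · simp only [hj, if_true]; constructor <;> linarith [(hx i).1]
      · simp only [hj, if_false]; exact hx j
    rw [ev_half n i k false _ hf hi _ x (fun j hj => by simp [hj]) (by simp)] at h1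
    exact nonneg_of_mul_nonneg_right h1 (by positivity)
  · have h1 := hr (fun j => if j = i then 2 * x i - 1 else x j) fun j => by
      by_cases hj : j = i
      · simp only [hj, if_true]; constructor <;> linarith [(hx i).2, not_le.mp hm]
      · simp only [hj, if_false]; exact hx j
    rw [ev_half n i k true _ hf hi _ x (fun j hj => by simp [hj]) (by simp)] at h1
    exact nonneg_of_mul_nonneg_right h1 (by positivity)

end Vale.Agent.P154.Bern
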