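import Vale.Agent.P154.Decay

/-!
Nonreconstruction on regular trees from a chain of potentials, one for each number of joined
children, each needed only on the set of posteriors that can occur there.
-/

open scoped BigOperators
open Filter

namespace Vale.Agent.P154

variable {l : ℝ} {ι κ : Type} [Fintype ι] [Fintype κ]

lemma sum_wt_one {f : ι → Spin → ℝ} (hf : Fam f) : ∑ j, wt (f j) = 1 := by
  simp only [wt, ← Finset.sum_div]
  rw [Finset.sum_comm, Fin.sum_univ_three, hf.mass, hf.mass, hf.mass]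
  norm_num

/-- Where a joined observation has positive probability, its posterior is the combined posterior. -/
lemma post_join {u v : Spin → ℝ} (hu : ∀ i, 0 ≤ u i) (hv : ∀ i, 0 ≤ v i)
    (h : wt (fun i => u i * push l v i) ≠ 0) :
    wt u ≠ 0 ∧ zw (post u) (img l (post v)) ≠ 0 ∧
      post (fun i => u i * push l v i) = comb (post u) (img l (post v)) := by
  have e : ∀ i, u i * push l v i = wt u * wt v * (post u i * img l (post v) i) := fun i => by
    rw [img_post hv]; nth_rewrite 1 [← wt_mul_post hu i]; ring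
  have hw : wt (fun i => u i * push l v i) = wt u * wt v * zw (post u) (img l (post v)) := by
    simp only [wt, zw, e, ← Finset.mul_sum]; ring
  rw [hw] at h
  refine ⟨left_ne_zero_of_mul (left_ne_zero_of_mul h), right_ne_zero_of_mul h, ?_⟩
  rw [post, if_neg (hw ▸ h)]
  funext i
  rw [e i, hw, comb, mul_div_mul_left _ _ (left_ne_zero_of_mul h)]

/-- The joining bound with separate potentials and a restricted domain of the first argument. -/
lemma expect_join_le_on {δ : ℝ} {D : (Spin → ℝ) → Prop} {χ ψ φ : (Spin → ℝ) → ℝ}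
    {f : ι → Spin → ℝ} {g : κ → Spin → ℝ} (hf : Fam f) (hg : Fam g)
    (hD : ∀ j, wt (f j) ≠ 0 → D (post (f j)))
    (hstep : ∀ a y, D a → InS y →
      (1 / 6 : ℝ) * ∑ σ : Equiv.Perm Spin,
          zw a (fun i => img l y (σ i)) * ψ (comb a (fun i => img l y (σ i)))
        ≤ χ a + l ^ 2 * φ y - δ * sq a * sq y) :
    expect ψ (join l f g) ≤
      expect χ f + l ^ 2 * expect φ g - δ * expect sq f * expect sq g := by
  classical
  let F : (Spin → ℝ) → (Spin → ℝ) → ℝ := fun a b => zw a b * ψ (comb a b)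
  have h1 : expect ψ (join l f g) = ∑ j, ∑ k, wt (f j) * wt (g k) *
      F (post (f j)) (img l (post (g k))) := by
    simp only [expect, Fintype.sum_prod_type]
    exact Finset.sum_congr rfl fun j _ => Finset.sum_congr rfl fun k _ =>
      join_term ψ (hf.nonneg j) (hg.nonneg k)
  have h2 : ∀ σ : Equiv.Perm Spin, ∀ j, ∑ k, wt (g k) * F (post (f j)) (img l (post (g k))) =
      ∑ k, wt (g k) * F (post (f j)) (fun i => img l (post (g k)) (σ i)) := fun σ j => by
    obtain ⟨e, he⟩ := hg.equiv σ
    rw [← Equiv.sum_comp e (fun k => wt (g k) * F (post (f j)) (img l (post (g k))))]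
    refine Finset.sum_congr rfl fun k _ => ?_
    obtain ⟨hw, hp⟩ := post_perm σ (he k)
    have : img l (post (g (e k))) = fun i => img l (post (g k)) (σ i) := by
      funext i; simp [img, hp i]
    rw [hw, this]
  have h3 : ∀ j, ∑ k, wt (g k) * F (post (f j)) (img l (post (g k))) =
      ∑ k, wt (g k) * ((1 / 6 : ℝ) * ∑ σ : Equiv.Perm Spin,
          F (post (f j)) (fun i => img l (post (g k)) (σ i))) := fun j => by
    have h6 : (Fintype.card (Equiv.Perm Spin) : ℝ) = 6 := by
      rw [Fintype.card_perm, Fintype.card_fin]; norm_num [Nat.factorial]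
    calc ∑ k, wt (g k) * F (post (f j)) (img l (post (g k)))
        = (1 / 6 : ℝ) * ∑ _σ : Equiv.Perm Spin,
            ∑ k, wt (g k) * F (post (f j)) (img l (post (g k))) := by
          rw [Finset.sum_const, Finset.card_univ, nsmul_eq_mul, h6]; ring
      _ = _ := by
          rw [Finset.sum_congr rfl fun σ _ => h2 σ j, Finset.sum_comm, Finset.mul_sum]
          refine Finset.sum_congr rfl fun k _ => ?_
          rw [← Finset.mul_sum]; ring
  have h4 : ∀ j, wt (f j) * ∑ k, wt (g k) * F (post (f j)) (img l (post (g k))) ≤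
      wt (f j) * (χ (post (f j)) + l ^ 2 * expect φ g
        - δ * sq (post (f j)) * expect sq g) := fun j => by
    by_cases h0 : wt (f j) = 0
    · simp [h0]
    refine mul_le_mul_of_nonneg_left ?_ (wt_nonneg (hf.nonneg j))
    rw [h3 j]
    calc _ ≤ ∑ k, wt (g k) * (χ (post (f j)) + l ^ 2 * φ (post (g k))
          - δ * sq (post (f j)) * sq (post (g k))) :=
          Finset.sum_le_sum fun k _ => mul_le_mul_of_nonneg_left
            (hstep _ _ (hD j h0) (post_inS (hg.nonneg k))) (wt_nonneg (hg.nonneg k))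
      _ = _ := by
          simp only [mul_sub, mul_add, Finset.sum_add_distrib, Finset.sum_sub_distrib,
            ← Finset.sum_mul, sum_wt_one hg, one_mul, expect, Finset.mul_sum, mul_left_comm]
  rw [h1]
  calc ∑ j, ∑ k, wt (f j) * wt (g k) * F (post (f j)) (img l (post (g k)))
      = ∑ j, wt (f j) * ∑ k, wt (g k) * F (post (f j)) (img l (post (g k))) := by
        simp only [Finset.mul_sum, mul_assoc]
    _ ≤ _ := Finset.sum_le_sum fun j _ => h4 j
    _ = _ := by
        have e1 : ∑ j, wt (f j) * (l ^ 2 * expect φ g) = l ^ 2 * expect φ g := by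
          rw [← Finset.sum_mul, sum_wt_one hf, one_mul]
        have e2 : ∑ j, wt (f j) * (δ * sq (post (f j)) * expect sq g) =
            δ * expect sq f * expect sq g := by
          generalize expect sq g = G
          rw [expect, Finset.mul_sum, Finset.sum_mul]
          exact Finset.sum_congr rfl fun j _ => by ring
        simp only [mul_sub, mul_add, Finset.sum_sub_distrib, Finset.sum_add_distrib, e1, e2]
        rfl

/-- A chain of potentials `ψ k` for `k` joined children, valid on the posterior sets `D k`. -/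
structure Chain (l c C : ℝ) (d : ℕ) (φ : (Spin → ℝ) → ℝ) (ψ : ℕ → (Spin → ℝ) → ℝ)
    (D : ℕ → (Spin → ℝ) → Prop) (δ : ℕ → ℝ) : Prop where
  low : ∀ a, InS a → c * sq a ≤ φ a
  high : ∀ a, InS a → φ a ≤ C * sq a
  start : ∀ y, InS y → D 1 (img l y) ∧ ψ 1 (img l y) ≤ l ^ 2 * φ y
  closed : ∀ k, 1 ≤ k → k + 1 < d → ∀ a y, D k a → InS y → zw a (img l y) ≠ 0 →
    D (k + 1) (comb a (img l y))
  step : ∀ k, 1 ≤ k → k < d → ∀ a y, D k a → InS y →
    (1 / 6 : ℝ) * ∑ σ : Equiv.Perm Spin,
        zw a (fun i => img l y (σ i)) * ψ (k + 1) (comb a (fun i => img l y (σ i)))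
      ≤ ψ k a + l ^ 2 * φ y - δ k * sq a * sq y
  top : ψ d = φ
  gain : ∀ k, 0 ≤ δ k
  gain_one : 0 < δ 1

/-- The posterior of a single channelled child. -/
lemma post_kids_one {g : κ → Spin → ℝ} (hg : Fam g) (c : Fin 1 → κ) :
    wt (kids l (fun _ : Fin 1 => g) c) = wt (g (c 0)) ∧
      (wt (g (c 0)) ≠ 0 → post (kids l (fun _ : Fin 1 => g) c) = img l (post (g (c 0)))) := by
  have e : kids l (fun _ : Fin 1 => g) c = push l (g (c 0)) := by
    funext i; simp [kids]
  have h := hg.nonneg (c 0)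
  have hw : wt (push l (g (c 0))) = wt (g (c 0)) := by
    simp only [wt, push_eq, Fin.sum_univ_three]; ring
  rw [e]
  refine ⟨hw, fun h0 => ?_⟩
  rw [post, if_neg (hw.symm ▸ h0)]
  funext i
  rw [hw, img_post h, mul_div_cancel_left₀ _ h0]

variable {c C : ℝ} {d : ℕ} {φ : (Spin → ℝ) → ℝ} {ψ : ℕ → (Spin → ℝ) → ℝ}
  {D : ℕ → (Spin → ℝ) → Prop} {δ : ℕ → ℝ}

lemma Chain.kids_le (hC : Chain l c C d φ ψ D δ) (hl : -(1 / 2) ≤ l) (hu : l ≤ 1)
    {g : κ → Spin → ℝ} (hg : Fam g) : ∀ k, k + 1 ≤ d →
      expect (ψ (k + 1)) (kids l fun _ : Fin (k + 1) => g) +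
          (if k = 0 then 0 else δ 1 * l ^ 2 * expect sq g ^ 2)
        ≤ ((k + 1 : ℕ) : ℝ) * (l ^ 2 * expect φ g) ∧
      (k + 1 < d → ∀ x, wt (kids l (fun _ : Fin (k + 1) => g) x) ≠ 0 →
        D (k + 1) (post (kids l (fun _ : Fin (k + 1) => g) x))) := by
  classical
  intro k
  induction k with
  | zero =>
    intro _
    refine ⟨?_, fun _ x hx => ?_⟩
    · simp only [if_true, add_zero, Nat.cast_one, zero_add, one_mul, expect, Finset.mul_sum]
      rw [← Equiv.sum_comp (Equiv.funUnique (Fin 1) κ).symm]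
      refine Finset.sum_le_sum fun j _ => ?_
      obtain ⟨hw, hp⟩ := post_kids_one (l := l) hg ((Equiv.funUnique (Fin 1) κ).symm j)
      simp only [Equiv.funUnique_symm_apply, uniqueElim_const] at hw hp ⊢
      rw [hw, mul_left_comm]
      by_cases h0 : wt (g j) = 0
      · simp [h0]
      rw [hp h0]
      exact mul_le_mul_of_nonneg_left (hC.start _ (post_inS (hg.nonneg j))).2
        (wt_nonneg (hg.nonneg j))
    · obtain ⟨hw, hp⟩ := post_kids_one (l := l) hg x
      rw [hp (hw ▸ hx)]
      exact (hC.start _ (post_inS (hg.nonneg _))).1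
  | succ k ih =>
    intro hk
    obtain ⟨ih1, ih2⟩ := ih (by omega)
    have hF : Fam (kids l fun _ : Fin (k + 1) => g) :=
      Fam.kids hl hu (ι := fun _ : Fin (k + 1) => κ) fun _ => hg
    have hsplit := kids_split (l := l) (ι := fun _ : Fin (k + 2) => κ) fun _ => g
    refine ⟨?_, fun hlt x hx => ?_⟩
    · rw [← expect_reindex (splitFirst fun _ : Fin (k + 2) => κ), hsplit]
      have h := expect_join_le_on hF hg (ih2 (by omega)) (hC.step (k + 1) (by omega) (by omega))
      simp only [Nat.succ_ne_zero, if_false]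
      have h0 : 0 ≤ δ (k + 1) * expect sq (kids l fun _ : Fin (k + 1) => g) * expect sq g :=
        mul_nonneg (mul_nonneg (hC.gain _) (expect_sq_nonneg hF)) (expect_sq_nonneg hg)
      rcases Nat.eq_zero_or_pos k with rfl | hkpos
      · rw [expect_sq_single hl hu (ι := fun _ : Fin 1 => κ) fun _ => hg] at h
        simp only [if_true, add_zero] at ih1
        push_cast at ih1 ⊢
        linarith
      · rw [if_neg hkpos.ne'] at ih1
        push_cast at ih1 ⊢
        linarith
    · obtain ⟨⟨a, b⟩, rfl⟩ := (splitFirst fun _ : Fin (k + 2) => κ).surjective x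
      have e := congrFun hsplit (a, b)
      rw [e] at hx ⊢
      obtain ⟨h1, h2, h3⟩ := post_join (hF.nonneg a) (hg.nonneg b) hx
      rw [show join l (kids l fun _ : Fin (k + 1) => g) g (a, b) =
        fun i => kids l (fun _ : Fin (k + 1) => g) a i * push l (g b) i from rfl, h3]
      exact hC.closed (k + 1) (by omega) hlt _ _ (ih2 (by omega) a h1)
        (post_inS (hg.nonneg b)) h2

/-- A chain of potentials gives nonreconstruction on the `d`-ary tree. -/
theorem Chain.tendsto_tv (hC : Chain l c C d φ ψ D δ) (hl : -(1 / 2) ≤ l) (hu : l ≤ 1)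
    (hc : 0 < c) (hC' : 0 < C) (h2 : 2 ≤ d) (hdl : (d : ℝ) * l ^ 2 ≤ 1) :
    Tendsto (fun n => tv l n (regular d n)) atTop (nhds 0) := by
  obtain ⟨k, rfl⟩ : ∃ k, d = k + 2 := ⟨d - 2, by omega⟩
  set S : ℕ → ℝ := fun n => expect sq (lik l n (regular (k + 2) n)) with hS
  set X : ℕ → ℝ := fun n => expect φ (lik l n (regular (k + 2) n)) with hX
  have hb : ∀ n, c * S n ≤ X n ∧ X n ≤ C * S n := fun n => by
    have hf := fam_lik hl hu n (regular (k + 2) n)
    constructor
    · simp only [hS, hX, expect, Finset.mul_sum]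
      refine Finset.sum_le_sum fun j _ => ?_
      rw [mul_left_comm]
      exact mul_le_mul_of_nonneg_left (hC.low _ (post_inS (hf.nonneg j))) (wt_nonneg (hf.nonneg j))
    · simp only [hS, hX, expect, Finset.mul_sum]
      refine Finset.sum_le_sum fun j _ => ?_
      rw [mul_left_comm C]
      exact mul_le_mul_of_nonneg_left (hC.high _ (post_inS (hf.nonneg j))) (wt_nonneg (hf.nonneg j))
  have hS0 : ∀ n, 0 ≤ S n := fun n => expect_sq_nonneg (fam_lik hl hu n _)
  have hX0 : ∀ n, 0 ≤ X n := fun n => le_trans (mul_nonneg hc.le (hS0 n)) (hb n).1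
  have hrec : ∀ n, X (n + 1) + δ 1 * l ^ 2 * S n ^ 2 ≤ ((k + 2 : ℕ) : ℝ) * (l ^ 2 * X n) := fun n => by
    have h := (@Chain.kids_le l (Cfg n (regular (k + 2) n)) (cfgFintype n _) c C (k + 2) φ ψ D δ
      hC hl hu (lik l n (regular (k + 2) n)) (fam_lik hl hu n _) (k + 1) (le_refl _)).1
    rw [if_neg (Nat.succ_ne_zero k), hC.top] at h
    exact h
  have hXlim : Tendsto X atTop (nhds 0) := by
    by_cases hl0 : l = 0
    · refine (Filter.tendsto_add_atTop_iff_nat 1).mp (tendsto_const_nhds.congr fun n => ?_)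
      have h := hrec n
      rw [hl0] at h
      simp at h
      exact (le_antisymm (by subst hl0; exact h) (hX0 (n + 1))).symm
    · refine seq_decay (K := δ 1 * l ^ 2 / C ^ 2)
        (div_pos (mul_pos hC.gain_one (by positivity)) (by positivity)) hX0 fun n => ?_
      have hX2 : X n ^ 2 ≤ C ^ 2 * S n ^ 2 := by
        rw [← mul_pow]; exact pow_le_pow_left₀ (hX0 n) (hb n).2 2
      have h5 : δ 1 * l ^ 2 / C ^ 2 * X n ^ 2 ≤ δ 1 * l ^ 2 * S n ^ 2 := by
        rw [div_mul_eq_mul_div, div_le_iff₀ (by positivity)]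
        calc _ ≤ δ 1 * l ^ 2 * (C ^ 2 * S n ^ 2) :=
              mul_le_mul_of_nonneg_left hX2 (mul_nonneg (hC.gain 1) (sq_nonneg l))
          _ = _ := by ring
      have h6 := mul_le_mul_of_nonneg_right hdl (hX0 n)
      linarith [hrec n]
  have hSlim : Tendsto S atTop (nhds 0) := by
    refine squeeze_zero hS0 (fun n => ?_) (by simpa using hXlim.div_const c)
    rw [le_div_iff₀' hc]; exact (hb n).1
  rw [Metric.tendsto_atTop] at hSlim ⊢
  intro ε hε
  obtain ⟨N, hN⟩ := hSlim (ε / 3 * (ε / 3)) (by positivity)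
  refine ⟨N, fun n hn => ?_⟩
  have h1 := tv_le hl hu n (regular (k + 2) n) (by positivity : 0 < ε / 3)
  have h2 := hN n hn
  rw [Real.dist_eq, sub_zero, abs_of_nonneg (hS0 n)] at h2
  have h3 : S n / (ε / 3) < ε / 3 := by rw [div_lt_iff₀ (by positivity)]; exact h2
  have h4 : 0 ≤ tv l n (regular (k + 2) n) := by
    refine Finset.sum_nonneg fun c _ => mul_nonneg ?_ (by positivity)
    exact Finset.sum_nonneg fun i _ => mul_nonneg (by norm_num) ((fam_lik hl hu n _).nonneg _ _)
  rw [Real.dist_eq, sub_zero, abs_of_nonneg h4]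
  have : tv l n (regular (k + 2) n) ≤ ε / 3 + S n / (ε / 3) := h1
  linarith

end Vale.Agent.P154
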