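import Vale.Agent.P154.Trees

/-!
Monotonicity in the edge parameter: shrinking `l` towards `0` garbles the leaf observation,
so it cannot increase the total variation at the root.
-/

open scoped BigOperators

namespace Vale.Agent.P154

variable {ι κ μ : Type} [Fintype ι] [Fintype κ] [Fintype μ]

/-- `f` is a garbling of `f'`: it is obtained from it by a stochastic map of the observations. -/
def Garble (f : ι → Spin → ℝ) (f' : κ → Spin → ℝ) : Prop :=
  ∃ K : ι → κ → ℝ, (∀ a b, 0 ≤ K a b) ∧ (∀ b, ∑ a, K a b = 1) ∧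
    ∀ a i, f a i = ∑ b, K a b * f' b i

lemma Garble.refl [DecidableEq ι] (f : ι → Spin → ℝ) : Garble f f :=
  ⟨fun a b => if a = b then 1 else 0, fun a b => by simp only; split_ifs <;> norm_num,
    fun b => by simp,
    fun a i => by simp⟩

lemma Garble.trans {f : ι → Spin → ℝ} {g : κ → Spin → ℝ} {h : μ → Spin → ℝ}
    (h1 : Garble f g) (h2 : Garble g h) : Garble f h := by
  obtain ⟨K, hK0, hK1, hK⟩ := h1
  obtain ⟨L, hL0, hL1, hL⟩ := h2
  refine ⟨fun a c => ∑ b, K a b * L b c,
    fun a c => Finset.sum_nonneg fun b _ => mul_nonneg (hK0 a b) (hL0 b c), fun c => ?_,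
    fun a i => ?_⟩
  · rw [Finset.sum_comm]; simp [← Finset.sum_mul, hK1, hL1]
  · simp only [hK, hL, Finset.mul_sum, Finset.sum_mul]
    rw [Finset.sum_comm]
    exact Finset.sum_congr rfl fun b _ => Finset.sum_congr rfl fun c _ => by ring

lemma Garble.push {f : ι → Spin → ℝ} {f' : κ → Spin → ℝ} (l : ℝ) (h : Garble f f') :
    Garble (fun a => P154.push l (f a)) (fun b => P154.push l (f' b)) := by
  obtain ⟨K, hK0, hK1, hK⟩ := h
  refine ⟨K, hK0, hK1, fun a i => ?_⟩
  simp only [P154.push, hK, Finset.mul_sum]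
  rw [Finset.sum_comm]
  exact Finset.sum_congr rfl fun b _ => Finset.sum_congr rfl fun j _ => by ring

/-- Independent garblings of the children give a garbling of the product. -/
lemma Garble.pi {k : ℕ} {ι κ : Fin k → Type} [∀ j, Fintype (ι j)] [∀ j, Fintype (κ j)]
    {f : ∀ j, ι j → Spin → ℝ} {f' : ∀ j, κ j → Spin → ℝ} (h : ∀ j, Garble (f j) (f' j)) :
    Garble (fun (c : ∀ j, ι j) i => ∏ j, f j (c j) i) (fun (c : ∀ j, κ j) i => ∏ j, f' j (c j) i) := by
  classical
  choose K hK0 hK1 hK using h
  refine ⟨fun a b => ∏ j, K j (a j) (b j),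
    fun a b => Finset.prod_nonneg fun j _ => hK0 j _ _, fun b => ?_, fun a i => ?_⟩
  · rw [← Fintype.prod_sum fun j x => K j x (b j)]
    exact Finset.prod_eq_one fun j _ => hK1 j _
  · simp only [hK, Fintype.prod_sum, Finset.prod_mul_distrib]

lemma push_mul (l m : ℝ) (g : Spin → ℝ) : push (l * m) g = push l (push m g) := by
  funext i
  simp only [push_eq, Fin.sum_univ_three]
  ring

/-- A symmetric family passed through the channel is a garbling of itself. -/
lemma Fam.garble_push {f : ι → Spin → ℝ} (hf : Fam f) {m : ℝ} (h0 : 0 ≤ m) (h1 : m ≤ 1) :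
    Garble (fun a => P154.push m (f a)) f := by
  classical
  choose e he using hf.equiv
  refine ⟨fun a b => (if a = b then m else 0) +
      (1 - m) / 6 * ∑ σ : Equiv.Perm Spin, (if e σ a = b then 1 else 0), fun a b => ?_, fun b => ?_,
    fun a i => ?_⟩
  · refine add_nonneg (by split_ifs <;> linarith) (mul_nonneg (by linarith)
      (Finset.sum_nonneg fun σ _ => by split_ifs <;> norm_num))
  · have : ∀ σ : Equiv.Perm Spin, ∑ a, (if e σ a = b then (1 : ℝ) else 0) = 1 := fun σ => by
      rw [(e σ).sum_comp fun a => if a = b then (1 : ℝ) else 0]; simp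
    rw [Finset.sum_add_distrib, ← Finset.mul_sum, Finset.sum_comm]
    simp only [this, Finset.sum_ite_eq', Finset.mem_univ, if_true, Finset.sum_const,
      Finset.card_univ, nsmul_eq_mul, mul_one]
    rw [Fintype.card_perm, Fintype.card_fin]
    norm_num [Nat.factorial]
  · have h6 : ∑ σ : Equiv.Perm Spin, f a (σ i) = 2 * ∑ j, f a j := by
      have hi : ∀ i : Spin, ∑ σ : Equiv.Perm Spin, f a (σ i) = ∑ σ : Equiv.Perm Spin, f a (σ 0) :=
        fun i => by
          rw [← Equiv.sum_comp (Equiv.mulRight (Equiv.swap 0 i)) fun σ => f a (σ 0)]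
          simp
      have hall : ∑ i : Spin, ∑ σ : Equiv.Perm Spin, f a (σ i) = 6 * ∑ j, f a j := by
        rw [Finset.sum_comm]
        simp only [Equiv.sum_comp _ (f a), Finset.sum_const, Finset.card_univ, nsmul_eq_mul]
        rw [Fintype.card_perm, Fintype.card_fin]
        norm_num [Nat.factorial]
      rw [Fin.sum_univ_three, hi 1, hi 2] at hall
      rw [hi i]
      linarith
    simp only [P154.push, chan, add_mul, Finset.sum_add_distrib, ite_mul, zero_mul,
      Finset.sum_ite_eq, Finset.mem_univ, if_true, Finset.mul_sum, Finset.sum_mul]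
    congr 1
    rw [Finset.sum_comm]
    simp only [mul_ite, mul_one, mul_zero, ite_mul, zero_mul, Finset.sum_ite_eq, Finset.mem_univ,
      if_true, he, ← Finset.mul_sum, h6]
    ring

/-- The leaf observation at parameter `l * m` is a garbling of the one at parameter `l`. -/
lemma garble_lik {l m : ℝ} (hl : -(1 / 2) ≤ l) (hu : l ≤ 1) (h0 : 0 ≤ m) (h1 : m ≤ 1) :
    ∀ (n : ℕ) (T : Tr n), Garble (lik (l * m) n T) (lik l n T)
  | 0, _ => by classical exact Garble.refl _
  | n + 1, T => by
    rw [lik_succ, lik_succ]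
    have hj : ∀ j, Garble (fun a => P154.push (l * m) (lik (l * m) n (T.2 j) a))
        (fun b => P154.push l (lik l n (T.2 j) b)) := fun j => by
      have g1 := (garble_lik hl hu h0 h1 n (T.2 j)).push (l * m)
      have g2 := ((fam_lik hl hu n (T.2 j)).garble_push h0 h1).push l
      simp only [← push_mul] at g2
      exact g1.trans g2
    exact @Garble.pi T.1 (fun j => Cfg n (T.2 j)) (fun j => Cfg n (T.2 j))
      (fun j => cfgFintype n (T.2 j)) (fun j => cfgFintype n (T.2 j)) _ _ hj

lemma tv_eq {l : ℝ} (hl : -(1 / 2) ≤ l) (hu : l ≤ 1) (n : ℕ) (T : Tr n) :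
    tv l n T = ∑ c, (1 / 6 : ℝ) * ∑ i, |lik l n T c i - wt (lik l n T c)| := by
  refine Finset.sum_congr rfl fun c _ => ?_
  have h := (fam_lik hl hu n T).nonneg c
  have hp : prob l n T c = wt (lik l n T c) := by
    simp only [prob, wt, ← Finset.mul_sum]; ring
  rw [hp]
  rcases (wt_nonneg h).eq_or_lt' with h0 | hpos
  · have hz : ∀ i, lik l n T c i = 0 := fun i => by
      have := wt_mul_post h i; rw [h0, zero_mul] at this; exact this.symm
    simp [h0, hz]
  · have e : ∀ i, |lik l n T c i - wt (lik l n T c)| =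
        3 * wt (lik l n T c) * |(1 / 3 : ℝ) * lik l n T c i / wt (lik l n T c) - 1 / 3| := fun i => by
      rw [← abs_of_pos (by positivity : (0 : ℝ) < 3 * wt (lik l n T c)), ← abs_mul]
      congr 1
      field_simp
    simp only [e, ← Finset.mul_sum]
    ring

/-- Shrinking the edge parameter towards zero cannot increase the total variation at the root. -/
theorem tv_mono {l m : ℝ} (hl : -(1 / 2) ≤ l) (hu : l ≤ 1) (h0 : 0 ≤ m) (h1 : m ≤ 1) (n : ℕ)
    (T : Tr n) : tv (l * m) n T ≤ tv l n T := by
  have hl' : -(1 / 2) ≤ l * m := by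
    rcases le_total 0 l with h | h
    · linarith [mul_nonneg h h0]
    · nlinarith
  have hu' : l * m ≤ 1 := by
    rcases le_total 0 l with h | h
    · exact mul_le_one₀ hu h0 h1
    · nlinarith
  obtain ⟨K, hK0, hK1, hK⟩ := garble_lik hl hu h0 h1 n T
  rw [tv_eq hl' hu', tv_eq hl hu]
  calc ∑ a, (1 / 6 : ℝ) * ∑ i, |lik (l * m) n T a i - wt (lik (l * m) n T a)|
      ≤ ∑ a, ∑ b, K a b * ((1 / 6 : ℝ) * ∑ i, |lik l n T b i - wt (lik l n T b)|) := by
        refine Finset.sum_le_sum fun a _ => ?_
        simp only [Finset.mul_sum]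
        rw [Finset.sum_comm (s := Finset.univ) (t := Finset.univ)
          (f := fun b i => K a b * ((1 / 6 : ℝ) * |lik l n T b i - wt (lik l n T b)|))]
        refine Finset.sum_le_sum fun i _ => ?_
        have e : lik (l * m) n T a i - wt (lik (l * m) n T a) =
            ∑ b, K a b * (lik l n T b i - wt (lik l n T b)) := by
          simp only [mul_sub, Finset.sum_sub_distrib, ← hK]
          congr 1
          simp only [wt, hK, Fin.sum_univ_three, mul_div_assoc', Finset.sum_div, mul_add,
            ← Finset.sum_add_distrib]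
        rw [e]
        refine le_trans (mul_le_mul_of_nonneg_left (Finset.abs_sum_le_sum_abs _ _) (by norm_num)) ?_
        rw [Finset.mul_sum]
        refine Finset.sum_le_sum fun b _ => le_of_eq ?_
        rw [abs_mul, abs_of_nonneg (hK0 a b)]
        ring
    _ = _ := by
        rw [Finset.sum_comm]
        exact Finset.sum_congr rfl fun b _ => by rw [← Finset.sum_mul, hK1, one_mul]

end Vale.Agent.P154
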