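import Vale.Agent.P154.BinAlg
import Vale.Agent.P154.Chain
import Vale.Agent.P154.Monotone

/-!
The potential `KL + (14/25) sq + cub/3` certifies nonreconstruction on the binary tree at
`2 l² = 1`, `l > 0`.
-/

namespace Vale.Agent.P154.Bin

open Real Filter Set

/-- The critical edge parameter. -/
noncomputable def lc : ℝ := √2 / 2

lemma lc_sq : lc ^ 2 = 1 / 2 := by
  rw [lc, div_pow, Real.sq_sqrt zero_le_two]; norm_num

lemma lc_bounds : 707106 / 1000000 ≤ lc ∧ lc ≤ 707107 / 1000000 := by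
  have h0 : 0 ≤ lc := by unfold lc; positivity
  have h := lc_sq
  constructor <;> nlinarith

/-! ### The polynomial inequality -/

lemma cube_bound (a b : ℝ) : iT a b ^ 2 ≤ iS a b ^ 3 := by
  simp only [iS, iT]
  nlinarith [sq_nonneg ((a - b) * (2 * a + b) * (a + 2 * b))]

lemma cert_lo_nonneg {S T S2 T2 : ℝ} (h0 : 0 ≤ S) (h1 : S ≤ 1) (hT : T ^ 2 ≤ S ^ 3)
    (g0 : 0 ≤ S2) (gT : T2 ^ 2 ≤ S2 ^ 3) (hle : S2 ≤ S) :
    (1 / 2000 : ℝ) * (S * S2) ≤ cert (707106 / 1000000) S T S2 T2 := by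
  rcases eq_or_lt_of_le h0 with h | hpos
  · have hS2 : S2 = 0 := le_antisymm (h ▸ hle) g0
    have hT0 : T = 0 := by rw [← h] at hT; simpa using hT
    have hT2 : T2 = 0 := by rw [hS2] at gT; simpa using gT
    simp [← h, hS2, hT0, hT2, cert]
  · set w := √S with hw
    have hw0 : 0 < w := Real.sqrt_pos.2 hpos
    have hw2 : w ^ 2 = S := Real.sq_sqrt h0
    set r := √S2 / w with hr
    have hr0 : 0 ≤ r := by positivity
    have hr1 : r ≤ 1 := (div_le_one hw0).2 (Real.sqrt_le_sqrt hle)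
    have hrw : r * w = √S2 := div_mul_cancel₀ _ hw0.ne'
    have hS2 : r ^ 2 * w ^ 2 = S2 := by rw [← mul_pow, hrw, Real.sq_sqrt g0]
    have key : ∀ {T v : ℝ}, 0 ≤ v → T ^ 2 ≤ (v ^ 2) ^ 3 → |T| ≤ v ^ 3 := fun {T v} hv h =>
      abs_le_of_sq_le_sq (by linarith [h]) (pow_nonneg hv 3)
    have b1 : |T| ≤ w ^ 3 := key hw0.le (hw2 ▸ hT)
    have b2 : |T2| ≤ (r * w) ^ 3 := key (by positivity) (by rw [mul_pow, hS2]; exact gT)
    set t := (T / w ^ 3 + 1) / 2 with ht
    have ht01 : 0 ≤ t ∧ t ≤ 1 := by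
      have : |T / w ^ 3| ≤ 1 := by
        rw [abs_div, abs_of_pos (pow_pos hw0 3), div_le_one (pow_pos hw0 3)]; exact b1
      obtain ⟨u1, u2⟩ := abs_le.1 this
      constructor <;> linarith
    set s := (T2 / (r * w) ^ 3 + 1) / 2 with hs
    have hs01 : 0 ≤ s ∧ s ≤ 1 := by
      have : |T2 / (r * w) ^ 3| ≤ 1 := by
        rw [abs_div, abs_of_nonneg (pow_nonneg (mul_nonneg hr0 hw0.le) 3)]
        exact div_le_one_of_le₀ b2 (pow_nonneg (mul_nonneg hr0 hw0.le) 3)
      obtain ⟨u1, u2⟩ := abs_le.1 this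
      constructor <;> linarith
    have eT : w ^ 3 * (2 * t - 1) = T := by rw [ht]; field_simp; ring
    have eT2 : r ^ 3 * w ^ 3 * (2 * s - 1) = T2 := by
      by_cases hz : r * w = 0
      · have : T2 = 0 := by rw [hz] at b2; simpa using b2
        rw [this, ← mul_pow, hz]; simp
      · rw [hs, ← mul_pow, show 2 * ((T2 / (r * w) ^ 3 + 1) / 2) - 1 = T2 / (r * w) ^ 3 by ring,
          mul_div_cancel₀ _ (pow_ne_zero 3 hz)]
    have hw1 : w ≤ 1 := Real.sqrt_le_one.2 h1
    have hev := coef_nonneg (pt w t r s) (by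
      rintro (_ | _ | _ | i)
      · exact ⟨hw0.le, hw1⟩
      · exact ht01
      · exact ⟨hr0, hr1⟩
      · exact hs01)
    have he := cert_lo_eq w t r s
    rw [hS2, eT2, eT, hw2] at he
    nlinarith [mul_nonneg (pow_nonneg hw0.le 4) hev]

lemma cert_pos {S T S2 T2 : ℝ} (h0 : 0 ≤ S) (h1 : S ≤ 1) (hT : T ^ 2 ≤ S ^ 3)
    (g0 : 0 ≤ S2) (g1 : S2 ≤ 1) (gT : T2 ^ 2 ≤ S2 ^ 3) :
    (9 / 20000 : ℝ) * (S * S2) ≤ cert lc S T S2 T2 := by
  have hlo : (1 / 2000 : ℝ) * (S * S2) ≤ cert (707106 / 1000000) S T S2 T2 := by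
    rcases le_total S2 S with h | h
    · exact cert_lo_nonneg h0 h1 hT g0 gT h
    · rw [cert_swap, mul_comm S S2]; exact cert_lo_nonneg g0 g1 gT h0 hT h
  have key : ∀ {S T : ℝ}, 0 ≤ S → S ≤ 1 → T ^ 2 ≤ S ^ 3 → |T| ≤ S := fun {S T} a b c =>
    abs_le_of_sq_le_sq (c.trans (pow_le_pow_of_le_one a b (by norm_num))) a
  have hsl := cert_slope h0 h1 (key h0 h1 hT) g0 g1 (key g0 g1 gT)
  obtain ⟨l1, l2⟩ := lc_bounds
  rw [cert_affine lc (707106 / 1000000)]
  have m := mul_le_mul_of_nonneg_left hsl (by linarith : (0 : ℝ) ≤ lc - 707106 / 1000000)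
  have n := mul_le_mul_of_nonneg_right (by linarith : lc - 707106 / 1000000 ≤ 1 / 1000000)
    (mul_nonneg h0 g0)
  linarith [mul_nonneg h0 g0]

/-! ### The one-child slack -/

/-- `v log v`. -/
noncomputable def vlog (v : ℝ) : ℝ := v * log v

/-- The slack of one coordinate, with linear part removed. -/
noncomputable def hfun (v : ℝ) : ℝ :=
  (1 / 2 * vlog v - vlog (1 + lc * (v - 1))) / 3 - (1 / 2 - lc) * (v - 1) / 3

/-- Derivative of `hfun` minus the polynomial. -/
noncomputable def gder (v : ℝ) : ℝ :=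
  (1 / 2 * (log v + 1) - lc * (log (1 + lc * (v - 1)) + 1)) / 3 - (1 / 2 - lc) / 3 -
    ((lc / 2 - 1 / 2) / 6 * (v - 1) ^ 2 + 4 * (3463 / 500000) * (v - 1) ^ 3 +
      5 * (-5451 / 1000000) * (v - 1) ^ 4 + 6 * (1677 / 500000) * (v - 1) ^ 5 +
      7 * (-4149 / 1000000) * (v - 1) ^ 6 + 8 * (433 / 100000) * (v - 1) ^ 7 +
      9 * (-303 / 200000) * (v - 1) ^ 8)

lemma w_pos {v : ℝ} (h : 0 ≤ v) : 0 < 1 + lc * (v - 1) := by
  nlinarith [lc_bounds.1, lc_bounds.2]

lemma hasDerivAt_g {v : ℝ} (h : 0 < v) :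
    HasDerivAt (fun v => hfun v - hpoly lc (v - 1)) (gder v) v := by
  have h1 : HasDerivAt vlog (log v + 1) v := Real.hasDerivAt_mul_log h.ne'
  have hlin : HasDerivAt (fun v => 1 + lc * (v - 1)) lc v := by
    simpa using (((hasDerivAt_id v).sub_const 1).const_mul lc).const_add 1
  have h2 := (Real.hasDerivAt_mul_log (w_pos h.le).ne').comp v hlin
  have hp : ∀ n : ℕ, HasDerivAt (fun v : ℝ => (v - 1) ^ n) (n * (v - 1) ^ (n - 1)) v := fun n => by
    simpa using ((hasDerivAt_id v).sub_const 1).fun_pow n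
  have := (((h1.const_mul (1 / 2 : ℝ)).sub h2).div_const 3).sub
    ((((hasDerivAt_id v).sub_const 1).const_mul (1 / 2 - lc)).div_const 3)
  have h3 := this.sub ((((((((hp 3).const_mul ((lc / 2 - 1 / 2) / 18)).add
    ((hp 4).const_mul (3463 / 500000))).add ((hp 5).const_mul (-5451 / 1000000))).add
    ((hp 6).const_mul (1677 / 500000))).add ((hp 7).const_mul (-4149 / 1000000))).add
    ((hp 8).const_mul (433 / 100000))).add ((hp 9).const_mul (-303 / 200000)))
  refine (h3.congr_of_eventuallyEq (Eventually.of_forall fun y => ?_)).congr_deriv ?_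
  · simp [hfun, hpoly, vlog, Function.comp_def]
  · simp [gder]
    ring

lemma hasDerivAt_gder {v : ℝ} (h : 0 < v) :
    HasDerivAt gder ((1 / 2 / v - lc * (lc / (1 + lc * (v - 1)))) / 3 -
      ((lc / 2 - 1 / 2) / 3 * (v - 1) + 12 * (3463 / 500000) * (v - 1) ^ 2 +
        20 * (-5451 / 1000000) * (v - 1) ^ 3 + 30 * (1677 / 500000) * (v - 1) ^ 4 +
        42 * (-4149 / 1000000) * (v - 1) ^ 5 + 56 * (433 / 100000) * (v - 1) ^ 6 +
        72 * (-303 / 200000) * (v - 1) ^ 7)) v := by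
  have hlin : HasDerivAt (fun v => 1 + lc * (v - 1)) lc v := by
    simpa using (((hasDerivAt_id v).sub_const 1).const_mul lc).const_add 1
  have hp : ∀ n : ℕ, HasDerivAt (fun v : ℝ => (v - 1) ^ n) (n * (v - 1) ^ (n - 1)) v := fun n => by
    simpa using ((hasDerivAt_id v).sub_const 1).fun_pow n
  have hA := ((((Real.hasDerivAt_log h.ne').add_const 1).const_mul (1 / 2 : ℝ)).sub
    (((hlin.log (w_pos h.le).ne').add_const 1).const_mul lc)).div_const 3 |>.sub_const
      ((1 / 2 - lc) / 3)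
  have := hA.sub ((((((((hp 2).const_mul ((lc / 2 - 1 / 2) / 6)).add
    ((hp 3).const_mul (4 * (3463 / 500000)))).add ((hp 4).const_mul (5 * (-5451 / 1000000)))).add
    ((hp 5).const_mul (6 * (1677 / 500000)))).add ((hp 6).const_mul (7 * (-4149 / 1000000)))).add
    ((hp 7).const_mul (8 * (433 / 100000)))).add ((hp 8).const_mul (9 * (-303 / 200000))))
  refine this.congr_deriv ?_
  simp
  ring

lemma gder_mono : MonotoneOn gder (Ioc 0 3) := by
  refine monotoneOn_of_hasDerivWithinAt_nonneg (convex_Ioc _ _)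
    (fun v hv => (hasDerivAt_gder hv.1).continuousAt.continuousWithinAt)
    (fun v hv => (hasDerivAt_gder (interior_subset hv).1).hasDerivWithinAt) fun v hv => ?_
  obtain ⟨hv0, hv3⟩ := interior_subset hv
  have hw := w_pos hv0.le
  obtain ⟨l1, l2⟩ := lc_bounds
  set u := v - 1 with hu
  have a1 := Glo_nonneg u (by linarith) (by linarith)
  have a2 := Ghi_nonneg u (by linarith) (by linarith)
  have ha := mul_nonneg a1 (sub_nonneg.2 l2)
  have hb := mul_nonneg a2 (sub_nonneg.2 l1)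
  have hl := lc_sq
  rw [show v = 1 + u by rw [hu]; ring] at hv0 ⊢
  rw [show lc * (lc / (1 + lc * u)) = (1 / 2) / (1 + lc * u) by rw [← mul_div_assoc, ← pow_two, hl],
    div_sub_div _ _ hv0.ne' hw.ne', div_div, sub_nonneg, le_div_iff₀ (by positivity)]
  have hu2 : 0 ≤ u ^ 2 := sq_nonneg u
  have hG := mul_nonneg hu2 (add_nonneg ha hb)
  have r1 : lc * lc = 1 / 2 := by rw [← pow_two, hl]
  linear_combination (1000000 * 3 : ℝ) * hG
    + (u ^ 2 * (1 + u) * (1 / 2)) * r1

/-- The one-child slack dominates its polynomial. -/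
theorem hpoly_le {v : ℝ} (h0 : 0 ≤ v) (h3 : v ≤ 3) : hpoly lc (v - 1) ≤ hfun v := by
  have hd1 : gder 1 = 0 := by simp [gder]
  have hg1 : hfun 1 - hpoly lc (1 - 1) = 0 := by simp [hfun, hpoly, vlog]
  have hc : ContinuousOn (fun v => hfun v - hpoly lc (v - 1)) (Icc 0 3) := by
    refine ContinuousOn.sub ?_ (Continuous.continuousOn (by unfold hpoly; fun_prop))
    have e := Real.continuous_mul_log
    refine Continuous.continuousOn ?_
    unfold hfun vlog
    exact ((((e.const_smul (1 / 2 : ℝ)).congr fun x => by simp [smul_eq_mul]).sub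
      (e.comp (by fun_prop : Continuous fun v => 1 + lc * (v - 1)))).div_const 3).sub (by fun_prop)
  have m1 : AntitoneOn (fun v => hfun v - hpoly lc (v - 1)) (Icc 0 1) := by
    refine antitoneOn_of_hasDerivWithinAt_nonpos (convex_Icc _ _)
      (hc.mono (Icc_subset_Icc_right (by norm_num))) (f' := gder) ?_ ?_
    · intro x hx; rw [interior_Icc] at hx; exact (hasDerivAt_g hx.1).hasDerivWithinAt
    · intro x hx
      rw [interior_Icc] at hx
      exact hd1 ▸ gder_mono ⟨hx.1, by linarith [hx.2]⟩ ⟨one_pos, by norm_num⟩ hx.2.le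
  have m2 : MonotoneOn (fun v => hfun v - hpoly lc (v - 1)) (Icc 1 3) := by
    refine monotoneOn_of_hasDerivWithinAt_nonneg (convex_Icc _ _)
      (hc.mono (Icc_subset_Icc_left (by norm_num))) (f' := gder) ?_ ?_
    · intro x hx; rw [interior_Icc] at hx; exact (hasDerivAt_g (by linarith [hx.1])).hasDerivWithinAt
    · intro x hx
      rw [interior_Icc] at hx
      exact hd1 ▸ gder_mono ⟨one_pos, by norm_num⟩ ⟨by linarith [hx.1], hx.2.le⟩ hx.1.le
  rcases le_total v 1 with h | h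
  · have := m1 ⟨h0, h⟩ ⟨zero_le_one, le_refl 1⟩ h
    simp only [hg1] at this; linarith
  · have := m2 ⟨le_refl 1, by norm_num⟩ ⟨h, h3⟩ h
    simp only [hg1] at this; linarith

/-! ### The potential -/

/-- Relative entropy to the uniform law. -/
noncomputable def ent (a : Spin → ℝ) : ℝ := (vlog (a 0) + vlog (a 1) + vlog (a 2)) / 3

/-- The potential. -/
noncomputable def pot (a : Spin → ℝ) : ℝ := ent a + 14 / 25 * sq a + cub a / 3

lemma inS_facts {a : Spin → ℝ} (h : InS a) :
    0 ≤ sq a ∧ sq a ≤ 1 ∧ cub a ^ 2 ≤ sq a ^ 3 ∧ |cub a| ≤ sq a ∧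
      sq a = iS (a 0 - 1) (a 1 - 1) ∧ cub a = iT (a 0 - 1) (a 1 - 1) := by
  obtain ⟨hp, hsum⟩ := h
  have e2 : a 2 - 1 = -(a 0 - 1) - (a 1 - 1) := by linarith
  have e1 : sq a = iS (a 0 - 1) (a 1 - 1) := by rw [sq, iS, e2]
  have e3 : cub a = iT (a 0 - 1) (a 1 - 1) := by rw [cub, iT, e2]
  have h0 : 0 ≤ sq a := by unfold P154.sq; positivity
  have h1 : sq a ≤ 1 := by
    unfold P154.sq
    nlinarith [mul_nonneg (hp 0) (hp 1), mul_nonneg (hp 0) (hp 2), mul_nonneg (hp 1) (hp 2)]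
  have h2 : cub a ^ 2 ≤ sq a ^ 3 := by rw [e1, e3]; exact cube_bound _ _
  exact ⟨h0, h1, h2,
    abs_le_of_sq_le_sq (h2.trans (pow_le_pow_of_le_one h0 h1 (by norm_num))) h0, e1, e3⟩

lemma vlog_ge {v : ℝ} (h : 0 ≤ v) : v - 1 ≤ vlog v ∧ vlog v ≤ v * (v - 1) := by
  rcases eq_or_lt_of_le h with rfl | hp
  · simp [vlog]
  · exact ⟨by
      have := Real.one_sub_inv_le_log_of_pos hp
      have e : v * (1 - v⁻¹) = v - 1 := by field_simp
      rw [vlog, ← e]
      exact mul_le_mul_of_nonneg_left this h,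
      mul_le_mul_of_nonneg_left (Real.log_le_sub_one_of_pos hp) h⟩

lemma pot_low {a : Spin → ℝ} (h : InS a) : (1 / 5 : ℝ) * sq a ≤ pot a := by
  obtain ⟨h0, -, -, hc, -⟩ := inS_facts h
  have := (vlog_ge (h.1 0)).1; have := (vlog_ge (h.1 1)).1; have := (vlog_ge (h.1 2)).1
  have := h.2
  simp only [pot, ent]
  linarith [(abs_le.1 hc).1]

lemma pot_high {a : Spin → ℝ} (h : InS a) : pot a ≤ 3 * sq a := by
  obtain ⟨h0, -, -, hc, -⟩ := inS_facts h
  have := (vlog_ge (h.1 0)).2; have := (vlog_ge (h.1 1)).2; have := (vlog_ge (h.1 2)).2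
  have e : a 0 * (a 0 - 1) + a 1 * (a 1 - 1) + a 2 * (a 2 - 1) = 6 * sq a := by
    simp only [P154.sq]; linear_combination h.2
  simp only [pot, ent]
  linarith [(abs_le.1 hc).2]

/-- One joined term, bounded by the polynomial. -/
lemma pot_term {a b : Spin → ℝ} (ha : ∀ i, 0 < a i) (hb : ∀ i, 0 < b i)
    (ha3 : a 0 + a 1 + a 2 = 3) (hb3 : b 0 + b 1 + b 2 = 3)
    (hz0 : 1 / 2 ≤ zw a b) (hz1 : zw a b ≤ 2) :
    zw a b * pot (comb a b) ≤
      (a 0 * b 0 * log (a 0) + a 1 * b 1 * log (a 1) + a 2 * b 2 * log (a 2)) / 3 +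
      (a 0 * b 0 * log (b 0) + a 1 * b 1 * log (b 1) + a 2 * b 2 * log (b 2)) / 3 +
      term (a 0 - 1) (a 1 - 1) (b 0 - 1) (b 1 - 1) (b 2 - 1) := by
  set Z := zw a b with hZ
  have hZe : Z = (a 0 * b 0 + a 1 * b 1 + a 2 * b 2) / 3 := by
    rw [hZ, zw, Fin.sum_univ_three]
  have hZ0 : 0 < Z := by linarith
  set z := zf (a 0 - 1) (a 1 - 1) (b 0 - 1) (b 1 - 1) (b 2 - 1) with hz
  have ea2 : a 2 = 3 - a 0 - a 1 := by linarith
  have eb2 : b 2 = 3 - b 0 - b 1 := by linarith
  have ez : Z = 1 + z := by rw [hZe, hz, zf, ea2, eb2]; ring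
  have hl : ∀ i, a i * b i / Z * log (a i * b i / Z) * Z =
      a i * b i * log (a i) + a i * b i * log (b i) - a i * b i * log Z := fun i => by
    rw [log_div (mul_pos (ha i) (hb i)).ne' hZ0.ne', log_mul (ha i).ne' (hb i).ne']
    field_simp
  have hent : Z * ent (comb a b) =
      (a 0 * b 0 * log (a 0) + a 1 * b 1 * log (a 1) + a 2 * b 2 * log (a 2)) / 3 +
      (a 0 * b 0 * log (b 0) + a 1 * b 1 * log (b 1) + a 2 * b 2 * log (b 2)) / 3 - Z * log Z := by
    simp only [ent, vlog, comb, ← hZ]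
    linear_combination (1 / 3 : ℝ) * hl 0 + (1 / 3 : ℝ) * hl 1 + (1 / 3 : ℝ) * hl 2
      + log Z * hZe
  have hzlog : -(Z * log Z) ≤ -z - z ^ 2 / 2 + z ^ 3 / 6 := by
    rw [ez]
    exact zlog_bound (by linarith)
  set N := nS (a 0 - 1) (a 1 - 1) (b 0 - 1) (b 1 - 1) (b 2 - 1) with hN
  set N3 := nT (a 0 - 1) (a 1 - 1) (b 0 - 1) (b 1 - 1) (b 2 - 1) with hN3
  have hsq : Z * sq (comb a b) = N / Z := by
    rw [hN, nS]
    simp only [← hz]
    rw [show z = Z - 1 by linarith]
    simp only [P154.sq, comb, ← hZ]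
    rw [ea2, eb2]
    field_simp
    ring
  have hcu : Z * cub (comb a b) = N3 / Z ^ 2 := by
    rw [hN3, nT]
    simp only [← hz]
    rw [show z = Z - 1 by linarith]
    simp only [cub, comb, ← hZ]
    rw [ea2, eb2]
    field_simp
    ring
  have hcomb : InS (comb a b) := by
    refine ⟨fun i => div_nonneg (mul_pos (ha i) (hb i)).le hZ0.le, ?_⟩
    simp only [comb, ← hZ]
    rw [← add_div, ← add_div, div_eq_iff hZ0.ne', hZe]
    ring
  obtain ⟨hs0, -, -, hsc, -⟩ := inS_facts hcomb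
  have hN0 : 0 ≤ N := by rw [hN, nS]; positivity
  have hQ0 : 0 ≤ Z * N + N3 := by
    have e : Z * N + N3 = Z ^ 2 * (Z * (sq (comb a b) + cub (comb a b))) := by
      rw [mul_add Z, hsq, hcu]; field_simp
    rw [e]
    exact mul_nonneg (sq_nonneg _) (mul_nonneg hZ0.le (by linarith [(abs_le.1 hsc).1]))
  have hr1 : N / Z ≤ N * rec1 z := by
    rw [div_eq_mul_inv]
    refine mul_le_mul_of_nonneg_left ?_ hN0
    rw [ez]; exact rec1_bound (by linarith) (by linarith)
  have hr2 : (Z * N + N3) / Z ^ 2 ≤ (Z * N + N3) * rec2 z := by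
    rw [div_eq_mul_inv]
    refine mul_le_mul_of_nonneg_left ?_ hQ0
    rw [ez]; exact rec2_bound (by linarith) (by linarith)
  have hsplit : (Z * N + N3) / Z ^ 2 = N / Z + N3 / Z ^ 2 := by field_simp
  simp only [term, ← hz, ← hN, ← hN3, ← ez]
  calc Z * pot (comb a b)
      = Z * ent (comb a b) + 14 / 25 * (Z * sq (comb a b)) + 1 / 3 * (Z * cub (comb a b)) := by
        rw [pot]; ring
    _ ≤ _ := by rw [hent, hsq, hcu]; linarith
where
  zlog_bound {z : ℝ} (h : -1 < z) : -((1 + z) * log (1 + z)) ≤ -z - z ^ 2 / 2 + z ^ 3 / 6 := by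
    set g := fun z : ℝ => (1 + z) * log (1 + z) - z - z ^ 2 / 2 + z ^ 3 / 6
    have hd : ∀ x, -1 < x → HasDerivAt g (log (1 + x) - x + x ^ 2 / 2) x := fun x hx => by
      have h1 := (Real.hasDerivAt_mul_log (by linarith : (1 + x) ≠ 0)).comp x
        ((hasDerivAt_id x).const_add 1)
      refine ((((h1.sub (hasDerivAt_id x)).sub ((hasDerivAt_pow 2 x).div_const 2)).add
        ((hasDerivAt_pow 3 x).div_const 6)).congr_of_eventuallyEq
          (Eventually.of_forall fun y => by simp [g, Function.comp_def])).congr_deriv ?_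
      simp; ring
    have hd2 : ∀ x, -1 < x →
        HasDerivAt (fun x => log (1 + x) - x + x ^ 2 / 2) (x ^ 2 / (1 + x)) x := fun x hx => by
      have h0 : (1 + x) ≠ 0 := by linarith
      refine (((((hasDerivAt_id x).const_add 1).log h0).sub (hasDerivAt_id x)).add
        ((hasDerivAt_pow 2 x).div_const 2)).congr_deriv ?_
      simp only [id]
      push_cast
      field_simp
      ring
    have hm : MonotoneOn (fun x => log (1 + x) - x + x ^ 2 / 2) (Ioi (-1)) :=
      monotoneOn_of_hasDerivWithinAt_nonneg (convex_Ioi _)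
        (fun x hx => (hd2 x hx).continuousAt.continuousWithinAt)
        (fun x hx => (hd2 x (interior_subset hx)).hasDerivWithinAt) fun x hx => by
          have : (-1 : ℝ) < x := interior_subset hx
          exact div_nonneg (sq_nonneg x) (by linarith)
    have hg0 : g 0 = 0 := by simp [g]
    have : g 0 ≤ g z := by
      rcases le_total 0 z with hz | hz
      · refine monotoneOn_of_hasDerivWithinAt_nonneg (f := g) (convex_Icc 0 z)
          (fun x hx => (hd x (by linarith [hx.1])).continuousAt.continuousWithinAt)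
          (fun x hx => (hd x (by linarith [(interior_subset hx).1])).hasDerivWithinAt)
          (fun x hx => ?_) (left_mem_Icc.2 hz) (right_mem_Icc.2 hz) hz
        have h2 := hm (show (0 : ℝ) ∈ Ioi (-1) by norm_num)
          (show x ∈ Ioi (-1) from by simp; linarith [(interior_subset hx).1]) (interior_subset hx).1
        simpa using h2
      · refine antitoneOn_of_hasDerivWithinAt_nonpos (f := g) (convex_Icc z 0)
          (fun x hx => (hd x (by linarith [hx.1])).continuousAt.continuousWithinAt)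
          (fun x hx => (hd x (by linarith [(interior_subset hx).1])).hasDerivWithinAt)
          (fun x hx => ?_) (left_mem_Icc.2 hz) (right_mem_Icc.2 hz) hz
        have h2 := hm (show x ∈ Ioi (-1) from by simp; linarith [(interior_subset hx).1])
          (show (0 : ℝ) ∈ Ioi (-1) by norm_num) (interior_subset hx).2
        simpa using h2
    simp only [g] at this hg0
    rw [hg0] at this
    linarith
  rec1_bound {z : ℝ} (h0 : -(1 / 2) ≤ z) (h1 : z ≤ 1) : (1 + z)⁻¹ ≤ rec1 z := by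
    rw [inv_le_iff_one_le_mul₀ (by linarith)]
    have : 0 ≤ z ^ 4 * ((1 - z) * (1 + 2 * z)) :=
      mul_nonneg (by positivity) (mul_nonneg (by linarith) (by linarith))
    simp only [rec1]
    nlinarith
  rec2_bound {z : ℝ} (h0 : -(1 / 2) ≤ z) (h1 : z ≤ 1) : ((1 + z) ^ 2)⁻¹ ≤ rec2 z := by
    rw [inv_le_iff_one_le_mul₀ (by nlinarith)]
    have := mul_nonneg (sq_nonneg z) (W_nonneg z (by linarith) (by linarith))
    simp only [rec2]
    linear_combination this

lemma img_pos {x : Spin → ℝ} (hx : InS x) (i : Spin) : 0 < img lc x i :=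
  w_pos (hx.1 i)

lemma img_sum {x : Spin → ℝ} (hx : InS x) : img lc x 0 + img lc x 1 + img lc x 2 = 3 := by
  simp only [img]; linear_combination lc * hx.2

/-- The slack of one child. -/
lemma slack {x : Spin → ℝ} (hx : InS x) :
    ent (img lc x) + (lc / 2 - 1 / 2) / 3 * cub x + slackPoly (sq x) (cub x) ≤ 1 / 2 * ent x := by
  obtain ⟨-, -, -, -, e1, e3⟩ := inS_facts hx
  have hb : ∀ i : Fin 3, x i ≤ 3 := fun i => by
    have := hx.2; have := hx.1 0; have := hx.1 1; have := hx.1 2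
    fin_cases i <;> first | linarith | (simp; linarith)
  have h0 := hpoly_le (hx.1 0) (hb 0)
  have h1 := hpoly_le (hx.1 1) (hb 1)
  have h2 := hpoly_le (hx.1 2) (hb 2)
  have hs := sum_hpoly lc (x 0 - 1) (x 1 - 1)
  rw [show -(x 0 - 1) - (x 1 - 1) = x 2 - 1 by linarith [hx.2], ← e1, ← e3] at hs
  simp only [ent, img]
  simp only [hfun] at h0 h1 h2
  have h3 : (x 0 - 1) + (x 1 - 1) + (x 2 - 1) = 0 := by linarith [hx.2]
  have h4 : (1 / 2 - lc) * ((x 0 - 1) + (x 1 - 1) + (x 2 - 1)) = 0 := by rw [h3, mul_zero]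
  linarith

lemma iS_img {x : Spin → ℝ} (hx : InS x) :
    iS (img lc x 0 - 1) (img lc x 1 - 1) = lc ^ 2 * sq x ∧
      iT (img lc x 0 - 1) (img lc x 1 - 1) = lc ^ 3 * cub x := by
  obtain ⟨-, -, -, -, e1, e3⟩ := inS_facts hx
  rw [e1, e3]; simp only [img, iS, iT]; constructor <;> ring

lemma zw_range {x y : Spin → ℝ} (hx : InS x) (hy : InS y) :
    1 / 2 ≤ zw (img lc x) (img lc y) ∧ zw (img lc x) (img lc y) ≤ 2 := by
  have hl := lc_sq
  set P := x 0 * y 0 + x 1 * y 1 + x 2 * y 2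
  have e : zw (img lc x) (img lc y) = 1 + (P - 3) / 6 := by
    simp only [zw, img, Fin.sum_univ_three, P]
    linear_combination (lc / 3 - lc ^ 2 / 3) * (hx.2 + hy.2) +
      ((x 0 * y 0 + x 1 * y 1 + x 2 * y 2 - 3) / 3) * hl
  have h0 : 0 ≤ P := add_nonneg (add_nonneg (mul_nonneg (hx.1 0) (hy.1 0))
    (mul_nonneg (hx.1 1) (hy.1 1))) (mul_nonneg (hx.1 2) (hy.1 2))
  have h9 : P ≤ 9 := by
    have : (x 0 + x 1 + x 2) * (y 0 + y 1 + y 2) = 9 := by rw [hx.2, hy.2]; norm_num
    nlinarith [mul_nonneg (hx.1 0) (hy.1 1), mul_nonneg (hx.1 0) (hy.1 2),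
      mul_nonneg (hx.1 1) (hy.1 0), mul_nonneg (hx.1 1) (hy.1 2),
      mul_nonneg (hx.1 2) (hy.1 0), mul_nonneg (hx.1 2) (hy.1 1)]
  rw [e]; constructor <;> linarith

lemma sum_perm_spin (F : Spin → Spin → Spin → ℝ) :
    ∑ σ : Equiv.Perm Spin, F (σ 0) (σ 1) (σ 2) =
      F 0 1 2 + F 0 2 1 + F 1 0 2 + F 1 2 0 + F 2 0 1 + F 2 1 0 := by
  have h : (Finset.univ : Finset (Equiv.Perm Spin)) = {1, Equiv.swap 1 2, Equiv.swap 0 1,
      Equiv.swap 0 1 * Equiv.swap 1 2, Equiv.swap 0 2 * Equiv.swap 1 2, Equiv.swap 0 2} := by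
    decide
  rw [h, Finset.sum_insert (by decide), Finset.sum_insert (by decide),
    Finset.sum_insert (by decide), Finset.sum_insert (by decide), Finset.sum_insert (by decide),
    Finset.sum_singleton]
  simp [Equiv.swap_apply_def]
  ring

lemma inS_perm {y : Spin → ℝ} (hy : InS y) {i j k : Spin} (h : y i + y j + y k = 3) :
    InS ![y i, y j, y k] :=
  ⟨fun t => by fin_cases t <;> simp [hy.1], by simpa using h⟩

/-- The two-child inequality. -/
theorem join_step {x y : Spin → ℝ} (hx : InS x) (hy : InS y) :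
    (1 / 6 : ℝ) * ∑ σ : Equiv.Perm Spin, zw (img lc x) (fun i => img lc y (σ i)) *
        pot (comb (img lc x) (fun i => img lc y (σ i)))
      ≤ 1 / 2 * pot x + lc ^ 2 * pot y - 9 / 10000 * sq (img lc x) * sq y := by
  set a := img lc x with ha
  have hfun : ∀ σ : Equiv.Perm Spin, (fun i => img lc y (σ i)) =
      ![img lc y (σ 0), img lc y (σ 1), img lc y (σ 2)] := fun σ => by
    funext i; fin_cases i <;> rfl
  simp only [hfun]
  rw [sum_perm_spin (fun i j k => zw a ![img lc y i, img lc y j, img lc y k] *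
    pot (comb a ![img lc y i, img lc y j, img lc y k]))]
  have t : ∀ i j k : Spin, y i + y j + y k = 3 →
      zw a ![img lc y i, img lc y j, img lc y k] * pot (comb a ![img lc y i, img lc y j, img lc y k])
      ≤ (a 0 * img lc y i * log (a 0) + a 1 * img lc y j * log (a 1) + a 2 * img lc y k * log (a 2)) / 3
        + (a 0 * img lc y i * log (img lc y i) + a 1 * img lc y j * log (img lc y j)
          + a 2 * img lc y k * log (img lc y k)) / 3
        + term (a 0 - 1) (a 1 - 1) (img lc y i - 1) (img lc y j - 1) (img lc y k - 1) := by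
    intro i j k h
    have e : img lc ![y i, y j, y k] = ![img lc y i, img lc y j, img lc y k] := by
      funext t; fin_cases t <;> rfl
    have hy' := inS_perm hy h
    have := pot_term (img_pos hx) (img_pos hy') (img_sum hx) (img_sum hy')
      (zw_range hx hy').1 (zw_range hx hy').2
    rw [e] at this
    simpa using this
  have hy3 := hy.2
  have s1 := t 0 1 2 (by linarith); have s2 := t 0 2 1 (by linarith)
  have s3 := t 1 0 2 (by linarith); have s4 := t 1 2 0 (by linarith)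
  have s5 := t 2 0 1 (by linarith); have s6 := t 2 1 0 (by linarith)
  -- the average
  have hterm := avg_term (a 0 - 1) (a 1 - 1) (img lc y 0 - 1) (img lc y 1 - 1)
  simp only [avg6] at hterm
  rw [show -(img lc y 0 - 1) - (img lc y 1 - 1) = img lc y 2 - 1 by linarith [img_sum hy],
    ha, (iS_img hx).1, (iS_img hx).2, (iS_img hy).1, (iS_img hy).2, ← ha] at hterm
  have hA : (2 * (img lc y 0 + img lc y 1 + img lc y 2)) *
      (a 0 * log (a 0) + a 1 * log (a 1) + a 2 * log (a 2)) / 18 = ent a := by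
    rw [img_sum hy]; simp only [ent, vlog]; ring
  have hB : (2 * (a 0 + a 1 + a 2)) * (img lc y 0 * log (img lc y 0) +
      img lc y 1 * log (img lc y 1) + img lc y 2 * log (img lc y 2)) / 18 = ent (img lc y) := by
    rw [ha, img_sum hx]; simp only [ent, vlog]; ring
  obtain ⟨x0, x1, x3, -⟩ := inS_facts hx
  obtain ⟨y0, y1, y3, -⟩ := inS_facts hy
  have hc := cert_pos x0 x1 x3 y0 y1 y3
  rw [← cert_eq lc (sq x) (cub x) (sq y) (cub y) lc_sq] at hc
  have hsx : sq (img lc x) = 1 / 2 * sq x := by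
    rw [← lc_sq]; simp only [P154.sq, img]; ring
  have h1 := slack hx
  have h2 := slack hy
  rw [hsx]
  simp only [pot, lc_sq] at hc hterm s1 s2 s3 s4 s5 s6 ⊢
  simp only [← ha] at h1
  linarith

/-- Recover the child from its image. -/
noncomputable def pre (a : Spin → ℝ) : Spin → ℝ := fun i => 1 + (a i - 1) / lc

lemma pre_img (y : Spin → ℝ) : pre (img lc y) = y := by
  funext i
  have : lc ≠ 0 := by have := lc_bounds.1; positivity
  simp only [pre, img]; field_simp; ring

/-- The chain for the binary tree. -/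
theorem chain_bin : Chain lc (1 / 5) 3 2 pot
    (fun k a => if k = 1 then 1 / 2 * pot (pre a) else pot a)
    (fun _ a => ∃ y, InS y ∧ a = img lc y) (fun _ => 9 / 10000) where
  low _ h := pot_low h
  high _ h := pot_high h
  start y hy := ⟨⟨y, hy, rfl⟩, by simp [pre_img, lc_sq]⟩
  closed k hk hk' := absurd hk' (by omega)
  step k hk hk' a y ha hy := by
    obtain rfl : k = 1 := by omega
    obtain ⟨x, hx, rfl⟩ := ha
    simp only [pre_img, if_true, Nat.reduceAdd, OfNat.ofNat_ne_one, if_false]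
    exact join_step hx hy
  top := by funext a; simp
  gain _ := by norm_num
  gain_one := by norm_num

/-- Nonreconstruction on the binary tree at and below the threshold, for `0 ≤ l`. -/
theorem tendsto_tv_binary {l : ℝ} (h0 : 0 ≤ l) (h : 2 * l ^ 2 ≤ 1) :
    Tendsto (fun n => tv l n (regular 2 n)) atTop (nhds 0) := by
  obtain ⟨b1, b2⟩ := lc_bounds
  have hlim := chain_bin.tendsto_tv (by linarith) (by linarith) (by norm_num) (by norm_num)
    (le_refl 2) (by rw [lc_sq]; norm_num)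
  have hc0 : 0 < lc := by linarith
  have hl : l ≤ lc := (pow_le_pow_iff_left₀ h0 hc0.le two_ne_zero).1 (by rw [lc_sq]; linarith)
  refine squeeze_zero (fun n => ?_) (fun n => ?_) hlim
  · rw [tv_eq (by linarith) (by linarith)]
    exact Finset.sum_nonneg fun c _ => by positivity
  · have := tv_mono (l := lc) (m := l / lc) (by linarith) (by linarith) (by positivity)
      ((div_le_one hc0).2 hl) n (regular 2 n)
    rwa [mul_div_cancel₀ _ hc0.ne'] at this

end Vale.Agent.P154.Bin
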