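import Vale.Agent.P154.Shared

/-!
A scalar certificate gives a subadditive potential.
-/

namespace Vale.Agent.P154

/-- The data of a certificate. -/
structure Data where
  /-- Coefficients of the potential. -/
  E : Coef
  /-- Polynomial approximations of the inverse powers of the weight. -/
  p2 : List ℝ
  /-- See `p2`. -/
  p3 : List ℝ
  /-- See `p2`. -/
  p4 : List ℝ
  /-- See `p2`. -/
  p5 : List ℝ
  /-- See `p2`. -/
  p6 : List ℝ
  /-- Approximation errors times derivative bounds. -/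
  c2 : ℝ
  /-- See `c2`. -/
  c3 : ℝ
  /-- See `c2`. -/
  c4 : ℝ
  /-- See `c2`. -/
  c5 : ℝ
  /-- See `c2`. -/
  c6 : ℝ

/-- The averaged polynomial part. -/
noncomputable def Data.avgPart (D : Data) (s t S T : ℝ) : ℝ :=
  ((base2 D.E.e4 1 D.E.e2 D.E.e1 D.E.e3 s t S T).mulPoly s t S T D.p2).avg s t S T
  + ((base3 D.E.e4 D.E.e2 D.E.e1 D.E.e3 s t S T).mulPoly s t S T D.p3).avg s t S T
  + ((base4 D.E.e4 D.E.e2 D.E.e1 D.E.e3 s t S T).mulPoly s t S T D.p4).avg s t S T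
  + ((base5 D.E.e4 D.E.e2 D.E.e3 s t S T).mulPoly s t S T D.p5).avg s t S T
  + ((base6 D.E.e4 D.E.e3 s t S T).mulPoly s t S T D.p6).avg s t S T

/-- The remainder part. -/
def Data.err (D : Data) (r : ℝ) : ℝ :=
  D.c2 * r ^ 2 + D.c3 * r ^ 3 + D.c4 * r ^ 4 + D.c5 * r ^ 5 + D.c6 * r ^ 6

/-- The potential evaluated after joining, times the weight. -/
noncomputable def joined (E : Coef) (a b x y : ℝ) : ℝ :=
  (1 + wM a b x y) * E.val (sI (a + vA a b x y / (1 + wM a b x y)) (b + vB a b x y / (1 + wM a b x y)))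
    (tI (a + vA a b x y / (1 + wM a b x y)) (b + vB a b x y / (1 + wM a b x y)))

/-- Validity of the data on an interval of edge parameters. -/
structure Data.Valid (D : Data) (ε2 ε3 ε4 ε5 ε6 M2 M3 M4 M5 M6 wlo whi : ℝ) : Prop where
  pos : ∀ w, wlo ≤ w → w ≤ whi → 0 < 1 + w
  approx : ∀ w, wlo ≤ w → w ≤ whi →
    |1 / (1 + w) - polyVal w D.p2| ≤ ε2 * w ^ 2 ∧ |1 / (1 + w) ^ 2 - polyVal w D.p3| ≤ ε3 * w ^ 2 ∧
    |1 / (1 + w) ^ 3 - polyVal w D.p4| ≤ ε4 * w ^ 2 ∧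
    |1 / (1 + w) ^ 4 - polyVal w D.p5| ≤ ε5 * w ^ 2 ∧
    |1 / (1 + w) ^ 5 - polyVal w D.p6| ≤ ε6 * w ^ 2
  major : ∀ R g : ℝ, 0 ≤ R → R ≤ 1 → 0 ≤ g → g ≤ 1 + R → g ≤ 2 * (1 - R ^ 2) →
    let A : Coef := ⟨|D.E.e1|, |D.E.e2|, |D.E.e3|, |D.E.e4|⟩
    A.b2 R * g ^ 2 ≤ M2 ∧ A.b3 R * g ^ 3 ≤ M3 ∧ A.b4 R * g ^ 4 ≤ M4 ∧ A.b5 R * g ^ 5 ≤ M5 ∧
    A.b6 * g ^ 6 ≤ M6
  e2 : ε2 * M2 = D.c2
  e3 : ε3 * M3 = D.c3
  e4 : ε4 * M4 = D.c4
  e5 : ε5 * M5 = D.c5
  e6 : ε6 * M6 = D.c6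

lemma joined_le {D : Data} {ε2 ε3 ε4 ε5 ε6 M2 M3 M4 M5 M6 wlo whi : ℝ}
    (hD : D.Valid ε2 ε3 ε4 ε5 ε6 M2 M3 M4 M5 M6 wlo whi) {a b c d r : ℝ}
    (hx : Dom a b) (hr : 0 ≤ r) (hS : sI c d ≤ r ^ 2)
    (hw : wlo ≤ wM a b c d ∧ wM a b c d ≤ whi) :
    let s := sI a b; let t := tI a b; let S := sI c d; let T := tI c d
    let l := lI a b (vA a b c d) (vB a b c d); let t1 := t1I a b (vA a b c d) (vB a b c d)
    let B2 := (base2 D.E.e4 1 D.E.e2 D.E.e1 D.E.e3 s t S T).mulPoly s t S T D.p2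
    let B3 := (base3 D.E.e4 D.E.e2 D.E.e1 D.E.e3 s t S T).mulPoly s t S T D.p3
    let B4 := (base4 D.E.e4 D.E.e2 D.E.e1 D.E.e3 s t S T).mulPoly s t S T D.p4
    let B5 := (base5 D.E.e4 D.E.e2 D.E.e3 s t S T).mulPoly s t S T D.p5
    let B6 := (base6 D.E.e4 D.E.e3 s t S T).mulPoly s t S T D.p6
    let w := wM a b c d; let p := pM a b c d; let R := rM a b c d
    joined D.E a b c d ≤ (1 + w) * D.E.val s t + D.E.d1 s t l t1
      + (B2.ev w p R + B3.ev w p R + B4.ev w p R + B5.ev w p R + B6.ev w p R)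
      + D.err r * w ^ 2 := by
  intro s t S T l t1 B2 B3 B4 B5 B6 w p R
  have hpos := hD.pos w hw.1 hw.2
  obtain ⟨a2, a3, a4, a5, a6⟩ := hD.approx w hw.1 hw.2
  obtain ⟨d2, d3, d4, d5, d6⟩ := deriv_le D.E hx hr hS hD.major
  have H := rels a b c d
  have hl := l_eq a b c d
  have hq := q_eq a b c d
  have h1 := t1_eq a b c d
  have h2 := t2_eq a b c d
  have h3 := t3_eq a b c d
  have e2 := ev_base2 D.E.e4 1 D.E.e2 D.E.e1 D.E.e3 H hl hq h1 h2 h3
  have e3 := ev_base3 D.E.e4 D.E.e2 D.E.e1 D.E.e3 H hl hq h1 h2 h3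
  have e4 := ev_base4 D.E.e4 D.E.e2 D.E.e1 D.E.e3 H hl hq h1 h2 h3
  have e5 := ev_base5 D.E.e4 D.E.e2 D.E.e3 H hl hq h1 h2 h3
  have e6 := ev_base6 D.E.e4 D.E.e3 H hl hq h1 h2 h3
  have f2 : B2.ev w p R = _ := ev_mulPoly H _ D.p2
  have f3 : B3.ev w p R = _ := ev_mulPoly H _ D.p3
  have f4 : B4.ev w p R = _ := ev_mulPoly H _ D.p4
  have f5 : B5.ev w p R = _ := ev_mulPoly H _ D.p5
  have f6 : B6.ev w p R = _ := ev_mulPoly H _ D.p6
  rw [e2] at f2; rw [e3] at f3; rw [e4] at f4; rw [e5] at f5; rw [e6] at f6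
  have w2 := weighted_le a2 d2
  have w3 := weighted_le a3 d3
  have w4 := weighted_le a4 d4
  have w5 := weighted_le a5 d5
  have w6 := weighted_le a6 d6
  rw [joined, sI_add _ _ _ _ _ hpos.ne', tI_add _ _ _ _ _ hpos.ne', val_taylor _ _ _ _ _ _ _ _ _ hpos.ne']
  simp only [Coef.d2, Coef.d3, Coef.d4, Coef.d5, Coef.d6] at w2 w3 w4 w5 w6 ⊢
  simp only [Data.err, ← hD.e2, ← hD.e3, ← hD.e4, ← hD.e5, ← hD.e6]
  rw [f2, f3, f4, f5, f6]
  linarith

lemma orbit_joined_le {D : Data} {ε2 ε3 ε4 ε5 ε6 M2 M3 M4 M5 M6 wlo whi : ℝ}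
    (hD : D.Valid ε2 ε3 ε4 ε5 ε6 M2 M3 M4 M5 M6 wlo whi) {a b z z' l r : ℝ}
    (hx : Dom a b) (hz : Dom z z') (hr : 0 ≤ r) (hS : l ^ 2 * sI z z' ≤ r ^ 2)
    (hl : ∀ x, -1 ≤ x → x ≤ 2 → wlo ≤ l * x ∧ l * x ≤ whi) :
    orbit z z' (fun x y => joined D.E a b (l * x) (l * y))
      ≤ 6 * (D.E.val (sI a b) (tI a b)
        + D.avgPart (sI a b) (tI a b) (l ^ 2 * sI z z') (l ^ 3 * tI z z')
        + 2 * sI a b * (l ^ 2 * sI z z') * D.err r) := by
  have eS : ∀ x y, sI (l * x) (l * y) = l ^ 2 * sI x y := fun x y => by simp only [sI]; ring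
  have eT : ∀ x y, tI (l * x) (l * y) = l ^ 3 * tI x y := fun x y => by simp only [tI]; ring
  have eW : ∀ x y, wM a b (l * x) (l * y) = l * wM a b x y := fun x y => by simp only [wM]; ring
  set c := l * z with hc
  set d := l * z' with hd
  have hflip : orbit z z' (fun x y => joined D.E a b (l * x) (l * y))
      = orbit c d (fun x y => joined D.E a b x y) := by
    simp only [orbit, hc, hd, mul_sub, mul_neg]
  rw [hflip]
  have hdom : ∀ x y, Dom x y → sI x y = sI z z' → tI x y = tI z z' →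
      joined D.E a b (l * x) (l * y) ≤ (fun u v =>
        let s := sI a b; let t := tI a b; let S := sI c d; let T := tI c d
        let B2 := (base2 D.E.e4 1 D.E.e2 D.E.e1 D.E.e3 s t S T).mulPoly s t S T D.p2
        let B3 := (base3 D.E.e4 D.E.e2 D.E.e1 D.E.e3 s t S T).mulPoly s t S T D.p3
        let B4 := (base4 D.E.e4 D.E.e2 D.E.e1 D.E.e3 s t S T).mulPoly s t S T D.p4
        let B5 := (base5 D.E.e4 D.E.e2 D.E.e3 s t S T).mulPoly s t S T D.p5
        let B6 := (base6 D.E.e4 D.E.e3 s t S T).mulPoly s t S T D.p6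
        let w := wM a b u v; let p := pM a b u v; let R := rM a b u v
        (1 + w) * D.E.val s t
          + D.E.d1 s t (lI a b (vA a b u v) (vB a b u v)) (t1I a b (vA a b u v) (vB a b u v))
          + (B2.ev w p R + B3.ev w p R + B4.ev w p R + B5.ev w p R + B6.ev w p R)
          + D.err r * w ^ 2) (l * x) (l * y) := fun x y hxy hs ht => by
    have hp := hx.pairing hxy
    have h := joined_le hD (a := a) (b := b) (c := l * x) (d := l * y) hx hr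
      (by rw [eS, hs]; exact hS) (by rw [eW]; exact hl _ hp.1 hp.2)
    have es : sI (l * x) (l * y) = sI c d := by rw [hc, hd, eS, eS, hs]
    have et : tI (l * x) (l * y) = tI c d := by rw [hc, hd, eT, eT, ht]
    simp only [es, et] at h
    exact h
  obtain ⟨s1, s2, s3, s4, s5⟩ := orbit_sI z z'
  obtain ⟨t1, t2, t3, t4, t5⟩ := orbit_tI z z'
  have q0 := hdom z z' hz rfl rfl
  have q1 := hdom z' (-z - z') ⟨hz.h1, by linarith [hz.h2], by linarith [hz.h0]⟩ s1 t1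
  have q2 := hdom (-z - z') z ⟨by linarith [hz.h2], hz.h0, by linarith [hz.h1]⟩ s2 t2
  have q3 := hdom z' z ⟨hz.h1, hz.h0, by linarith [hz.h2]⟩ s3 t3
  have q4 := hdom z (-z - z') ⟨hz.h0, by linarith [hz.h2], by linarith [hz.h1]⟩ s4 t4
  have q5 := hdom (-z - z') z' ⟨by linarith [hz.h2], hz.h1, by linarith [hz.h0]⟩ s5 t5
  simp only [mul_sub, mul_neg, ← hc, ← hd] at q0 q1 q2 q3 q4 q5
  have g1 := orbit_w1 a b c d
  have g2 := orbit_w2 a b c d
  have gp := orbit_p a b c d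
  have gB := fun K => orbit_ev a b c d K
  simp only [l_eq, t1_eq] at q0 q1 q2 q3 q4 q5
  simp only [orbit] at g1 g2 gp gB ⊢
  rw [← eS, ← eT, ← hc, ← hd]
  simp only [Data.avgPart]
  generalize (base2 D.E.e4 1 D.E.e2 D.E.e1 D.E.e3 _ _ _ _).mulPoly _ _ _ _ D.p2 = B2 at *
  generalize (base3 D.E.e4 D.E.e2 D.E.e1 D.E.e3 _ _ _ _).mulPoly _ _ _ _ D.p3 = B3 at *
  generalize (base4 D.E.e4 D.E.e2 D.E.e1 D.E.e3 _ _ _ _).mulPoly _ _ _ _ D.p4 = B4 at *
  generalize (base5 D.E.e4 D.E.e2 D.E.e3 _ _ _ _).mulPoly _ _ _ _ D.p5 = B5 at *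
  generalize (base6 D.E.e4 D.E.e3 _ _ _ _).mulPoly _ _ _ _ D.p6 = B6 at *
  have b2 := gB B2
  have b3 := gB B3
  have b4 := gB B4
  have b5 := gB B5
  have b6 := gB B6
  clear gB
  simp only [Coef.d1] at q0 q1 q2 q3 q4 q5
  linear_combination q0 + q1 + q2 + q3 + q4 + q5 + b2 + b3 + b4 + b5 + b6
    + (D.E.val (sI a b) (tI a b) + (1 - 2 * sI a b)
      * (1 + 2 * D.E.e1 * sI a b + D.E.e2 * tI a b + 3 * D.E.e3 * sI a b ^ 2)
      + 3 / 2 * (sI a b - 2 * tI a b) * (D.E.e2 * sI a b + 2 * D.E.e4 * tI a b)) * g1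
    + ((1 + 2 * D.E.e1 * sI a b + D.E.e2 * tI a b + 3 * D.E.e3 * sI a b ^ 2)
      + 3 / 2 * (D.E.e2 * sI a b + 2 * D.E.e4 * tI a b)) * gp
    + D.err r * g2

lemma perm_sum (F : Spin → Spin → ℝ) :
    ∑ σ : Equiv.Perm Spin, F (σ 0) (σ 1) = F 0 1 + F 1 2 + F 2 0 + F 1 0 + F 0 2 + F 2 1 := by
  have h : (Finset.univ : Finset (Equiv.Perm Spin)) = {1, Equiv.swap 0 1 * Equiv.swap 1 2,
      Equiv.swap 1 2 * Equiv.swap 0 1, Equiv.swap 0 1, Equiv.swap 1 2, Equiv.swap 0 2} := by decide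
  rw [h, Finset.sum_insert (by decide), Finset.sum_insert (by decide), Finset.sum_insert (by decide),
    Finset.sum_insert (by decide), Finset.sum_insert (by decide), Finset.sum_singleton]
  simp [Equiv.swap_apply_def]
  ring

/-- A certificate gives a potential. -/
theorem pot_of_cert {D : Data} {ε2 ε3 ε4 ε5 ε6 M2 M3 M4 M5 M6 wlo whi : ℝ}
    (hD : D.Valid ε2 ε3 ε4 ε5 ε6 M2 M3 M4 M5 M6 wlo whi) {l c C dl : ℝ}
    (hrange : ∀ x, -1 ≤ x → x ≤ 2 → wlo ≤ l * x ∧ l * x ≤ whi)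
    (hlow : ∀ s t, Inv s t → c * s ≤ D.E.val s t)
    (hhigh : ∀ s t, Inv s t → D.E.val s t ≤ C * s)
    (hfinal : ∀ s t sz tz rz, Inv s t → Inv sz tz → 0 ≤ rz → sz = rz ^ 2 →
      D.avgPart s t (l ^ 2 * sz) (l ^ 3 * tz) + 2 * s * (l ^ 2 * sz) * D.err (|l| * rz)
        + dl * l ^ 2 * s * sz ≤ l ^ 2 * D.E.val sz tz) :
    Pot l c C dl D.E.phi := by
  have hsq : ∀ a, InS a → sq a = sI (a 0 - 1) (a 1 - 1) := fun a ha => by
    have h2 : a 2 - 1 = -(a 0 - 1) - (a 1 - 1) := by linarith [ha.2]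
    rw [sq, h2]; simp only [sI]; ring
  have hdom : ∀ a, InS a → Dom (a 0 - 1) (a 1 - 1) := fun a ha =>
    ⟨by linarith [ha.1 0], by linarith [ha.1 1], by linarith [ha.2, ha.1 2]⟩
  refine ⟨?_, fun a ha => ?_, fun a ha => ?_, fun a y ha hy => ?_⟩
  · simp [Coef.phi, Coef.val, sI, tI]
  · rw [hsq a ha]; exact hlow _ _ (hdom a ha).inv
  · rw [hsq a ha]; exact hhigh _ _ (hdom a ha).inv
  · rw [hsq a ha, hsq y hy]
    set x := a 0 - 1 with hx
    set x' := a 1 - 1 with hx'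
    set z := y 0 - 1 with hz
    set z' := y 1 - 1 with hz'
    have hterm : ∀ σ : Equiv.Perm Spin,
        zw a (fun i => img l y (σ i)) * D.E.phi (comb a fun i => img l y (σ i))
          = joined D.E x x' (l * (y (σ 0) - 1)) (l * (y (σ 1) - 1)) := fun σ => by
      have hs : y (σ 0) + y (σ 1) + y (σ 2) = 3 := by
        have h := Equiv.sum_comp σ y
        rw [Fin.sum_univ_three, Fin.sum_univ_three] at h; linarith [hy.2]
      have h2 : a 2 = 3 - a 0 - a 1 := by linarith [ha.2]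
      have h2' : y (σ 2) = 3 - y (σ 0) - y (σ 1) := by linarith
      have hz1 : zw a (fun i => img l y (σ i))
          = 1 + wM x x' (l * (y (σ 0) - 1)) (l * (y (σ 1) - 1)) := by
        simp only [zw, img, wM, Fin.sum_univ_three, h2, h2', hx, hx']; ring
      have hp : 0 < 1 + wM x x' (l * (y (σ 0) - 1)) (l * (y (σ 1) - 1)) := by
        have hd : Dom (y (σ 0) - 1) (y (σ 1) - 1) :=
          ⟨by linarith [hy.1 (σ 0)], by linarith [hy.1 (σ 1)], by linarith [hy.1 (σ 2)]⟩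
        have hpr := (hdom a ha).pairing hd
        have he : wM x x' (l * (y (σ 0) - 1)) (l * (y (σ 1) - 1))
            = l * wM x x' (y (σ 0) - 1) (y (σ 1) - 1) := by simp only [wM]; ring
        rw [he]; exact hD.pos _ (hrange _ hpr.1 hpr.2).1 (hrange _ hpr.1 hpr.2).2
      have hc : ∀ i, comb a (fun i => img l y (σ i)) i - 1
          = (a i - 1) + (1 + (a i - 1)) * (l * (y (σ i) - 1)
            - wM x x' (l * (y (σ 0) - 1)) (l * (y (σ 1) - 1)))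
            / (1 + wM x x' (l * (y (σ 0) - 1)) (l * (y (σ 1) - 1))) := fun i => by
        show a i * img l y (σ i) / zw a (fun i => img l y (σ i)) - 1 = _
        rw [hz1, img]; field_simp; ring
      rw [Coef.phi, hc 0, hc 1, hz1]
      rfl
    rw [Finset.sum_congr rfl fun σ _ => hterm σ,
      perm_sum fun i j => joined D.E x x' (l * (y i - 1)) (l * (y j - 1))]
    have h2 : y 2 - 1 = -z - z' := by linarith [hy.2]
    rw [h2, ← hz, ← hz']
    have hrz : 0 ≤ |l| * Real.sqrt (sI z z') := by positivity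
    have h := orbit_joined_le hD (hdom a ha) (hdom y hy) (l := l) hrz
      (by rw [mul_pow, sq_abs, Real.sq_sqrt (sI_nonneg _ _)]) hrange
    have hf := hfinal _ _ _ _ _ (hdom a ha).inv (hdom y hy).inv (Real.sqrt_nonneg _)
      (Real.sq_sqrt (sI_nonneg z z')).symm
    simp only [orbit] at h
    have e1 : D.E.phi a = D.E.val (sI x x') (tI x x') := rfl
    have e2 : D.E.phi y = D.E.val (sI z z') (tI z z') := rfl
    rw [e1, e2]
    linarith

end Vale.Agent.P154
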