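import Vale.Agent.P154.D3NegAlg

/-!
Three children per vertex, `-1/2 ≤ l ≤ 0`: the expectation of `sq + e sq²` contracts at every
level already for proper colourings (`l = -1/2`).
-/

open scoped BigOperators
open Filter

namespace Vale.Agent.P154.D3Neg

open Bin

/-- The potential. -/
noncomputable def phi (a : Spin → ℝ) : ℝ := sq a + e * sq a ^ 2

/-- The potential after two joins. -/
noncomputable def psi (a : Spin → ℝ) : ℝ := g * sq a + h * sq a ^ 2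

/-- The potential of a channelled child, as a function of its posterior. -/
noncomputable def chi (a : Spin → ℝ) : ℝ := w * (4 * sq a + e * (16 * sq a ^ 2))

lemma chi_img (x : Spin → ℝ) : chi (img (-1 / 2) x) = w * phi x := by
  simp only [chi, phi, P154.sq, img]; ring

lemma img_inS {x : Spin → ℝ} (hx : InS x) : InS (img (-1 / 2) x) := by
  refine ⟨fun i => ?_, by simp only [img]; linarith [hx.2]⟩
  simp only [img]
  have := hx.2; have := hx.1 0; have := hx.1 1; have := hx.1 2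
  fin_cases i <;> simp <;> linarith

lemma pairing {a b : Spin → ℝ} (ha : InS a) (hb : InS b) :
    0 ≤ (a 0 * b 0 + a 1 * b 1 + a 2 * b 2) / 3 ∧ (a 0 * b 0 + a 1 * b 1 + a 2 * b 2) / 3 ≤ 3 := by
  constructor
  · have := mul_nonneg (ha.1 0) (hb.1 0); have := mul_nonneg (ha.1 1) (hb.1 1)
    have := mul_nonneg (ha.1 2) (hb.1 2); linarith
  · have : (a 0 + a 1 + a 2) * (b 0 + b 1 + b 2) = 9 := by rw [ha.2, hb.2]; norm_num
    nlinarith [mul_nonneg (ha.1 0) (hb.1 1), mul_nonneg (ha.1 0) (hb.1 2),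
      mul_nonneg (ha.1 1) (hb.1 0), mul_nonneg (ha.1 1) (hb.1 2),
      mul_nonneg (ha.1 2) (hb.1 0), mul_nonneg (ha.1 2) (hb.1 1)]

/-- The excess weight, both numerators and their relation to the joined posterior. -/
lemma num_facts {a b : Spin → ℝ} (ha : InS a) (hb : InS b) :
    let z := zf (a 0 - 1) (a 1 - 1) (b 0 - 1) (b 1 - 1) (b 2 - 1)
    let N := nS (a 0 - 1) (a 1 - 1) (b 0 - 1) (b 1 - 1) (b 2 - 1)
    zw a b = 1 + z ∧ 0 ≤ N ∧
      (zw a b = 0 → N = 0) ∧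
      (zw a b ≠ 0 → 0 < zw a b ∧ sq (comb a b) = N / zw a b ^ 2 ∧ N ≤ zw a b ^ 2) := by
  intro z N
  set Z := zw a b with hZ
  have hZe : Z = (a 0 * b 0 + a 1 * b 1 + a 2 * b 2) / 3 := by
    rw [hZ, zw, Fin.sum_univ_three]
  have ea2 : a 2 = 3 - a 0 - a 1 := by linarith [ha.2]
  have eb2 : b 2 = 3 - b 0 - b 1 := by linarith [hb.2]
  have ez : Z = 1 + z := by simp only [z]; rw [hZe, zf, ea2, eb2]; ring
  have m0 := mul_nonneg (ha.1 0) (hb.1 0)
  have m1 := mul_nonneg (ha.1 1) (hb.1 1)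
  have m2 := mul_nonneg (ha.1 2) (hb.1 2)
  have eN : N = ((a 0 * b 0 - Z) ^ 2 + (a 1 * b 1 - Z) ^ 2 + (a 2 * b 2 - Z) ^ 2) / 6 := by
    simp only [N, nS]
    rw [show zf (a 0 - 1) (a 1 - 1) (b 0 - 1) (b 1 - 1) (b 2 - 1) = Z - 1 by linarith [ez]]
    rw [ea2, eb2]; ring
  refine ⟨ez, by rw [eN]; positivity, fun h0 => ?_, fun hne => ?_⟩
  · rw [hZe] at h0
    have a0 : a 0 * b 0 = 0 := by linarith
    have a1 : a 1 * b 1 = 0 := by linarith
    have a2 : a 2 * b 2 = 0 := by linarith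
    rw [eN, hZe, a0, a1, a2]; norm_num
  · have hpos : 0 < Z := lt_of_le_of_ne (by rw [hZe]; linarith) (Ne.symm hne)
    have hc : InS (comb a b) := by
      refine ⟨fun i => div_nonneg (mul_nonneg (ha.1 i) (hb.1 i)) hpos.le, ?_⟩
      simp only [comb, ← hZ]
      rw [← add_div, ← add_div, div_eq_iff hpos.ne', hZe]
      ring
    have hs : sq (comb a b) = N / Z ^ 2 := by
      rw [eN]
      simp only [P154.sq, comb, ← hZ]
      field_simp
    refine ⟨hpos, hs, ?_⟩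
    have := (inS_facts hc).2.1
    rwa [hs, div_le_one (by positivity)] at this

/-- One term of the first join. -/
lemma term1_le {x b : Spin → ℝ} (hx : InS x) (hb : InS b) :
    zw (img (-1 / 2) x) (img (-1 / 2) b) * psi (comb (img (-1 / 2) x) (img (-1 / 2) b)) ≤
      term1 (img (-1 / 2) x 0 - 1) (img (-1 / 2) x 1 - 1) (img (-1 / 2) b 0 - 1)
        (img (-1 / 2) b 1 - 1) (img (-1 / 2) b 2 - 1) := by
  obtain ⟨ez, hN, -, hf⟩ := num_facts (img_inS hx) (img_inS hb)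
  have hr : 3 / 4 ≤ zw (img (-1 / 2) x) (img (-1 / 2) b) ∧
      zw (img (-1 / 2) x) (img (-1 / 2) b) ≤ 3 / 2 := by
    obtain ⟨h0, h3⟩ := pairing hx hb
    have e' : zw (img (-1 / 2) x) (img (-1 / 2) b) =
        1 + 1 / 4 * ((x 0 * b 0 + x 1 * b 1 + x 2 * b 2) / 3 - 1) := by
      simp only [zw, img, Fin.sum_univ_three]
      linear_combination (-1 / 4 : ℝ) * (hx.2 + hb.2)
    rw [e']; constructor <;> linarith
  obtain ⟨hpos, hs, -⟩ := hf (by linarith [hr.1])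
  set Z := zw (img (-1 / 2) x) (img (-1 / 2) b)
  simp only [term1]
  generalize zf (img (-1 / 2) x 0 - 1) _ _ _ _ = z at ez ⊢
  generalize nS (img (-1 / 2) x 0 - 1) _ _ _ _ = N at hN hs ⊢
  have hE := mul_nonneg (sq_nonneg z) (WE_nonneg z (by linarith) (by linarith))
  have hH := mul_nonneg (sq_nonneg z) (WH_nonneg z (by linarith) (by linarith))
  have h1 : g ≤ Kit.pv pE z * Z := by
    rw [ez]; simp only [pE, g, Kit.pv] at hE ⊢; linear_combination hE
  have h2 : h ≤ Kit.pv pH z * Z ^ 3 := by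
    rw [ez]; simp only [pH, h, Kit.pv] at hH ⊢; linear_combination hH
  have e1 : Z * psi (comb (img (-1 / 2) x) (img (-1 / 2) b)) = g * N / Z + h * N ^ 2 / Z ^ 3 := by
    rw [psi, hs]; field_simp
  rw [e1]
  refine add_le_add ?_ ?_
  · rw [div_le_iff₀ hpos]
    calc g * N ≤ Kit.pv pE z * Z * N := mul_le_mul_of_nonneg_right h1 hN
      _ = _ := by ring
  · rw [div_le_iff₀ (by positivity)]
    calc h * N ^ 2 ≤ Kit.pv pH z * Z ^ 3 * N ^ 2 := mul_le_mul_of_nonneg_right h2 (sq_nonneg N)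
      _ = _ := by ring

/-- One term of the second join. -/
lemma term2_le {a b : Spin → ℝ} (ha : InS a) (hb : InS b) :
    zw a (img (-1 / 2) b) * phi (comb a (img (-1 / 2) b)) ≤
      term2 (a 0 - 1) (a 1 - 1) (img (-1 / 2) b 0 - 1) (img (-1 / 2) b 1 - 1)
        (img (-1 / 2) b 2 - 1) := by
  obtain ⟨ez, hN, hzero, hf⟩ := num_facts ha (img_inS hb)
  have hr : zw a (img (-1 / 2) b) ≤ 3 / 2 := by
    obtain ⟨h0, -⟩ := pairing ha hb
    have e' : zw a (img (-1 / 2) b) =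
        1 - 1 / 2 * ((a 0 * b 0 + a 1 * b 1 + a 2 * b 2) / 3 - 1) := by
      simp only [zw, img, Fin.sum_univ_three]
      linear_combination (1 / 2 : ℝ) * ha.2
    rw [e']; linarith
  set Z := zw a (img (-1 / 2) b)
  simp only [term2]
  generalize zf (a 0 - 1) _ _ _ _ = z at ez ⊢
  generalize nS (a 0 - 1) _ _ _ _ = N at hN hzero hf ⊢
  rw [← ez]
  by_cases h0 : Z = 0
  · rw [h0, hzero h0]; simp
  obtain ⟨hpos, hs, hle⟩ := hf h0
  have hz : z ≤ 1 / 2 := by linarith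
  have hz4 : 0 ≤ z ^ 4 := by positivity
  have hq1 : 0 ≤ Kit.pv q1 z := by simp only [q1, Kit.pv]; linarith
  have hq3 : 0 ≤ Kit.pv q3 z := by simp only [q3, Kit.pv]; linarith
  have h1 : Kit.pv p1 z * Z + z ^ 4 * Kit.pv q1 z = 1 := by
    rw [ez]; simp only [p1, q1, Kit.pv]; ring
  have hW := mul_nonneg (sq_nonneg z) (W3_nonneg z (by linarith) (by linarith))
  have h3 : e ≤ Kit.pv p3 z * Z ^ 3 + z ^ 4 * Kit.pv q3 z := by
    rw [ez]; simp only [p3, q3, e, Kit.pv] at hW ⊢; linear_combination hW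
  have e1 : Z * phi (comb a (img (-1 / 2) b)) = N / Z + e * N ^ 2 / Z ^ 3 := by
    rw [phi, hs]; field_simp
  have i1 : N / Z ≤ N * Kit.pv p1 z + Z * (z ^ 4 * Kit.pv q1 z) := by
    rw [div_le_iff₀ hpos]
    have := mul_le_mul_of_nonneg_right hle (mul_nonneg hz4 hq1)
    linear_combination this - N * h1
  have i3 : e * N ^ 2 / Z ^ 3 ≤ N ^ 2 * Kit.pv p3 z + Z * (z ^ 4 * Kit.pv q3 z) := by
    rw [div_le_iff₀ (by positivity)]
    have := mul_le_mul_of_nonneg_right (pow_le_pow_left₀ hN hle 2) (mul_nonneg hz4 hq3)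
    have := mul_le_mul_of_nonneg_right h3 (sq_nonneg N)
    linarith
  rw [e1]
  linarith

lemma chart_parts {a : Spin → ℝ} (ha : InS a) :
    (∃ r b, 0 ≤ r ∧ r ≤ 1 ∧ 0 ≤ b ∧ b ≤ 1 ∧
      sq a = ((1 + r) / 2) ^ 2 ∧ cub a =
        (1 - b) * ((3 * ((1 + r) / 2) ^ 2 - 1) / 2) + b * ((1 + r) / 2) ^ 3) ∨
    (∃ r b, 0 ≤ r ∧ r ≤ 1 ∧ 0 ≤ b ∧ b ≤ 1 ∧
      sq a = (r / 2) ^ 2 ∧ cub a = (r / 2) ^ 3 * (2 * b - 1) ∧ sq a ≤ 1 / 4) := by
  obtain ⟨h0, h1, h2, -, e1, e3⟩ := inS_facts ha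
  obtain ⟨ρ, hρ, hρ2⟩ : ∃ ρ, 0 ≤ ρ ∧ sq a = ρ ^ 2 :=
    ⟨√(sq a), Real.sqrt_nonneg _, (Real.sq_sqrt h0).symm⟩
  rw [hρ2] at h1 h2
  have hρ1 : ρ ≤ 1 := (sq_le_one_iff₀ hρ).1 h1
  have hb : |cub a| ≤ ρ ^ 3 :=
    abs_le_of_sq_le_sq (by linarith [h2]) (pow_nonneg hρ 3)
  obtain ⟨b1, b2⟩ := abs_le.1 hb
  rcases le_total (1 / 2) ρ with hc | hc
  · left
    have hlow : (3 * ρ ^ 2 - 1) / 2 ≤ cub a := by
      have hp := mul_nonneg (mul_nonneg (ha.1 0) (ha.1 1)) (ha.1 2)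
      have e2 : a 2 = 3 - a 0 - a 1 := by linarith [ha.2]
      have : a 0 * a 1 * a 2 = 2 * cub a - 3 * sq a + 1 := by
        simp only [P154.sq, cub]; rw [e2]; ring
      rw [hρ2] at this
      linarith
    refine ⟨2 * ρ - 1, ?_⟩
    have er : (1 + (2 * ρ - 1)) / 2 = ρ := by ring
    rw [er]
    rcases eq_or_lt_of_le (hlow.trans b2) with he | hlt
    · refine ⟨0, by linarith, by linarith, le_rfl, zero_le_one, hρ2, ?_⟩
      simp; linarith
    · set L := (3 * ρ ^ 2 - 1) / 2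
      have hd : 0 < ρ ^ 3 - L := by linarith
      refine ⟨(cub a - L) / (ρ ^ 3 - L), by linarith, by linarith, by positivity,
        (div_le_one hd).2 (by linarith), hρ2, ?_⟩
      have := hd.ne'
      field_simp; ring
  · right
    refine ⟨2 * ρ, ?_⟩
    have er : 2 * ρ / 2 = ρ := by ring
    rw [er]
    have hq : sq a ≤ 1 / 4 := by rw [hρ2]; nlinarith
    rcases eq_or_lt_of_le (pow_nonneg hρ 3) with he | hlt
    · refine ⟨0, by linarith, by linarith, le_rfl, zero_le_one, hρ2, ?_, hq⟩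
      rw [← he]; linarith
    · have hne : ρ ≠ 0 := fun h => by simp [h] at hlt
      refine ⟨(cub a / ρ ^ 3 + 1) / 2, by linarith, by linarith, ?_, ?_, hρ2, ?_, hq⟩
      · have := (le_div_iff₀ hlt).2 (by linarith : (-1 : ℝ) * ρ ^ 3 ≤ cub a); linarith
      · have := (div_le_one hlt).2 b2; linarith
      · field_simp; ring

lemma chart_pair {M : ℝ → ℝ → ℝ → ℝ → ℝ}
    (hM : ∀ w t r s, 0 ≤ w → w ≤ 1 → 0 ≤ t → t ≤ 1 → 0 ≤ r → r ≤ 1 → 0 ≤ s → s ≤ 1 →
      0 ≤ M ((w / 2) ^ 2) ((w / 2) ^ 3 * (2 * t - 1)) (r ^ 2 * (w / 2) ^ 2)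
        (r ^ 3 * (w / 2) ^ 3 * (2 * s - 1)))
    {S T S2 T2 r1 r2 b1 b2 : ℝ} (a0 : 0 ≤ r1) (a1 : r1 ≤ 1) (c0 : 0 ≤ b1) (c1 : b1 ≤ 1)
    (p0 : 0 ≤ r2) (d0 : 0 ≤ b2) (d1 : b2 ≤ 1) (hle : r2 ≤ r1)
    (eS : S = (r1 / 2) ^ 2) (eT : T = (r1 / 2) ^ 3 * (2 * b1 - 1))
    (eS2 : S2 = (r2 / 2) ^ 2) (eT2 : T2 = (r2 / 2) ^ 3 * (2 * b2 - 1)) : 0 ≤ M S T S2 T2 := by
  subst eS eT eS2 eT2
  rcases eq_or_lt_of_le a0 with rfl | hr
  · obtain rfl : r2 = 0 := le_antisymm hle p0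
    simpa using hM 0 b1 0 b2 le_rfl zero_le_one c0 c1 le_rfl zero_le_one d0 d1
  · have hh := hM r1 b1 (r2 / r1) b2 a0 a1 c0 c1 (by positivity) ((div_le_one hr).2 hle) d0 d1
    have e2 : r2 / r1 * (r1 / 2) = r2 / 2 := by field_simp
    rwa [← mul_pow, ← mul_pow, e2] at hh

lemma cert2_nonneg {a y : Spin → ℝ} (ha : InS a) (hy : InS y) :
    0 ≤ cert2 (sq a) (cub a) (sq y) (cub y) := by
  rcases chart_parts ha with ⟨r1, b1, a0, a1, c0, c1, eS, eT⟩ | ⟨r1, b1, a0, a1, c0, c1, eS, eT, -⟩ <;>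
    rcases chart_parts hy with ⟨r2, b2, p0, p1, d0, d1, fS, fT⟩ | ⟨r2, b2, p0, p1, d0, d1, fS, fT, -⟩
  · rw [eS, eT, fS, fT]; exact chart2aLL_nonneg r1 b1 r2 b2 a0 a1 c0 c1 p0 p1 d0 d1
  · rw [eS, eT, fS, fT]; exact chart2aLS_nonneg r1 b1 r2 b2 a0 a1 c0 c1 p0 p1 d0 d1
  · rw [eS, eT, fS, fT]; exact chart2aSL_nonneg r1 b1 r2 b2 a0 a1 c0 c1 p0 p1 d0 d1
  · rcases le_total r2 r1 with hle | hle
    · exact chart_pair chart2aSS_nonneg a0 a1 c0 c1 p0 d0 d1 hle eS eT fS fT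
    · exact chart_pair (M := fun S T S2 T2 => cert2 S2 T2 S T) chart2bSS_nonneg p0 p1 d0 d1 a0 c0 c1
        hle fS fT eS eT

lemma cert1_nonneg {a y : Spin → ℝ} (ha : InS a) (hy : InS y) :
    0 ≤ cert1 (sq a) (cub a) (sq y) (cub y) := by
  obtain ⟨a0, a1, a3, -⟩ := inS_facts ha
  obtain ⟨y0, y1, y3, -⟩ := inS_facts hy
  rcases le_total (sq y) (sq a) with h | h
  · exact Kit.chart_nonneg chart1aCC_nonneg a0 a1 a3 y0 y3 h
  · exact Kit.chart_nonneg (M := fun S T S2 T2 => cert1 S2 T2 S T) chart1bCC_nonneg y0 y1 y3 a0 a3 h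

lemma img_inv {x : Spin → ℝ} (hx : InS x) :
    iS (img (-1 / 2) x 0 - 1) (img (-1 / 2) x 1 - 1) = (1 / 4 : ℝ) * sq x ∧
      iT (img (-1 / 2) x 0 - 1) (img (-1 / 2) x 1 - 1) = (-1 / 8 : ℝ) * cub x ∧
      -(img (-1 / 2) x 0 - 1) - (img (-1 / 2) x 1 - 1) = img (-1 / 2) x 2 - 1 := by
  obtain ⟨-, -, -, -, e1, e3⟩ := inS_facts hx
  refine ⟨?_, ?_, ?_⟩
  · rw [e1]; simp only [img, iS]; ring
  · rw [e3]; simp only [img, iT]; ring
  · simp only [img]; linarith [hx.2]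

lemma fun_img (y : Spin → ℝ) (σ : Equiv.Perm Spin) :
    (fun i => img (-1 / 2) y (σ i)) = img (-1 / 2) ![y (σ 0), y (σ 1), y (σ 2)] := by
  funext i; fin_cases i <;> rfl

/-- The first join. -/
theorem step1 {x y : Spin → ℝ} (hx : InS x) (hy : InS y) :
    (1 / 6 : ℝ) * ∑ σ : Equiv.Perm Spin, zw (img (-1 / 2) x) (fun i => img (-1 / 2) y (σ i)) *
        psi (comb (img (-1 / 2) x) (fun i => img (-1 / 2) y (σ i)))
      ≤ chi (img (-1 / 2) x) + (-1 / 2 : ℝ) ^ 2 * (4 * w * phi y)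
        - 0 * sq (img (-1 / 2) x) * sq y := by
  simp only [fun_img]
  rw [sum_perm_spin (fun i j k => zw (img (-1 / 2) x) (img (-1 / 2) ![y i, y j, y k]) *
    psi (comb (img (-1 / 2) x) (img (-1 / 2) ![y i, y j, y k])))]
  have t : ∀ i j k : Spin, y i + y j + y k = 3 →
      zw (img (-1 / 2) x) (img (-1 / 2) ![y i, y j, y k]) *
        psi (comb (img (-1 / 2) x) (img (-1 / 2) ![y i, y j, y k])) ≤
      term1 (img (-1 / 2) x 0 - 1) (img (-1 / 2) x 1 - 1) (img (-1 / 2) y i - 1)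
        (img (-1 / 2) y j - 1) (img (-1 / 2) y k - 1) := fun i j k hs => by
    have := term1_le hx (inS_perm hy hs)
    simpa [img] using this
  have hy3 := hy.2
  have s1 := t 0 1 2 (by linarith); have s2 := t 0 2 1 (by linarith)
  have s3 := t 1 0 2 (by linarith); have s4 := t 1 2 0 (by linarith)
  have s5 := t 2 0 1 (by linarith); have s6 := t 2 1 0 (by linarith)
  obtain ⟨x1, x2, -⟩ := img_inv hx
  obtain ⟨y1, y2, y3⟩ := img_inv hy
  have hT := avg_U1 (img (-1 / 2) x 0 - 1) (img (-1 / 2) x 1 - 1) (img (-1 / 2) y 0 - 1)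
    (img (-1 / 2) y 1 - 1)
  simp only [avg6] at hT
  rw [x1, x2, y1, y2, y3] at hT
  have hc := cert1_nonneg hx hy
  rw [cert1_eq] at hc
  rw [chi_img]
  simp only [phi]
  linarith

/-- The second join. -/
theorem step2 {a y : Spin → ℝ} (ha : InS a) (hy : InS y) :
    (1 / 6 : ℝ) * ∑ σ : Equiv.Perm Spin, zw a (fun i => img (-1 / 2) y (σ i)) *
        phi (comb a (fun i => img (-1 / 2) y (σ i)))
      ≤ psi a + (-1 / 2 : ℝ) ^ 2 * (4 * w * phi y) - 0 * sq a * sq y := by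
  simp only [fun_img]
  rw [sum_perm_spin (fun i j k => zw a (img (-1 / 2) ![y i, y j, y k]) *
    phi (comb a (img (-1 / 2) ![y i, y j, y k])))]
  have t : ∀ i j k : Spin, y i + y j + y k = 3 →
      zw a (img (-1 / 2) ![y i, y j, y k]) * phi (comb a (img (-1 / 2) ![y i, y j, y k])) ≤
      term2 (a 0 - 1) (a 1 - 1) (img (-1 / 2) y i - 1)
        (img (-1 / 2) y j - 1) (img (-1 / 2) y k - 1) := fun i j k hs => by
    have := term2_le ha (inS_perm hy hs)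
    simpa [img] using this
  have hy3 := hy.2
  have s1 := t 0 1 2 (by linarith); have s2 := t 0 2 1 (by linarith)
  have s3 := t 1 0 2 (by linarith); have s4 := t 1 2 0 (by linarith)
  have s5 := t 2 0 1 (by linarith); have s6 := t 2 1 0 (by linarith)
  obtain ⟨-, -, -, -, a1, a2⟩ := inS_facts ha
  obtain ⟨y1, y2, y3⟩ := img_inv hy
  have hT := avg_U2 (a 0 - 1) (a 1 - 1) (img (-1 / 2) y 0 - 1) (img (-1 / 2) y 1 - 1)
  simp only [avg6] at hT
  rw [← a1, ← a2, y1, y2, y3] at hT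
  have hc := cert2_nonneg ha hy
  rw [cert2_eq] at hc
  simp only [phi, psi] at s1 s2 s3 s4 s5 s6 ⊢
  linarith

lemma expect_smul {α : Type} [Fintype α] (c : ℝ) (F : (Spin → ℝ) → ℝ) (f : α → Spin → ℝ) :
    expect (fun a => c * F a) f = c * expect F f := by
  simp only [expect, Finset.mul_sum]; exact Finset.sum_congr rfl fun _ _ => by ring

/-- Three children. -/
lemma three_kids_le {κ : Type} [Fintype κ] {f : κ → Spin → ℝ} (hf : Fam f) :
    expect phi (kids (-1 / 2) fun _ : Fin 3 => f) ≤ 999 / 1000 * expect phi f := by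
  have hl : -(1 / 2) ≤ (-1 / 2 : ℝ) := by norm_num
  have hu : (-1 / 2 : ℝ) ≤ 1 := by norm_num
  have hF1 : Fam (kids (-1 / 2) fun _ : Fin 1 => f) :=
    Fam.kids hl hu (ι := fun _ : Fin 1 => κ) fun _ => hf
  have hF2 : Fam (kids (-1 / 2) fun _ : Fin 2 => f) :=
    Fam.kids hl hu (ι := fun _ : Fin 2 => κ) fun _ => hf
  have j1 := expect_join_le_on (D := fun a => ∃ x, InS x ∧ a = img (-1 / 2) x)
    (χ := chi) (ψ := psi) (φ := fun a => 4 * w * phi a) (δ := 0) hF1 hf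
    (fun c hc => ⟨_, post_inS (hf.nonneg (c 0)), (post_kids_one (l := -1 / 2) hf c).2
      ((post_kids_one (l := -1 / 2) hf c).1 ▸ hc)⟩)
    (fun a y ⟨x, hx, e'⟩ hy => by subst e'; exact step1 hx hy)
  have j2 := expect_join_le_on (D := InS)
    (χ := psi) (ψ := phi) (φ := fun a => 4 * w * phi a) (δ := 0) hF2 hf
    (fun c _ => post_inS (hF2.nonneg c)) (fun a y ha hy => step2 ha hy)
  have s1 := kids_split (l := (-1 / 2 : ℝ)) (ι := fun _ : Fin 2 => κ) fun _ => f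
  have s2 := kids_split (l := (-1 / 2 : ℝ)) (ι := fun _ : Fin 3 => κ) fun _ => f
  rw [← s1, expect_reindex (splitFirst fun _ : Fin 2 => κ)] at j1
  rw [← s2, expect_reindex (splitFirst fun _ : Fin 3 => κ)] at j2
  have h1 : expect chi (kids (-1 / 2) fun _ : Fin 1 => f) = w * expect phi f := by
    simp only [expect, Finset.mul_sum]
    rw [← Equiv.sum_comp (Equiv.funUnique (Fin 1) κ).symm]
    refine Finset.sum_congr rfl fun j _ => ?_
    obtain ⟨hw, hp⟩ := post_kids_one (l := (-1 / 2 : ℝ)) hf ((Equiv.funUnique (Fin 1) κ).symm j)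
    simp only [Equiv.funUnique_symm_apply, uniqueElim_const] at hw hp ⊢
    rw [hw]
    by_cases h0 : wt (f j) = 0
    · simp [h0]
    rw [hp h0, chi_img]
    ring
  rw [expect_smul] at j1 j2
  simp only [zero_mul, sub_zero] at j1 j2
  rw [h1] at j1
  rw [show (999 / 1000 : ℝ) = 3 * w by norm_num [w]]
  linarith

/-- Nonreconstruction with three children per vertex for `-1/2 ≤ l ≤ 0`. -/
theorem tendsto_tv_three_neg {l : ℝ} (h0 : -(1 / 2) ≤ l) (hl0 : l ≤ 0) :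
    Tendsto (fun n => tv l n (regular 3 n)) atTop (nhds 0) := by
  have hl : -(1 / 2) ≤ (-1 / 2 : ℝ) := by norm_num
  have hu : (-1 / 2 : ℝ) ≤ 1 := by norm_num
  set X : ℕ → ℝ := fun n => expect phi (lik (-1 / 2) n (regular 3 n)) with hX
  set S : ℕ → ℝ := fun n => expect sq (lik (-1 / 2) n (regular 3 n)) with hS
  have hrec : ∀ n, X (n + 1) ≤ 999 / 1000 * X n := fun n =>
    three_kids_le (fam_lik hl hu n (regular 3 n))
  have hS0 : ∀ n, 0 ≤ S n := fun n => expect_sq_nonneg (fam_lik hl hu n _)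
  have hSX : ∀ n, S n ≤ X n := fun n => by
    simp only [hS, hX, expect]
    refine Finset.sum_le_sum fun j _ => mul_le_mul_of_nonneg_left ?_
      (wt_nonneg ((fam_lik hl hu n _).nonneg j))
    simp only [phi, e]
    nlinarith [sq_nonneg (sq (post (lik (-1 / 2) n (regular 3 n) j)))]
  have hgeo : ∀ n, X n ≤ (999 / 1000) ^ n * X 0 := fun n => by
    induction n with
    | zero => simp
    | succ n ih => rw [pow_succ]; nlinarith [hrec n]
  have hSlim : Tendsto S atTop (nhds 0) := squeeze_zero hS0 (fun n => (hSX n).trans (hgeo n))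
    (by simpa using (tendsto_pow_atTop_nhds_zero_of_lt_one (by norm_num : (0 : ℝ) ≤ 999 / 1000)
      (by norm_num)).mul_const (X 0))
  rw [Metric.tendsto_atTop] at hSlim ⊢
  intro ε hε
  obtain ⟨N, hN⟩ := hSlim (ε / 3 * (ε / 3)) (by positivity)
  refine ⟨N, fun n hn => ?_⟩
  have h1 := tv_le hl hu n (regular 3 n) (by positivity : 0 < ε / 3)
  have h2 := hN n hn
  rw [Real.dist_eq, sub_zero, abs_of_nonneg (hS0 n)] at h2
  have h3 : S n / (ε / 3) < ε / 3 := by rw [div_lt_iff₀ (by positivity)]; exact h2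
  have hm := tv_mono (l := (-1 / 2 : ℝ)) (m := -2 * l) hl hu (by linarith) (by linarith) n
    (regular 3 n)
  rw [show (-1 / 2 : ℝ) * (-2 * l) = l by ring] at hm
  have h4 : 0 ≤ tv l n (regular 3 n) := by
    rw [tv_eq h0 (by linarith)]; exact Finset.sum_nonneg fun c _ => by positivity
  rw [Real.dist_eq, sub_zero, abs_of_nonneg h4]
  have hSn : S n = expect sq (lik (-1 / 2) n (regular 3 n)) := rfl
  rw [← hSn] at h1
  linarith

end Vale.Agent.P154.D3Neg
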