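import Vale.Agent.P154.D3NegChartA
import Vale.Agent.P154.D3NegChartB
import Vale.Agent.P154.D3NegChartC
import Vale.Agent.P154.D3NegChartD

/-!
Coefficients and polynomial checks for proper three-colourings of the tree with three children:
the modules `D3NegPoly`, `D3NegCertA`, `D3NegCertB` and `D3NegChartA` to `D3NegChartD`.
-/
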