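import Vale.Agent.P154.D3NegPoly

/-!
The first certificate polynomial for three children.
-/

namespace Vale.Agent.P154.D3Neg

open Bin

set_option maxHeartbeats 1600000 in
/-- The polynomial to be nonnegative, step 1. -/
noncomputable def cert1 (S T S2 T2 : ℝ) : ℝ :=
  ((94690809:ℝ)/2000000000) * (S2^2)
    + ((-1701906257:ℝ)/32000000000) * (T*T2)
    + ((-177507:ℝ)/1600000) * (T*S2)
    + ((1476285847:ℝ)/64000000000) * (T*S2*T2)
    + ((4138791257:ℝ)/64000000000) * (T*S2^2)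
    + ((-1151469907:ℝ)/512000000000) * (T*S2^2*T2)
    + ((-304109961:ℝ)/32000000000) * (T*S2^3)
    + ((1151469907:ℝ)/256000000000) * (T^2*S2*T2)
    + ((304109961:ℝ)/64000000000) * (T^2*S2^2)
    + ((-1151469907:ℝ)/512000000000) * (T^2*S2^3)
    + ((-177507:ℝ)/1600000) * (S*T2)
    + ((110907:ℝ)/800000) * (S*S2)
    + ((132921:ℝ)/6400000) * (S*S2*T2)
    + ((-2366511257:ℝ)/32000000000) * (S*S2^2)
    + ((304109961:ℝ)/32000000000) * (S*S2^3)
    + ((1476285847:ℝ)/64000000000) * (S*T*T2)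
    + ((1151469907:ℝ)/256000000000) * (S*T*T2^2)
    + ((132921:ℝ)/6400000) * (S*T*S2)
    + ((2855526409:ℝ)/512000000000) * (S*T*S2*T2)
    + ((-1195519977:ℝ)/25600000000) * (S*T*S2^2)
    + ((-8060289349:ℝ)/2048000000000) * (S*T*S2^2*T2)
    + ((2846189799:ℝ)/256000000000) * (S*T*S2^3)
    + ((94690809:ℝ)/2000000000) * (S^2)
    + ((4138791257:ℝ)/64000000000) * (S^2*T2)
    + ((304109961:ℝ)/64000000000) * (S^2*T2^2)
    + ((-2366511257:ℝ)/32000000000) * (S^2*S2)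
    + ((-1195519977:ℝ)/25600000000) * (S^2*S2*T2)
    + ((5607066481:ℝ)/128000000000) * (S^2*S2^2)
    + ((3454409721:ℝ)/512000000000) * (S^2*S2^2*T2)
    + ((-325949991:ℝ)/51200000000) * (S^2*S2^3)
    + ((-1151469907:ℝ)/512000000000) * (S^2*T*T2)
    + ((-8060289349:ℝ)/2048000000000) * (S^2*T*S2*T2)
    + ((3454409721:ℝ)/512000000000) * (S^2*T*S2^2)
    + ((-1151469907:ℝ)/8192000000000) * (S^2*T*S2^2*T2)
    + ((3454409721:ℝ)/2048000000000) * (S^2*T*S2^3)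
    + ((-304109961:ℝ)/32000000000) * (S^3*T2)
    + ((-1151469907:ℝ)/512000000000) * (S^3*T2^2)
    + ((304109961:ℝ)/32000000000) * (S^3*S2)
    + ((2846189799:ℝ)/256000000000) * (S^3*S2*T2)
    + ((-325949991:ℝ)/51200000000) * (S^3*S2^2)
    + ((3454409721:ℝ)/2048000000000) * (S^3*S2^2*T2)
    + ((-1998829853:ℝ)/512000000000) * (S^3*S2^3)

set_option maxHeartbeats 1600000 in
theorem cert1_eq (S T S2 T2 : ℝ) : cert1 S T S2 T2 = w * (S + e * S ^ 2) + w * (S2 + e * S2 ^ 2) - U1 ((1/4 : ℝ) * S) ((-1/8 : ℝ) * T) ((1/4 : ℝ) * S2) ((-1/8 : ℝ) * T2) := by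
  simp only [cert1, U1, w, g, h, e, iB0, iB1, iB2, iB3, iB4, Kit.iF0, Kit.iF1, Kit.iF2, Kit.iF3, Kit.iF4, iZ4, iZ5, iZ6]
  ring

end Vale.Agent.P154.D3Neg
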