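import Vale.Agent.P154.D3NegPoly

/-!
The second certificate polynomial for three children.
-/

namespace Vale.Agent.P154.D3Neg

open Bin

set_option maxHeartbeats 1600000 in
/-- The polynomial to be nonnegative, step 2. -/
noncomputable def cert2 (S T S2 T2 : ℝ) : ℝ :=
  ((83:ℝ)/1000) * (S2)
    + ((54424059:ℝ)/2000000000) * (S2^2)
    + ((899401:ℝ)/4000000) * (T*T2)
    + ((399401:ℝ)/1000000) * (T*S2)
    + ((91808537:ℝ)/8000000000) * (T*S2*T2)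
    + ((51797:ℝ)/2000000) * (T*S2^2)
    + ((-255046769:ℝ)/32000000000) * (T*S2^2*T2)
    + ((-742707037:ℝ)/16000000000) * (T*S2^3)
    + ((4305829369:ℝ)/12000000000) * (T^2*T2^2)
    + ((-265140307:ℝ)/6000000000) * (T^2*S2*T2)
    + ((-742707037:ℝ)/4000000000) * (T^2*S2^2)
    + ((-668696723:ℝ)/8000000000) * (T^2*S2^2*T2)
    + ((-555109751:ℝ)/4800000000) * (T^2*S2^3)
    + ((668696723:ℝ)/64000000000) * (T^2*S2^4)
    + ((83:ℝ)/250) * (S)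
    + ((-399401:ℝ)/2000000) * (S*T2)
    + ((149401:ℝ)/1000000) * (S*S2)
    + ((-301797:ℝ)/8000000) * (S*S2*T2)
    + ((-149401:ℝ)/2000000) * (S*S2^2)
    + ((-742707037:ℝ)/32000000000) * (S*S2^3)
    + ((91808537:ℝ)/2000000000) * (S*T*T2)
    + ((265140307:ℝ)/12000000000) * (S*T*T2^2)
    + ((301797:ℝ)/1000000) * (S*T*S2)
    + ((-96036673:ℝ)/1920000000) * (S*T*S2*T2)
    + ((668696723:ℝ)/32000000000) * (S*T*S2*T2^2)
    + ((-292257787:ℝ)/1000000000) * (S*T*S2^2)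
    + ((-2564405499:ℝ)/16000000000) * (S*T*S2^2*T2)
    + ((1317854191:ℝ)/16000000000) * (S*T*S2^3)
    + ((2006090169:ℝ)/64000000000) * (S*T*S2^4)
    + ((-668696723:ℝ)/4000000000) * (S*T^2*S2*T2)
    + ((-668696723:ℝ)/16000000000) * (S*T^2*S2^2*T2)
    + ((668696723:ℝ)/4000000000) * (S*T^2*S2^3)
    + ((-161067:ℝ)/500000) * (S^2)
    + ((-51797:ℝ)/1000000) * (S^2*T2)
    + ((-742707037:ℝ)/16000000000) * (S^2*T2^2)
    + ((-149401:ℝ)/500000) * (S^2*S2)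
    + ((292257787:ℝ)/2000000000) * (S^2*S2*T2)
    + ((-3859430971:ℝ)/8000000000) * (S^2*S2^2)
    + ((-765140307:ℝ)/16000000000) * (S^2*S2^2*T2)
    + ((-1167559883:ℝ)/32000000000) * (S^2*S2^3)
    + ((2006090169:ℝ)/128000000000) * (S^2*S2^4)
    + ((-255046769:ℝ)/2000000000) * (S^2*T*T2)
    + ((668696723:ℝ)/4000000000) * (S^2*T*T2^2)
    + ((-2564405499:ℝ)/4000000000) * (S^2*T*S2*T2)
    + ((668696723:ℝ)/32000000000) * (S^2*T*S2*T2^2)
    + ((765140307:ℝ)/2000000000) * (S^2*T*S2^2)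
    + ((-10954194337:ℝ)/32000000000) * (S^2*T*S2^2*T2)
    + ((955464129:ℝ)/1600000000) * (S^2*T*S2^3)
    + ((2006090169:ℝ)/64000000000) * (S^2*T*S2^4)
    + ((742707037:ℝ)/2000000000) * (S^3*T2)
    + ((-555109751:ℝ)/4800000000) * (S^3*T2^2)
    + ((-742707037:ℝ)/2000000000) * (S^3*S2)
    + ((-1317854191:ℝ)/8000000000) * (S^3*S2*T2)
    + ((668696723:ℝ)/16000000000) * (S^3*S2*T2^2)
    + ((-1167559883:ℝ)/8000000000) * (S^3*S2^2)
    + ((-955464129:ℝ)/3200000000) * (S^3*S2^2*T2)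
    + ((110778910933:ℝ)/96000000000) * (S^3*S2^3)
    + ((4680877061:ℝ)/128000000000) * (S^3*S2^4)
    + ((668696723:ℝ)/16000000000) * (S^4*T2^2)
    + ((-2006090169:ℝ)/8000000000) * (S^4*S2*T2)
    + ((2006090169:ℝ)/8000000000) * (S^4*S2^2)
    + ((-2006090169:ℝ)/32000000000) * (S^4*S2^2*T2)
    + ((4680877061:ℝ)/32000000000) * (S^4*S2^3)
    + ((2006090169:ℝ)/128000000000) * (S^4*S2^4)

set_option maxHeartbeats 1600000 in
theorem cert2_eq (S T S2 T2 : ℝ) : cert2 S T S2 T2 = g * S + h * S ^ 2 + w * (S2 + e * S2 ^ 2) - U2 S T ((1/4 : ℝ) * S2) ((-1/8 : ℝ) * T2) := by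
  simp only [cert2, U2, w, g, h, e, iB0, iB1, iB2, iB3, iB4, Kit.iF0, Kit.iF1, Kit.iF2, Kit.iF3, Kit.iF4, iZ4, iZ5, iZ6]
  ring

end Vale.Agent.P154.D3Neg
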