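import Vale.Agent.P154.D3NegCertA

/-!
Chart checks of the first certificate for three children.
-/

namespace Vale.Agent.P154.D3Neg

open Bin

/-- Scaled coefficients, step 1, chart aCC. -/
noncomputable def coef1aCC : List (List (List (List ℤ))) :=
  [[[[387853553664, 0, 0], [0, 0, 0], [1135687680000, 0, 0], [0, 0, 0], [387853553664, 0, 0], [0, 0, 0], [0, 0, 0], [0, 0, 0]], [[0, 0, 0], [0, 0, 0], [0, 0, 0], [0, 0, 0], [0, 0, 0], [0, 0, 0], [0, 0, 0], [0, 0, 0]], [[0, 0, 0], [0, 0, 0], [0, 0, 0], [0, 0, 0], [0, 0, 0], [0, 0, 0], [0, 0, 0], [0, 0, 0]]],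
    [[[0, 0, 0], [0, 0, 0], [908835840000, 0, 0], [908835840000, -1817671680000, 0], [0, 0, 0], [0, 0, 0], [0, 0, 0], [0, 0, 0]], [[0, 0, 0], [0, 0, 0], [-1817671680000, 0, 0], [0, 0, 0], [0, 0, 0], [0, 0, 0], [0, 0, 0], [0, 0, 0]], [[0, 0, 0], [0, 0, 0], [0, 0, 0], [0, 0, 0], [0, 0, 0], [0, 0, 0], [0, 0, 0], [0, 0, 0]]],
    [[[0, 0, 0], [0, 0, 0], [-605826881792, 0, 0], [-435688001792, 871376003584, 0], [-605826881792, 0, 0], [0, 0, 0], [0, 0, 0], [0, 0, 0]], [[0, 0, 0], [0, 0, 0], [0, 0, 0], [871376003584, -1742752007168, 0], [0, 0, 0], [0, 0, 0], [0, 0, 0], [0, 0, 0]], [[0, 0, 0], [0, 0, 0], [0, 0, 0], [0, 0, 0], [0, 0, 0], [0, 0, 0], [0, 0, 0], [0, 0, 0]]],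
    [[[0, 0, 0], [0, 0, 0], [-170138880000, 0, 0], [-529765280896, 1059530561792, 0], [-529765280896, 0, 0], [-170138880000, 340277760000, 0], [0, 0, 0], [0, 0, 0]], [[0, 0, 0], [0, 0, 0], [340277760000, 0, 0], [0, 0, 0], [1059530561792, 0, 0], [0, 0, 0], [0, 0, 0], [0, 0, 0]], [[0, 0, 0], [0, 0, 0], [0, 0, 0], [0, 0, 0], [0, 0, 0], [0, 0, 0], [0, 0, 0], [0, 0, 0]]],
    [[[0, 0, 0], [0, 0, 0], [77852150016, 0, 0], [188964588416, -377929176832, 0], [358852254784, 0, 0], [188964588416, -377929176832, 0], [77852150016, 0, 0], [0, 0, 0]], [[0, 0, 0], [0, 0, 0], [0, 0, 0], [-377929176832, 755858353664, 0], [0, 0, 0], [-377929176832, 755858353664, 0], [0, 0, 0], [0, 0, 0]], [[0, 0, 0], [0, 0, 0], [0, 0, 0], [0, 0, 0], [0, 0, 0], [0, 0, 0], [0, 0, 0], [0, 0, 0]]],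
    [[[0, 0, 0], [0, 0, 0], [0, 0, 0], [77852150016, -155704300032, 0], [382566392640, 0, 0], [382566392640, -765132785280, 0], [77852150016, 0, 0], [0, 0, 0]], [[0, 0, 0], [0, 0, 0], [0, 0, 0], [0, 0, 0], [-765132785280, 0, 0], [0, 0, 0], [-155704300032, 0, 0], [0, 0, 0]], [[0, 0, 0], [0, 0, 0], [0, 0, 0], [0, 0, 0], [0, 0, 0], [0, 0, 0], [0, 0, 0], [0, 0, 0]]],
    [[[0, 0, 0], [0, 0, 0], [0, 0, 0], [-18423518512, 36847037024, 0], [-13225923552, 0, 0], [45688422544, -91376845088, 0], [-13225923552, -155704300032, 155704300032], [-18423518512, 36847037024, 0]], [[0, 0, 0], [0, 0, 0], [0, 0, 0], [36847037024, -73694074048, 0], [-155704300032, 0, 0], [-91376845088, 182753690176, 0], [0, 0, 0], [36847037024, -73694074048, 0]], [[0, 0, 0], [0, 0, 0], [0, 0, 0], [0, 0, 0], [155704300032, 0, 0], [0, 0, 0], [0, 0, 0], [0, 0, 0]]],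
    [[[0, 0, 0], [0, 0, 0], [0, 0, 0], [0, 0, 0], [-55270555536, 0, 0], [-127925110592, 255850221184, 0], [-127925110592, 147388148096, -147388148096], [-55270555536, 110541111072, 0]], [[0, 0, 0], [0, 0, 0], [0, 0, 0], [0, 0, 0], [110541111072, 0, 0], [147388148096, -294776296192, 0], [255850221184, -294776296192, 294776296192], [0, 0, 0]], [[0, 0, 0], [0, 0, 0], [0, 0, 0], [0, 0, 0], [0, 0, 0], [-147388148096, 294776296192, 0], [0, 0, 0], [0, 0, 0]]],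
    [[[0, 0, 0], [0, 0, 0], [0, 0, 0], [0, 0, 0], [0, 0, 0], [-32241157396, 64482314792, 0], [-68828314672, 73694074048, -73694074048], [-32241157396, 64482314792, 0]], [[0, 0, 0], [0, 0, 0], [0, 0, 0], [0, 0, 0], [0, 0, 0], [64482314792, -128964629584, 0], [73694074048, 0, 0], [64482314792, -128964629584, 0]], [[0, 0, 0], [0, 0, 0], [0, 0, 0], [0, 0, 0], [0, 0, 0], [0, 0, 0], [-73694074048, 0, 0], [0, 0, 0]]],
    [[[0, 0, 0], [0, 0, 0], [0, 0, 0], [0, 0, 0], [0, 0, 0], [0, 0, 0], [-13817638884, 0, 0], [-13817638884, 27635277768, 0]], [[0, 0, 0], [0, 0, 0], [0, 0, 0], [0, 0, 0], [0, 0, 0], [0, 0, 0], [27635277768, 0, 0], [0, 0, 0]], [[0, 0, 0], [0, 0, 0], [0, 0, 0], [0, 0, 0], [0, 0, 0], [0, 0, 0], [0, 0, 0], [0, 0, 0]]],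
    [[[0, 0, 0], [0, 0, 0], [0, 0, 0], [0, 0, 0], [0, 0, 0], [0, 0, 0], [0, 0, 0], [-1151469907, 2302939814, 0]], [[0, 0, 0], [0, 0, 0], [0, 0, 0], [0, 0, 0], [0, 0, 0], [0, 0, 0], [0, 0, 0], [2302939814, -4605879628, 0]], [[0, 0, 0], [0, 0, 0], [0, 0, 0], [0, 0, 0], [0, 0, 0], [0, 0, 0], [0, 0, 0], [0, 0, 0]]]]

theorem good1aCC : Bern.Good 4 [] coef1aCC :=
  Bern.good_leaf (by decide +kernel)

set_option maxHeartbeats 1600000 in
set_option maxRecDepth 30000 in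
theorem chart1aCC_eq (w t r s : ℝ) :
    cert1 (w ^ 2) (w ^ 3 * (2 * t - 1)) (r ^ 2 * w ^ 2) (r ^ 3 * w ^ 3 * (2 * s - 1)) * 8192000000000 = w ^ 4 * Bern.ev 4 coef1aCC (pt w t r s) := by
  simp only [cert1, ev4_eq, coef1aCC, pt, List.foldr_cons, List.foldr_nil, Int.cast_ofNat, Int.cast_neg, Int.cast_zero]
  ring

theorem chart1aCC_nonneg (w t r s : ℝ) (hw : 0 ≤ w) (hw1 : w ≤ 1) (ht : 0 ≤ t) (ht1 : t ≤ 1)
    (hr : 0 ≤ r) (hr1 : r ≤ 1) (hs : 0 ≤ s) (hs1 : s ≤ 1) :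
    0 ≤ cert1 (w ^ 2) (w ^ 3 * (2 * t - 1)) (r ^ 2 * w ^ 2) (r ^ 3 * w ^ 3 * (2 * s - 1)) := by
  have H := good1aCC (pt w t r s) (by
    rintro (_ | _ | _ | i)
    exacts [⟨hw, hw1⟩, ⟨ht, ht1⟩, ⟨hr, hr1⟩, ⟨hs, hs1⟩])
  refine nonneg_of_mul_nonneg_left (b := (8192000000000 : ℝ)) ?_ (by norm_num)
  rw [chart1aCC_eq]
  exact mul_nonneg (by positivity) H

/-- Scaled coefficients, step 1, chart bCC. -/
noncomputable def coef1bCC : List (List (List (List ℤ))) :=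
  [[[[387853553664, 0, 0], [0, 0, 0], [1135687680000, 0, 0], [0, 0, 0], [387853553664, 0, 0], [0, 0, 0], [0, 0, 0], [0, 0, 0]], [[0, 0, 0], [0, 0, 0], [0, 0, 0], [0, 0, 0], [0, 0, 0], [0, 0, 0], [0, 0, 0], [0, 0, 0]], [[0, 0, 0], [0, 0, 0], [0, 0, 0], [0, 0, 0], [0, 0, 0], [0, 0, 0], [0, 0, 0], [0, 0, 0]]],
    [[[0, 0, 0], [0, 0, 0], [908835840000, 0, 0], [908835840000, -1817671680000, 0], [0, 0, 0], [0, 0, 0], [0, 0, 0], [0, 0, 0]], [[0, 0, 0], [0, 0, 0], [-1817671680000, 0, 0], [0, 0, 0], [0, 0, 0], [0, 0, 0], [0, 0, 0], [0, 0, 0]], [[0, 0, 0], [0, 0, 0], [0, 0, 0], [0, 0, 0], [0, 0, 0], [0, 0, 0], [0, 0, 0], [0, 0, 0]]],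
    [[[0, 0, 0], [0, 0, 0], [-605826881792, 0, 0], [-435688001792, 871376003584, 0], [-605826881792, 0, 0], [0, 0, 0], [0, 0, 0], [0, 0, 0]], [[0, 0, 0], [0, 0, 0], [0, 0, 0], [871376003584, -1742752007168, 0], [0, 0, 0], [0, 0, 0], [0, 0, 0], [0, 0, 0]], [[0, 0, 0], [0, 0, 0], [0, 0, 0], [0, 0, 0], [0, 0, 0], [0, 0, 0], [0, 0, 0], [0, 0, 0]]],
    [[[0, 0, 0], [0, 0, 0], [-170138880000, 0, 0], [-529765280896, 1059530561792, 0], [-529765280896, 0, 0], [-170138880000, 340277760000, 0], [0, 0, 0], [0, 0, 0]], [[0, 0, 0], [0, 0, 0], [340277760000, 0, 0], [0, 0, 0], [1059530561792, 0, 0], [0, 0, 0], [0, 0, 0], [0, 0, 0]], [[0, 0, 0], [0, 0, 0], [0, 0, 0], [0, 0, 0], [0, 0, 0], [0, 0, 0], [0, 0, 0], [0, 0, 0]]],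
    [[[0, 0, 0], [0, 0, 0], [77852150016, 0, 0], [188964588416, -377929176832, 0], [358852254784, 0, 0], [188964588416, -377929176832, 0], [77852150016, 0, 0], [0, 0, 0]], [[0, 0, 0], [0, 0, 0], [0, 0, 0], [-377929176832, 755858353664, 0], [0, 0, 0], [-377929176832, 755858353664, 0], [0, 0, 0], [0, 0, 0]], [[0, 0, 0], [0, 0, 0], [0, 0, 0], [0, 0, 0], [0, 0, 0], [0, 0, 0], [0, 0, 0], [0, 0, 0]]],
    [[[0, 0, 0], [0, 0, 0], [0, 0, 0], [77852150016, -155704300032, 0], [382566392640, 0, 0], [382566392640, -765132785280, 0], [77852150016, 0, 0], [0, 0, 0]], [[0, 0, 0], [0, 0, 0], [0, 0, 0], [0, 0, 0], [-765132785280, 0, 0], [0, 0, 0], [-155704300032, 0, 0], [0, 0, 0]], [[0, 0, 0], [0, 0, 0], [0, 0, 0], [0, 0, 0], [0, 0, 0], [0, 0, 0], [0, 0, 0], [0, 0, 0]]],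
    [[[0, 0, 0], [0, 0, 0], [0, 0, 0], [-18423518512, 36847037024, 0], [-13225923552, 0, 0], [45688422544, -91376845088, 0], [-13225923552, -155704300032, 155704300032], [-18423518512, 36847037024, 0]], [[0, 0, 0], [0, 0, 0], [0, 0, 0], [36847037024, -73694074048, 0], [-155704300032, 0, 0], [-91376845088, 182753690176, 0], [0, 0, 0], [36847037024, -73694074048, 0]], [[0, 0, 0], [0, 0, 0], [0, 0, 0], [0, 0, 0], [155704300032, 0, 0], [0, 0, 0], [0, 0, 0], [0, 0, 0]]],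
    [[[0, 0, 0], [0, 0, 0], [0, 0, 0], [0, 0, 0], [-55270555536, 0, 0], [-127925110592, 255850221184, 0], [-127925110592, 147388148096, -147388148096], [-55270555536, 110541111072, 0]], [[0, 0, 0], [0, 0, 0], [0, 0, 0], [0, 0, 0], [110541111072, 0, 0], [147388148096, -294776296192, 0], [255850221184, -294776296192, 294776296192], [0, 0, 0]], [[0, 0, 0], [0, 0, 0], [0, 0, 0], [0, 0, 0], [0, 0, 0], [-147388148096, 294776296192, 0], [0, 0, 0], [0, 0, 0]]],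
    [[[0, 0, 0], [0, 0, 0], [0, 0, 0], [0, 0, 0], [0, 0, 0], [-32241157396, 64482314792, 0], [-68828314672, 73694074048, -73694074048], [-32241157396, 64482314792, 0]], [[0, 0, 0], [0, 0, 0], [0, 0, 0], [0, 0, 0], [0, 0, 0], [64482314792, -128964629584, 0], [73694074048, 0, 0], [64482314792, -128964629584, 0]], [[0, 0, 0], [0, 0, 0], [0, 0, 0], [0, 0, 0], [0, 0, 0], [0, 0, 0], [-73694074048, 0, 0], [0, 0, 0]]],
    [[[0, 0, 0], [0, 0, 0], [0, 0, 0], [0, 0, 0], [0, 0, 0], [0, 0, 0], [-13817638884, 0, 0], [-13817638884, 27635277768, 0]], [[0, 0, 0], [0, 0, 0], [0, 0, 0], [0, 0, 0], [0, 0, 0], [0, 0, 0], [27635277768, 0, 0], [0, 0, 0]], [[0, 0, 0], [0, 0, 0], [0, 0, 0], [0, 0, 0], [0, 0, 0], [0, 0, 0], [0, 0, 0], [0, 0, 0]]],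
    [[[0, 0, 0], [0, 0, 0], [0, 0, 0], [0, 0, 0], [0, 0, 0], [0, 0, 0], [0, 0, 0], [-1151469907, 2302939814, 0]], [[0, 0, 0], [0, 0, 0], [0, 0, 0], [0, 0, 0], [0, 0, 0], [0, 0, 0], [0, 0, 0], [2302939814, -4605879628, 0]], [[0, 0, 0], [0, 0, 0], [0, 0, 0], [0, 0, 0], [0, 0, 0], [0, 0, 0], [0, 0, 0], [0, 0, 0]]]]

theorem good1bCC : Bern.Good 4 [] coef1bCC :=
  Bern.good_leaf (by decide +kernel)

set_option maxHeartbeats 1600000 in
set_option maxRecDepth 30000 in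
theorem chart1bCC_eq (w t r s : ℝ) :
    cert1 (r ^ 2 * w ^ 2) (r ^ 3 * w ^ 3 * (2 * s - 1)) (w ^ 2) (w ^ 3 * (2 * t - 1)) * 8192000000000 = w ^ 4 * Bern.ev 4 coef1bCC (pt w t r s) := by
  simp only [cert1, ev4_eq, coef1bCC, pt, List.foldr_cons, List.foldr_nil, Int.cast_ofNat, Int.cast_neg, Int.cast_zero]
  ring

theorem chart1bCC_nonneg (w t r s : ℝ) (hw : 0 ≤ w) (hw1 : w ≤ 1) (ht : 0 ≤ t) (ht1 : t ≤ 1)
    (hr : 0 ≤ r) (hr1 : r ≤ 1) (hs : 0 ≤ s) (hs1 : s ≤ 1) :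
    0 ≤ cert1 (r ^ 2 * w ^ 2) (r ^ 3 * w ^ 3 * (2 * s - 1)) (w ^ 2) (w ^ 3 * (2 * t - 1)) := by
  have H := good1bCC (pt w t r s) (by
    rintro (_ | _ | _ | i)
    exacts [⟨hw, hw1⟩, ⟨ht, ht1⟩, ⟨hr, hr1⟩, ⟨hs, hs1⟩])
  refine nonneg_of_mul_nonneg_left (b := (8192000000000 : ℝ)) ?_ (by norm_num)
  rw [chart1bCC_eq]
  exact mul_nonneg (by positivity) H

end Vale.Agent.P154.D3Neg
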