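import Vale.Agent.P154.Kit

/-!
Univariate checks and averaged bounds for proper three-colourings of the tree with three children.
-/

namespace Vale.Agent.P154.D3Neg

open Bin

noncomputable def w : ℝ := ((333:ℝ)/1000)

/-- Linear weight after two joins. -/
noncomputable def g : ℝ := ((333:ℝ)/250)

/-- Quadratic weight after two joins. -/
noncomputable def h : ℝ := ((-44307:ℝ)/200000)

/-- Quadratic weight of the potential. -/
noncomputable def e : ℝ := ((100599:ℝ)/1000000)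

/-- Coefficients `pE` of a bound. -/
noncomputable def pE : List ℝ := [((333:ℝ)/250), ((-333:ℝ)/250), ((1480371257:ℝ)/1000000000), ((-592148503:ℝ)/500000000)]

/-- Coefficients `pH` of a bound. -/
noncomputable def pH : List ℝ := [((-44307:ℝ)/200000), ((132921:ℝ)/200000), ((-304109961:ℝ)/250000000), ((1151469907:ℝ)/1000000000)]

/-- Coefficients `p1` of a bound. -/
noncomputable def p1 : List ℝ := [(1:ℝ), (-1:ℝ), (1:ℝ), (-1:ℝ), ((2:ℝ)/3)]

/-- Coefficients `q1` of a bound. -/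
noncomputable def q1 : List ℝ := [((1:ℝ)/3), ((-2:ℝ)/3)]

/-- Coefficients `p3` of a bound. -/
noncomputable def p3 : List ℝ := [((100599:ℝ)/1000000), ((-301797:ℝ)/1000000), ((742707037:ℝ)/1000000000), ((-255046769:ℝ)/500000000), ((-668696723:ℝ)/1000000000)]

/-- Coefficients `q3` of a bound. -/
noncomputable def q3 : List ℝ := [((383797381:ℝ)/500000000), ((-1535189523:ℝ)/1000000000)]

/-- Scaled coefficients on the unit interval: first reciprocal. -/
noncomputable def cWE : List ℤ := [2673051, 5329336524, -5329336527]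

theorem goodWE : Bern.Good 1 [] cWE :=
  (Bern.good_leaf (p := []) (by decide +kernel))

theorem WE_nonneg (u : ℝ) (h0 : ((-1:ℝ)/4) ≤ u) (h1 : u ≤ ((1:ℝ)/2)) :
    0 ≤ Kit.pv [((148371257:ℝ)/1000000000), ((296074251:ℝ)/1000000000), ((-592148503:ℝ)/500000000)] u := by
  have e : Bern.ev 1 cWE (fun _ => (u - ((-1:ℝ)/4)) / ((3:ℝ)/4)) = 8000000000 * Kit.pv [((148371257:ℝ)/1000000000), ((296074251:ℝ)/1000000000), ((-592148503:ℝ)/500000000)] u := by
    show List.foldr (fun (c : ℤ) r => (c : ℝ) + (u - ((-1:ℝ)/4)) / ((3:ℝ)/4) * r) 0 cWE = _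
    simp only [cWE, List.foldr_cons, List.foldr_nil, Kit.pv]
    push_cast
    ring
  have h := goodWE (fun _ => (u - ((-1:ℝ)/4)) / ((3:ℝ)/4)) fun _ => ⟨div_nonneg (by linarith) (by norm_num), (div_le_one (by norm_num)).2 (by linarith)⟩
  change 0 ≤ Bern.ev 1 cWE _ at h
  rw [e] at h
  exact nonneg_of_mul_nonneg_right h (by norm_num)

/-- Scaled coefficients on the unit interval: cubed reciprocal. -/
noncomputable def cWH : List ℤ := [75020329359, -117650829456, -111885264522, 117341996760, 93269062467]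

theorem goodWH : Bern.Good 1 [] cWH :=
  (Bern.good_node (p := []) 0 4 (by norm_num) (by decide +kernel)
      (Bern.good_leaf (p := [(0, 4, false)]) (by decide +kernel))
      (Bern.good_node (p := [(0, 4, true)]) 0 4 (by norm_num) (by decide +kernel)
      (Bern.good_node (p := [(0, 4, true), (0, 4, false)]) 0 4 (by norm_num) (by decide +kernel)
      (Bern.good_leaf (p := [(0, 4, true), (0, 4, false), (0, 4, false)]) (by decide +kernel))
      (Bern.good_node (p := [(0, 4, true), (0, 4, false), (0, 4, true)]) 0 4 (by norm_num) (by decide +kernel)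
      (Bern.good_node (p := [(0, 4, true), (0, 4, false), (0, 4, true), (0, 4, false)]) 0 4 (by norm_num) (by decide +kernel)
      (Bern.good_leaf (p := [(0, 4, true), (0, 4, false), (0, 4, true), (0, 4, false), (0, 4, false)]) (by decide +kernel))
      (Bern.good_leaf (p := [(0, 4, true), (0, 4, false), (0, 4, true), (0, 4, false), (0, 4, true)]) (by decide +kernel)))
      (Bern.good_leaf (p := [(0, 4, true), (0, 4, false), (0, 4, true), (0, 4, true)]) (by decide +kernel))))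
      (Bern.good_leaf (p := [(0, 4, true), (0, 4, true)]) (by decide +kernel))))

theorem WH_nonneg (u : ℝ) (h0 : ((-1:ℝ)/4) ≤ u) (h1 : u ≤ ((1:ℝ)/2)) :
    0 ≤ Kit.pv [((28192539:ℝ)/250000000), ((-5804557:ℝ)/8000000), ((469695189:ℝ)/1000000000), ((2237969877:ℝ)/1000000000), ((1151469907:ℝ)/1000000000)] u := by
  have e : Bern.ev 1 cWH (fun _ => (u - ((-1:ℝ)/4)) / ((3:ℝ)/4)) = 256000000000 * Kit.pv [((28192539:ℝ)/250000000), ((-5804557:ℝ)/8000000), ((469695189:ℝ)/1000000000), ((2237969877:ℝ)/1000000000), ((1151469907:ℝ)/1000000000)] u := by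
    show List.foldr (fun (c : ℤ) r => (c : ℝ) + (u - ((-1:ℝ)/4)) / ((3:ℝ)/4) * r) 0 cWH = _
    simp only [cWH, List.foldr_cons, List.foldr_nil, Kit.pv]
    push_cast
    ring
  have h := goodWH (fun _ => (u - ((-1:ℝ)/4)) / ((3:ℝ)/4)) fun _ => ⟨div_nonneg (by linarith) (by norm_num), (div_le_one (by norm_num)).2 (by linarith)⟩
  change 0 ≤ Bern.ev 1 cWH _ at h
  rw [e] at h
  exact nonneg_of_mul_nonneg_right h (by norm_num)

/-- Scaled coefficients on the unit interval: cubed reciprocal near zero weight. -/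
noncomputable def cW3 : List ℤ := [70469929120, -304413892464, 365138375832, -102717252468, 134022585096, -162493303689]

theorem goodW3 : Bern.Good 1 [] cW3 :=
  (Bern.good_node (p := []) 0 5 (by norm_num) (by decide +kernel)
      (Bern.good_leaf (p := [(0, 5, false)]) (by decide +kernel))
      (Bern.good_node (p := [(0, 5, true)]) 0 5 (by norm_num) (by decide +kernel)
      (Bern.good_leaf (p := [(0, 5, true), (0, 5, false)]) (by decide +kernel))
      (Bern.good_leaf (p := [(0, 5, true), (0, 5, true)]) (by decide +kernel))))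

theorem W3_nonneg (u : ℝ) (h0 : (-1:ℝ) ≤ u) (h1 : u ≤ ((1:ℝ)/2)) :
    0 ≤ Kit.pv [((139113037:ℝ)/1000000000), ((913235573:ℝ)/1000000000), ((15466923:ℝ)/31250000), ((-4328853269:ℝ)/1000000000), ((-2516183707:ℝ)/1000000000), ((-668696723:ℝ)/1000000000)] u := by
  have e : Bern.ev 1 cW3 (fun _ => (u - (-1:ℝ)) / ((3:ℝ)/2)) = 32000000000 * Kit.pv [((139113037:ℝ)/1000000000), ((913235573:ℝ)/1000000000), ((15466923:ℝ)/31250000), ((-4328853269:ℝ)/1000000000), ((-2516183707:ℝ)/1000000000), ((-668696723:ℝ)/1000000000)] u := by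
    show List.foldr (fun (c : ℤ) r => (c : ℝ) + (u - (-1:ℝ)) / ((3:ℝ)/2) * r) 0 cW3 = _
    simp only [cW3, List.foldr_cons, List.foldr_nil, Kit.pv]
    push_cast
    ring
  have h := goodW3 (fun _ => (u - (-1:ℝ)) / ((3:ℝ)/2)) fun _ => ⟨div_nonneg (by linarith) (by norm_num), (div_le_one (by norm_num)).2 (by linarith)⟩
  change 0 ≤ Bern.ev 1 cW3 _ at h
  rw [e] at h
  exact nonneg_of_mul_nonneg_right h (by norm_num)

/-- Invariant form of the power 4 of the excess weight. -/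
noncomputable def iZ4 (S T S2 T2 : ℝ) : ℝ :=
  (6:ℝ) * (S^2*S2^2)

theorem avg_Z4 (a b c d : ℝ) : avg6 (fun u v x => zf a b u v x ^ 4) c d =
    iZ4 (iS a b) (iT a b) (iS c d) (iT c d) := by
  rw [avg6_Z]
  simp only [iZ4, OForm.avg, OForm.pw, OForm.mulw, OForm.mulp, OForm.mulR, OForm.mul, OForm.add, OForm.smul, OForm.joinS, OForm.joinT]
  ring

/-- Invariant form of the power 5 of the excess weight. -/
noncomputable def iZ5 (S T S2 T2 : ℝ) : ℝ :=
  (10:ℝ) * (S*T*S2*T2)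

theorem avg_Z5 (a b c d : ℝ) : avg6 (fun u v x => zf a b u v x ^ 5) c d =
    iZ5 (iS a b) (iT a b) (iS c d) (iT c d) := by
  rw [avg6_Z]
  simp only [iZ5, OForm.avg, OForm.pw, OForm.mulw, OForm.mulp, OForm.mulR, OForm.mul, OForm.add, OForm.smul, OForm.joinS, OForm.joinT]
  ring

/-- Invariant form of the power 6 of the excess weight. -/
noncomputable def iZ6 (S T S2 T2 : ℝ) : ℝ :=
  (8:ℝ) * (T^2*T2^2)
    + (-4:ℝ) * (T^2*S2^3)
    + (-4:ℝ) * (S^3*T2^2)
    + (22:ℝ) * (S^3*S2^3)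

theorem avg_Z6 (a b c d : ℝ) : avg6 (fun u v x => zf a b u v x ^ 6) c d =
    iZ6 (iS a b) (iT a b) (iS c d) (iT c d) := by
  rw [avg6_Z]
  simp only [iZ6, OForm.avg, OForm.pw, OForm.mulw, OForm.mulp, OForm.mulR, OForm.mul, OForm.add, OForm.smul, OForm.joinS, OForm.joinT]
  ring

/-- First-step bound of one term. -/
noncomputable def term1 (a b u v x : ℝ) : ℝ :=
  nS a b u v x * Kit.pv pE (zf a b u v x) + nS a b u v x ^ 2 * Kit.pv pH (zf a b u v x)

/-- Second-step bound of one term. -/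
noncomputable def term2 (a b u v x : ℝ) : ℝ :=
  nS a b u v x * Kit.pv p1 (zf a b u v x) + nS a b u v x ^ 2 * Kit.pv p3 (zf a b u v x)
    + (1 + zf a b u v x) * (zf a b u v x ^ 4 * (Kit.pv q1 (zf a b u v x) + Kit.pv q3 (zf a b u v x)))

/-- Averaged bound of the first step. -/
noncomputable def U1 (S T S2 T2 : ℝ) : ℝ :=
  ((333:ℝ)/250) * iB0 S T S2 T2 + ((-333:ℝ)/250) * iB1 S T S2 T2 + ((1480371257:ℝ)/1000000000) * iB2 S T S2 T2 + ((-592148503:ℝ)/500000000) * iB3 S T S2 T2 + ((-44307:ℝ)/200000) * Kit.iF0 S T S2 T2 + ((132921:ℝ)/200000) * Kit.iF1 S T S2 T2 + ((-304109961:ℝ)/250000000) * Kit.iF2 S T S2 T2 + ((1151469907:ℝ)/1000000000) * Kit.iF3 S T S2 T2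

theorem avg_U1 (a b c d : ℝ) : avg6 (term1 a b) c d = U1 (iS a b) (iT a b) (iS c d) (iT c d) := by
  simp only [U1, ← avg_B0, ← avg_B1, ← avg_B2, ← avg_B3, ← Kit.avg_F0, ← Kit.avg_F1, ← Kit.avg_F2, ← Kit.avg_F3, avg6, term1, pE, pH, Kit.pv]
  ring

/-- Averaged bound of the second step. -/
noncomputable def U2 (S T S2 T2 : ℝ) : ℝ :=
  (1:ℝ) * iB0 S T S2 T2 + (-1:ℝ) * iB1 S T S2 T2 + (1:ℝ) * iB2 S T S2 T2 + (-1:ℝ) * iB3 S T S2 T2 + ((2:ℝ)/3) * iB4 S T S2 T2 + ((100599:ℝ)/1000000) * Kit.iF0 S T S2 T2 + ((-301797:ℝ)/1000000) * Kit.iF1 S T S2 T2 + ((742707037:ℝ)/1000000000) * Kit.iF2 S T S2 T2 + ((-255046769:ℝ)/500000000) * Kit.iF3 S T S2 T2 + ((-668696723:ℝ)/1000000000) * Kit.iF4 S T S2 T2 + ((1651392143:ℝ)/1500000000) * (iZ4 S T S2 T2 + iZ5 S T S2 T2) + ((-6605568569:ℝ)/3000000000) * (iZ5 S T S2 T2 + iZ6 S T S2 T2)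

theorem avg_U2 (a b c d : ℝ) : avg6 (term2 a b) c d = U2 (iS a b) (iT a b) (iS c d) (iT c d) := by
  simp only [U2, ← avg_B0, ← avg_B1, ← avg_B2, ← avg_B3, ← avg_B4, ← Kit.avg_F0, ← Kit.avg_F1, ← Kit.avg_F2, ← Kit.avg_F3, ← Kit.avg_F4, ← avg_Z4, ← avg_Z5, ← avg_Z6, avg6, term2, p1, p3, q1, q3, Kit.pv]
  ring

end Vale.Agent.P154.D3Neg
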