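import Vale.Agent.P154.D4Alg

/-!
Subdivision check of step 1, chart one.
-/

namespace Vale.Agent.P154.D4

open Bin

/-- Scaled coefficients. -/
noncomputable def coef1a : List (List (List (List ℤ))) :=
  [[[[2323459989504, 0, 0, 0], [0, 0, 0, 0], [-2528256000000, 0, 0, 0], [0, 0, 0, 0], [2403359981568, 0, 0, 0], [0, 0, 0, 0], [0, 0, 0, 0], [0, 0, 0, 0], [0, 0, 0, 0], [0, 0, 0, 0]], [[0, 0, 0, 0], [0, 0, 0, 0], [0, 0, 0, 0], [0, 0, 0, 0], [0, 0, 0, 0], [0, 0, 0, 0], [0, 0, 0, 0], [0, 0, 0, 0], [0, 0, 0, 0], [0, 0, 0, 0]], [[0, 0, 0, 0], [0, 0, 0, 0], [0, 0, 0, 0], [0, 0, 0, 0], [0, 0, 0, 0], [0, 0, 0, 0], [0, 0, 0, 0], [0, 0, 0, 0], [0, 0, 0, 0], [0, 0, 0, 0]], [[0, 0, 0, 0], [0, 0, 0, 0], [0, 0, 0, 0], [0, 0, 0, 0], [0, 0, 0, 0], [0, 0, 0, 0], [0, 0, 0, 0], [0, 0, 0, 0], [0, 0, 0, 0], [0, 0, 0, 0]]],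
    [[[4236642263040, 0, 0, 0], [0, 0, 0, 0], [-11732877312000, 0, 0, 0], [-11732877312000, 23465754624000, 0, 0], [0, 0, 0, 0], [4451682877440, -8903365754880, 0, 0], [0, 0, 0, 0], [0, 0, 0, 0], [0, 0, 0, 0], [0, 0, 0, 0]], [[-8473284526080, 0, 0, 0], [0, 0, 0, 0], [23465754624000, 0, 0, 0], [0, 0, 0, 0], [0, 0, 0, 0], [0, 0, 0, 0], [0, 0, 0, 0], [0, 0, 0, 0], [0, 0, 0, 0], [0, 0, 0, 0]], [[0, 0, 0, 0], [0, 0, 0, 0], [0, 0, 0, 0], [0, 0, 0, 0], [0, 0, 0, 0], [0, 0, 0, 0], [0, 0, 0, 0], [0, 0, 0, 0], [0, 0, 0, 0], [0, 0, 0, 0]], [[0, 0, 0, 0], [0, 0, 0, 0], [0, 0, 0, 0], [0, 0, 0, 0], [0, 0, 0, 0], [0, 0, 0, 0], [0, 0, 0, 0], [0, 0, 0, 0], [0, 0, 0, 0], [0, 0, 0, 0]]],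
    [[[3163470182400, 0, 0, 0], [0, 0, 0, 0], [1250101944320, 0, 0, 0], [-1166718279680, 2333436559360, 0, 0], [1250101944320, 0, 0, 0], [0, 0, 0, 0], [7766178004992, -5648129458176, 5648129458176, 0], [0, 0, 0, 0], [0, 0, 0, 0], [0, 0, 0, 0]], [[-2300705587200, 0, 0, 0], [0, 0, 0, 0], [0, 0, 0, 0], [2333436559360, -4666873118720, 0, 0], [0, 0, 0, 0], [0, 0, 0, 0], [0, 0, 0, 0], [0, 0, 0, 0], [0, 0, 0, 0], [0, 0, 0, 0]], [[2300705587200, 0, 0, 0], [0, 0, 0, 0], [0, 0, 0, 0], [0, 0, 0, 0], [0, 0, 0, 0], [0, 0, 0, 0], [0, 0, 0, 0], [0, 0, 0, 0], [0, 0, 0, 0], [0, 0, 0, 0]], [[0, 0, 0, 0], [0, 0, 0, 0], [0, 0, 0, 0], [0, 0, 0, 0], [0, 0, 0, 0], [0, 0, 0, 0], [0, 0, 0, 0], [0, 0, 0, 0], [0, 0, 0, 0], [0, 0, 0, 0]]],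
    [[[2199442129920, 0, 0, 0], [0, 0, 0, 0], [6670145289216, 0, 0, 0], [8681557297664, -17363114595328, 0, 0], [8681557297664, 0, 0, 0], [6670145289216, -13340290578432, 0, 0], [0, 0, 0, 0], [15263559843840, -30527119687680, 0, 0], [0, 0, 0, 0], [0, 0, 0, 0]], [[-4398884259840, 0, 0, 0], [0, 0, 0, 0], [-13340290578432, 0, 0, 0], [0, 0, 0, 0], [-17363114595328, 0, 0, 0], [0, 0, 0, 0], [0, 0, 0, 0], [0, 0, 0, 0], [0, 0, 0, 0], [0, 0, 0, 0]], [[0, 0, 0, 0], [0, 0, 0, 0], [0, 0, 0, 0], [0, 0, 0, 0], [0, 0, 0, 0], [0, 0, 0, 0], [0, 0, 0, 0], [0, 0, 0, 0], [0, 0, 0, 0], [0, 0, 0, 0]], [[0, 0, 0, 0], [0, 0, 0, 0], [0, 0, 0, 0], [0, 0, 0, 0], [0, 0, 0, 0], [0, 0, 0, 0], [0, 0, 0, 0], [0, 0, 0, 0], [0, 0, 0, 0], [0, 0, 0, 0]]],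
    [[[1334152130304, 0, 0, 0], [0, 0, 0, 0], [2094520771584, 0, 0, 0], [823397596416, -1646795192832, 0, 0], [-1885800391168, 0, 0, 0], [823397596416, -1646795192832, 0, 0], [2094520771584, 0, 0, 0], [0, 0, 0, 0], [25852620177408, -38478318403584, 38478318403584, 0], [0, 0, 0, 0]], [[-1985714798592, 0, 0, 0], [0, 0, 0, 0], [0, 0, 0, 0], [-1646795192832, 3293590385664, 0, 0], [0, 0, 0, 0], [-1646795192832, 3293590385664, 0, 0], [0, 0, 0, 0], [0, 0, 0, 0], [0, 0, 0, 0], [0, 0, 0, 0]], [[1985714798592, 0, 0, 0], [0, 0, 0, 0], [0, 0, 0, 0], [0, 0, 0, 0], [0, 0, 0, 0], [0, 0, 0, 0], [0, 0, 0, 0], [0, 0, 0, 0], [0, 0, 0, 0], [0, 0, 0, 0]], [[0, 0, 0, 0], [0, 0, 0, 0], [0, 0, 0, 0], [0, 0, 0, 0], [0, 0, 0, 0], [0, 0, 0, 0], [0, 0, 0, 0], [0, 0, 0, 0], [0, 0, 0, 0], [0, 0, 0, 0]]],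
    [[[382511032320, 0, 0, 0], [0, 0, 0, 0], [0, 0, 0, 0], [-2920575056256, 5841150112512, 0, 0], [-9429684174144, 0, 0, 0], [-9429684174144, 18859368348288, 0, 0], [-2920575056256, 3304217138688, -3304217138688, 0], [0, 0, 0, 0], [0, 0, 0, 0], [16295208222720, -35657749757952, 9201999937536, -6134666625024]], [[-837024141312, 0, 0, 0], [0, 0, 0, 0], [0, 0, 0, 0], [3304217138688, -6608434277376, 0, 0], [18859368348288, 0, 0, 0], [0, 0, 0, 0], [5841150112512, -6608434277376, 6608434277376, 0], [0, 0, 0, 0], [0, 0, 0, 0], [0, 0, 0, 0]], [[216006230016, 0, 0, 0], [0, 0, 0, 0], [0, 0, 0, 0], [-3304217138688, 6608434277376, 0, 0], [0, 0, 0, 0], [0, 0, 0, 0], [0, 0, 0, 0], [0, 0, 0, 0], [0, 0, 0, 0], [0, 0, 0, 0]], [[-144004153344, 0, 0, 0], [0, 0, 0, 0], [0, 0, 0, 0], [0, 0, 0, 0], [0, 0, 0, 0], [0, 0, 0, 0], [0, 0, 0, 0], [0, 0, 0, 0], [0, 0, 0, 0], [0, 0, 0,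 0]]],
    [[[0, 0, 0, 0], [0, 0, 0, 0], [0, 0, 0, 0], [-847921923264, 1695843846528, 0, 0], [-496180072800, 0, 0, 0], [498187964544, -996375929088, 0, 0], [-496180072800, -4189041543168, 4189041543168, 0], [-847921923264, 1695843846528, 0, 0], [0, 0, 0, 0], [0, 0, 0, 0]], [[0, 0, 0, 0], [0, 0, 0, 0], [0, 0, 0, 0], [1695843846528, -3391687693056, 0, 0], [-4189041543168, 0, 0, 0], [-996375929088, 1992751858176, 0, 0], [0, 0, 0, 0], [1695843846528, -3391687693056, 0, 0], [0, 0, 0, 0], [0, 0, 0, 0]], [[0, 0, 0, 0], [0, 0, 0, 0], [0, 0, 0, 0], [0, 0, 0, 0], [4189041543168, 0, 0, 0], [0, 0, 0, 0], [0, 0, 0, 0], [0, 0, 0, 0], [0, 0, 0, 0], [0, 0, 0, 0]], [[0, 0, 0, 0], [0, 0, 0, 0], [0, 0, 0, 0], [0, 0, 0, 0], [0, 0, 0, 0], [0, 0, 0, 0], [0, 0, 0, 0], [0, 0, 0, 0], [0, 0, 0, 0], [0, 0, 0, 0]]],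
    [[[0, 0, 0, 0], [0, 0, 0, 0], [0, 0, 0, 0], [0, 0, 0, 0], [3317942936448, 0, 0, 0], [7170395071440, -14340790142880, 0, 0], [7170395071440, -9727312903680, 9727312903680, 0], [3317942936448, -6635885872896, 0, 0], [0, 0, 0, 0], [0, 0, 0, 0]], [[0, 0, 0, 0], [0, 0, 0, 0], [0, 0, 0, 0], [0, 0, 0, 0], [-6635885872896, 0, 0, 0], [-9727312903680, 19454625807360, 0, 0], [-14340790142880, 19454625807360, -19454625807360, 0], [0, 0, 0, 0], [0, 0, 0, 0], [0, 0, 0, 0]], [[0, 0, 0, 0], [0, 0, 0, 0], [0, 0, 0, 0], [0, 0, 0, 0], [0, 0, 0, 0], [9727312903680, -19454625807360, 0, 0], [0, 0, 0, 0], [0, 0, 0, 0], [0, 0, 0, 0], [0, 0, 0, 0]], [[0, 0, 0, 0], [0, 0, 0, 0], [0, 0, 0, 0], [0, 0, 0, 0], [0, 0, 0, 0], [0, 0, 0, 0], [0, 0, 0, 0], [0, 0, 0, 0], [0, 0, 0, 0], [0, 0, 0, 0]]],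
    [[[0, 0, 0, 0], [0, 0, 0, 0], [0, 0, 0, 0], [0, 0, 0, 0], [535272175296, 0, 0, 0], [-525981384192, 1051962768384, 0, 0], [-2107202993280, 1325087514432, -1325087514432, 0], [-525981384192, 1051962768384, 0, 0], [535272175296, 0, 0, 0], [0, 0, 0, 0]], [[0, 0, 0, 0], [0, 0, 0, 0], [0, 0, 0, 0], [0, 0, 0, 0], [0, 0, 0, 0], [1051962768384, -2103925536768, 0, 0], [1325087514432, 13228584290304, -13228584290304, 0], [1051962768384, -2103925536768, 0, 0], [0, 0, 0, 0], [0, 0, 0, 0]], [[0, 0, 0, 0], [0, 0, 0, 0], [0, 0, 0, 0], [0, 0, 0, 0], [0, 0, 0, 0], [0, 0, 0, 0], [-1325087514432, -13228584290304, 13228584290304, 0], [0, 0, 0, 0], [0, 0, 0, 0], [0, 0, 0, 0]], [[0, 0, 0, 0], [0, 0, 0, 0], [0, 0, 0, 0], [0, 0, 0, 0], [0, 0, 0, 0], [0, 0, 0, 0], [0, 0, 0, 0], [0, 0, 0, 0], [0, 0, 0, 0], [0, 0, 0, 0]]],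
    [[[0, 0, 0, 0], [0, 0, 0, 0], [0, 0, 0, 0], [0, 0, 0, 0], [0, 0, 0, 0], [-1285375539360, 2570751078720, 0, 0], [-3188224220136, 3137510645952, -3137510645952, 0], [-3188224220136, 6376448440272, 0, 0], [-1285375539360, 3000413456256, -3000413456256, 0], [0, 0, 0, 0]], [[0, 0, 0, 0], [0, 0, 0, 0], [0, 0, 0, 0], [0, 0, 0, 0], [0, 0, 0, 0], [3000413456256, -6000826912512, 0, 0], [6376448440272, -6275021291904, 6275021291904, 0], [3137510645952, -6275021291904, 0, 0], [2570751078720, -6000826912512, 6000826912512, 0], [0, 0, 0, 0]], [[0, 0, 0, 0], [0, 0, 0, 0], [0, 0, 0, 0], [0, 0, 0, 0], [0, 0, 0, 0], [-3000413456256, 6000826912512, 0, 0], [0, 0, 0, 0], [-3137510645952, 6275021291904, 0, 0], [0, 0, 0, 0], [0, 0, 0, 0]], [[0, 0, 0, 0], [0, 0, 0, 0], [0, 0, 0, 0], [0, 0, 0, 0], [0, 0, 0, 0], [0, 0, 0, 0], [0, 0, 0, 0], [0, 0, 0, 0], [0, 0, 0, 0], [0, 0, 0,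 0]]],
    [[[0, 0, 0, 0], [0, 0, 0, 0], [0, 0, 0, 0], [0, 0, 0, 0], [0, 0, 0, 0], [0, 0, 0, 0], [1117024773288, -617737225920, 617737225920, 0], [1938811539492, -3877623078984, 0, 0], [1117024773288, -1688281576512, 1688281576512, 0], [0, 0, 0, 0]], [[0, 0, 0, 0], [0, 0, 0, 0], [0, 0, 0, 0], [0, 0, 0, 0], [0, 0, 0, 0], [0, 0, 0, 0], [-1688281576512, 2087112872448, -2087112872448, 0], [-3877623078984, 7755246157968, 0, 0], [-617737225920, 2087112872448, -2087112872448, 0], [0, 0, 0, 0]], [[0, 0, 0, 0], [0, 0, 0, 0], [0, 0, 0, 0], [0, 0, 0, 0], [0, 0, 0, 0], [0, 0, 0, 0], [1688281576512, -2087112872448, 2087112872448, 0], [0, 0, 0, 0], [617737225920, -2087112872448, 2087112872448, 0], [0, 0, 0, 0]], [[0, 0, 0, 0], [0, 0, 0, 0], [0, 0, 0, 0], [0, 0, 0, 0], [0, 0, 0, 0], [0, 0, 0, 0], [0, 0, 0, 0], [0, 0, 0, 0], [0, 0, 0, 0], [0, 0, 0, 0]]],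
    [[[0, 0, 0, 0], [0, 0, 0, 0], [0, 0, 0, 0], [0, 0, 0, 0], [0, 0, 0, 0], [0, 0, 0, 0], [361364702424, -262810692672, 262810692672, 0], [764311509120, -1528623018240, 0, 0], [764311509120, -2405546531616, 2405546531616, 0], [361364702424, -985540097520, 788432078016, -525621385344]], [[0, 0, 0, 0], [0, 0, 0, 0], [0, 0, 0, 0], [0, 0, 0, 0], [0, 0, 0, 0], [0, 0, 0, 0], [-985540097520, 2628106926720, -2628106926720, 0], [-2405546531616, 4811093063232, 0, 0], [-1528623018240, 4811093063232, -4811093063232, 0], [-262810692672, 2628106926720, -6307456624128, 4204971082752]], [[0, 0, 0, 0], [0, 0, 0, 0], [0, 0, 0, 0], [0, 0, 0, 0], [0, 0, 0, 0], [0, 0, 0, 0], [788432078016, -6307456624128, 6307456624128, 0], [2405546531616, -4811093063232, 0, 0], [0, 0, 0, 0], [262810692672, -2628106926720, 6307456624128, -4204971082752]], [[0, 0, 0, 0], [0, 0, 0, 0], [0, 0, 0,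 0], [0, 0, 0, 0], [0, 0, 0, 0], [0, 0, 0, 0], [-525621385344, 4204971082752, -4204971082752, 0], [0, 0, 0, 0], [0, 0, 0, 0], [0, 0, 0, 0]]],
    [[[0, 0, 0, 0], [0, 0, 0, 0], [0, 0, 0, 0], [0, 0, 0, 0], [0, 0, 0, 0], [0, 0, 0, 0], [0, 0, 0, 0], [-862347585330, 1724695170660, 0, 0], [-1780323585204, 1695801522000, -1695801522000, 0], [-862347585330, 1724695170660, 0, 0]], [[0, 0, 0, 0], [0, 0, 0, 0], [0, 0, 0, 0], [0, 0, 0, 0], [0, 0, 0, 0], [0, 0, 0, 0], [0, 0, 0, 0], [1724695170660, -3449390341320, 0, 0], [1695801522000, -15139433164800, 15139433164800, 0], [1724695170660, -3449390341320, 0, 0]], [[0, 0, 0, 0], [0, 0, 0, 0], [0, 0, 0, 0], [0, 0, 0, 0], [0, 0, 0, 0], [0, 0, 0, 0], [0, 0, 0, 0], [0, 0, 0, 0], [-1695801522000, 15139433164800, -15139433164800, 0], [0, 0, 0, 0]], [[0, 0, 0, 0], [0, 0, 0, 0], [0, 0, 0, 0], [0, 0, 0, 0], [0, 0, 0, 0], [0, 0, 0,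 0], [0, 0, 0, 0], [0, 0, 0, 0], [0, 0, 0, 0], [0, 0, 0, 0]]],
    [[[0, 0, 0, 0], [0, 0, 0, 0], [0, 0, 0, 0], [0, 0, 0, 0], [0, 0, 0, 0], [0, 0, 0, 0], [0, 0, 0, 0], [0, 0, 0, 0], [611856143877, -1116945443856, 1116945443856, 0], [611856143877, -1355117634090, 394216039008, -262810692672]], [[0, 0, 0, 0], [0, 0, 0, 0], [0, 0, 0, 0], [0, 0, 0, 0], [0, 0, 0, 0], [0, 0, 0, 0], [0, 0, 0, 0], [0, 0, 0, 0], [-1355117634090, 3285133658400, -3285133658400, 0], [-1116945443856, 3285133658400, -3153728312064, 2102485541376]], [[0, 0, 0, 0], [0, 0, 0, 0], [0, 0, 0, 0], [0, 0, 0, 0], [0, 0, 0, 0], [0, 0, 0, 0], [0, 0, 0, 0], [0, 0, 0, 0], [394216039008, -3153728312064, 3153728312064, 0], [1116945443856, -3285133658400, 3153728312064, -2102485541376]], [[0, 0, 0, 0], [0, 0, 0, 0], [0, 0, 0, 0], [0, 0, 0, 0], [0, 0, 0, 0], [0, 0, 0, 0], [0, 0, 0, 0], [0, 0, 0, 0], [-262810692672,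 2102485541376, -2102485541376, 0], [0, 0, 0, 0]]],
    [[[0, 0, 0, 0], [0, 0, 0, 0], [0, 0, 0, 0], [0, 0, 0, 0], [0, 0, 0, 0], [0, 0, 0, 0], [0, 0, 0, 0], [0, 0, 0, 0], [0, 0, 0, 0], [-131405346336, 295662029256, -98554009752, 65702673168]], [[0, 0, 0, 0], [0, 0, 0, 0], [0, 0, 0, 0], [0, 0, 0, 0], [0, 0, 0, 0], [0, 0, 0, 0], [0, 0, 0, 0], [0, 0, 0, 0], [0, 0, 0, 0], [295662029256, -657026731680, 197108019504, -131405346336]], [[0, 0, 0, 0], [0, 0, 0, 0], [0, 0, 0, 0], [0, 0, 0, 0], [0, 0, 0, 0], [0, 0, 0, 0], [0, 0, 0, 0], [0, 0, 0, 0], [0, 0, 0, 0], [-98554009752, 197108019504, 0, 0]], [[0, 0, 0, 0], [0, 0, 0, 0], [0, 0, 0, 0], [0, 0, 0, 0], [0, 0, 0, 0], [0, 0, 0, 0], [0, 0, 0, 0], [0, 0, 0, 0], [0, 0, 0, 0], [65702673168, -131405346336, 0, 0]]]]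

theorem good1a_1 : Bern.Good 4 [(0, 14, false), (0, 14, false), (2, 9, false)] coef1a :=
  Bern.good_leaf (by decide +kernel)

theorem good1a_2 : Bern.Good 4 [(0, 14, false), (0, 14, false), (2, 9, true), (2, 9, false)] coef1a :=
  Bern.good_leaf (by decide +kernel)

theorem good1a_3 : Bern.Good 4 [(0, 14, false), (0, 14, false), (2, 9, true), (2, 9, true)] coef1a :=
  Bern.good_leaf (by decide +kernel)

theorem good1a_4 : Bern.Good 4 [(0, 14, false), (0, 14, false), (2, 9, true)] coef1a :=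
  Bern.good_node 2 9 (by norm_num) (by decide +kernel) good1a_2 good1a_3

theorem good1a_5 : Bern.Good 4 [(0, 14, false), (0, 14, false)] coef1a :=
  Bern.good_node 2 9 (by norm_num) (by decide +kernel) good1a_1 good1a_4

theorem good1a_6 : Bern.Good 4 [(0, 14, false), (0, 14, true), (2, 9, false)] coef1a :=
  Bern.good_leaf (by decide +kernel)

theorem good1a_7 : Bern.Good 4 [(0, 14, false), (0, 14, true), (2, 9, true), (2, 9, false)] coef1a :=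
  Bern.good_leaf (by decide +kernel)

theorem good1a_8 : Bern.Good 4 [(0, 14, false), (0, 14, true), (2, 9, true), (2, 9, true)] coef1a :=
  Bern.good_leaf (by decide +kernel)

theorem good1a_9 : Bern.Good 4 [(0, 14, false), (0, 14, true), (2, 9, true)] coef1a :=
  Bern.good_node 2 9 (by norm_num) (by decide +kernel) good1a_7 good1a_8

theorem good1a_10 : Bern.Good 4 [(0, 14, false), (0, 14, true)] coef1a :=
  Bern.good_node 2 9 (by norm_num) (by decide +kernel) good1a_6 good1a_9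

theorem good1a_11 : Bern.Good 4 [(0, 14, false)] coef1a :=
  Bern.good_node 0 14 (by norm_num) (by decide +kernel) good1a_5 good1a_10

theorem good1a_12 : Bern.Good 4 [(0, 14, true)] coef1a :=
  Bern.good_leaf (by decide +kernel)

theorem good1a_13 : Bern.Good 4 [] coef1a :=
  Bern.good_node 0 14 (by norm_num) (by decide +kernel) good1a_11 good1a_12

set_option maxHeartbeats 4000000 in
set_option maxRecDepth 30000 in
theorem chart1a_eq (w t r s : ℝ) :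
    cert1 (w ^ 2) (w ^ 3 * (2 * t - 1)) (r ^ 2 * w ^ 2) (r ^ 3 * w ^ 3 * (2 * s - 1)) * 98304000000000 =
      w ^ 4 * Bern.ev 4 coef1a (pt w t r s) := by
  simp only [cert1, ev4_eq, coef1a, pt, List.foldr_cons, List.foldr_nil, Int.cast_ofNat, Int.cast_neg, Int.cast_zero, Int.cast_one]
  ring

theorem chart1a_nonneg (w t r s : ℝ) (hw : 0 ≤ w) (hw1 : w ≤ 1) (ht : 0 ≤ t) (ht1 : t ≤ 1)
    (hr : 0 ≤ r) (hr1 : r ≤ 1) (hs : 0 ≤ s) (hs1 : s ≤ 1) :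
    0 ≤ cert1 (w ^ 2) (w ^ 3 * (2 * t - 1)) (r ^ 2 * w ^ 2) (r ^ 3 * w ^ 3 * (2 * s - 1)) := by
  have h := good1a_13 (pt w t r s) (by
    rintro (_ | _ | _ | i)
    exacts [⟨hw, hw1⟩, ⟨ht, ht1⟩, ⟨hr, hr1⟩, ⟨hs, hs1⟩])
  refine nonneg_of_mul_nonneg_left (b := (98304000000000 : ℝ)) ?_ (by norm_num)
  rw [chart1a_eq]
  exact mul_nonneg (pow_nonneg hw 4) h

end Vale.Agent.P154.D4
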