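import Vale.Agent.P154.D4Alg

/-!
Subdivision check of step 2, chart two.
-/

namespace Vale.Agent.P154.D4

open Bin

/-- Scaled coefficients. -/
noncomputable def coef2b : List (List (List (List ℤ))) :=
  [[[[16054087680, 0, 0, 0], [0, 0, 0, 0], [4417280000, 0, 0, 0], [0, 0, 0, 0], [55558192128, 0, 0, 0], [0, 0, 0, 0], [0, 0, 0, 0], [0, 0, 0, 0], [0, 0, 0, 0], [0, 0, 0, 0]], [[0, 0, 0, 0], [0, 0, 0, 0], [0, 0, 0, 0], [0, 0, 0, 0], [0, 0, 0, 0], [0, 0, 0, 0], [0, 0, 0, 0], [0, 0, 0, 0], [0, 0, 0, 0], [0, 0, 0, 0]], [[0, 0, 0, 0], [0, 0, 0, 0], [0, 0, 0, 0], [0, 0, 0, 0], [0, 0, 0, 0], [0, 0, 0, 0], [0, 0, 0, 0], [0, 0, 0, 0], [0, 0, 0, 0], [0, 0, 0, 0]], [[0, 0, 0, 0], [0, 0, 0, 0], [0, 0, 0, 0], [0, 0, 0, 0], [0, 0, 0, 0], [0, 0, 0, 0], [0, 0, 0, 0], [0, 0, 0, 0], [0, 0, 0, 0], [0, 0, 0, 0]]],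
    [[[28766827520, 0, 0, 0], [0, 0, 0, 0], [-183418880000, 0, 0, 0], [-366837760000, 733675520000, 0, 0], [0, 0, 0, 0], [177731727360, -355463454720, 0, 0], [0, 0, 0, 0], [0, 0, 0, 0], [0, 0, 0, 0], [0, 0, 0, 0]], [[-57533655040, 0, 0, 0], [0, 0, 0, 0], [366837760000, 0, 0, 0], [0, 0, 0, 0], [0, 0, 0, 0], [0, 0, 0, 0], [0, 0, 0, 0], [0, 0, 0, 0], [0, 0, 0, 0], [0, 0, 0, 0]], [[0, 0, 0, 0], [0, 0, 0, 0], [0, 0, 0, 0], [0, 0, 0, 0], [0, 0, 0, 0], [0, 0, 0, 0], [0, 0, 0, 0], [0, 0, 0, 0], [0, 0, 0, 0], [0, 0, 0, 0]], [[0, 0, 0, 0], [0, 0, 0, 0], [0, 0, 0, 0], [0, 0, 0, 0], [0, 0, 0, 0], [0, 0, 0, 0], [0, 0, 0, 0], [0, 0, 0, 0], [0, 0, 0, 0], [0, 0, 0, 0]]],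
    [[[39846140928, 0, 0, 0], [0, 0, 0, 0], [-2299692480, 0, 0, 0], [-77751384960, 155502769920, 0, 0], [-9198769920, 0, 0, 0], [0, 0, 0, 0], [285184114688, -207406628864, 207406628864, 0], [0, 0, 0, 0], [0, 0, 0, 0], [0, 0, 0, 0]], [[-28979011584, 0, 0, 0], [0, 0, 0, 0], [0, 0, 0, 0], [155502769920, -311005539840, 0, 0], [0, 0, 0, 0], [0, 0, 0, 0], [0, 0, 0, 0], [0, 0, 0, 0], [0, 0, 0, 0], [0, 0, 0, 0]], [[28979011584, 0, 0, 0], [0, 0, 0, 0], [0, 0, 0, 0], [0, 0, 0, 0], [0, 0, 0, 0], [0, 0, 0, 0], [0, 0, 0, 0], [0, 0, 0, 0], [0, 0, 0, 0], [0, 0, 0, 0]], [[0, 0, 0, 0], [0, 0, 0, 0], [0, 0, 0, 0], [0, 0, 0, 0], [0, 0, 0, 0], [0, 0, 0, 0], [0, 0, 0, 0], [0, 0, 0, 0], [0, 0, 0, 0], [0, 0, 0, 0]]],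
    [[[89567686656, 0, 0, 0], [0, 0, 0, 0], [70898579488, 0, 0, 0], [201140710944, -402281421888, 0, 0], [402281421888, 0, 0, 0], [567188635904, -1134377271808, 0, 0], [0, 0, 0, 0], [409269267456, -818538534912, 0, 0], [0, 0, 0, 0], [0, 0, 0, 0]], [[-179135373312, 0, 0, 0], [0, 0, 0, 0], [-141797158976, 0, 0, 0], [0, 0, 0, 0], [-804562843776, 0, 0, 0], [0, 0, 0, 0], [0, 0, 0, 0], [0, 0, 0, 0], [0, 0, 0, 0], [0, 0, 0, 0]], [[0, 0, 0, 0], [0, 0, 0, 0], [0, 0, 0, 0], [0, 0, 0, 0], [0, 0, 0, 0], [0, 0, 0, 0], [0, 0, 0, 0], [0, 0, 0, 0], [0, 0, 0, 0], [0, 0, 0, 0]], [[0, 0, 0, 0], [0, 0, 0, 0], [0, 0, 0, 0], [0, 0, 0, 0], [0, 0, 0, 0], [0, 0, 0, 0], [0, 0, 0, 0], [0, 0, 0, 0], [0, 0, 0, 0], [0, 0, 0, 0]]],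
    [[[171946280960, 0, 0, 0], [0, 0, 0, 0], [20416145680, 0, 0, 0], [21111725008, -42223450016, 0, 0], [-83120223616, 0, 0, 0], [84446900032, -168893800064, 0, 0], [326658330880, 0, 0, 0], [0, 0, 0, 0], [404636379136, -602249494528, 602249494528, 0], [0, 0, 0, 0]], [[-255920046080, 0, 0, 0], [0, 0, 0, 0], [0, 0, 0, 0], [-42223450016, 84446900032, 0, 0], [0, 0, 0, 0], [-168893800064, 337787600128, 0, 0], [0, 0, 0, 0], [0, 0, 0, 0], [0, 0, 0, 0], [0, 0, 0, 0]], [[255920046080, 0, 0, 0], [0, 0, 0, 0], [0, 0, 0, 0], [0, 0, 0, 0], [0, 0, 0, 0], [0, 0, 0, 0], [0, 0, 0, 0], [0, 0, 0, 0], [0, 0, 0, 0], [0, 0, 0, 0]], [[0, 0, 0, 0], [0, 0, 0, 0], [0, 0, 0, 0], [0, 0, 0, 0], [0, 0, 0, 0], [0, 0, 0, 0], [0, 0, 0, 0], [0, 0, 0, 0], [0, 0, 0, 0], [0, 0, 0, 0]]],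
    [[[109461765120, 0, 0, 0], [0, 0, 0, 0], [0, 0, 0, 0], [-60989677408, 121979354816, 0, 0], [-435201570640, 0, 0, 0], [-870403141280, 1740806282560, 0, 0], [-487917419264, 645036353536, -645036353536, 0], [0, 0, 0, 0], [0, 0, 0, 0], [158133749760, -346033852416, 89299058688, -59532705792]], [[-239528097792, 0, 0, 0], [0, 0, 0, 0], [0, 0, 0, 0], [80629544192, -161259088384, 0, 0], [870403141280, 0, 0, 0], [0, 0, 0, 0], [975834838528, -1290072707072, 1290072707072, 0], [0, 0, 0, 0], [0, 0, 0, 0], [0, 0, 0, 0]], [[61813702656, 0, 0, 0], [0, 0, 0, 0], [0, 0, 0, 0], [-80629544192, 161259088384, 0, 0], [0, 0, 0, 0], [0, 0, 0, 0], [0, 0, 0, 0], [0, 0, 0, 0], [0, 0, 0, 0], [0, 0, 0, 0]], [[-41209135104, 0, 0, 0], [0, 0, 0, 0], [0, 0, 0, 0], [0, 0, 0, 0], [0, 0, 0, 0], [0, 0, 0, 0], [0, 0, 0, 0], [0, 0, 0, 0], [0, 0, 0, 0], [0, 0, 0, 0]]],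
    [[[0, 0, 0, 0], [0, 0, 0, 0], [0, 0, 0, 0], [-14046920008, 28093840016, 0, 0], [-7853685856, 0, 0, 0], [43197597344, -86395194688, 0, 0], [-31414743424, -653316661760, 653316661760, 0], [-224750720128, 449501440256, 0, 0], [0, 0, 0, 0], [0, 0, 0, 0]], [[0, 0, 0, 0], [0, 0, 0, 0], [0, 0, 0, 0], [28093840016, -56187680032, 0, 0], [-163329165440, 0, 0, 0], [-86395194688, 172790389376, 0, 0], [0, 0, 0, 0], [449501440256, -899002880512, 0, 0], [0, 0, 0, 0], [0, 0, 0, 0]], [[0, 0, 0, 0], [0, 0, 0, 0], [0, 0, 0, 0], [0, 0, 0, 0], [163329165440, 0, 0, 0], [0, 0, 0, 0], [0, 0, 0, 0], [0, 0, 0, 0], [0, 0, 0, 0], [0, 0, 0, 0]], [[0, 0, 0, 0], [0, 0, 0, 0], [0, 0, 0, 0], [0, 0, 0, 0], [0, 0, 0, 0], [0, 0, 0, 0], [0, 0, 0, 0], [0, 0, 0, 0], [0, 0, 0, 0], [0, 0, 0, 0]]],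
    [[[0, 0, 0, 0], [0, 0, 0, 0], [0, 0, 0, 0], [0, 0, 0, 0], [132973693968, 0, 0, 0], [614887800240, -1229775600480, 0, 0], [1229775600480, -1849168923904, 1849168923904, 0], [1063789551744, -2127579103488, 0, 0], [0, 0, 0, 0], [0, 0, 0, 0]], [[0, 0, 0, 0], [0, 0, 0, 0], [0, 0, 0, 0], [0, 0, 0, 0], [-265947387936, 0, 0, 0], [-924584461952, 1849168923904, 0, 0], [-2459551200960, 3698337847808, -3698337847808, 0], [0, 0, 0, 0], [0, 0, 0, 0], [0, 0, 0, 0]], [[0, 0, 0, 0], [0, 0, 0, 0], [0, 0, 0, 0], [0, 0, 0, 0], [0, 0, 0, 0], [924584461952, -1849168923904, 0, 0], [0, 0, 0, 0], [0, 0, 0, 0], [0, 0, 0, 0], [0, 0, 0, 0]], [[0, 0, 0, 0], [0, 0, 0, 0], [0, 0, 0, 0], [0, 0, 0, 0], [0, 0, 0, 0], [0, 0, 0, 0], [0, 0, 0, 0], [0, 0, 0, 0], [0, 0, 0, 0], [0, 0, 0, 0]]],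
    [[[0, 0, 0, 0], [0, 0, 0, 0], [0, 0, 0, 0], [0, 0, 0, 0], [11276104620, 0, 0, 0], [-126334481576, 252668963152, 0, 0], [-688100307312, 189232286848, -189232286848, 0], [-505337926304, 1010675852608, 0, 0], [180417673920, 0, 0, 0], [0, 0, 0, 0]], [[0, 0, 0, 0], [0, 0, 0, 0], [0, 0, 0, 0], [0, 0, 0, 0], [0, 0, 0, 0], [252668963152, -505337926304, 0, 0], [189232286848, 1437116873728, -1437116873728, 0], [1010675852608, -2021351705216, 0, 0], [0, 0, 0, 0], [0, 0, 0, 0]], [[0, 0, 0, 0], [0, 0, 0, 0], [0, 0, 0, 0], [0, 0, 0, 0], [0, 0, 0, 0], [0, 0, 0, 0], [-189232286848, -1437116873728, 1437116873728, 0], [0, 0, 0, 0], [0, 0, 0, 0], [0, 0, 0, 0]], [[0, 0, 0, 0], [0, 0, 0, 0], [0, 0, 0, 0], [0, 0, 0, 0], [0, 0, 0, 0], [0, 0, 0, 0], [0, 0, 0, 0], [0, 0, 0, 0], [0, 0, 0, 0], [0, 0, 0, 0]]],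
    [[[0, 0, 0, 0], [0, 0, 0, 0], [0, 0, 0, 0], [0, 0, 0, 0], [0, 0, 0, 0], [-87439008240, 174878016480, 0, 0], [-404378893912, 314758348480, -314758348480, 0], [-808757787824, 1617515575648, 0, 0], [-699512065920, 2076377568000, -2076377568000, 0], [0, 0, 0, 0]], [[0, 0, 0, 0], [0, 0, 0, 0], [0, 0, 0, 0], [0, 0, 0, 0], [0, 0, 0, 0], [259547196000, -519094392000, 0, 0], [808757787824, -629516696960, 629516696960, 0], [629516696960, -1259033393920, 0, 0], [1399024131840, -4152755136000, 4152755136000, 0], [0, 0, 0, 0]], [[0, 0, 0, 0], [0, 0, 0, 0], [0, 0, 0, 0], [0, 0, 0, 0], [0, 0, 0, 0], [-259547196000, 519094392000, 0, 0], [0, 0, 0, 0], [-629516696960, 1259033393920, 0, 0], [0, 0, 0, 0], [0, 0, 0, 0]], [[0, 0, 0, 0], [0, 0, 0, 0], [0, 0, 0, 0], [0, 0, 0, 0], [0, 0, 0, 0], [0, 0, 0, 0], [0, 0, 0, 0], [0, 0, 0, 0], [0, 0, 0, 0], [0, 0, 0, 0]]],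
    [[[0, 0, 0, 0], [0, 0, 0, 0], [0, 0, 0, 0], [0, 0, 0, 0], [0, 0, 0, 0], [0, 0, 0, 0], [284104782852, -190220053536, 190220053536, 0], [1007246787792, -2014493575584, 0, 0], [1136419131408, -1121715561984, 1121715561984, 0], [0, 0, 0, 0]], [[0, 0, 0, 0], [0, 0, 0, 0], [0, 0, 0, 0], [0, 0, 0, 0], [0, 0, 0, 0], [0, 0, 0, 0], [-280428890496, 1281203529728, -1281203529728, 0], [-2014493575584, 4028987151168, 0, 0], [-760880214144, 5124814118912, -5124814118912, 0], [0, 0, 0, 0]], [[0, 0, 0, 0], [0, 0, 0, 0], [0, 0, 0, 0], [0, 0, 0, 0], [0, 0, 0, 0], [0, 0, 0, 0], [280428890496, -1281203529728, 1281203529728, 0], [0, 0, 0, 0], [760880214144, -5124814118912, 5124814118912, 0], [0, 0, 0, 0]], [[0, 0, 0, 0], [0, 0, 0, 0], [0, 0, 0, 0], [0, 0, 0, 0], [0, 0, 0, 0], [0, 0, 0, 0], [0, 0, 0, 0], [0, 0, 0, 0], [0, 0, 0, 0], [0, 0, 0, 0]]],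
    [[[0, 0, 0, 0], [0, 0, 0, 0], [0, 0, 0, 0], [0, 0, 0, 0], [0, 0, 0, 0], [0, 0, 0, 0], [26989551974, -19628765072, 19628765072, 0], [-153849420130, 307698840260, 0, 0], [-307698840260, 139000373120, -139000373120, 0], [215916415792, -588862952160, 471090361728, -314060241152]], [[0, 0, 0, 0], [0, 0, 0, 0], [0, 0, 0, 0], [0, 0, 0, 0], [0, 0, 0, 0], [0, 0, 0, 0], [-73607869020, 196287650720, -196287650720, 0], [69500186560, -139000373120, 0, 0], [615397680520, -278000746240, 278000746240, 0], [-157030120576, 1570301205760, -3768722893824, 2512481929216]], [[0, 0, 0, 0], [0, 0, 0, 0], [0, 0, 0, 0], [0, 0, 0, 0], [0, 0, 0, 0], [0, 0, 0, 0], [58886295216, -471090361728, 471090361728, 0], [-69500186560, 139000373120, 0, 0], [0, 0, 0, 0], [157030120576, -1570301205760, 3768722893824, -2512481929216]], [[0, 0, 0, 0], [0, 0, 0, 0], [0, 0, 0, 0], [0, 0, 0, 0], [0,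 0, 0, 0], [0, 0, 0, 0], [-39257530144, 314060241152, -314060241152, 0], [0, 0, 0, 0], [0, 0, 0, 0], [0, 0, 0, 0]]],
    [[[0, 0, 0, 0], [0, 0, 0, 0], [0, 0, 0, 0], [0, 0, 0, 0], [0, 0, 0, 0], [0, 0, 0, 0], [0, 0, 0, 0], [-128813770785, 257627541570, 0, 0], [-418060470452, 309691792256, -309691792256, 0], [-515255083140, 1030510166280, 0, 0]], [[0, 0, 0, 0], [0, 0, 0, 0], [0, 0, 0, 0], [0, 0, 0, 0], [0, 0, 0, 0], [0, 0, 0, 0], [0, 0, 0, 0], [257627541570, -515255083140, 0, 0], [309691792256, -4072798108928, 4072798108928, 0], [1030510166280, -2061020332560, 0, 0]], [[0, 0, 0, 0], [0, 0, 0, 0], [0, 0, 0, 0], [0, 0, 0, 0], [0, 0, 0, 0], [0, 0, 0, 0], [0, 0, 0, 0], [0, 0, 0, 0], [-309691792256, 4072798108928, -4072798108928, 0], [0, 0, 0, 0]], [[0, 0, 0, 0], [0, 0, 0, 0], [0, 0, 0, 0], [0, 0, 0, 0], [0, 0, 0, 0], [0, 0, 0, 0], [0, 0, 0, 0], [0, 0, 0, 0], [0,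 0, 0, 0], [0, 0, 0, 0]]],
    [[[0, 0, 0, 0], [0, 0, 0, 0], [0, 0, 0, 0], [0, 0, 0, 0], [0, 0, 0, 0], [0, 0, 0, 0], [0, 0, 0, 0], [0, 0, 0, 0], [182792874733, -333689006224, 333689006224, 0], [365585749466, -809686559220, 235545180864, -157030120576]], [[0, 0, 0, 0], [0, 0, 0, 0], [0, 0, 0, 0], [0, 0, 0, 0], [0, 0, 0, 0], [0, 0, 0, 0], [0, 0, 0, 0], [0, 0, 0, 0], [-404843279610, 981438253600, -981438253600, 0], [-667378012448, 1962876507200, -1884361446912, 1256240964608]], [[0, 0, 0, 0], [0, 0, 0, 0], [0, 0, 0, 0], [0, 0, 0, 0], [0, 0, 0, 0], [0, 0, 0, 0], [0, 0, 0, 0], [0, 0, 0, 0], [117772590432, -942180723456, 942180723456, 0], [667378012448, -1962876507200, 1884361446912, -1256240964608]], [[0, 0, 0, 0], [0, 0, 0, 0], [0, 0, 0, 0], [0, 0, 0, 0], [0, 0, 0, 0], [0, 0, 0, 0], [0, 0, 0, 0], [0, 0, 0, 0], [-78515060288, 628120482304, -628120482304, 0], [0,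 0, 0, 0]]],
    [[[0, 0, 0, 0], [0, 0, 0, 0], [0, 0, 0, 0], [0, 0, 0, 0], [0, 0, 0, 0], [0, 0, 0, 0], [0, 0, 0, 0], [0, 0, 0, 0], [0, 0, 0, 0], [-78515060288, 176658885648, -58886295216, 39257530144]], [[0, 0, 0, 0], [0, 0, 0, 0], [0, 0, 0, 0], [0, 0, 0, 0], [0, 0, 0, 0], [0, 0, 0, 0], [0, 0, 0, 0], [0, 0, 0, 0], [0, 0, 0, 0], [176658885648, -392575301440, 117772590432, -78515060288]], [[0, 0, 0, 0], [0, 0, 0, 0], [0, 0, 0, 0], [0, 0, 0, 0], [0, 0, 0, 0], [0, 0, 0, 0], [0, 0, 0, 0], [0, 0, 0, 0], [0, 0, 0, 0], [-58886295216, 117772590432, 0, 0]], [[0, 0, 0, 0], [0, 0, 0, 0], [0, 0, 0, 0], [0, 0, 0, 0], [0, 0, 0, 0], [0, 0, 0, 0], [0, 0, 0, 0], [0, 0, 0, 0], [0, 0, 0, 0], [39257530144, -78515060288, 0, 0]]]]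

theorem good2b_1 : Bern.Good 4 [(0, 14, false), (3, 3, false), (2, 9, false)] coef2b :=
  Bern.good_leaf (by decide +kernel)

theorem good2b_2 : Bern.Good 4 [(0, 14, false), (3, 3, false), (2, 9, true), (2, 9, false), (0, 14, false)] coef2b :=
  Bern.good_leaf (by decide +kernel)

theorem good2b_3 : Bern.Good 4 [(0, 14, false), (3, 3, false), (2, 9, true), (2, 9, false), (0, 14, true)] coef2b :=
  Bern.good_leaf (by decide +kernel)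

theorem good2b_4 : Bern.Good 4 [(0, 14, false), (3, 3, false), (2, 9, true), (2, 9, false)] coef2b :=
  Bern.good_node 0 14 (by norm_num) (by decide +kernel) good2b_2 good2b_3

theorem good2b_5 : Bern.Good 4 [(0, 14, false), (3, 3, false), (2, 9, true), (2, 9, true), (0, 14, false)] coef2b :=
  Bern.good_leaf (by decide +kernel)

theorem good2b_6 : Bern.Good 4 [(0, 14, false), (3, 3, false), (2, 9, true), (2, 9, true), (0, 14, true)] coef2b :=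
  Bern.good_leaf (by decide +kernel)

theorem good2b_7 : Bern.Good 4 [(0, 14, false), (3, 3, false), (2, 9, true), (2, 9, true)] coef2b :=
  Bern.good_node 0 14 (by norm_num) (by decide +kernel) good2b_5 good2b_6

theorem good2b_8 : Bern.Good 4 [(0, 14, false), (3, 3, false), (2, 9, true)] coef2b :=
  Bern.good_node 2 9 (by norm_num) (by decide +kernel) good2b_4 good2b_7

theorem good2b_9 : Bern.Good 4 [(0, 14, false), (3, 3, false)] coef2b :=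
  Bern.good_node 2 9 (by norm_num) (by decide +kernel) good2b_1 good2b_8

theorem good2b_10 : Bern.Good 4 [(0, 14, false), (3, 3, true)] coef2b :=
  Bern.good_leaf (by decide +kernel)

theorem good2b_11 : Bern.Good 4 [(0, 14, false)] coef2b :=
  Bern.good_node 3 3 (by norm_num) (by decide +kernel) good2b_9 good2b_10

theorem good2b_12 : Bern.Good 4 [(0, 14, true)] coef2b :=
  Bern.good_leaf (by decide +kernel)

theorem good2b_13 : Bern.Good 4 [] coef2b :=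
  Bern.good_node 0 14 (by norm_num) (by decide +kernel) good2b_11 good2b_12

set_option maxHeartbeats 4000000 in
set_option maxRecDepth 30000 in
theorem chart2b_eq (w t r s : ℝ) :
    cert2 (r ^ 2 * w ^ 2) (r ^ 3 * w ^ 3 * (2 * s - 1)) (w ^ 2) (w ^ 3 * (2 * t - 1)) * 512000000000 =
      w ^ 4 * Bern.ev 4 coef2b (pt w t r s) := by
  simp only [cert2, ev4_eq, coef2b, pt, List.foldr_cons, List.foldr_nil, Int.cast_ofNat, Int.cast_neg, Int.cast_zero, Int.cast_one]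
  ring

theorem chart2b_nonneg (w t r s : ℝ) (hw : 0 ≤ w) (hw1 : w ≤ 1) (ht : 0 ≤ t) (ht1 : t ≤ 1)
    (hr : 0 ≤ r) (hr1 : r ≤ 1) (hs : 0 ≤ s) (hs1 : s ≤ 1) :
    0 ≤ cert2 (r ^ 2 * w ^ 2) (r ^ 3 * w ^ 3 * (2 * s - 1)) (w ^ 2) (w ^ 3 * (2 * t - 1)) := by
  have h := good2b_13 (pt w t r s) (by
    rintro (_ | _ | _ | i)
    exacts [⟨hw, hw1⟩, ⟨ht, ht1⟩, ⟨hr, hr1⟩, ⟨hs, hs1⟩])
  refine nonneg_of_mul_nonneg_left (b := (512000000000 : ℝ)) ?_ (by norm_num)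
  rw [chart2b_eq]
  exact mul_nonneg (pow_nonneg hw 4) h

end Vale.Agent.P154.D4
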