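import Vale.Agent.P154.D4Alg

/-!
Subdivision check of step 3, chart one.
-/

namespace Vale.Agent.P154.D4

open Bin

/-- Scaled coefficients. -/
noncomputable def coef3a : List (List (List (List ℤ))) :=
  [[[[13477258752, 0, 0, 0], [0, 0, 0, 0], [16343296000, 0, 0, 0], [0, 0, 0, 0], [8910144768, 0, 0, 0], [0, 0, 0, 0], [0, 0, 0, 0], [0, 0, 0, 0], [0, 0, 0, 0], [0, 0, 0, 0]], [[0, 0, 0, 0], [0, 0, 0, 0], [0, 0, 0, 0], [0, 0, 0, 0], [0, 0, 0, 0], [0, 0, 0, 0], [0, 0, 0, 0], [0, 0, 0, 0], [0, 0, 0, 0], [0, 0, 0, 0]], [[0, 0, 0, 0], [0, 0, 0, 0], [0, 0, 0, 0], [0, 0, 0, 0], [0, 0, 0, 0], [0, 0, 0, 0], [0, 0, 0, 0], [0, 0, 0, 0], [0, 0, 0, 0], [0, 0, 0, 0]], [[0, 0, 0, 0], [0, 0, 0, 0], [0, 0, 0, 0], [0, 0, 0, 0], [0, 0, 0, 0], [0, 0, 0, 0], [0, 0, 0, 0], [0, 0, 0, 0], [0, 0, 0, 0], [0, 0, 0, 0]]],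
    [[[43460725760, 0, 0, 0], [0, 0, 0, 0], [-152685056000, 0, 0, 0], [-76342528000, 152685056000, 0, 0], [0, 0, 0, 0], [15842675200, -31685350400, 0, 0], [0, 0, 0, 0], [0, 0, 0, 0], [0, 0, 0, 0], [0, 0, 0, 0]], [[-86921451520, 0, 0, 0], [0, 0, 0, 0], [305370112000, 0, 0, 0], [0, 0, 0, 0], [0, 0, 0, 0], [0, 0, 0, 0], [0, 0, 0, 0], [0, 0, 0, 0], [0, 0, 0, 0], [0, 0, 0, 0]], [[0, 0, 0, 0], [0, 0, 0, 0], [0, 0, 0, 0], [0, 0, 0, 0], [0, 0, 0, 0], [0, 0, 0, 0], [0, 0, 0, 0], [0, 0, 0, 0], [0, 0, 0, 0], [0, 0, 0, 0]], [[0, 0, 0, 0], [0, 0, 0, 0], [0, 0, 0, 0], [0, 0, 0, 0], [0, 0, 0, 0], [0, 0, 0, 0], [0, 0, 0, 0], [0, 0, 0, 0], [0, 0, 0, 0], [0, 0, 0, 0]]],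
    [[[74194024960, 0, 0, 0], [0, 0, 0, 0], [-33693954176, 0, 0, 0], [-46561025088, 93122050176, 0, 0], [-8423488544, 0, 0, 0], [0, 0, 0, 0], [17107233792, -12441624576, 12441624576, 0], [0, 0, 0, 0], [0, 0, 0, 0], [0, 0, 0, 0]], [[-53959290880, 0, 0, 0], [0, 0, 0, 0], [0, 0, 0, 0], [93122050176, -186244100352, 0, 0], [0, 0, 0, 0], [0, 0, 0, 0], [0, 0, 0, 0], [0, 0, 0, 0], [0, 0, 0, 0], [0, 0, 0, 0]], [[53959290880, 0, 0, 0], [0, 0, 0, 0], [0, 0, 0, 0], [0, 0, 0, 0], [0, 0, 0, 0], [0, 0, 0, 0], [0, 0, 0, 0], [0, 0, 0, 0], [0, 0, 0, 0], [0, 0, 0, 0]], [[0, 0, 0, 0], [0, 0, 0, 0], [0, 0, 0, 0], [0, 0, 0, 0], [0, 0, 0, 0], [0, 0, 0, 0], [0, 0, 0, 0], [0, 0, 0, 0], [0, 0, 0, 0], [0, 0, 0, 0]]],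
    [[[120537564672, 0, 0, 0], [0, 0, 0, 0], [146558654080, 0, 0, 0], [120594703648, -241189407296, 0, 0], [60297351824, 0, 0, 0], [18319831760, -36639663520, 0, 0], [0, 0, 0, 0], [48951028224, -97902056448, 0, 0], [0, 0, 0, 0], [0, 0, 0, 0]], [[-241075129344, 0, 0, 0], [0, 0, 0, 0], [-293117308160, 0, 0, 0], [0, 0, 0, 0], [-120594703648, 0, 0, 0], [0, 0, 0, 0], [0, 0, 0, 0], [0, 0, 0, 0], [0, 0, 0, 0], [0, 0, 0, 0]], [[0, 0, 0, 0], [0, 0, 0, 0], [0, 0, 0, 0], [0, 0, 0, 0], [0, 0, 0, 0], [0, 0, 0, 0], [0, 0, 0, 0], [0, 0, 0, 0], [0, 0, 0, 0], [0, 0, 0, 0]], [[0, 0, 0, 0], [0, 0, 0, 0], [0, 0, 0, 0], [0, 0, 0, 0], [0, 0, 0, 0], [0, 0, 0, 0], [0, 0, 0, 0], [0, 0, 0, 0], [0, 0, 0, 0], [0, 0, 0, 0]]],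
    [[[129220710400, 0, 0, 0], [0, 0, 0, 0], [72950935680, 0, 0, 0], [34116158496, -68232316992, 0, 0], [-16132784000, 0, 0, 0], [8529039624, -17058079248, 0, 0], [4559433480, 0, 0, 0], [0, 0, 0, 0], [107376104960, -159815598080, 159815598080, 0], [0, 0, 0, 0]], [[-192328499200, 0, 0, 0], [0, 0, 0, 0], [0, 0, 0, 0], [-68232316992, 136464633984, 0, 0], [0, 0, 0, 0], [-17058079248, 34116158496, 0, 0], [0, 0, 0, 0], [0, 0, 0, 0], [0, 0, 0, 0], [0, 0, 0, 0]], [[192328499200, 0, 0, 0], [0, 0, 0, 0], [0, 0, 0, 0], [0, 0, 0, 0], [0, 0, 0, 0], [0, 0, 0, 0], [0, 0, 0, 0], [0, 0, 0, 0], [0, 0, 0, 0], [0, 0, 0, 0]], [[0, 0, 0, 0], [0, 0, 0, 0], [0, 0, 0, 0], [0, 0, 0, 0], [0, 0, 0, 0], [0, 0, 0, 0], [0, 0, 0, 0], [0, 0, 0, 0], [0, 0, 0, 0], [0, 0, 0, 0]]],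
    [[[52771873280, 0, 0, 0], [0, 0, 0, 0], [0, 0, 0, 0], [-123630865856, 247261731712, 0, 0], [-265314059040, 0, 0, 0], [-132657029520, 265314059040, 0, 0], [-15453858232, 25339965088, -25339965088, 0], [0, 0, 0, 0], [0, 0, 0, 0], [68574812160, -150057824256, 38724599808, -25816399872]], [[-115477275648, 0, 0, 0], [0, 0, 0, 0], [0, 0, 0, 0], [202719720704, -405439441408, 0, 0], [530628118080, 0, 0, 0], [0, 0, 0, 0], [30907716464, -50679930176, 50679930176, 0], [0, 0, 0, 0], [0, 0, 0, 0], [0, 0, 0, 0]], [[29800587264, 0, 0, 0], [0, 0, 0, 0], [0, 0, 0, 0], [-202719720704, 405439441408, 0, 0], [0, 0, 0, 0], [0, 0, 0, 0], [0, 0, 0, 0], [0, 0, 0, 0], [0, 0, 0, 0], [0, 0, 0, 0]], [[-19867058176, 0, 0, 0], [0, 0, 0, 0], [0, 0, 0, 0], [0, 0, 0, 0], [0, 0, 0, 0], [0, 0, 0, 0], [0, 0, 0, 0], [0, 0, 0, 0], [0, 0, 0, 0], [0, 0, 0, 0]]],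
    [[[0, 0, 0, 0], [0, 0, 0, 0], [0, 0, 0, 0], [-51045993920, 102091987840, 0, 0], [-30605571888, 0, 0, 0], [-9813522352, 19627044704, 0, 0], [-7651392972, -36475467840, 36475467840, 0], [-3190374620, 6380749240, 0, 0], [0, 0, 0, 0], [0, 0, 0, 0]], [[0, 0, 0, 0], [0, 0, 0, 0], [0, 0, 0, 0], [102091987840, -204183975680, 0, 0], [-145901871360, 0, 0, 0], [19627044704, -39254089408, 0, 0], [0, 0, 0, 0], [6380749240, -12761498480, 0, 0], [0, 0, 0, 0], [0, 0, 0, 0]], [[0, 0, 0, 0], [0, 0, 0, 0], [0, 0, 0, 0], [0, 0, 0, 0], [145901871360, 0, 0, 0], [0, 0, 0, 0], [0, 0, 0, 0], [0, 0, 0, 0], [0, 0, 0, 0], [0, 0, 0, 0]], [[0, 0, 0, 0], [0, 0, 0, 0], [0, 0, 0, 0], [0, 0, 0, 0], [0, 0, 0, 0], [0, 0, 0, 0], [0, 0, 0, 0], [0, 0, 0, 0], [0, 0, 0, 0], [0, 0, 0, 0]]],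
    [[[0, 0, 0, 0], [0, 0, 0, 0], [0, 0, 0, 0], [0, 0, 0, 0], [278556937056, 0, 0, 0], [354610099952, -709220199904, 0, 0], [177305049976, -282635011552, 282635011552, 0], [34819617132, -69639234264, 0, 0], [0, 0, 0, 0], [0, 0, 0, 0]], [[0, 0, 0, 0], [0, 0, 0, 0], [0, 0, 0, 0], [0, 0, 0, 0], [-557113874112, 0, 0, 0], [-565270023104, 1130540046208, 0, 0], [-354610099952, 565270023104, -565270023104, 0], [0, 0, 0, 0], [0, 0, 0, 0], [0, 0, 0, 0]], [[0, 0, 0, 0], [0, 0, 0, 0], [0, 0, 0, 0], [0, 0, 0, 0], [0, 0, 0, 0], [565270023104, -1130540046208, 0, 0], [0, 0, 0, 0], [0, 0, 0, 0], [0, 0, 0, 0], [0, 0, 0, 0]], [[0, 0, 0, 0], [0, 0, 0, 0], [0, 0, 0, 0], [0, 0, 0, 0], [0, 0, 0, 0], [0, 0, 0, 0], [0, 0, 0, 0], [0, 0, 0, 0], [0, 0, 0, 0], [0, 0, 0, 0]]],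
    [[[0, 0, 0, 0], [0, 0, 0, 0], [0, 0, 0, 0], [0, 0, 0, 0], [41507406912, 0, 0, 0], [-165753192280, 331506384560, 0, 0], [-228906184248, 40142834400, -40142834400, 0], [-41438298070, 82876596140, 0, 0], [2594212932, 0, 0, 0], [0, 0, 0, 0]], [[0, 0, 0, 0], [0, 0, 0, 0], [0, 0, 0, 0], [0, 0, 0, 0], [0, 0, 0, 0], [331506384560, -663012769120, 0, 0], [40142834400, 292873506816, -292873506816, 0], [82876596140, -165753192280, 0, 0], [0, 0, 0, 0], [0, 0, 0, 0]], [[0, 0, 0, 0], [0, 0, 0, 0], [0, 0, 0, 0], [0, 0, 0, 0], [0, 0, 0, 0], [0, 0, 0, 0], [-40142834400, -292873506816, 292873506816, 0], [0, 0, 0, 0], [0, 0, 0, 0], [0, 0, 0, 0]], [[0, 0, 0, 0], [0, 0, 0, 0], [0, 0, 0, 0], [0, 0, 0, 0], [0, 0, 0, 0], [0, 0, 0, 0], [0, 0, 0, 0], [0, 0, 0, 0], [0, 0, 0, 0], [0, 0, 0, 0]]],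
    [[[0, 0, 0, 0], [0, 0, 0, 0], [0, 0, 0, 0], [0, 0, 0, 0], [0, 0, 0, 0], [-184866787280, 369733574560, 0, 0], [-197189083584, 133030377792, -133030377792, 0], [-98594541792, 197189083584, 0, 0], [-23108348410, 71679690184, -71679690184, 0], [0, 0, 0, 0]], [[0, 0, 0, 0], [0, 0, 0, 0], [0, 0, 0, 0], [0, 0, 0, 0], [0, 0, 0, 0], [573437521472, -1146875042944, 0, 0], [394378167168, -266060755584, 266060755584, 0], [66515188896, -133030377792, 0, 0], [46216696820, -143359380368, 143359380368, 0], [0, 0, 0, 0]], [[0, 0, 0, 0], [0, 0, 0, 0], [0, 0, 0, 0], [0, 0, 0, 0], [0, 0, 0, 0], [-573437521472, 1146875042944, 0, 0], [0, 0, 0, 0], [-66515188896, 133030377792, 0, 0], [0, 0, 0, 0], [0, 0, 0, 0]], [[0, 0, 0, 0], [0, 0, 0, 0], [0, 0, 0, 0], [0, 0, 0, 0], [0, 0, 0, 0], [0, 0, 0, 0], [0, 0, 0, 0], [0, 0, 0, 0], [0, 0, 0, 0], [0, 0, 0, 0]]],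
    [[[0, 0, 0, 0], [0, 0, 0, 0], [0, 0, 0, 0], [0, 0, 0, 0], [0, 0, 0, 0], [0, 0, 0, 0], [324035400636, -220568507040, 220568507040, 0], [283769061364, -567538122728, 0, 0], [81008850159, -75895830216, 75895830216, 0], [0, 0, 0, 0]], [[0, 0, 0, 0], [0, 0, 0, 0], [0, 0, 0, 0], [0, 0, 0, 0], [0, 0, 0, 0], [0, 0, 0, 0], [-303583320864, 1543175219456, -1543175219456, 0], [-567538122728, 1135076245456, 0, 0], [-55142126760, 385793804864, -385793804864, 0], [0, 0, 0, 0]], [[0, 0, 0, 0], [0, 0, 0, 0], [0, 0, 0, 0], [0, 0, 0, 0], [0, 0, 0, 0], [0, 0, 0, 0], [303583320864, -1543175219456, 1543175219456, 0], [0, 0, 0, 0], [55142126760, -385793804864, 385793804864, 0], [0, 0, 0, 0]], [[0, 0, 0, 0], [0, 0, 0, 0], [0, 0, 0, 0], [0, 0, 0, 0], [0, 0, 0, 0], [0, 0, 0, 0], [0, 0, 0, 0], [0, 0, 0, 0], [0, 0, 0, 0], [0, 0, 0, 0]]],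
    [[[0, 0, 0, 0], [0, 0, 0, 0], [0, 0, 0, 0], [0, 0, 0, 0], [0, 0, 0, 0], [0, 0, 0, 0], [52908142496, -38478649088, 38478649088, 0], [-107951265110, 215902530220, 0, 0], [-53975632555, 43072531864, -43072531864, 0], [6613517812, -18036866760, 14429493408, -9619662272]], [[0, 0, 0, 0], [0, 0, 0, 0], [0, 0, 0, 0], [0, 0, 0, 0], [0, 0, 0, 0], [0, 0, 0, 0], [-144294934080, 384786490880, -384786490880, 0], [86145063728, -172290127456, 0, 0], [107951265110, -86145063728, 86145063728, 0], [-4809831136, 48098311360, -115435947264, 76957298176]], [[0, 0, 0, 0], [0, 0, 0, 0], [0, 0, 0, 0], [0, 0, 0, 0], [0, 0, 0, 0], [0, 0, 0, 0], [115435947264, -923487578112, 923487578112, 0], [-86145063728, 172290127456, 0, 0], [0, 0, 0, 0], [4809831136, -48098311360, 115435947264, -76957298176]], [[0, 0, 0, 0], [0, 0, 0, 0], [0, 0, 0, 0], [0, 0, 0, 0], [0, 0,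 0, 0], [0, 0, 0, 0], [-76957298176, 615658385408, -615658385408, 0], [0, 0, 0, 0], [0, 0, 0, 0], [0, 0, 0, 0]]],
    [[[0, 0, 0, 0], [0, 0, 0, 0], [0, 0, 0, 0], [0, 0, 0, 0], [0, 0, 0, 0], [0, 0, 0, 0], [0, 0, 0, 0], [-126258067320, 252516134640, 0, 0], [-95425610844, 63313491048, -63313491048, 0], [-31564516830, 63129033660, 0, 0]], [[0, 0, 0, 0], [0, 0, 0, 0], [0, 0, 0, 0], [0, 0, 0, 0], [0, 0, 0, 0], [0, 0, 0, 0], [0, 0, 0, 0], [252516134640, -505032269280, 0, 0], [63313491048, -969259031424, 969259031424, 0], [63129033660, -126258067320, 0, 0]], [[0, 0, 0, 0], [0, 0, 0, 0], [0, 0, 0, 0], [0, 0, 0, 0], [0, 0, 0, 0], [0, 0, 0, 0], [0, 0, 0, 0], [0, 0, 0, 0], [-63313491048, 969259031424, -969259031424, 0], [0, 0, 0, 0]], [[0, 0, 0, 0], [0, 0, 0, 0], [0, 0, 0, 0], [0, 0, 0, 0], [0, 0, 0, 0], [0, 0, 0, 0], [0, 0, 0, 0], [0, 0, 0, 0], [0, 0,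 0, 0], [0, 0, 0, 0]]],
    [[[0, 0, 0, 0], [0, 0, 0, 0], [0, 0, 0, 0], [0, 0, 0, 0], [0, 0, 0, 0], [0, 0, 0, 0], [0, 0, 0, 0], [0, 0, 0, 0], [89583104908, -163534258624, 163534258624, 0], [44791552454, -99202767180, 28858986816, -19239324544]], [[0, 0, 0, 0], [0, 0, 0, 0], [0, 0, 0, 0], [0, 0, 0, 0], [0, 0, 0, 0], [0, 0, 0, 0], [0, 0, 0, 0], [0, 0, 0, 0], [-198405534360, 480983113600, -480983113600, 0], [-81767129312, 240491556800, -230871894528, 153914596352]], [[0, 0, 0, 0], [0, 0, 0, 0], [0, 0, 0, 0], [0, 0, 0, 0], [0, 0, 0, 0], [0, 0, 0, 0], [0, 0, 0, 0], [0, 0, 0, 0], [57717973632, -461743789056, 461743789056, 0], [81767129312, -240491556800, 230871894528, -153914596352]], [[0, 0, 0, 0], [0, 0, 0, 0], [0, 0, 0, 0], [0, 0, 0, 0], [0, 0, 0, 0], [0, 0, 0, 0], [0, 0, 0, 0], [0, 0, 0, 0], [-38478649088, 307829192704, -307829192704, 0], [0,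 0, 0, 0]]],
    [[[0, 0, 0, 0], [0, 0, 0, 0], [0, 0, 0, 0], [0, 0, 0, 0], [0, 0, 0, 0], [0, 0, 0, 0], [0, 0, 0, 0], [0, 0, 0, 0], [0, 0, 0, 0], [-19239324544, 43288480224, -14429493408, 9619662272]], [[0, 0, 0, 0], [0, 0, 0, 0], [0, 0, 0, 0], [0, 0, 0, 0], [0, 0, 0, 0], [0, 0, 0, 0], [0, 0, 0, 0], [0, 0, 0, 0], [0, 0, 0, 0], [43288480224, -96196622720, 28858986816, -19239324544]], [[0, 0, 0, 0], [0, 0, 0, 0], [0, 0, 0, 0], [0, 0, 0, 0], [0, 0, 0, 0], [0, 0, 0, 0], [0, 0, 0, 0], [0, 0, 0, 0], [0, 0, 0, 0], [-14429493408, 28858986816, 0, 0]], [[0, 0, 0, 0], [0, 0, 0, 0], [0, 0, 0, 0], [0, 0, 0, 0], [0, 0, 0, 0], [0, 0, 0, 0], [0, 0, 0, 0], [0, 0, 0, 0], [0, 0, 0, 0], [9619662272, -19239324544, 0, 0]]]]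

theorem good3a_1 : Bern.Good 4 [(0, 14, false)] coef3a :=
  Bern.good_leaf (by decide +kernel)

theorem good3a_2 : Bern.Good 4 [(0, 14, true), (2, 9, false)] coef3a :=
  Bern.good_leaf (by decide +kernel)

theorem good3a_3 : Bern.Good 4 [(0, 14, true), (2, 9, true), (2, 9, false)] coef3a :=
  Bern.good_leaf (by decide +kernel)

theorem good3a_4 : Bern.Good 4 [(0, 14, true), (2, 9, true), (2, 9, true)] coef3a :=
  Bern.good_leaf (by decide +kernel)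

theorem good3a_5 : Bern.Good 4 [(0, 14, true), (2, 9, true)] coef3a :=
  Bern.good_node 2 9 (by norm_num) (by decide +kernel) good3a_3 good3a_4

theorem good3a_6 : Bern.Good 4 [(0, 14, true)] coef3a :=
  Bern.good_node 2 9 (by norm_num) (by decide +kernel) good3a_2 good3a_5

theorem good3a_7 : Bern.Good 4 [] coef3a :=
  Bern.good_node 0 14 (by norm_num) (by decide +kernel) good3a_1 good3a_6

set_option maxHeartbeats 4000000 in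
set_option maxRecDepth 30000 in
theorem chart3a_eq (w t r s : ℝ) :
    cert3 (w ^ 2) (w ^ 3 * (2 * t - 1)) (r ^ 2 * w ^ 2) (r ^ 3 * w ^ 3 * (2 * s - 1)) * 256000000000 =
      w ^ 4 * Bern.ev 4 coef3a (pt w t r s) := by
  simp only [cert3, ev4_eq, coef3a, pt, List.foldr_cons, List.foldr_nil, Int.cast_ofNat, Int.cast_neg, Int.cast_zero, Int.cast_one]
  ring

theorem chart3a_nonneg (w t r s : ℝ) (hw : 0 ≤ w) (hw1 : w ≤ 1) (ht : 0 ≤ t) (ht1 : t ≤ 1)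
    (hr : 0 ≤ r) (hr1 : r ≤ 1) (hs : 0 ≤ s) (hs1 : s ≤ 1) :
    0 ≤ cert3 (w ^ 2) (w ^ 3 * (2 * t - 1)) (r ^ 2 * w ^ 2) (r ^ 3 * w ^ 3 * (2 * s - 1)) := by
  have h := good3a_7 (pt w t r s) (by
    rintro (_ | _ | _ | i)
    exacts [⟨hw, hw1⟩, ⟨ht, ht1⟩, ⟨hr, hr1⟩, ⟨hs, hs1⟩])
  refine nonneg_of_mul_nonneg_left (b := (256000000000 : ℝ)) ?_ (by norm_num)
  rw [chart3a_eq]
  exact mul_nonneg (pow_nonneg hw 4) h

end Vale.Agent.P154.D4
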