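import Vale.Agent.P154.D4Alg

/-!
Subdivision check of step 3, chart two.
-/

namespace Vale.Agent.P154.D4

open Bin

/-- Scaled coefficients. -/
noncomputable def coef3b : List (List (List (List ℤ))) :=
  [[[[8910144768, 0, 0, 0], [0, 0, 0, 0], [16343296000, 0, 0, 0], [0, 0, 0, 0], [13477258752, 0, 0, 0], [0, 0, 0, 0], [0, 0, 0, 0], [0, 0, 0, 0], [0, 0, 0, 0], [0, 0, 0, 0]], [[0, 0, 0, 0], [0, 0, 0, 0], [0, 0, 0, 0], [0, 0, 0, 0], [0, 0, 0, 0], [0, 0, 0, 0], [0, 0, 0, 0], [0, 0, 0, 0], [0, 0, 0, 0], [0, 0, 0, 0]], [[0, 0, 0, 0], [0, 0, 0, 0], [0, 0, 0, 0], [0, 0, 0, 0], [0, 0, 0, 0], [0, 0, 0, 0], [0, 0, 0, 0], [0, 0, 0, 0], [0, 0, 0, 0], [0, 0, 0, 0]], [[0, 0, 0, 0], [0, 0, 0, 0], [0, 0, 0, 0], [0, 0, 0, 0], [0, 0, 0, 0], [0, 0, 0, 0], [0, 0, 0, 0], [0, 0, 0, 0], [0, 0, 0, 0], [0, 0, 0, 0]]],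
    [[[15842675200, 0, 0, 0], [0, 0, 0, 0], [-76342528000, 0, 0, 0], [-152685056000, 305370112000, 0, 0], [0, 0, 0, 0], [43460725760, -86921451520, 0, 0], [0, 0, 0, 0], [0, 0, 0, 0], [0, 0, 0, 0], [0, 0, 0, 0]], [[-31685350400, 0, 0, 0], [0, 0, 0, 0], [152685056000, 0, 0, 0], [0, 0, 0, 0], [0, 0, 0, 0], [0, 0, 0, 0], [0, 0, 0, 0], [0, 0, 0, 0], [0, 0, 0, 0], [0, 0, 0, 0]], [[0, 0, 0, 0], [0, 0, 0, 0], [0, 0, 0, 0], [0, 0, 0, 0], [0, 0, 0, 0], [0, 0, 0, 0], [0, 0, 0, 0], [0, 0, 0, 0], [0, 0, 0, 0], [0, 0, 0, 0]], [[0, 0, 0, 0], [0, 0, 0, 0], [0, 0, 0, 0], [0, 0, 0, 0], [0, 0, 0, 0], [0, 0, 0, 0], [0, 0, 0, 0], [0, 0, 0, 0], [0, 0, 0, 0], [0, 0, 0, 0]]],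
    [[[17107233792, 0, 0, 0], [0, 0, 0, 0], [-8423488544, 0, 0, 0], [-46561025088, 93122050176, 0, 0], [-33693954176, 0, 0, 0], [0, 0, 0, 0], [74194024960, -53959290880, 53959290880, 0], [0, 0, 0, 0], [0, 0, 0, 0], [0, 0, 0, 0]], [[-12441624576, 0, 0, 0], [0, 0, 0, 0], [0, 0, 0, 0], [93122050176, -186244100352, 0, 0], [0, 0, 0, 0], [0, 0, 0, 0], [0, 0, 0, 0], [0, 0, 0, 0], [0, 0, 0, 0], [0, 0, 0, 0]], [[12441624576, 0, 0, 0], [0, 0, 0, 0], [0, 0, 0, 0], [0, 0, 0, 0], [0, 0, 0, 0], [0, 0, 0, 0], [0, 0, 0, 0], [0, 0, 0, 0], [0, 0, 0, 0], [0, 0, 0, 0]], [[0, 0, 0, 0], [0, 0, 0, 0], [0, 0, 0, 0], [0, 0, 0, 0], [0, 0, 0, 0], [0, 0, 0, 0], [0, 0, 0, 0], [0, 0, 0, 0], [0, 0, 0, 0], [0, 0, 0, 0]]],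
    [[[48951028224, 0, 0, 0], [0, 0, 0, 0], [18319831760, 0, 0, 0], [60297351824, -120594703648, 0, 0], [120594703648, 0, 0, 0], [146558654080, -293117308160, 0, 0], [0, 0, 0, 0], [120537564672, -241075129344, 0, 0], [0, 0, 0, 0], [0, 0, 0, 0]], [[-97902056448, 0, 0, 0], [0, 0, 0, 0], [-36639663520, 0, 0, 0], [0, 0, 0, 0], [-241189407296, 0, 0, 0], [0, 0, 0, 0], [0, 0, 0, 0], [0, 0, 0, 0], [0, 0, 0, 0], [0, 0, 0, 0]], [[0, 0, 0, 0], [0, 0, 0, 0], [0, 0, 0, 0], [0, 0, 0, 0], [0, 0, 0, 0], [0, 0, 0, 0], [0, 0, 0, 0], [0, 0, 0, 0], [0, 0, 0, 0], [0, 0, 0, 0]], [[0, 0, 0, 0], [0, 0, 0, 0], [0, 0, 0, 0], [0, 0, 0, 0], [0, 0, 0, 0], [0, 0, 0, 0], [0, 0, 0, 0], [0, 0, 0, 0], [0, 0, 0, 0], [0, 0, 0, 0]]],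
    [[[107376104960, 0, 0, 0], [0, 0, 0, 0], [4559433480, 0, 0, 0], [8529039624, -17058079248, 0, 0], [-16132784000, 0, 0, 0], [34116158496, -68232316992, 0, 0], [72950935680, 0, 0, 0], [0, 0, 0, 0], [129220710400, -192328499200, 192328499200, 0], [0, 0, 0, 0]], [[-159815598080, 0, 0, 0], [0, 0, 0, 0], [0, 0, 0, 0], [-17058079248, 34116158496, 0, 0], [0, 0, 0, 0], [-68232316992, 136464633984, 0, 0], [0, 0, 0, 0], [0, 0, 0, 0], [0, 0, 0, 0], [0, 0, 0, 0]], [[159815598080, 0, 0, 0], [0, 0, 0, 0], [0, 0, 0, 0], [0, 0, 0, 0], [0, 0, 0, 0], [0, 0, 0, 0], [0, 0, 0, 0], [0, 0, 0, 0], [0, 0, 0, 0], [0, 0, 0, 0]], [[0, 0, 0, 0], [0, 0, 0, 0], [0, 0, 0, 0], [0, 0, 0, 0], [0, 0, 0, 0], [0, 0, 0, 0], [0, 0, 0, 0], [0, 0, 0, 0], [0, 0, 0, 0], [0, 0, 0, 0]]],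
    [[[68574812160, 0, 0, 0], [0, 0, 0, 0], [0, 0, 0, 0], [-15453858232, 30907716464, 0, 0], [-132657029520, 0, 0, 0], [-265314059040, 530628118080, 0, 0], [-123630865856, 202719720704, -202719720704, 0], [0, 0, 0, 0], [0, 0, 0, 0], [52771873280, -115477275648, 29800587264, -19867058176]], [[-150057824256, 0, 0, 0], [0, 0, 0, 0], [0, 0, 0, 0], [25339965088, -50679930176, 0, 0], [265314059040, 0, 0, 0], [0, 0, 0, 0], [247261731712, -405439441408, 405439441408, 0], [0, 0, 0, 0], [0, 0, 0, 0], [0, 0, 0, 0]], [[38724599808, 0, 0, 0], [0, 0, 0, 0], [0, 0, 0, 0], [-25339965088, 50679930176, 0, 0], [0, 0, 0, 0], [0, 0, 0, 0], [0, 0, 0, 0], [0, 0, 0, 0], [0, 0, 0, 0], [0, 0, 0, 0]], [[-25816399872, 0, 0, 0], [0, 0, 0, 0], [0, 0, 0, 0], [0, 0, 0, 0], [0, 0, 0, 0], [0, 0, 0, 0], [0, 0, 0, 0], [0, 0, 0, 0], [0, 0, 0, 0], [0, 0, 0, 0]]],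
    [[[0, 0, 0, 0], [0, 0, 0, 0], [0, 0, 0, 0], [-3190374620, 6380749240, 0, 0], [-7651392972, 0, 0, 0], [-9813522352, 19627044704, 0, 0], [-30605571888, -145901871360, 145901871360, 0], [-51045993920, 102091987840, 0, 0], [0, 0, 0, 0], [0, 0, 0, 0]], [[0, 0, 0, 0], [0, 0, 0, 0], [0, 0, 0, 0], [6380749240, -12761498480, 0, 0], [-36475467840, 0, 0, 0], [19627044704, -39254089408, 0, 0], [0, 0, 0, 0], [102091987840, -204183975680, 0, 0], [0, 0, 0, 0], [0, 0, 0, 0]], [[0, 0, 0, 0], [0, 0, 0, 0], [0, 0, 0, 0], [0, 0, 0, 0], [36475467840, 0, 0, 0], [0, 0, 0, 0], [0, 0, 0, 0], [0, 0, 0, 0], [0, 0, 0, 0], [0, 0, 0, 0]], [[0, 0, 0, 0], [0, 0, 0, 0], [0, 0, 0, 0], [0, 0, 0, 0], [0, 0, 0, 0], [0, 0, 0, 0], [0, 0, 0, 0], [0, 0, 0, 0], [0, 0, 0, 0], [0, 0, 0, 0]]],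
    [[[0, 0, 0, 0], [0, 0, 0, 0], [0, 0, 0, 0], [0, 0, 0, 0], [34819617132, 0, 0, 0], [177305049976, -354610099952, 0, 0], [354610099952, -565270023104, 565270023104, 0], [278556937056, -557113874112, 0, 0], [0, 0, 0, 0], [0, 0, 0, 0]], [[0, 0, 0, 0], [0, 0, 0, 0], [0, 0, 0, 0], [0, 0, 0, 0], [-69639234264, 0, 0, 0], [-282635011552, 565270023104, 0, 0], [-709220199904, 1130540046208, -1130540046208, 0], [0, 0, 0, 0], [0, 0, 0, 0], [0, 0, 0, 0]], [[0, 0, 0, 0], [0, 0, 0, 0], [0, 0, 0, 0], [0, 0, 0, 0], [0, 0, 0, 0], [282635011552, -565270023104, 0, 0], [0, 0, 0, 0], [0, 0, 0, 0], [0, 0, 0, 0], [0, 0, 0, 0]], [[0, 0, 0, 0], [0, 0, 0, 0], [0, 0, 0, 0], [0, 0, 0, 0], [0, 0, 0, 0], [0, 0, 0, 0], [0, 0, 0, 0], [0, 0, 0, 0], [0, 0, 0, 0], [0, 0, 0, 0]]],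
    [[[0, 0, 0, 0], [0, 0, 0, 0], [0, 0, 0, 0], [0, 0, 0, 0], [2594212932, 0, 0, 0], [-41438298070, 82876596140, 0, 0], [-228906184248, 40142834400, -40142834400, 0], [-165753192280, 331506384560, 0, 0], [41507406912, 0, 0, 0], [0, 0, 0, 0]], [[0, 0, 0, 0], [0, 0, 0, 0], [0, 0, 0, 0], [0, 0, 0, 0], [0, 0, 0, 0], [82876596140, -165753192280, 0, 0], [40142834400, 292873506816, -292873506816, 0], [331506384560, -663012769120, 0, 0], [0, 0, 0, 0], [0, 0, 0, 0]], [[0, 0, 0, 0], [0, 0, 0, 0], [0, 0, 0, 0], [0, 0, 0, 0], [0, 0, 0, 0], [0, 0, 0, 0], [-40142834400, -292873506816, 292873506816, 0], [0, 0, 0, 0], [0, 0, 0, 0], [0, 0, 0, 0]], [[0, 0, 0, 0], [0, 0, 0, 0], [0, 0, 0, 0], [0, 0, 0, 0], [0, 0, 0, 0], [0, 0, 0, 0], [0, 0, 0, 0], [0, 0, 0, 0], [0, 0, 0, 0], [0, 0, 0, 0]]],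
    [[[0, 0, 0, 0], [0, 0, 0, 0], [0, 0, 0, 0], [0, 0, 0, 0], [0, 0, 0, 0], [-23108348410, 46216696820, 0, 0], [-98594541792, 66515188896, -66515188896, 0], [-197189083584, 394378167168, 0, 0], [-184866787280, 573437521472, -573437521472, 0], [0, 0, 0, 0]], [[0, 0, 0, 0], [0, 0, 0, 0], [0, 0, 0, 0], [0, 0, 0, 0], [0, 0, 0, 0], [71679690184, -143359380368, 0, 0], [197189083584, -133030377792, 133030377792, 0], [133030377792, -266060755584, 0, 0], [369733574560, -1146875042944, 1146875042944, 0], [0, 0, 0, 0]], [[0, 0, 0, 0], [0, 0, 0, 0], [0, 0, 0, 0], [0, 0, 0, 0], [0, 0, 0, 0], [-71679690184, 143359380368, 0, 0], [0, 0, 0, 0], [-133030377792, 266060755584, 0, 0], [0, 0, 0, 0], [0, 0, 0, 0]], [[0, 0, 0, 0], [0, 0, 0, 0], [0, 0, 0, 0], [0, 0, 0, 0], [0, 0, 0, 0], [0, 0, 0, 0], [0, 0, 0, 0], [0, 0, 0, 0], [0, 0, 0, 0], [0, 0, 0, 0]]],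
    [[[0, 0, 0, 0], [0, 0, 0, 0], [0, 0, 0, 0], [0, 0, 0, 0], [0, 0, 0, 0], [0, 0, 0, 0], [81008850159, -55142126760, 55142126760, 0], [283769061364, -567538122728, 0, 0], [324035400636, -303583320864, 303583320864, 0], [0, 0, 0, 0]], [[0, 0, 0, 0], [0, 0, 0, 0], [0, 0, 0, 0], [0, 0, 0, 0], [0, 0, 0, 0], [0, 0, 0, 0], [-75895830216, 385793804864, -385793804864, 0], [-567538122728, 1135076245456, 0, 0], [-220568507040, 1543175219456, -1543175219456, 0], [0, 0, 0, 0]], [[0, 0, 0, 0], [0, 0, 0, 0], [0, 0, 0, 0], [0, 0, 0, 0], [0, 0, 0, 0], [0, 0, 0, 0], [75895830216, -385793804864, 385793804864, 0], [0, 0, 0, 0], [220568507040, -1543175219456, 1543175219456, 0], [0, 0, 0, 0]], [[0, 0, 0, 0], [0, 0, 0, 0], [0, 0, 0, 0], [0, 0, 0, 0], [0, 0, 0, 0], [0, 0, 0, 0], [0, 0, 0, 0], [0, 0, 0, 0], [0, 0, 0, 0], [0, 0, 0, 0]]],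
    [[[0, 0, 0, 0], [0, 0, 0, 0], [0, 0, 0, 0], [0, 0, 0, 0], [0, 0, 0, 0], [0, 0, 0, 0], [6613517812, -4809831136, 4809831136, 0], [-53975632555, 107951265110, 0, 0], [-107951265110, 86145063728, -86145063728, 0], [52908142496, -144294934080, 115435947264, -76957298176]], [[0, 0, 0, 0], [0, 0, 0, 0], [0, 0, 0, 0], [0, 0, 0, 0], [0, 0, 0, 0], [0, 0, 0, 0], [-18036866760, 48098311360, -48098311360, 0], [43072531864, -86145063728, 0, 0], [215902530220, -172290127456, 172290127456, 0], [-38478649088, 384786490880, -923487578112, 615658385408]], [[0, 0, 0, 0], [0, 0, 0, 0], [0, 0, 0, 0], [0, 0, 0, 0], [0, 0, 0, 0], [0, 0, 0, 0], [14429493408, -115435947264, 115435947264, 0], [-43072531864, 86145063728, 0, 0], [0, 0, 0, 0], [38478649088, -384786490880, 923487578112, -615658385408]], [[0, 0, 0, 0], [0, 0, 0, 0], [0, 0, 0, 0], [0, 0, 0, 0], [0, 0, 0, 0], [0, 0, 0, 0], [-9619662272, 76957298176,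 -76957298176, 0], [0, 0, 0, 0], [0, 0, 0, 0], [0, 0, 0, 0]]],
    [[[0, 0, 0, 0], [0, 0, 0, 0], [0, 0, 0, 0], [0, 0, 0, 0], [0, 0, 0, 0], [0, 0, 0, 0], [0, 0, 0, 0], [-31564516830, 63129033660, 0, 0], [-95425610844, 63313491048, -63313491048, 0], [-126258067320, 252516134640, 0, 0]], [[0, 0, 0, 0], [0, 0, 0, 0], [0, 0, 0, 0], [0, 0, 0, 0], [0, 0, 0, 0], [0, 0, 0, 0], [0, 0, 0, 0], [63129033660, -126258067320, 0, 0], [63313491048, -969259031424, 969259031424, 0], [252516134640, -505032269280, 0, 0]], [[0, 0, 0, 0], [0, 0, 0, 0], [0, 0, 0, 0], [0, 0, 0, 0], [0, 0, 0, 0], [0, 0, 0, 0], [0, 0, 0, 0], [0, 0, 0, 0], [-63313491048, 969259031424, -969259031424, 0], [0, 0, 0, 0]], [[0, 0, 0, 0], [0, 0, 0, 0], [0, 0, 0, 0], [0, 0, 0, 0], [0, 0, 0, 0], [0, 0, 0, 0], [0, 0, 0, 0], [0, 0, 0, 0], [0, 0, 0, 0], [0, 0, 0, 0]]],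
    [[[0, 0, 0, 0], [0, 0, 0, 0], [0, 0, 0, 0], [0, 0, 0, 0], [0, 0, 0, 0], [0, 0, 0, 0], [0, 0, 0, 0], [0, 0, 0, 0], [44791552454, -81767129312, 81767129312, 0], [89583104908, -198405534360, 57717973632, -38478649088]], [[0, 0, 0, 0], [0, 0, 0, 0], [0, 0, 0, 0], [0, 0, 0, 0], [0, 0, 0, 0], [0, 0, 0, 0], [0, 0, 0, 0], [0, 0, 0, 0], [-99202767180, 240491556800, -240491556800, 0], [-163534258624, 480983113600, -461743789056, 307829192704]], [[0, 0, 0, 0], [0, 0, 0, 0], [0, 0, 0, 0], [0, 0, 0, 0], [0, 0, 0, 0], [0, 0, 0, 0], [0, 0, 0, 0], [0, 0, 0, 0], [28858986816, -230871894528, 230871894528, 0], [163534258624, -480983113600, 461743789056, -307829192704]], [[0, 0, 0, 0], [0, 0, 0, 0], [0, 0, 0, 0], [0, 0, 0, 0], [0, 0, 0, 0], [0, 0, 0, 0], [0, 0, 0, 0], [0, 0, 0, 0], [-19239324544, 153914596352, -153914596352, 0], [0, 0, 0, 0]]],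
    [[[0, 0, 0, 0], [0, 0, 0, 0], [0, 0, 0, 0], [0, 0, 0, 0], [0, 0, 0, 0], [0, 0, 0, 0], [0, 0, 0, 0], [0, 0, 0, 0], [0, 0, 0, 0], [-19239324544, 43288480224, -14429493408, 9619662272]], [[0, 0, 0, 0], [0, 0, 0, 0], [0, 0, 0, 0], [0, 0, 0, 0], [0, 0, 0, 0], [0, 0, 0, 0], [0, 0, 0, 0], [0, 0, 0, 0], [0, 0, 0, 0], [43288480224, -96196622720, 28858986816, -19239324544]], [[0, 0, 0, 0], [0, 0, 0, 0], [0, 0, 0, 0], [0, 0, 0, 0], [0, 0, 0, 0], [0, 0, 0, 0], [0, 0, 0, 0], [0, 0, 0, 0], [0, 0, 0, 0], [-14429493408, 28858986816, 0, 0]], [[0, 0, 0, 0], [0, 0, 0, 0], [0, 0, 0, 0], [0, 0, 0, 0], [0, 0, 0, 0], [0, 0, 0, 0], [0, 0, 0, 0], [0, 0, 0, 0], [0, 0, 0, 0], [9619662272, -19239324544, 0, 0]]]]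

theorem good3b_1 : Bern.Good 4 [(0, 14, false), (3, 3, false), (1, 3, false), (3, 3, false), (2, 9, false)] coef3b :=
  Bern.good_leaf (by decide +kernel)

theorem good3b_2 : Bern.Good 4 [(0, 14, false), (3, 3, false), (1, 3, false), (3, 3, false), (2, 9, true), (1, 3, false), (3, 3, false), (0, 14, false)] coef3b :=
  Bern.good_leaf (by decide +kernel)

theorem good3b_3 : Bern.Good 4 [(0, 14, false), (3, 3, false), (1, 3, false), (3, 3, false), (2, 9, true), (1, 3, false), (3, 3, false), (0, 14, true), (0, 14, false), (2, 9, false)] coef3b :=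
  Bern.good_leaf (by decide +kernel)

theorem good3b_4 : Bern.Good 4 [(0, 14, false), (3, 3, false), (1, 3, false), (3, 3, false), (2, 9, true), (1, 3, false), (3, 3, false), (0, 14, true), (0, 14, false), (2, 9, true), (2, 9, false)] coef3b :=
  Bern.good_leaf (by decide +kernel)

theorem good3b_5 : Bern.Good 4 [(0, 14, false), (3, 3, false), (1, 3, false), (3, 3, false), (2, 9, true), (1, 3, false), (3, 3, false), (0, 14, true), (0, 14, false), (2, 9, true), (2, 9, true)] coef3b :=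
  Bern.good_leaf (by decide +kernel)

theorem good3b_6 : Bern.Good 4 [(0, 14, false), (3, 3, false), (1, 3, false), (3, 3, false), (2, 9, true), (1, 3, false), (3, 3, false), (0, 14, true), (0, 14, false), (2, 9, true)] coef3b :=
  Bern.good_node 2 9 (by norm_num) (by decide +kernel) good3b_4 good3b_5

theorem good3b_7 : Bern.Good 4 [(0, 14, false), (3, 3, false), (1, 3, false), (3, 3, false), (2, 9, true), (1, 3, false), (3, 3, false), (0, 14, true), (0, 14, false)] coef3b :=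
  Bern.good_node 2 9 (by norm_num) (by decide +kernel) good3b_3 good3b_6

theorem good3b_8 : Bern.Good 4 [(0, 14, false), (3, 3, false), (1, 3, false), (3, 3, false), (2, 9, true), (1, 3, false), (3, 3, false), (0, 14, true), (0, 14, true), (2, 9, false)] coef3b :=
  Bern.good_leaf (by decide +kernel)

theorem good3b_9 : Bern.Good 4 [(0, 14, false), (3, 3, false), (1, 3, false), (3, 3, false), (2, 9, true), (1, 3, false), (3, 3, false), (0, 14, true), (0, 14, true), (2, 9, true)] coef3b :=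
  Bern.good_leaf (by decide +kernel)

theorem good3b_10 : Bern.Good 4 [(0, 14, false), (3, 3, false), (1, 3, false), (3, 3, false), (2, 9, true), (1, 3, false), (3, 3, false), (0, 14, true), (0, 14, true)] coef3b :=
  Bern.good_node 2 9 (by norm_num) (by decide +kernel) good3b_8 good3b_9

theorem good3b_11 : Bern.Good 4 [(0, 14, false), (3, 3, false), (1, 3, false), (3, 3, false), (2, 9, true), (1, 3, false), (3, 3, false), (0, 14, true)] coef3b :=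
  Bern.good_node 0 14 (by norm_num) (by decide +kernel) good3b_7 good3b_10

theorem good3b_12 : Bern.Good 4 [(0, 14, false), (3, 3, false), (1, 3, false), (3, 3, false), (2, 9, true), (1, 3, false), (3, 3, false)] coef3b :=
  Bern.good_node 0 14 (by norm_num) (by decide +kernel) good3b_2 good3b_11

theorem good3b_13 : Bern.Good 4 [(0, 14, false), (3, 3, false), (1, 3, false), (3, 3, false), (2, 9, true), (1, 3, false), (3, 3, true)] coef3b :=
  Bern.good_leaf (by decide +kernel)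

theorem good3b_14 : Bern.Good 4 [(0, 14, false), (3, 3, false), (1, 3, false), (3, 3, false), (2, 9, true), (1, 3, false)] coef3b :=
  Bern.good_node 3 3 (by norm_num) (by decide +kernel) good3b_12 good3b_13

theorem good3b_15 : Bern.Good 4 [(0, 14, false), (3, 3, false), (1, 3, false), (3, 3, false), (2, 9, true), (1, 3, true)] coef3b :=
  Bern.good_leaf (by decide +kernel)

theorem good3b_16 : Bern.Good 4 [(0, 14, false), (3, 3, false), (1, 3, false), (3, 3, false), (2, 9, true)] coef3b :=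
  Bern.good_node 1 3 (by norm_num) (by decide +kernel) good3b_14 good3b_15

theorem good3b_17 : Bern.Good 4 [(0, 14, false), (3, 3, false), (1, 3, false), (3, 3, false)] coef3b :=
  Bern.good_node 2 9 (by norm_num) (by decide +kernel) good3b_1 good3b_16

theorem good3b_18 : Bern.Good 4 [(0, 14, false), (3, 3, false), (1, 3, false), (3, 3, true)] coef3b :=
  Bern.good_leaf (by decide +kernel)

theorem good3b_19 : Bern.Good 4 [(0, 14, false), (3, 3, false), (1, 3, false)] coef3b :=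
  Bern.good_node 3 3 (by norm_num) (by decide +kernel) good3b_17 good3b_18

theorem good3b_20 : Bern.Good 4 [(0, 14, false), (3, 3, false), (1, 3, true)] coef3b :=
  Bern.good_leaf (by decide +kernel)

theorem good3b_21 : Bern.Good 4 [(0, 14, false), (3, 3, false)] coef3b :=
  Bern.good_node 1 3 (by norm_num) (by decide +kernel) good3b_19 good3b_20

theorem good3b_22 : Bern.Good 4 [(0, 14, false), (3, 3, true)] coef3b :=
  Bern.good_leaf (by decide +kernel)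

theorem good3b_23 : Bern.Good 4 [(0, 14, false)] coef3b :=
  Bern.good_node 3 3 (by norm_num) (by decide +kernel) good3b_21 good3b_22

theorem good3b_24 : Bern.Good 4 [(0, 14, true), (2, 9, false)] coef3b :=
  Bern.good_leaf (by decide +kernel)

theorem good3b_25 : Bern.Good 4 [(0, 14, true), (2, 9, true)] coef3b :=
  Bern.good_leaf (by decide +kernel)

theorem good3b_26 : Bern.Good 4 [(0, 14, true)] coef3b :=
  Bern.good_node 2 9 (by norm_num) (by decide +kernel) good3b_24 good3b_25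

theorem good3b_27 : Bern.Good 4 [] coef3b :=
  Bern.good_node 0 14 (by norm_num) (by decide +kernel) good3b_23 good3b_26

set_option maxHeartbeats 4000000 in
set_option maxRecDepth 30000 in
theorem chart3b_eq (w t r s : ℝ) :
    cert3 (r ^ 2 * w ^ 2) (r ^ 3 * w ^ 3 * (2 * s - 1)) (w ^ 2) (w ^ 3 * (2 * t - 1)) * 256000000000 =
      w ^ 4 * Bern.ev 4 coef3b (pt w t r s) := by
  simp only [cert3, ev4_eq, coef3b, pt, List.foldr_cons, List.foldr_nil, Int.cast_ofNat, Int.cast_neg, Int.cast_zero, Int.cast_one]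
  ring

theorem chart3b_nonneg (w t r s : ℝ) (hw : 0 ≤ w) (hw1 : w ≤ 1) (ht : 0 ≤ t) (ht1 : t ≤ 1)
    (hr : 0 ≤ r) (hr1 : r ≤ 1) (hs : 0 ≤ s) (hs1 : s ≤ 1) :
    0 ≤ cert3 (r ^ 2 * w ^ 2) (r ^ 3 * w ^ 3 * (2 * s - 1)) (w ^ 2) (w ^ 3 * (2 * t - 1)) := by
  have h := good3b_27 (pt w t r s) (by
    rintro (_ | _ | _ | i)
    exacts [⟨hw, hw1⟩, ⟨ht, ht1⟩, ⟨hr, hr1⟩, ⟨hs, hs1⟩])
  refine nonneg_of_mul_nonneg_left (b := (256000000000 : ℝ)) ?_ (by norm_num)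
  rw [chart3b_eq]
  exact mul_nonneg (pow_nonneg hw 4) h

end Vale.Agent.P154.D4
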