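import Vale.Agent.P154.D4One
import Vale.Agent.P154.D4Cert1a
import Vale.Agent.P154.D4Cert1b
import Vale.Agent.P154.D4Cert2a
import Vale.Agent.P154.D4Cert2b
import Vale.Agent.P154.D4Cert3a
import Vale.Agent.P154.D4Cert3b

/-!
Nonreconstruction on the tree with four children for `0 ≤ l`, `4 l² ≤ 1`.
-/

namespace Vale.Agent.P154.D4

open Real Filter Set Bin Kit

lemma cert_nonneg {M : ℝ → ℝ → ℝ → ℝ → ℝ}
    (ha : ∀ w t r s, 0 ≤ w → w ≤ 1 → 0 ≤ t → t ≤ 1 → 0 ≤ r → r ≤ 1 → 0 ≤ s → s ≤ 1 →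
      0 ≤ M (w ^ 2) (w ^ 3 * (2 * t - 1)) (r ^ 2 * w ^ 2) (r ^ 3 * w ^ 3 * (2 * s - 1)))
    (hb : ∀ w t r s, 0 ≤ w → w ≤ 1 → 0 ≤ t → t ≤ 1 → 0 ≤ r → r ≤ 1 → 0 ≤ s → s ≤ 1 →
      0 ≤ M (r ^ 2 * w ^ 2) (r ^ 3 * w ^ 3 * (2 * s - 1)) (w ^ 2) (w ^ 3 * (2 * t - 1)))
    {a y : Spin → ℝ} (hx : InS a) (hy : InS y) : 0 ≤ M (sq a) (cub a) (sq y) (cub y) := by
  obtain ⟨a0, a1, a3, -⟩ := inS_facts hx
  obtain ⟨y0, y1, y3, -⟩ := inS_facts hy
  rcases le_total (sq y) (sq a) with h | h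
  · exact chart_nonneg ha a0 a1 a3 y0 y3 h
  · exact chart_nonneg (M := fun S T S2 T2 => M S2 T2 S T) hb y0 y1 y3 a0 a3 h

lemma pairing {a b : Spin → ℝ} (ha : InS a) (hb : InS b) :
    0 ≤ (a 0 * b 0 + a 1 * b 1 + a 2 * b 2) / 3 ∧ (a 0 * b 0 + a 1 * b 1 + a 2 * b 2) / 3 ≤ 3 := by
  constructor
  · have := mul_nonneg (ha.1 0) (hb.1 0); have := mul_nonneg (ha.1 1) (hb.1 1)
    have := mul_nonneg (ha.1 2) (hb.1 2); linarith
  · have : (a 0 + a 1 + a 2) * (b 0 + b 1 + b 2) = 9 := by rw [ha.2, hb.2]; norm_num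
    nlinarith [mul_nonneg (ha.1 0) (hb.1 1), mul_nonneg (ha.1 0) (hb.1 2),
      mul_nonneg (ha.1 1) (hb.1 0), mul_nonneg (ha.1 1) (hb.1 2),
      mul_nonneg (ha.1 2) (hb.1 0), mul_nonneg (ha.1 2) (hb.1 1)]

lemma zw_img {a b : Spin → ℝ} (ha : InS a) :
    zw a (img (1 / 2) b) - 1 = 1 / 2 * ((a 0 * b 0 + a 1 * b 1 + a 2 * b 2) / 3 - 1) := by
  simp only [zw, img, Fin.sum_univ_three]
  linear_combination (1 / 6 : ℝ) * ha.2

lemma z_range {a b : Spin → ℝ} (ha : InS a) (hb : InS b) :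
    -(1 / 2) ≤ zw a (img (1 / 2) b) - 1 ∧ zw a (img (1 / 2) b) - 1 ≤ 1 := by
  obtain ⟨h0, h3⟩ := pairing ha hb
  rw [zw_img ha]; constructor <;> linarith

lemma z_range1 {x b : Spin → ℝ} (hx : InS x) (hb : InS b) :
    -(1 / 4) ≤ zw (img (1 / 2) x) (img (1 / 2) b) - 1 ∧
      zw (img (1 / 2) x) (img (1 / 2) b) - 1 ≤ 1 / 2 := by
  obtain ⟨h0, h3⟩ := pairing hx hb
  have e : zw (img (1 / 2) x) (img (1 / 2) b) - 1 =
      1 / 4 * ((x 0 * b 0 + x 1 * b 1 + x 2 * b 2) / 3 - 1) := by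
    simp only [zw, img, Fin.sum_univ_three]
    linear_combination (1 / 12 : ℝ) * (hx.2 + hb.2)
  rw [e]; constructor <;> linarith

lemma coord {a : Spin → ℝ} (h : InS a) (i : Spin) : -1 ≤ a i - 1 ∧ a i - 1 ≤ 2 := by
  have := h.2; have := h.1 0; have := h.1 1; have := h.1 2
  refine ⟨by linarith [h.1 i], ?_⟩
  fin_cases i <;> first | linarith | (simp; linarith)

lemma inv_eqs {a : Spin → ℝ} (h : InS a) :
    iS (a 0 - 1) (a 1 - 1) = sq a ∧ iT (a 0 - 1) (a 1 - 1) = cub a ∧
      -(a 0 - 1) - (a 1 - 1) = a 2 - 1 := by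
  obtain ⟨-, -, -, -, e1, e3⟩ := inS_facts h
  exact ⟨e1.symm, e3.symm, by linarith [h.2]⟩

lemma inS_img {x : Spin → ℝ} (h : InS x) : InS (img (1 / 2) x) :=
  ⟨fun i => by simp only [img]; linarith [h.1 i], by simp only [img]; linarith [h.2]⟩

lemma img_invariants {x : Spin → ℝ} (h : InS x) :
    sq (img (1 / 2) x) = (1 : ℝ) / 4 * sq x ∧ cub (img (1 / 2) x) = (1 : ℝ) / 8 * cub x := by
  constructor <;> simp only [P154.sq, cub, img] <;> ring

/-- First join. -/
theorem step1 {x y : Spin → ℝ} (hx : InS x) (hy : InS y) :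
    (1 / 6 : ℝ) * ∑ σ : Equiv.Perm Spin, zw (img (1 / 2) x) (fun i => img (1 / 2) y (σ i)) *
        kpot c2 r2 (comb (img (1 / 2) x) (fun i => img (1 / 2) y (σ i)))
      ≤ kpot c1 r1 (img (1 / 2) x) + (1 / 2) ^ 2 * kpot c4 r4 y
        - 1 / 1000 * sq (img (1 / 2) x) * sq y := by
  obtain ⟨i1, i2⟩ := img_invariants hx
  refine kstep (e := e1) (f := f1) (g := g1) (hA := hA1) (hB := hB1) (by norm_num) (by norm_num)
    (by norm_num [c2]) avg_U1 (inS_img hx) hy ?_ ?_ ?_ ?_
  · intro b hb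
    obtain ⟨h0, h1⟩ := z_range1 hx hb
    generalize zw (img (1 / 2) x) (img (1 / 2) b) - 1 = z at h0 h1
    have he := mul_nonneg (sq_nonneg z) (We1_nonneg z (by linarith) (by linarith))
    have hf := mul_nonneg (sq_nonneg z) (Wf1_nonneg z (by linarith) (by linarith))
    have hg := mul_nonneg (sq_nonneg z) (Wg1_nonneg z (by linarith) (by linarith))
    refine ⟨?_, ?_, ?_⟩ <;> simp only [e1, f1, g1, c2, r2, pv] at he hf hg ⊢
    · linear_combination he
    · linear_combination hf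
    · linear_combination hg
  · intro i
    have h := pv_le_glog (P := hA1) (α := c1 - c2) (β := 0) (l := 0) (lo := -(1 / 2)) (hi := 1)
      (by norm_num) (by norm_num) (by norm_num) (fun u _ => by norm_num) (by simp [hA1, pv])
      (by simp [hA1, pd, padd, pv]) ?_ (img (1 / 2) x i - 1)
      ⟨by simp only [img]; linarith [(coord hx i).1], by simp only [img]; linarith [(coord hx i).2]⟩
    · simpa using h
    intro u hu
    have hu0 : 0 < 1 + u := by linarith [hu.1]
    have hW := mul_nonneg (sq_nonneg u) (WA1_nonneg u (by linarith [hu.1]) (by linarith [hu.2]))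
    rw [zero_mul, zero_div, sub_zero, sub_nonneg, le_div_iff₀ hu0]
    simp only [hA1, c1, c2, pd, padd, pv] at hW ⊢
    linear_combination hW
  · intro i
    obtain ⟨u0, u1⟩ := coord hy i
    have h := pv_le_glog (P := hB1.map (fun v => -v)) (α := (1 / 2) ^ 2 * c4) (β := c2) (l := 1 / 2)
      (lo := -1) (hi := 2) (by norm_num) (by norm_num) (by norm_num)
      (fun u hu => by linarith [hu.1]) (by simp [hB1, pv]) (by simp [hB1, pd, padd, pv]) ?_
      (y i - 1) ⟨u0, u1⟩
    · simp only [hB1, List.map_cons, List.map_nil, pv] at h ⊢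
      linarith
    intro u hu
    have hu0 : 0 < 1 + u := by linarith [hu.1]
    have hu1 : 0 < 1 + 1 / 2 * u := by linarith [hu.1]
    have hW := mul_nonneg (sq_nonneg u) (WB1_nonneg u (by linarith [hu.1]) (by linarith [hu.2]))
    rw [div_sub_div _ _ hu0.ne' hu1.ne', sub_nonneg, le_div_iff₀ (mul_pos hu0 hu1)]
    simp only [hB1, c2, c4, List.map_cons, List.map_nil, pd, padd, pv] at hW ⊢
    linear_combination hW
  · have h := cert_nonneg (M := cert1) chart1a_nonneg chart1b_nonneg hx hy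
    rw [cert1_eq] at h
    obtain ⟨a1, a2, a3⟩ := inv_eqs (inS_img hx)
    obtain ⟨b1, b2, b3⟩ := inv_eqs hy
    have sA := sum_hA1 (img (1 / 2) x 0 - 1) (img (1 / 2) x 1 - 1)
    have sB := sum_hB1 (y 0 - 1) (y 1 - 1)
    rw [a1, a2, a3, i1, i2] at sA
    rw [b1, b2, b3] at sB
    rw [sA, sB, i1, i2]
    norm_num at h ⊢
    linarith

/-- Second join. -/
theorem step2 {a y : Spin → ℝ} (ha : InS a) (hy : InS y) :
    (1 / 6 : ℝ) * ∑ σ : Equiv.Perm Spin, zw a (fun i => img (1 / 2) y (σ i)) *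
        kpot c3 r3 (comb a (fun i => img (1 / 2) y (σ i)))
      ≤ kpot c2 r2 a + (1 / 2) ^ 2 * kpot c4 r4 y - 0 * sq a * sq y := by
  refine kstep (e := e2) (f := f2) (g := g2) (hA := hA2) (hB := hB2) (by norm_num) (by norm_num)
    (by norm_num [c3]) avg_U2 ha hy ?_ ?_ ?_ ?_
  · intro b hb
    obtain ⟨h0, h1⟩ := z_range ha hb
    generalize zw a (img (1 / 2) b) - 1 = z at h0 h1
    have he := mul_nonneg (sq_nonneg z) (We2_nonneg z (by linarith) (by linarith))
    have hf := mul_nonneg (sq_nonneg z) (Wf2_nonneg z (by linarith) (by linarith))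
    have hg := mul_nonneg (sq_nonneg z) (Wg2_nonneg z (by linarith) (by linarith))
    refine ⟨?_, ?_, ?_⟩ <;> simp only [e2, f2, g2, c3, r3, pv] at he hf hg ⊢
    · linear_combination he
    · linear_combination hf
    · linear_combination hg
  · intro i
    have h := pv_le_glog (P := hA2) (α := c2 - c3) (β := 0) (l := 0) (lo := -1) (hi := 2)
      le_rfl (by norm_num) (by norm_num) (fun u _ => by norm_num) (by simp [hA2, pv])
      (by simp [hA2, pd, padd, pv]) ?_ (a i - 1) (coord ha i)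
    · simpa using h
    intro u hu
    have hu0 : 0 < 1 + u := by linarith [hu.1]
    have hW := mul_nonneg (sq_nonneg u) (WA2_nonneg u (by linarith [hu.1]) (by linarith [hu.2]))
    rw [zero_mul, zero_div, sub_zero, sub_nonneg, le_div_iff₀ hu0]
    simp only [hA2, c2, c3, pd, padd, pv] at hW ⊢
    linear_combination hW
  · intro i
    obtain ⟨u0, u1⟩ := coord hy i
    have h := pv_le_glog (P := hB2.map (fun v => -v)) (α := (1 / 2) ^ 2 * c4) (β := c3) (l := 1 / 2)
      (lo := -1) (hi := 2) (by norm_num) (by norm_num) (by norm_num)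
      (fun u hu => by linarith [hu.1]) (by simp [hB2, pv]) (by simp [hB2, pd, padd, pv]) ?_
      (y i - 1) ⟨u0, u1⟩
    · simp only [hB2, List.map_cons, List.map_nil, pv] at h ⊢
      linarith
    intro u hu
    have hu0 : 0 < 1 + u := by linarith [hu.1]
    have hu1 : 0 < 1 + 1 / 2 * u := by linarith [hu.1]
    have hW := mul_nonneg (sq_nonneg u) (WB2_nonneg u (by linarith [hu.1]) (by linarith [hu.2]))
    rw [div_sub_div _ _ hu0.ne' hu1.ne', sub_nonneg, le_div_iff₀ (mul_pos hu0 hu1)]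
    simp only [hB2, c3, c4, List.map_cons, List.map_nil, pd, padd, pv] at hW ⊢
    linear_combination hW
  · have h := cert_nonneg (M := cert2) chart2a_nonneg chart2b_nonneg ha hy
    rw [cert2_eq] at h
    obtain ⟨a1, a2, a3⟩ := inv_eqs ha
    obtain ⟨b1, b2, b3⟩ := inv_eqs hy
    have sA := sum_hA2 (a 0 - 1) (a 1 - 1)
    have sB := sum_hB2 (y 0 - 1) (y 1 - 1)
    rw [a1, a2, a3] at sA
    rw [b1, b2, b3] at sB
    rw [sA, sB]
    norm_num at h ⊢
    linarith

/-- Third join. -/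
theorem step3 {a y : Spin → ℝ} (ha : InS a) (hy : InS y) :
    (1 / 6 : ℝ) * ∑ σ : Equiv.Perm Spin, zw a (fun i => img (1 / 2) y (σ i)) *
        kpot c4 r4 (comb a (fun i => img (1 / 2) y (σ i)))
      ≤ kpot c3 r3 a + (1 / 2) ^ 2 * kpot c4 r4 y - 0 * sq a * sq y := by
  refine kstep (e := e3) (f := f3) (g := g3) (hA := hA3) (hB := hB3) (by norm_num) (by norm_num)
    (by norm_num [c4]) avg_U3 ha hy ?_ ?_ ?_ ?_
  · intro b hb
    obtain ⟨h0, h1⟩ := z_range ha hb
    generalize zw a (img (1 / 2) b) - 1 = z at h0 h1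
    have he := mul_nonneg (sq_nonneg z) (We3_nonneg z (by linarith) (by linarith))
    have hf := mul_nonneg (sq_nonneg z) (Wf3_nonneg z (by linarith) (by linarith))
    have hg := mul_nonneg (sq_nonneg z) (Wg3_nonneg z (by linarith) (by linarith))
    refine ⟨?_, ?_, ?_⟩ <;> simp only [e3, f3, g3, c4, r4, pv] at he hf hg ⊢
    · linear_combination he
    · linear_combination hf
    · linear_combination hg
  · intro i
    have h := pv_le_glog (P := hA3) (α := c3 - c4) (β := 0) (l := 0) (lo := -1) (hi := 2)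
      le_rfl (by norm_num) (by norm_num) (fun u _ => by norm_num) (by simp [hA3, pv])
      (by simp [hA3, pd, padd, pv]) ?_ (a i - 1) (coord ha i)
    · simpa using h
    intro u hu
    have hu0 : 0 < 1 + u := by linarith [hu.1]
    have hW := mul_nonneg (sq_nonneg u) (WA3_nonneg u (by linarith [hu.1]) (by linarith [hu.2]))
    rw [zero_mul, zero_div, sub_zero, sub_nonneg, le_div_iff₀ hu0]
    simp only [hA3, c3, c4, pd, padd, pv] at hW ⊢
    linear_combination hW
  · intro i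
    obtain ⟨u0, u1⟩ := coord hy i
    have h := pv_le_glog (P := hB3.map (fun v => -v)) (α := (1 / 2) ^ 2 * c4) (β := c4) (l := 1 / 2)
      (lo := -1) (hi := 2) (by norm_num) (by norm_num) (by norm_num)
      (fun u hu => by linarith [hu.1]) (by simp [hB3, pv]) (by simp [hB3, pd, padd, pv]) ?_
      (y i - 1) ⟨u0, u1⟩
    · simp only [hB3, List.map_cons, List.map_nil, pv] at h ⊢
      linarith
    intro u hu
    have hu0 : 0 < 1 + u := by linarith [hu.1]
    have hu1 : 0 < 1 + 1 / 2 * u := by linarith [hu.1]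
    have hW := mul_nonneg (sq_nonneg u) (WB3_nonneg u (by linarith [hu.1]) (by linarith [hu.2]))
    rw [div_sub_div _ _ hu0.ne' hu1.ne', sub_nonneg, le_div_iff₀ (mul_pos hu0 hu1)]
    simp only [hB3, c4, List.map_cons, List.map_nil, pd, padd, pv] at hW ⊢
    linear_combination hW
  · have h := cert_nonneg (M := cert3) chart3a_nonneg chart3b_nonneg ha hy
    rw [cert3_eq] at h
    obtain ⟨a1, a2, a3⟩ := inv_eqs ha
    obtain ⟨b1, b2, b3⟩ := inv_eqs hy
    have sA := sum_hA3 (a 0 - 1) (a 1 - 1)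
    have sB := sum_hB3 (y 0 - 1) (y 1 - 1)
    rw [a1, a2, a3] at sA
    rw [b1, b2, b3] at sB
    rw [sA, sB]
    norm_num at h ⊢
    linarith

/-- One child. -/
theorem single {y : Spin → ℝ} (hy : InS y) :
    kpot c1 r1 (img (1 / 2) y) ≤ (1 / 2) ^ 2 * kpot c4 r4 y := by
  obtain ⟨y0, y1, y3, -⟩ := inS_facts hy
  obtain ⟨i1, i2⟩ := img_invariants hy
  have hh : ∀ i, c1 * glog (1 / 2 * (y i - 1)) - (1 / 2) ^ 2 * c4 * glog (y i - 1)
      ≤ pv hS (y i - 1) := fun i => by
    obtain ⟨u0, u1⟩ := coord hy i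
    have h := pv_le_glog (P := hS.map (fun v => -v)) (α := (1 / 2) ^ 2 * c4) (β := c1) (l := 1 / 2)
      (lo := -1) (hi := 2) (by norm_num) (by norm_num) (by norm_num)
      (fun u hu => by linarith [hu.1]) (by simp [hS, pv]) (by simp [hS, pd, padd, pv]) ?_
      (y i - 1) ⟨u0, u1⟩
    · simp only [hS, List.map_cons, List.map_nil, pv] at h ⊢
      linarith
    intro u hu
    have hu0 : 0 < 1 + u := by linarith [hu.1]
    have hu1 : 0 < 1 + 1 / 2 * u := by linarith [hu.1]
    have hW := mul_nonneg (sq_nonneg u) (WS_nonneg u (by linarith [hu.1]) (by linarith [hu.2]))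
    rw [div_sub_div _ _ hu0.ne' hu1.ne', sub_nonneg, le_div_iff₀ (mul_pos hu0 hu1)]
    simp only [hS, c1, c4, List.map_cons, List.map_nil, pd, padd, pv] at hW ⊢
    linear_combination hW
  have hc : 0 ≤ cert0 (sq y) (cub y) := by
    have h := chart_nonneg (M := fun S T _ _ => cert0 S T)
      (fun w t _ _ hw hw1 ht ht1 _ _ _ _ => chart0_nonneg w t hw hw1 ht ht1)
      (S2 := 0) (T2 := 0) y0 y1 y3 le_rfl (by norm_num) y0
    exact h
  rw [cert0_eq] at hc
  obtain ⟨b1, b2, b3⟩ := inv_eqs hy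
  have hs := sum_hS (y 0 - 1) (y 1 - 1)
  rw [b1, b2, b3] at hs
  have g2 : c1 * ent (img (1 / 2) y) - (1 / 2) ^ 2 * c4 * ent y =
      ((c1 * glog (1 / 2 * (y 0 - 1)) - (1 / 2) ^ 2 * c4 * glog (y 0 - 1))
        + (c1 * glog (1 / 2 * (y 1 - 1)) - (1 / 2) ^ 2 * c4 * glog (y 1 - 1))
        + (c1 * glog (1 / 2 * (y 2 - 1)) - (1 / 2) ^ 2 * c4 * glog (y 2 - 1))) / 3 := by
    rw [ent_eq hy.2, ent_eq (inS_img hy).2]
    simp only [img, add_sub_cancel_left]
    ring
  have := hh 0; have := hh 1; have := hh 2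
  simp only [kpot, i1, i2]
  norm_num at hc hs g2 ⊢
  linarith

/-- The potentials of the chain. -/
noncomputable def psi : ℕ → (Spin → ℝ) → ℝ
  | 1 => kpot c1 r1
  | 2 => kpot c2 r2
  | 3 => kpot c3 r3
  | _ => kpot c4 r4

/-- The chain for four children. -/
theorem chain4 : Chain (1 / 2) (1 / 10) 2 4 (kpot c4 r4) psi
    (fun k a => if k = 1 then ∃ x, InS x ∧ a = img (1 / 2) x else InS a)
    (fun k => if k = 1 then 1 / 1000 else 0) where
  low a h := by
    obtain ⟨h0, h1, -, hc, -⟩ := inS_facts h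
    have := (vlog_ge (h.1 0)).1; have := (vlog_ge (h.1 1)).1; have := (vlog_ge (h.1 2)).1
    have he : 0 ≤ ent a := by simp only [ent]; linarith [h.2]
    simp only [kpot, c4, r4]
    nlinarith [(abs_le.1 hc).1]
  high a h := by
    obtain ⟨h0, h1, -, hc, -⟩ := inS_facts h
    have := (vlog_ge (h.1 0)).2; have := (vlog_ge (h.1 1)).2; have := (vlog_ge (h.1 2)).2
    have e : a 0 * (a 0 - 1) + a 1 * (a 1 - 1) + a 2 * (a 2 - 1) = 6 * sq a := by
      simp only [P154.sq]; linear_combination h.2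
    have he : ent a ≤ 2 * sq a := by simp only [ent]; linarith
    simp only [kpot, c4, r4]
    nlinarith [(abs_le.1 hc).2]
  start y hy := ⟨by simp only [if_true]; exact ⟨y, hy, rfl⟩, single hy⟩
  closed k hk hk' a y ha hy hz := by
    have hA : InS a := by
      by_cases h1 : k = 1
      · subst h1; simp only [if_true] at ha; obtain ⟨x, hx, rfl⟩ := ha
        exact inS_img hx
      · simpa [h1] using ha
    simp only [show k + 1 ≠ 1 by omega, if_false]
    have hz0 : 0 < zw a (img (1 / 2) y) := lt_of_le_of_ne (by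
      obtain ⟨h0, -⟩ := z_range hA hy; linarith) (Ne.symm hz)
    refine ⟨fun i => div_nonneg (mul_nonneg (hA.1 i) ((inS_img hy).1 i)) hz0.le, ?_⟩
    simp only [comb]
    rw [← add_div, ← add_div, div_eq_iff hz]
    simp only [zw, Fin.sum_univ_three]
    ring
  step k hk hk' a y ha hy := by
    obtain rfl | rfl | rfl : k = 1 ∨ k = 2 ∨ k = 3 := by omega
    · simp only [if_true] at ha; obtain ⟨x, hx, rfl⟩ := ha
      simpa [psi] using step1 hx hy
    · simpa [psi] using step2 (by simpa using ha) hy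
    · simpa [psi] using step3 (by simpa using ha) hy
  top := rfl
  gain k := by split_ifs <;> norm_num
  gain_one := by norm_num

/-- Nonreconstruction with four children per vertex at and below the threshold, for `0 ≤ l`. -/
theorem tendsto_tv_four {l : ℝ} (h0 : 0 ≤ l) (h : 4 * l ^ 2 ≤ 1) :
    Tendsto (fun n => tv l n (regular 4 n)) atTop (nhds 0) := by
  have hlim := chain4.tendsto_tv (by norm_num) (by norm_num) (by norm_num) (by norm_num)
    (by norm_num) (by norm_num)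
  have hl : l ≤ 1 / 2 := by nlinarith
  refine squeeze_zero (fun n => ?_) (fun n => ?_) hlim
  · rw [tv_eq (by linarith) (by linarith)]
    exact Finset.sum_nonneg fun c _ => by positivity
  · have := tv_mono (l := (1 / 2 : ℝ)) (m := 2 * l) (by norm_num) (by norm_num) (by linarith)
      (by linarith) n (regular 4 n)
    rwa [show (1 / 2 : ℝ) * (2 * l) = l by ring] at this

end Vale.Agent.P154.D4
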