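import Vale.Agent.P154.Kit

/-!
The coefficients and polynomial identities of the four-child certificate at `l = 1/2`.
-/

namespace Vale.Agent.P154.D4

open Bin

/-- Entropy weight of stage 1. -/
noncomputable def c1 : ℝ := ((4372699:ℝ)/1000000)

/-- Quartic weight of stage 1. -/
noncomputable def r1 : ℝ := ((-727839:ℝ)/500000)

/-- Entropy weight of stage 2. -/
noncomputable def c2 : ℝ := ((806699:ℝ)/500000)

/-- Quartic weight of stage 2. -/
noncomputable def r2 : ℝ := ((-56853:ℝ)/125000)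

/-- Entropy weight of stage 3. -/
noncomputable def c3 : ℝ := ((183141:ℝ)/200000)

/-- Quartic weight of stage 3. -/
noncomputable def r3 : ℝ := ((-1353:ℝ)/6250)

/-- Entropy weight of stage 4. -/
noncomputable def c4 : ℝ := ((56517:ℝ)/100000)

/-- Quartic weight of stage 4. -/
noncomputable def r4 : ℝ := ((-48213:ℝ)/500000)

/-- Entropy slack of a single child. -/
noncomputable def hS : List ℝ := [(0:ℝ), (0:ℝ), ((3807529:ℝ)/8000000), ((-3242359:ℝ)/48000000), ((5508377:ℝ)/500000000), ((217317:ℝ)/1000000000), ((-483849:ℝ)/200000000), ((2458141:ℝ)/1000000000), ((-1109883:ℝ)/1000000000), ((122967:ℝ)/500000000)]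

theorem sum_hS (a b : ℝ) : (Kit.pv hS a + Kit.pv hS b + Kit.pv hS (-a - b)) / 3 =
    (fun S T : ℝ => ((-3242359:ℝ)/24000000) * (T)
    + ((-483849:ℝ)/50000000) * (T^2)
    + ((122967:ℝ)/62500000) * (T^3)
    + ((3807529:ℝ)/4000000) * (S)
    + ((217317:ℝ)/100000000) * (S*T)
    + ((-1109883:ℝ)/31250000) * (S*T^2)
    + ((16525131:ℝ)/250000000) * (S^2)
    + ((51620961:ℝ)/500000000) * (S^2*T)
    + ((-4354641:ℝ)/100000000) * (S^3)
    + ((9960327:ℝ)/250000000) * (S^3*T)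
    + ((-29966841:ℝ)/500000000) * (S^4)) (iS a b) (iT a b) := by
  simp only [hS, Kit.pv, iS, iT]
  ring

/-- Bound for the reciprocal, step 1. -/
noncomputable def e1 : List ℝ := [((-431699:ℝ)/375000), ((431699:ℝ)/375000), ((-575416033:ℝ)/500000000), ((1135063657:ℝ)/1000000000), ((-22995403:ℝ)/31250000)]

/-- Bound for the squared reciprocal, step 1. -/
noncomputable def f1 : List ℝ := [((806699:ℝ)/1500000), ((-806699:ℝ)/750000), ((806799253:ℝ)/500000000), ((-2151183033:ℝ)/1000000000), ((1344057581:ℝ)/500000000), ((-163856353:ℝ)/50000000), ((1368805691:ℝ)/250000000)]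

/-- Bound for the cubed reciprocal, step 1. -/
noncomputable def g1 : List ℝ := [((-56853:ℝ)/125000), ((170559:ℝ)/125000), ((-681810147:ℝ)/250000000), ((4416260017:ℝ)/1000000000), ((-929291971:ℝ)/250000000)]

/-- Entropy drop, step 1. -/
noncomputable def hA1 : List ℝ := [(0:ℝ), (0:ℝ), ((2759301:ℝ)/2000000), ((-919767:ℝ)/2000000), ((114918443:ℝ)/500000000), ((-34477883:ℝ)/250000000), ((1872319:ℝ)/20000000), ((-6818707:ℝ)/100000000), ((40399471:ℝ)/1000000000), ((-732443:ℝ)/62500000)]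

/-- Entropy of the new child, step 1. -/
noncomputable def hB1 : List ℝ := [(0:ℝ), (0:ℝ), ((262057:ℝ)/2000000), ((-241529:ℝ)/24000000), ((-3354707:ℝ)/1000000000), ((2264243:ℝ)/500000000), ((-448873:ℝ)/125000000), ((46211:ℝ)/12500000), ((-1528991:ℝ)/500000000), ((975079:ℝ)/1000000000)]

/-- The averaged bound, step 1. -/
noncomputable def U1 (S T S2 T2 : ℝ) : ℝ := Kit.kavg c2 ((-431699:ℝ)/375000) ((431699:ℝ)/375000) ((-575416033:ℝ)/500000000) ((1135063657:ℝ)/1000000000) ((-22995403:ℝ)/31250000) ((806699:ℝ)/1500000) ((-806699:ℝ)/750000) ((806799253:ℝ)/500000000) ((-2151183033:ℝ)/1000000000) ((1344057581:ℝ)/500000000) ((-163856353:ℝ)/50000000) ((1368805691:ℝ)/250000000) ((-56853:ℝ)/125000) ((170559:ℝ)/125000) ((-681810147:ℝ)/250000000) ((4416260017:ℝ)/1000000000) ((-929291971:ℝ)/250000000) S T S2 T2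

theorem avg_U1 (a b p q : ℝ) : avg6 (Kit.kbound c2 e1 f1 g1 a b) p q =
    U1 (iS a b) (iT a b) (iS p q) (iT p q) := by
  rw [U1, e1, f1, g1]
  exact Kit.avg_kbound ..

theorem sum_hA1 (a b : ℝ) : (Kit.pv hA1 a + Kit.pv hA1 b + Kit.pv hA1 (-a - b)) / 3 =
    (fun S T : ℝ => ((-919767:ℝ)/1000000) * (T)
    + ((1872319:ℝ)/5000000) * (T^2)
    + ((-732443:ℝ)/7812500) * (T^3)
    + ((2759301:ℝ)/1000000) * (S)
    + ((-34477883:ℝ)/25000000) * (S*T)
    + ((40399471:ℝ)/31250000) * (S*T^2)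
    + ((344755329:ℝ)/250000000) * (S^2)
    + ((-143192847:ℝ)/50000000) * (S^2*T)
    + ((16850871:ℝ)/10000000) * (S^3)
    + ((-59327883:ℝ)/31250000) * (S^3*T)
    + ((1090785717:ℝ)/500000000) * (S^4)) (iS a b) (iT a b) := by
  simp only [hA1, Kit.pv, iS, iT]
  ring

theorem sum_hB1 (a b : ℝ) : (Kit.pv hB1 a + Kit.pv hB1 b + Kit.pv hB1 (-a - b)) / 3 =
    (fun S T : ℝ => ((-241529:ℝ)/12000000) * (T)
    + ((-448873:ℝ)/31250000) * (T^2)
    + ((975079:ℝ)/125000000) * (T^3)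
    + ((262057:ℝ)/1000000) * (S)
    + ((2264243:ℝ)/50000000) * (S*T)
    + ((-1528991:ℝ)/15625000) * (S*T^2)
    + ((-10064121:ℝ)/500000000) * (S^2)
    + ((970431:ℝ)/6250000) * (S^2*T)
    + ((-4039857:ℝ)/62500000) * (S^3)
    + ((78981399:ℝ)/500000000) * (S^3*T)
    + ((-41282757:ℝ)/250000000) * (S^4)) (iS a b) (iT a b) := by
  simp only [hB1, Kit.pv, iS, iT]
  ring

set_option maxHeartbeats 2000000 in
/-- The polynomial to be nonnegative, step 1. -/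
noncomputable def cert1 (S T S2 T2 : ℝ) : ℝ :=
  ((448873:ℝ)/31250000) * (T2^2)
    + ((-975079:ℝ)/125000000) * (T2^3)
    + ((-2264243:ℝ)/50000000) * (S2*T2)
    + ((1528991:ℝ)/15625000) * (S2*T2^2)
    + ((12224121:ℝ)/500000000) * (S2^2)
    + ((-970431:ℝ)/6250000) * (S2^2*T2)
    + ((4039857:ℝ)/62500000) * (S2^3)
    + ((-78981399:ℝ)/500000000) * (S2^3*T2)
    + ((41282757:ℝ)/250000000) * (S2^4)
    + ((-28484333:ℝ)/2400000000) * (T*T2)
    + ((2151183033:ℝ)/256000000000) * (T*T2^2)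
    + ((119353:ℝ)/1000000) * (T*S2)
    + ((1072132287:ℝ)/128000000000) * (T*S2*T2)
    + ((-16956166597:ℝ)/192000000000) * (T*S2^2)
    + ((-4416260017:ℝ)/512000000000) * (T*S2^2*T2)
    + ((681810147:ℝ)/32000000000) * (T*S2^3)
    + ((1872319:ℝ)/320000000) * (T^2)
    + ((2151183033:ℝ)/256000000000) * (T^2*T2)
    + ((2153089891:ℝ)/256000000000) * (T^2*T2^2)
    + ((-1368805691:ℝ)/1024000000000) * (T^2*T2^3)
    + ((-1266577201:ℝ)/51200000000) * (T^2*S2*T2)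
    + ((1358797443:ℝ)/1024000000000) * (T^2*S2*T2^2)
    + ((681810147:ℝ)/64000000000) * (T^2*S2^2)
    + ((16341201281:ℝ)/2048000000000) * (T^2*S2^2*T2)
    + ((-24126216599:ℝ)/2048000000000) * (T^2*S2^3)
    + ((1368805691:ℝ)/2048000000000) * (T^2*S2^3*T2)
    + ((499786499:ℝ)/2048000000000) * (T^2*S2^4)
    + ((-732443:ℝ)/4000000000) * (T^3)
    + ((-1368805691:ℝ)/1024000000000) * (T^3*T2^2)
    + ((-1368805691:ℝ)/2048000000000) * (T^3*S2*T2^2)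
    + ((1368805691:ℝ)/2048000000000) * (T^3*S2^3)
    + ((-1368805691:ℝ)/16384000000000) * (T^3*S2^3*T2)
    + ((1368805691:ℝ)/4096000000000) * (T^3*S2^4)
    + ((119353:ℝ)/1000000) * (S*T2)
    + ((-823:ℝ)/32000) * (S*S2)
    + ((-2171271253:ℝ)/32000000000) * (S*S2*T2)
    + ((30520067:ℝ)/2400000000) * (S*S2^2)
    + ((681810147:ℝ)/32000000000) * (S*S2^3)
    + ((-34477883:ℝ)/800000000) * (S*T)
    + ((1072132287:ℝ)/128000000000) * (S*T*T2)
    + ((-1266577201:ℝ)/51200000000) * (S*T*T2^2)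
    + ((-2171271253:ℝ)/32000000000) * (S*T*S2)
    + ((1297364491:ℝ)/256000000000) * (S*T*S2*T2)
    + ((7813576709:ℝ)/1024000000000) * (S*T*S2*T2^2)
    + ((49112938407:ℝ)/512000000000) * (S*T*S2^2)
    + ((-342435797:ℝ)/64000000000) * (S*T*S2^2*T2)
    + ((-19744028523:ℝ)/409600000000) * (S*T*S2^3)
    + ((2787875913:ℝ)/512000000000) * (S*T*S2^4)
    + ((40399471:ℝ)/8000000000) * (S*T^2)
    + ((1358797443:ℝ)/1024000000000) * (S*T^2*T2^2)
    + ((-1368805691:ℝ)/2048000000000) * (S*T^2*T2^3)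
    + ((7813576709:ℝ)/1024000000000) * (S*T^2*S2*T2)
    + ((-49282009:ℝ)/5120000000) * (S*T^2*S2*T2^2)
    + ((-25057776371:ℝ)/4096000000000) * (S*T^2*S2^2*T2)
    + ((243021533:ℝ)/81920000000) * (S*T^2*S2^3)
    + ((-17794473983:ℝ)/8192000000000) * (S*T^2*S2^3*T2)
    + ((1740880641:ℝ)/327680000000) * (S*T^2*S2^4)
    + ((94541829:ℝ)/4000000000) * (S^2)
    + ((-16956166597:ℝ)/192000000000) * (S^2*T2)
    + ((681810147:ℝ)/64000000000) * (S^2*T2^2)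
    + ((30520067:ℝ)/2400000000) * (S^2*S2)
    + ((49112938407:ℝ)/512000000000) * (S^2*S2*T2)
    + ((-3683203889:ℝ)/192000000000) * (S^2*S2^2)
    + ((-8640476397:ℝ)/256000000000) * (S^2*S2^2*T2)
    + ((-16077504777:ℝ)/1024000000000) * (S^2*S2^3)
    + ((2787875913:ℝ)/512000000000) * (S^2*S2^4)
    + ((-143192847:ℝ)/6400000000) * (S^2*T)
    + ((-4416260017:ℝ)/512000000000) * (S^2*T*T2)
    + ((16341201281:ℝ)/2048000000000) * (S^2*T*T2^2)
    + ((-342435797:ℝ)/64000000000) * (S^2*T*S2*T2)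
    + ((-25057776371:ℝ)/4096000000000) * (S^2*T*S2*T2^2)
    + ((-8640476397:ℝ)/256000000000) * (S^2*T*S2^2)
    + ((161567628291:ℝ)/8192000000000) * (S^2*T*S2^2*T2)
    + ((100160273277:ℝ)/4096000000000) * (S^2*T*S2^3)
    + ((-28744919511:ℝ)/3276800000000) * (S^2*T*S2^3*T2)
    + ((-6788536509:ℝ)/4096000000000) * (S^2*T*S2^4)
    + ((16850871:ℝ)/640000000) * (S^3)
    + ((681810147:ℝ)/32000000000) * (S^3*T2)
    + ((-24126216599:ℝ)/2048000000000) * (S^3*T2^2)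
    + ((1368805691:ℝ)/2048000000000) * (S^3*T2^3)
    + ((681810147:ℝ)/32000000000) * (S^3*S2)
    + ((-19744028523:ℝ)/409600000000) * (S^3*S2*T2)
    + ((243021533:ℝ)/81920000000) * (S^3*S2*T2^2)
    + ((-16077504777:ℝ)/1024000000000) * (S^3*S2^2)
    + ((100160273277:ℝ)/4096000000000) * (S^3*S2^2*T2)
    + ((-1287234829:ℝ)/204800000000) * (S^3*S2^3)
    + ((-15056862601:ℝ)/4096000000000) * (S^3*S2^3*T2)
    + ((27956859467:ℝ)/4096000000000) * (S^3*S2^4)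
    + ((-59327883:ℝ)/16000000000) * (S^3*T)
    + ((1368805691:ℝ)/2048000000000) * (S^3*T*T2^2)
    + ((-1368805691:ℝ)/16384000000000) * (S^3*T*T2^3)
    + ((-17794473983:ℝ)/8192000000000) * (S^3*T*S2*T2^2)
    + ((-28744919511:ℝ)/3276800000000) * (S^3*T*S2^2*T2)
    + ((-15056862601:ℝ)/4096000000000) * (S^3*T*S2^3)
    + ((-9581639837:ℝ)/8192000000000) * (S^3*T*S2^3*T2)
    + ((-121823706499:ℝ)/32768000000000) * (S^3*T*S2^4)
    + ((1090785717:ℝ)/128000000000) * (S^4)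
    + ((499786499:ℝ)/2048000000000) * (S^4*T2^2)
    + ((1368805691:ℝ)/4096000000000) * (S^4*T2^3)
    + ((2787875913:ℝ)/512000000000) * (S^4*S2*T2)
    + ((1740880641:ℝ)/327680000000) * (S^4*S2*T2^2)
    + ((2787875913:ℝ)/512000000000) * (S^4*S2^2)
    + ((-6788536509:ℝ)/4096000000000) * (S^4*S2^2*T2)
    + ((27956859467:ℝ)/4096000000000) * (S^4*S2^3)
    + ((-121823706499:ℝ)/32768000000000) * (S^4*S2^3*T2)
    + ((-156553116417:ℝ)/8192000000000) * (S^4*S2^4)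

set_option maxHeartbeats 2000000 in
theorem cert1_eq (S T S2 T2 : ℝ) : cert1 S T S2 T2 =
    (fun S T : ℝ => ((-919767:ℝ)/1000000) * (T)
    + ((1872319:ℝ)/5000000) * (T^2)
    + ((-732443:ℝ)/7812500) * (T^3)
    + ((2759301:ℝ)/1000000) * (S)
    + ((-34477883:ℝ)/25000000) * (S*T)
    + ((40399471:ℝ)/31250000) * (S*T^2)
    + ((344755329:ℝ)/250000000) * (S^2)
    + ((-143192847:ℝ)/50000000) * (S^2*T)
    + ((16850871:ℝ)/10000000) * (S^3)
    + ((-59327883:ℝ)/31250000) * (S^3*T)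
    + ((1090785717:ℝ)/500000000) * (S^4)) (((1:ℝ)/4) * S) (((1:ℝ)/8) * T) + (1 - c1) * (((1:ℝ)/4) * S) + r1 * (((1:ℝ)/4) * S) ^ 2 + c1 / 3 * (((1:ℝ)/8) * T)
    - (U1 (((1:ℝ)/4) * S) (((1:ℝ)/8) * T) (((1:ℝ)/4) * S2) (((1:ℝ)/8) * T2) + (fun S T : ℝ => ((-241529:ℝ)/12000000) * (T)
    + ((-448873:ℝ)/31250000) * (T^2)
    + ((975079:ℝ)/125000000) * (T^3)
    + ((262057:ℝ)/1000000) * (S)
    + ((2264243:ℝ)/50000000) * (S*T)
    + ((-1528991:ℝ)/15625000) * (S*T^2)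
    + ((-10064121:ℝ)/500000000) * (S^2)
    + ((970431:ℝ)/6250000) * (S^2*T)
    + ((-4039857:ℝ)/62500000) * (S^3)
    + ((78981399:ℝ)/500000000) * (S^3*T)
    + ((-41282757:ℝ)/250000000) * (S^4)) S2 T2
      - ((1:ℝ)/4) * ((1 - c4) * S2 + r4 * S2 ^ 2 + c4 / 3 * T2) + ((1:ℝ)/1000) * (((1:ℝ)/4) * S) * S2) := by
  simp only [cert1, U1, Kit.kavg, c1, r1, c2, c4, r4, iB0, iB1, iB2, iB3, iB4, iQ0, iQ1, iQ2, iQ3, iQ4, iQ5, Kit.iQ6, Kit.iF0, Kit.iF1, Kit.iF2, Kit.iF3, Kit.iF4]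
  ring

/-- Bound for the reciprocal, step 2. -/
noncomputable def e2 : List ℝ := [((-11047:ℝ)/50000), ((11047:ℝ)/50000), ((-110256457:ℝ)/500000000), ((210921909:ℝ)/1000000000), ((-20135743:ℝ)/200000000)]

/-- Bound for the squared reciprocal, step 2. -/
noncomputable def f2 : List ℝ := [((61047:ℝ)/200000), ((-61047:ℝ)/100000), ((916700609:ℝ)/1000000000), ((-314959157:ℝ)/250000000), ((101442029:ℝ)/50000000), ((-1246299821:ℝ)/500000000), ((1226797817:ℝ)/1000000000)]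

/-- Bound for the cubed reciprocal, step 2. -/
noncomputable def g2 : List ℝ := [((-1353:ℝ)/6250), ((4059:ℝ)/6250), ((-255201821:ℝ)/200000000), ((1755865001:ℝ)/1000000000), ((-187935077:ℝ)/200000000)]

/-- Entropy drop, step 2. -/
noncomputable def hA2 : List ℝ := [(0:ℝ), (0:ℝ), ((697693:ℝ)/2000000), ((-697693:ℝ)/6000000), ((57809349:ℝ)/1000000000), ((-8678307:ℝ)/250000000), ((1582387:ℝ)/62500000), ((-19032239:ℝ)/1000000000), ((4594799:ℝ)/500000000), ((-908397:ℝ)/500000000)]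

/-- Entropy of the new child, step 2. -/
noncomputable def hB2 : List ℝ := [(0:ℝ), (0:ℝ), ((70107:ℝ)/1600000), ((14309:ℝ)/3200000), ((-698869:ℝ)/100000000), ((5618521:ℝ)/1000000000), ((-3537477:ℝ)/1000000000), ((1041291:ℝ)/250000000), ((-390503:ℝ)/100000000), ((1257603:ℝ)/1000000000)]

/-- The averaged bound, step 2. -/
noncomputable def U2 (S T S2 T2 : ℝ) : ℝ := Kit.kavg c3 ((-11047:ℝ)/50000) ((11047:ℝ)/50000) ((-110256457:ℝ)/500000000) ((210921909:ℝ)/1000000000) ((-20135743:ℝ)/200000000) ((61047:ℝ)/200000) ((-61047:ℝ)/100000) ((916700609:ℝ)/1000000000) ((-314959157:ℝ)/250000000) ((101442029:ℝ)/50000000) ((-1246299821:ℝ)/500000000) ((1226797817:ℝ)/1000000000) ((-1353:ℝ)/6250) ((4059:ℝ)/6250) ((-255201821:ℝ)/200000000) ((1755865001:ℝ)/1000000000) ((-187935077:ℝ)/200000000) S T S2 T2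

theorem avg_U2 (a b p q : ℝ) : avg6 (Kit.kbound c3 e2 f2 g2 a b) p q =
    U2 (iS a b) (iT a b) (iS p q) (iT p q) := by
  rw [U2, e2, f2, g2]
  exact Kit.avg_kbound ..

theorem sum_hA2 (a b : ℝ) : (Kit.pv hA2 a + Kit.pv hA2 b + Kit.pv hA2 (-a - b)) / 3 =
    (fun S T : ℝ => ((-697693:ℝ)/3000000) * (T)
    + ((1582387:ℝ)/15625000) * (T^2)
    + ((-908397:ℝ)/62500000) * (T^3)
    + ((697693:ℝ)/1000000) * (S)
    + ((-8678307:ℝ)/25000000) * (S*T)
    + ((4594799:ℝ)/15625000) * (S*T^2)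
    + ((173428047:ℝ)/500000000) * (S^2)
    + ((-399677019:ℝ)/500000000) * (S^2*T)
    + ((14241483:ℝ)/31250000) * (S^3)
    + ((-73580157:ℝ)/250000000) * (S^3*T)
    + ((124059573:ℝ)/250000000) * (S^4)) (iS a b) (iT a b) := by
  simp only [hA2, Kit.pv, iS, iT]
  ring

theorem sum_hB2 (a b : ℝ) : (Kit.pv hB2 a + Kit.pv hB2 b + Kit.pv hB2 (-a - b)) / 3 =
    (fun S T : ℝ => ((14309:ℝ)/1600000) * (T)
    + ((-3537477:ℝ)/250000000) * (T^2)
    + ((1257603:ℝ)/125000000) * (T^3)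
    + ((70107:ℝ)/800000) * (S)
    + ((5618521:ℝ)/100000000) * (S*T)
    + ((-390503:ℝ)/3125000) * (S*T^2)
    + ((-2096607:ℝ)/50000000) * (S^2)
    + ((21867111:ℝ)/125000000) * (S^2*T)
    + ((-31837293:ℝ)/500000000) * (S^3)
    + ((101865843:ℝ)/500000000) * (S^3*T)
    + ((-10543581:ℝ)/50000000) * (S^4)) (iS a b) (iT a b) := by
  simp only [hB2, Kit.pv, iS, iT]
  ring

set_option maxHeartbeats 2000000 in
/-- The polynomial to be nonnegative, step 2. -/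
noncomputable def cert2 (S T S2 T2 : ℝ) : ℝ :=
  ((3537477:ℝ)/250000000) * (T2^2)
    + ((-1257603:ℝ)/125000000) * (T2^3)
    + ((-5618521:ℝ)/100000000) * (S2*T2)
    + ((390503:ℝ)/3125000) * (S2*T2^2)
    + ((783891:ℝ)/25000000) * (S2^2)
    + ((-21867111:ℝ)/125000000) * (S2^2*T2)
    + ((31837293:ℝ)/500000000) * (S2^3)
    + ((-101865843:ℝ)/500000000) * (S2^3*T2)
    + ((10543581:ℝ)/50000000) * (S2^4)
    + ((-121486539:ℝ)/800000000) * (T*T2)
    + ((314959157:ℝ)/8000000000) * (T*T2^2)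
    + ((2239:ℝ)/3125) * (T*S2)
    + ((1319482813:ℝ)/32000000000) * (T*S2*T2)
    + ((-6285647217:ℝ)/16000000000) * (T*S2^2)
    + ((-1755865001:ℝ)/64000000000) * (T*S2^2*T2)
    + ((255201821:ℝ)/3200000000) * (T*S2^3)
    + ((1582387:ℝ)/15625000) * (T^2)
    + ((314959157:ℝ)/1000000000) * (T^2*T2)
    + ((1403434447:ℝ)/8000000000) * (T^2*T2^2)
    + ((-1226797817:ℝ)/64000000000) * (T^2*T2^3)
    + ((-7223316109:ℝ)/8000000000) * (T^2*S2*T2)
    + ((625587661:ℝ)/4000000000) * (T^2*S2*T2^2)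
    + ((255201821:ℝ)/800000000) * (T^2*S2^2)
    + ((983619839:ℝ)/6400000000) * (T^2*S2^2*T2)
    + ((-857049227:ℝ)/3200000000) * (T^2*S2^3)
    + ((1226797817:ℝ)/128000000000) * (T^2*S2^3*T2)
    + ((-4065025903:ℝ)/64000000000) * (T^2*S2^4)
    + ((-908397:ℝ)/62500000) * (T^3)
    + ((-1226797817:ℝ)/8000000000) * (T^3*T2^2)
    + ((-1226797817:ℝ)/16000000000) * (T^3*S2*T2^2)
    + ((1226797817:ℝ)/16000000000) * (T^3*S2^3)
    + ((-1226797817:ℝ)/128000000000) * (T^3*S2^3*T2)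
    + ((1226797817:ℝ)/32000000000) * (T^3*S2^4)
    + ((2239:ℝ)/6250) * (S*T2)
    + ((3451:ℝ)/400000) * (S*S2)
    + ((-2215580609:ℝ)/16000000000) * (S*S2*T2)
    + ((-7186539:ℝ)/1600000000) * (S*S2^2)
    + ((255201821:ℝ)/6400000000) * (S*S2^3)
    + ((-8678307:ℝ)/25000000) * (S*T)
    + ((1319482813:ℝ)/8000000000) * (S*T*T2)
    + ((-7223316109:ℝ)/16000000000) * (S*T*T2^2)
    + ((-2215580609:ℝ)/2000000000) * (S*T*S2)
    + ((1349924917:ℝ)/16000000000) * (S*T*S2*T2)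
    + ((64886799:ℝ)/512000000) * (S*T*S2*T2^2)
    + ((5440019633:ℝ)/3200000000) * (S*T*S2^2)
    + ((-15791810197:ℝ)/64000000000) * (S*T*S2^2*T2)
    + ((-23983855297:ℝ)/32000000000) * (S*T*S2^3)
    + ((563805231:ℝ)/12800000000) * (S*T*S2^4)
    + ((4594799:ℝ)/15625000) * (S*T^2)
    + ((625587661:ℝ)/1000000000) * (S*T^2*T2^2)
    + ((-1226797817:ℝ)/32000000000) * (S*T^2*T2^3)
    + ((64886799:ℝ)/64000000) * (S*T^2*S2*T2)
    + ((-15909367613:ℝ)/32000000000) * (S*T^2*S2*T2^2)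
    + ((217188083:ℝ)/3200000000) * (S*T^2*S2^2*T2)
    + ((-311499937:ℝ)/4000000000) * (S*T^2*S2^3)
    + ((-15948371621:ℝ)/128000000000) * (S*T^2*S2^3*T2)
    + ((11070433359:ℝ)/32000000000) * (S*T^2*S2^4)
    + ((54256047:ℝ)/500000000) * (S^2)
    + ((-6285647217:ℝ)/8000000000) * (S^2*T2)
    + ((255201821:ℝ)/3200000000) * (S^2*T2^2)
    + ((-7186539:ℝ)/400000000) * (S^2*S2)
    + ((5440019633:ℝ)/6400000000) * (S^2*S2*T2)
    + ((-649376747:ℝ)/4000000000) * (S^2*S2^2)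
    + ((-8310855873:ℝ)/32000000000) * (S^2*S2^2*T2)
    + ((-380359197:ℝ)/4000000000) * (S^2*S2^3)
    + ((563805231:ℝ)/25600000000) * (S^2*S2^4)
    + ((-399677019:ℝ)/500000000) * (S^2*T)
    + ((-1755865001:ℝ)/4000000000) * (S^2*T*T2)
    + ((983619839:ℝ)/3200000000) * (S^2*T*T2^2)
    + ((-15791810197:ℝ)/16000000000) * (S^2*T*S2*T2)
    + ((217188083:ℝ)/6400000000) * (S^2*T*S2*T2^2)
    + ((-8310855873:ℝ)/4000000000) * (S^2*T*S2^2)
    + ((62952924237:ℝ)/32000000000) * (S^2*T*S2^2*T2)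
    + ((40711163349:ℝ)/32000000000) * (S^2*T*S2^3)
    + ((-25762754157:ℝ)/102400000000) * (S^2*T*S2^3*T2)
    + ((13647437349:ℝ)/51200000000) * (S^2*T*S2^4)
    + ((14241483:ℝ)/31250000) * (S^3)
    + ((255201821:ℝ)/400000000) * (S^3*T2)
    + ((-857049227:ℝ)/3200000000) * (S^3*T2^2)
    + ((1226797817:ℝ)/128000000000) * (S^3*T2^3)
    + ((255201821:ℝ)/400000000) * (S^3*S2)
    + ((-23983855297:ℝ)/16000000000) * (S^3*S2*T2)
    + ((-311499937:ℝ)/16000000000) * (S^3*S2*T2^2)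
    + ((-380359197:ℝ)/1000000000) * (S^3*S2^2)
    + ((40711163349:ℝ)/64000000000) * (S^3*S2^2*T2)
    + ((-6295804491:ℝ)/6400000000) * (S^3*S2^3)
    + ((-13494775987:ℝ)/256000000000) * (S^3*S2^3*T2)
    + ((61629441863:ℝ)/128000000000) * (S^3*S2^4)
    + ((-73580157:ℝ)/250000000) * (S^3*T)
    + ((1226797817:ℝ)/16000000000) * (S^3*T*T2^2)
    + ((-1226797817:ℝ)/128000000000) * (S^3*T*T2^3)
    + ((-15948371621:ℝ)/64000000000) * (S^3*T*S2*T2^2)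
    + ((-25762754157:ℝ)/25600000000) * (S^3*T*S2^2*T2)
    + ((-13494775987:ℝ)/32000000000) * (S^3*T*S2^3)
    + ((-8587584719:ℝ)/64000000000) * (S^3*T*S2^3*T2)
    + ((-109185005713:ℝ)/256000000000) * (S^3*T*S2^4)
    + ((124059573:ℝ)/250000000) * (S^4)
    + ((-4065025903:ℝ)/16000000000) * (S^4*T2^2)
    + ((1226797817:ℝ)/64000000000) * (S^4*T2^3)
    + ((563805231:ℝ)/1600000000) * (S^4*S2*T2)
    + ((11070433359:ℝ)/32000000000) * (S^4*S2*T2^2)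
    + ((563805231:ℝ)/1600000000) * (S^4*S2^2)
    + ((13647437349:ℝ)/25600000000) * (S^4*S2^2*T2)
    + ((61629441863:ℝ)/32000000000) * (S^4*S2^3)
    + ((-109185005713:ℝ)/512000000000) * (S^4*S2^3*T2)
    + ((-129441114033:ℝ)/128000000000) * (S^4*S2^4)

set_option maxHeartbeats 2000000 in
theorem cert2_eq (S T S2 T2 : ℝ) : cert2 S T S2 T2 =
    (fun S T : ℝ => ((-697693:ℝ)/3000000) * (T)
    + ((1582387:ℝ)/15625000) * (T^2)
    + ((-908397:ℝ)/62500000) * (T^3)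
    + ((697693:ℝ)/1000000) * (S)
    + ((-8678307:ℝ)/25000000) * (S*T)
    + ((4594799:ℝ)/15625000) * (S*T^2)
    + ((173428047:ℝ)/500000000) * (S^2)
    + ((-399677019:ℝ)/500000000) * (S^2*T)
    + ((14241483:ℝ)/31250000) * (S^3)
    + ((-73580157:ℝ)/250000000) * (S^3*T)
    + ((124059573:ℝ)/250000000) * (S^4)) S T + (1 - c2) * S + r2 * S ^ 2 + c2 / 3 * T
    - (U2 S T (((1:ℝ)/4) * S2) (((1:ℝ)/8) * T2) + (fun S T : ℝ => ((14309:ℝ)/1600000) * (T)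
    + ((-3537477:ℝ)/250000000) * (T^2)
    + ((1257603:ℝ)/125000000) * (T^3)
    + ((70107:ℝ)/800000) * (S)
    + ((5618521:ℝ)/100000000) * (S*T)
    + ((-390503:ℝ)/3125000) * (S*T^2)
    + ((-2096607:ℝ)/50000000) * (S^2)
    + ((21867111:ℝ)/125000000) * (S^2*T)
    + ((-31837293:ℝ)/500000000) * (S^3)
    + ((101865843:ℝ)/500000000) * (S^3*T)
    + ((-10543581:ℝ)/50000000) * (S^4)) S2 T2
      - ((1:ℝ)/4) * ((1 - c4) * S2 + r4 * S2 ^ 2 + c4 / 3 * T2) + (0:ℝ) * S * S2) := by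
  simp only [cert2, U2, Kit.kavg, c2, r2, c3, c4, r4, iB0, iB1, iB2, iB3, iB4, iQ0, iQ1, iQ2, iQ3, iQ4, iQ5, Kit.iQ6, Kit.iF0, Kit.iF1, Kit.iF2, Kit.iF3, Kit.iF4]
  ring

/-- Bound for the reciprocal, step 3. -/
noncomputable def e3 : List ℝ := [((6161:ℝ)/25000), ((-6161:ℝ)/25000), ((63261633:ℝ)/250000000), ((-30669441:ℝ)/100000000), ((346740027:ℝ)/1000000000)]

/-- Bound for the squared reciprocal, step 3. -/
noncomputable def f3 : List ℝ := [((18839:ℝ)/100000), ((-18839:ℝ)/50000), ((113286697:ℝ)/200000000), ((-791873909:ℝ)/1000000000), ((1306447451:ℝ)/1000000000), ((-1446097197:ℝ)/1000000000), ((150307223:ℝ)/250000000)]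

/-- Bound for the cubed reciprocal, step 3. -/
noncomputable def g3 : List ℝ := [((-48213:ℝ)/500000), ((144639:ℝ)/500000), ((-113985837:ℝ)/200000000), ((159518731:ℝ)/200000000), ((-216184411:ℝ)/500000000)]

/-- Entropy drop, step 3. -/
noncomputable def hA3 : List ℝ := [(0:ℝ), (0:ℝ), ((70107:ℝ)/400000), ((-23369:ℝ)/400000), ((28783257:ℝ)/1000000000), ((-8488423:ℝ)/500000000), ((2634731:ℝ)/200000000), ((-11210711:ℝ)/1000000000), ((29347:ℝ)/5000000), ((-1212589:ℝ)/1000000000)]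

/-- Entropy of the new child, step 3. -/
noncomputable def hB3 : List ℝ := [(0:ℝ), (0:ℝ), (0:ℝ), ((18839:ℝ)/1600000), ((-2203547:ℝ)/250000000), ((1237709:ℝ)/200000000), ((-1518753:ℝ)/500000000), ((4552737:ℝ)/1000000000), ((-975437:ℝ)/200000000), ((393927:ℝ)/250000000)]

/-- The averaged bound, step 3. -/
noncomputable def U3 (S T S2 T2 : ℝ) : ℝ := Kit.kavg c4 ((6161:ℝ)/25000) ((-6161:ℝ)/25000) ((63261633:ℝ)/250000000) ((-30669441:ℝ)/100000000) ((346740027:ℝ)/1000000000) ((18839:ℝ)/100000) ((-18839:ℝ)/50000) ((113286697:ℝ)/200000000) ((-791873909:ℝ)/1000000000) ((1306447451:ℝ)/1000000000) ((-1446097197:ℝ)/1000000000) ((150307223:ℝ)/250000000) ((-48213:ℝ)/500000) ((144639:ℝ)/500000) ((-113985837:ℝ)/200000000) ((159518731:ℝ)/200000000) ((-216184411:ℝ)/500000000) S T S2 T2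

theorem avg_U3 (a b p q : ℝ) : avg6 (Kit.kbound c4 e3 f3 g3 a b) p q =
    U3 (iS a b) (iT a b) (iS p q) (iT p q) := by
  rw [U3, e3, f3, g3]
  exact Kit.avg_kbound ..

theorem sum_hA3 (a b : ℝ) : (Kit.pv hA3 a + Kit.pv hA3 b + Kit.pv hA3 (-a - b)) / 3 =
    (fun S T : ℝ => ((-23369:ℝ)/200000) * (T)
    + ((2634731:ℝ)/50000000) * (T^2)
    + ((-1212589:ℝ)/125000000) * (T^3)
    + ((70107:ℝ)/200000) * (S)
    + ((-8488423:ℝ)/50000000) * (S*T)
    + ((29347:ℝ)/156250) * (S*T^2)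
    + ((86349771:ℝ)/500000000) * (S^2)
    + ((-235424931:ℝ)/500000000) * (S^2*T)
    + ((23712579:ℝ)/100000000) * (S^3)
    + ((-98219709:ℝ)/500000000) * (S^3*T)
    + ((792369:ℝ)/2500000) * (S^4)) (iS a b) (iT a b) := by
  simp only [hA3, Kit.pv, iS, iT]
  ring

theorem sum_hB3 (a b : ℝ) : (Kit.pv hB3 a + Kit.pv hB3 b + Kit.pv hB3 (-a - b)) / 3 =
    (fun S T : ℝ => ((18839:ℝ)/800000) * (T)
    + ((-1518753:ℝ)/125000000) * (T^2)
    + ((393927:ℝ)/31250000) * (T^3)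
    + ((1237709:ℝ)/20000000) * (S*T)
    + ((-975437:ℝ)/6250000) * (S*T^2)
    + ((-6610641:ℝ)/125000000) * (S^2)
    + ((95607477:ℝ)/500000000) * (S^2*T)
    + ((-13668777:ℝ)/250000000) * (S^3)
    + ((31908087:ℝ)/125000000) * (S^3*T)
    + ((-26336799:ℝ)/100000000) * (S^4)) (iS a b) (iT a b) := by
  simp only [hB3, Kit.pv, iS, iT]
  ring

set_option maxHeartbeats 2000000 in
/-- The polynomial to be nonnegative, step 3. -/
noncomputable def cert3 (S T S2 T2 : ℝ) : ℝ :=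
  ((1518753:ℝ)/125000000) * (T2^2)
    + ((-393927:ℝ)/31250000) * (T2^3)
    + ((-1237709:ℝ)/20000000) * (S2*T2)
    + ((975437:ℝ)/6250000) * (S2*T2^2)
    + ((34805253:ℝ)/1000000000) * (S2^2)
    + ((-95607477:ℝ)/500000000) * (S2^2*T2)
    + ((13668777:ℝ)/250000000) * (S2^3)
    + ((-31908087:ℝ)/125000000) * (S2^3*T2)
    + ((26336799:ℝ)/100000000) * (S2^4)
    + ((-727516017:ℝ)/4000000000) * (T*T2)
    + ((791873909:ℝ)/32000000000) * (T*T2^2)
    + ((298213:ℝ)/500000) * (T*S2)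
    + ((1066129953:ℝ)/32000000000) * (T*S2*T2)
    + ((-3768584489:ℝ)/16000000000) * (T*S2^2)
    + ((-159518731:ℝ)/12800000000) * (T*S2^2*T2)
    + ((113985837:ℝ)/3200000000) * (T*S2^3)
    + ((2634731:ℝ)/50000000) * (T^2)
    + ((791873909:ℝ)/4000000000) * (T^2*T2)
    + ((71502321:ℝ)/1000000000) * (T^2*T2^2)
    + ((-150307223:ℝ)/16000000000) * (T^2*T2^3)
    + ((-8832344111:ℝ)/16000000000) * (T^2*S2*T2)
    + ((6028028201:ℝ)/64000000000) * (T^2*S2*T2^2)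
    + ((113985837:ℝ)/800000000) * (T^2*S2^2)
    + ((2078599653:ℝ)/32000000000) * (T^2*S2^2*T2)
    + ((-3542537847:ℝ)/32000000000) * (T^2*S2^3)
    + ((150307223:ℝ)/32000000000) * (T^2*S2^3*T2)
    + ((-5163290557:ℝ)/128000000000) * (T^2*S2^4)
    + ((-1212589:ℝ)/125000000) * (T^3)
    + ((-150307223:ℝ)/2000000000) * (T^3*T2^2)
    + ((-150307223:ℝ)/4000000000) * (T^3*S2*T2^2)
    + ((150307223:ℝ)/4000000000) * (T^3*S2^3)
    + ((-150307223:ℝ)/32000000000) * (T^3*S2^3*T2)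
    + ((150307223:ℝ)/8000000000) * (T^3*S2^4)
    + ((298213:ℝ)/1000000) * (S*T2)
    + ((63841:ℝ)/1000000) * (S*S2)
    + ((-228997897:ℝ)/3200000000) * (S*S2*T2)
    + ((-263234017:ℝ)/8000000000) * (S*S2^2)
    + ((113985837:ℝ)/6400000000) * (S*S2^3)
    + ((-8488423:ℝ)/50000000) * (S*T)
    + ((1066129953:ℝ)/8000000000) * (S*T*T2)
    + ((-8832344111:ℝ)/32000000000) * (S*T*T2^2)
    + ((-228997897:ℝ)/400000000) * (S*T*S2)
    + ((-613345147:ℝ)/16000000000) * (S*T*S2*T2)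
    + ((8959961273:ℝ)/128000000000) * (S*T*S2*T2^2)
    + ((1658212869:ℝ)/1600000000) * (S*T*S2^2)
    + ((-4143829807:ℝ)/25600000000) * (S*T*S2^2*T2)
    + ((-208293549:ℝ)/500000000) * (S*T*S2^3)
    + ((648553233:ℝ)/32000000000) * (S*T*S2^4)
    + ((29347:ℝ)/156250) * (S*T^2)
    + ((6028028201:ℝ)/16000000000) * (S*T^2*T2^2)
    + ((-150307223:ℝ)/8000000000) * (S*T^2*T2^3)
    + ((8959961273:ℝ)/16000000000) * (S*T^2*S2*T2)
    + ((-7572336183:ℝ)/32000000000) * (S*T^2*S2*T2^2)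
    + ((5384066483:ℝ)/64000000000) * (S*T^2*S2^2*T2)
    + ((-20552621:ℝ)/256000000) * (S*T^2*S2^3)
    + ((-1953993899:ℝ)/32000000000) * (S*T^2*S2^3*T2)
    + ((22375158351:ℝ)/128000000000) * (S*T^2*S2^4)
    + ((26322771:ℝ)/500000000) * (S^2)
    + ((-3768584489:ℝ)/8000000000) * (S^2*T2)
    + ((113985837:ℝ)/3200000000) * (S^2*T2^2)
    + ((-263234017:ℝ)/2000000000) * (S^2*S2)
    + ((1658212869:ℝ)/3200000000) * (S^2*S2*T2)
    + ((-1008299:ℝ)/16000000) * (S^2*S2^2)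
    + ((-8704904283:ℝ)/64000000000) * (S^2*S2^2*T2)
    + ((-4192564983:ℝ)/64000000000) * (S^2*S2^3)
    + ((648553233:ℝ)/64000000000) * (S^2*S2^4)
    + ((-235424931:ℝ)/500000000) * (S^2*T)
    + ((-159518731:ℝ)/800000000) * (S^2*T*T2)
    + ((2078599653:ℝ)/16000000000) * (S^2*T*T2^2)
    + ((-4143829807:ℝ)/6400000000) * (S^2*T*S2*T2)
    + ((5384066483:ℝ)/128000000000) * (S^2*T*S2*T2^2)
    + ((-8704904283:ℝ)/8000000000) * (S^2*T*S2^2)
    + ((70942265341:ℝ)/64000000000) * (S^2*T*S2^2*T2)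
    + ((10245718071:ℝ)/16000000000) * (S^2*T*S2^3)
    + ((-3156451683:ℝ)/25600000000) * (S^2*T*S2^3*T2)
    + ((43207499589:ℝ)/256000000000) * (S^2*T*S2^4)
    + ((23712579:ℝ)/100000000) * (S^3)
    + ((113985837:ℝ)/400000000) * (S^3*T2)
    + ((-3542537847:ℝ)/32000000000) * (S^3*T2^2)
    + ((150307223:ℝ)/32000000000) * (S^3*T2^3)
    + ((113985837:ℝ)/400000000) * (S^3*S2)
    + ((-208293549:ℝ)/250000000) * (S^3*S2*T2)
    + ((-20552621:ℝ)/1024000000) * (S^3*S2*T2^2)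
    + ((-4192564983:ℝ)/16000000000) * (S^3*S2^2)
    + ((10245718071:ℝ)/32000000000) * (S^3*S2^2*T2)
    + ((-23816271609:ℝ)/32000000000) * (S^3*S2^3)
    + ((-1653379453:ℝ)/64000000000) * (S^3*S2^3*T2)
    + ((72361473719:ℝ)/256000000000) * (S^3*S2^4)
    + ((-98219709:ℝ)/500000000) * (S^3*T)
    + ((150307223:ℝ)/4000000000) * (S^3*T*T2^2)
    + ((-150307223:ℝ)/32000000000) * (S^3*T*T2^3)
    + ((-1953993899:ℝ)/16000000000) * (S^3*T*S2*T2^2)
    + ((-3156451683:ℝ)/6400000000) * (S^3*T*S2^2*T2)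
    + ((-1653379453:ℝ)/8000000000) * (S^3*T*S2^3)
    + ((-1052150561:ℝ)/16000000000) * (S^3*T*S2^3*T2)
    + ((-13377342847:ℝ)/64000000000) * (S^3*T*S2^4)
    + ((792369:ℝ)/2500000) * (S^4)
    + ((-5163290557:ℝ)/32000000000) * (S^4*T2^2)
    + ((150307223:ℝ)/16000000000) * (S^4*T2^3)
    + ((648553233:ℝ)/4000000000) * (S^4*S2*T2)
    + ((22375158351:ℝ)/128000000000) * (S^4*S2*T2^2)
    + ((648553233:ℝ)/4000000000) * (S^4*S2^2)
    + ((43207499589:ℝ)/128000000000) * (S^4*S2^2*T2)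
    + ((72361473719:ℝ)/64000000000) * (S^4*S2^3)
    + ((-13377342847:ℝ)/128000000000) * (S^4*S2^3*T2)
    + ((-3885861087:ℝ)/8000000000) * (S^4*S2^4)

set_option maxHeartbeats 2000000 in
theorem cert3_eq (S T S2 T2 : ℝ) : cert3 S T S2 T2 =
    (fun S T : ℝ => ((-23369:ℝ)/200000) * (T)
    + ((2634731:ℝ)/50000000) * (T^2)
    + ((-1212589:ℝ)/125000000) * (T^3)
    + ((70107:ℝ)/200000) * (S)
    + ((-8488423:ℝ)/50000000) * (S*T)
    + ((29347:ℝ)/156250) * (S*T^2)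
    + ((86349771:ℝ)/500000000) * (S^2)
    + ((-235424931:ℝ)/500000000) * (S^2*T)
    + ((23712579:ℝ)/100000000) * (S^3)
    + ((-98219709:ℝ)/500000000) * (S^3*T)
    + ((792369:ℝ)/2500000) * (S^4)) S T + (1 - c3) * S + r3 * S ^ 2 + c3 / 3 * T
    - (U3 S T (((1:ℝ)/4) * S2) (((1:ℝ)/8) * T2) + (fun S T : ℝ => ((18839:ℝ)/800000) * (T)
    + ((-1518753:ℝ)/125000000) * (T^2)
    + ((393927:ℝ)/31250000) * (T^3)
    + ((1237709:ℝ)/20000000) * (S*T)
    + ((-975437:ℝ)/6250000) * (S*T^2)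
    + ((-6610641:ℝ)/125000000) * (S^2)
    + ((95607477:ℝ)/500000000) * (S^2*T)
    + ((-13668777:ℝ)/250000000) * (S^3)
    + ((31908087:ℝ)/125000000) * (S^3*T)
    + ((-26336799:ℝ)/100000000) * (S^4)) S2 T2
      - ((1:ℝ)/4) * ((1 - c4) * S2 + r4 * S2 ^ 2 + c4 / 3 * T2) + (0:ℝ) * S * S2) := by
  simp only [cert3, U3, Kit.kavg, c3, r3, c4, c4, r4, iB0, iB1, iB2, iB3, iB4, iQ0, iQ1, iQ2, iQ3, iQ4, iQ5, Kit.iQ6, Kit.iF0, Kit.iF1, Kit.iF2, Kit.iF3, Kit.iF4]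
  ring

/-- The polynomial to be nonnegative for a single child. -/
noncomputable def cert0 (S T : ℝ) : ℝ :=
  ((483849:ℝ)/50000000) * (T^2)
    + ((-122967:ℝ)/62500000) * (T^3)
    + ((-217317:ℝ)/100000000) * (S*T)
    + ((1109883:ℝ)/31250000) * (S*T^2)
    + ((772851:ℝ)/1000000000) * (S^2)
    + ((-51620961:ℝ)/500000000) * (S^2*T)
    + ((4354641:ℝ)/100000000) * (S^3)
    + ((-9960327:ℝ)/250000000) * (S^3*T)
    + ((29966841:ℝ)/500000000) * (S^4)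

theorem cert0_eq (S T : ℝ) : cert0 S T =
    ((1:ℝ)/4) * ((1 - c4) * S + r4 * S ^ 2 + c4 / 3 * T) - (fun S T : ℝ => ((-3242359:ℝ)/24000000) * (T)
    + ((-483849:ℝ)/50000000) * (T^2)
    + ((122967:ℝ)/62500000) * (T^3)
    + ((3807529:ℝ)/4000000) * (S)
    + ((217317:ℝ)/100000000) * (S*T)
    + ((-1109883:ℝ)/31250000) * (S*T^2)
    + ((16525131:ℝ)/250000000) * (S^2)
    + ((51620961:ℝ)/500000000) * (S^2*T)
    + ((-4354641:ℝ)/100000000) * (S^3)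
    + ((9960327:ℝ)/250000000) * (S^3*T)
    + ((-29966841:ℝ)/500000000) * (S^4)) S T
      - ((1 - c1) * (((1:ℝ)/4) * S) + r1 * (((1:ℝ)/4) * S) ^ 2 + c1 / 3 * (((1:ℝ)/8) * T)) := by
  simp only [cert0, c1, r1, c4, r4]
  ring

/-- Scaled coefficients for a single child. -/
noncomputable def coef0 : List (List ℤ) :=
  [[772851, 0, 0, 0], [2173170, -4346340, 0, 0], [53223390, -38707920, 38707920, 0], [103241922, -206483844, 0, 0], [95449938, -142065024, 142065024, 0], [41808780, -91487448, 23609664, -15739776]]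

theorem good0 : Bern.Good 2 [] coef0 :=
  (Bern.good_leaf (p := []) (by decide +kernel))

theorem chart0_eq (w t : ℝ) :
    cert0 (w ^ 2) (w ^ 3 * (2 * t - 1)) * 1000000000 = w ^ 4 * List.foldr (fun (c : List ℤ) r => c.foldr (fun (c : ℤ) r => (c : ℝ) + t * r) 0 + w * r) 0 coef0 := by
  simp only [cert0, coef0, List.foldr_cons, List.foldr_nil, Int.cast_ofNat, Int.cast_neg, Int.cast_zero, Int.cast_one]
  ring

theorem chart0_nonneg (w t : ℝ) (hw : 0 ≤ w) (hw1 : w ≤ 1) (ht : 0 ≤ t) (ht1 : t ≤ 1) :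
    0 ≤ cert0 (w ^ 2) (w ^ 3 * (2 * t - 1)) := by
  have h := good0 (pt w t 0 0) (by
    rintro (_ | _ | _ | i)
    exacts [⟨hw, hw1⟩, ⟨ht, ht1⟩, ⟨le_rfl, zero_le_one⟩, ⟨le_rfl, zero_le_one⟩])
  refine nonneg_of_mul_nonneg_left (b := (1000000000 : ℝ)) ?_ (by norm_num)
  rw [chart0_eq]
  exact mul_nonneg (pow_nonneg hw 4) h

end Vale.Agent.P154.D4
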