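import Vale.Agent.P154.Kit

/-!
One-variable polynomial checks for the four-child certificate at `l = 1/2`.
-/

namespace Vale.Agent.P154.D4

open Bin

/-- Scaled coefficients on the unit interval: reciprocal bound `e`, step 1. -/
noncomputable def cWe1 : List ℤ := [1956275695, -12720463470, 25679711691, -14901021144]

theorem goodWe1 : Bern.Good 1 [] cWe1 :=
  (Bern.good_node (p := []) 0 3 (by norm_num) (by decide +kernel)
      (Bern.good_node (p := [(0, 3, false)]) 0 3 (by norm_num) (by decide +kernel)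
      (Bern.good_leaf (p := [(0, 3, false), (0, 3, false)]) (by decide +kernel))
      (Bern.good_node (p := [(0, 3, false), (0, 3, true)]) 0 3 (by norm_num) (by decide +kernel)
      (Bern.good_leaf (p := [(0, 3, false), (0, 3, true), (0, 3, false)]) (by decide +kernel))
      (Bern.good_leaf (p := [(0, 3, false), (0, 3, true), (0, 3, true)]) (by decide +kernel))))
      (Bern.good_leaf (p := [(0, 3, true)]) (by decide +kernel)))

theorem We1_nonneg (u : ℝ) (h0 : ((-1:ℝ)/4) ≤ u) (h1 : u ≤ ((1:ℝ)/2)) :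
    0 ≤ Kit.pv [((547901:ℝ)/1500000000), ((-15768409:ℝ)/1000000000), ((399210761:ℝ)/1000000000), ((-22995403:ℝ)/31250000)] u := by
  have e : Bern.ev 1 cWe1 (fun _ => (u - ((-1:ℝ)/4)) / ((3:ℝ)/4)) = 48000000000 * Kit.pv [((547901:ℝ)/1500000000), ((-15768409:ℝ)/1000000000), ((399210761:ℝ)/1000000000), ((-22995403:ℝ)/31250000)] u := by
    show List.foldr (fun (c : ℤ) r => (c : ℝ) + (u - ((-1:ℝ)/4)) / ((3:ℝ)/4) * r) 0 cWe1 = _
    simp only [cWe1, List.foldr_cons, List.foldr_nil, Kit.pv]
    push_cast
    ring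
  have h := goodWe1 (fun _ => (u - ((-1:ℝ)/4)) / ((3:ℝ)/4)) fun _ => ⟨div_nonneg (by linarith) (by norm_num), (div_le_one (by norm_num)).2 (by linarith)⟩
  change 0 ≤ Bern.ev 1 cWe1 _ at h
  rw [e] at h
  exact nonneg_of_mul_nonneg_right h (by norm_num)

/-- Scaled coefficients on the unit interval: reciprocal bound `f`, step 1. -/
noncomputable def cWf1 : List ℤ := [3067030397, 18885737586, -408375338337, 1845054746460, -2769755735493, -393306929262, 2993578046217]

theorem goodWf1 : Bern.Good 1 [] cWf1 :=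
  (Bern.good_node (p := []) 0 6 (by norm_num) (by decide +kernel)
      (Bern.good_node (p := [(0, 6, false)]) 0 6 (by norm_num) (by decide +kernel)
      (Bern.good_leaf (p := [(0, 6, false), (0, 6, false)]) (by decide +kernel))
      (Bern.good_leaf (p := [(0, 6, false), (0, 6, true)]) (by decide +kernel)))
      (Bern.good_leaf (p := [(0, 6, true)]) (by decide +kernel)))

theorem Wf1_nonneg (u : ℝ) (h0 : ((-1:ℝ)/4) ≤ u) (h1 : u ≤ ((1:ℝ)/2)) :
    0 ≤ Kit.pv [((100253:ℝ)/500000000), ((1245937:ℝ)/3000000000), ((-326199:ℝ)/500000000), ((-52079769:ℝ)/1000000000), ((804541903:ℝ)/500000000), ((1918329617:ℝ)/250000000), ((1368805691:ℝ)/250000000)] u := by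
  have e : Bern.ev 1 cWf1 (fun _ => (u - ((-1:ℝ)/4)) / ((3:ℝ)/4)) = 3072000000000 * Kit.pv [((100253:ℝ)/500000000), ((1245937:ℝ)/3000000000), ((-326199:ℝ)/500000000), ((-52079769:ℝ)/1000000000), ((804541903:ℝ)/500000000), ((1918329617:ℝ)/250000000), ((1368805691:ℝ)/250000000)] u := by
    show List.foldr (fun (c : ℤ) r => (c : ℝ) + (u - ((-1:ℝ)/4)) / ((3:ℝ)/4) * r) 0 cWf1 = _
    simp only [cWf1, List.foldr_cons, List.foldr_nil, Kit.pv]
    push_cast
    ring
  have h := goodWf1 (fun _ => (u - ((-1:ℝ)/4)) / ((3:ℝ)/4)) fun _ => ⟨div_nonneg (by linarith) (by norm_num), (div_le_one (by norm_num)).2 (by linarith)⟩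
  change 0 ≤ Bern.ev 1 cWf1 _ at h
  rw [e] at h
  exact nonneg_of_mul_nonneg_right h (by norm_num)

/-- Scaled coefficients on the unit interval: reciprocal bound `g`, step 1. -/
noncomputable def cWg1 : List ℤ := [48699440820, -240732948861, 178837439544, 408461347998, -169191486180, -225817948953]

theorem goodWg1 : Bern.Good 1 [] cWg1 :=
  (Bern.good_node (p := []) 0 5 (by norm_num) (by decide +kernel)
      (Bern.good_node (p := [(0, 5, false)]) 0 5 (by norm_num) (by decide +kernel)
      (Bern.good_leaf (p := [(0, 5, false), (0, 5, false)]) (by decide +kernel))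
      (Bern.good_node (p := [(0, 5, false), (0, 5, true)]) 0 5 (by norm_num) (by decide +kernel)
      (Bern.good_node (p := [(0, 5, false), (0, 5, true), (0, 5, false)]) 0 5 (by norm_num) (by decide +kernel)
      (Bern.good_leaf (p := [(0, 5, false), (0, 5, true), (0, 5, false), (0, 5, false)]) (by decide +kernel))
      (Bern.good_node (p := [(0, 5, false), (0, 5, true), (0, 5, false), (0, 5, true)]) 0 5 (by norm_num) (by decide +kernel)
      (Bern.good_leaf (p := [(0, 5, false), (0, 5, true), (0, 5, false), (0, 5, true), (0, 5, false)]) (by decide +kernel))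
      (Bern.good_leaf (p := [(0, 5, false), (0, 5, true), (0, 5, false), (0, 5, true), (0, 5, true)]) (by decide +kernel))))
      (Bern.good_leaf (p := [(0, 5, false), (0, 5, true), (0, 5, true)]) (by decide +kernel))))
      (Bern.good_leaf (p := [(0, 5, true)]) (by decide +kernel)))

theorem Wg1_nonneg (u : ℝ) (h0 : ((-1:ℝ)/4) ≤ u) (h1 : u ≤ ((1:ℝ)/2)) :
    0 ≤ Kit.pv [((425853:ℝ)/250000000), ((-126869747:ℝ)/1000000000), ((2714362403:ℝ)/1000000000), ((-629964189:ℝ)/1000000000), ((-1347048727:ℝ)/200000000), ((-929291971:ℝ)/250000000)] u := by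
  have e : Bern.ev 1 cWg1 (fun _ => (u - ((-1:ℝ)/4)) / ((3:ℝ)/4)) = 256000000000 * Kit.pv [((425853:ℝ)/250000000), ((-126869747:ℝ)/1000000000), ((2714362403:ℝ)/1000000000), ((-629964189:ℝ)/1000000000), ((-1347048727:ℝ)/200000000), ((-929291971:ℝ)/250000000)] u := by
    show List.foldr (fun (c : ℤ) r => (c : ℝ) + (u - ((-1:ℝ)/4)) / ((3:ℝ)/4) * r) 0 cWg1 = _
    simp only [cWg1, List.foldr_cons, List.foldr_nil, Kit.pv]
    push_cast
    ring
  have h := goodWg1 (fun _ => (u - ((-1:ℝ)/4)) / ((3:ℝ)/4)) fun _ => ⟨div_nonneg (by linarith) (by norm_num), (div_le_one (by norm_num)).2 (by linarith)⟩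
  change 0 ≤ Bern.ev 1 cWg1 _ at h
  rw [e] at h
  exact nonneg_of_mul_nonneg_right h (by norm_num)

/-- Scaled coefficients on the unit interval: entropy drop, step 1. -/
noncomputable def cWA1 : List ℤ := [307152418, -4861755207, 29998780344, -91847528478, 148070641086, -119978791083, 38444468184]

theorem goodWA1 : Bern.Good 1 [] cWA1 :=
  (Bern.good_node (p := []) 0 6 (by norm_num) (by decide +kernel)
      (Bern.good_node (p := [(0, 6, false)]) 0 6 (by norm_num) (by decide +kernel)
      (Bern.good_node (p := [(0, 6, false), (0, 6, false)]) 0 6 (by norm_num) (by decide +kernel)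
      (Bern.good_leaf (p := [(0, 6, false), (0, 6, false), (0, 6, false)]) (by decide +kernel))
      (Bern.good_node (p := [(0, 6, false), (0, 6, false), (0, 6, true)]) 0 6 (by norm_num) (by decide +kernel)
      (Bern.good_leaf (p := [(0, 6, false), (0, 6, false), (0, 6, true), (0, 6, false)]) (by decide +kernel))
      (Bern.good_leaf (p := [(0, 6, false), (0, 6, false), (0, 6, true), (0, 6, true)]) (by decide +kernel))))
      (Bern.good_leaf (p := [(0, 6, false), (0, 6, true)]) (by decide +kernel)))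
      (Bern.good_node (p := [(0, 6, true)]) 0 6 (by norm_num) (by decide +kernel)
      (Bern.good_leaf (p := [(0, 6, true), (0, 6, false)]) (by decide +kernel))
      (Bern.good_node (p := [(0, 6, true), (0, 6, true)]) 0 6 (by norm_num) (by decide +kernel)
      (Bern.good_node (p := [(0, 6, true), (0, 6, true), (0, 6, false)]) 0 6 (by norm_num) (by decide +kernel)
      (Bern.good_leaf (p := [(0, 6, true), (0, 6, true), (0, 6, false), (0, 6, false)]) (by decide +kernel))
      (Bern.good_leaf (p := [(0, 6, true), (0, 6, true), (0, 6, false), (0, 6, true)]) (by decide +kernel)))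
      (Bern.good_leaf (p := [(0, 6, true), (0, 6, true), (0, 6, true)]) (by decide +kernel)))))

theorem WA1_nonneg (u : ℝ) (h0 : ((-1:ℝ)/2) ≤ u) (h1 : u ≤ (1:ℝ)) :
    0 ≤ Kit.pv [((9831:ℝ)/7812500), ((23501:ℝ)/125000000), ((-2512393:ℝ)/50000000), ((1384461:ℝ)/25000000), ((150371641:ℝ)/250000000), ((-35464901:ℝ)/25000000), ((6591987:ℝ)/7812500)] u := by
  have e : Bern.ev 1 cWA1 (fun _ => (u - ((-1:ℝ)/2)) / ((3:ℝ)/2)) = 4000000000 * Kit.pv [((9831:ℝ)/7812500), ((23501:ℝ)/125000000), ((-2512393:ℝ)/50000000), ((1384461:ℝ)/25000000), ((150371641:ℝ)/250000000), ((-35464901:ℝ)/25000000), ((6591987:ℝ)/7812500)] u := by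
    show List.foldr (fun (c : ℤ) r => (c : ℝ) + (u - ((-1:ℝ)/2)) / ((3:ℝ)/2) * r) 0 cWA1 = _
    simp only [cWA1, List.foldr_cons, List.foldr_nil, Kit.pv]
    push_cast
    ring
  have h := goodWA1 (fun _ => (u - ((-1:ℝ)/2)) / ((3:ℝ)/2)) fun _ => ⟨div_nonneg (by linarith) (by norm_num), (div_le_one (by norm_num)).2 (by linarith)⟩
  change 0 ≤ Bern.ev 1 cWA1 _ at h
  rw [e] at h
  exact nonneg_of_mul_nonneg_right h (by norm_num)

/-- Scaled coefficients on the unit interval: entropy of the new child, step 1. -/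
noncomputable def cWB1 : List ℤ := [70646250, -1043489421, 5276586078, -6685512984, -30810837672, 123934662684, -164779421688, 76769919828]

theorem goodWB1 : Bern.Good 1 [] cWB1 :=
  (Bern.good_node (p := []) 0 7 (by norm_num) (by decide +kernel)
      (Bern.good_node (p := [(0, 7, false)]) 0 7 (by norm_num) (by decide +kernel)
      (Bern.good_leaf (p := [(0, 7, false), (0, 7, false)]) (by decide +kernel))
      (Bern.good_node (p := [(0, 7, false), (0, 7, true)]) 0 7 (by norm_num) (by decide +kernel)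
      (Bern.good_leaf (p := [(0, 7, false), (0, 7, true), (0, 7, false)]) (by decide +kernel))
      (Bern.good_leaf (p := [(0, 7, false), (0, 7, true), (0, 7, true)]) (by decide +kernel))))
      (Bern.good_node (p := [(0, 7, true)]) 0 7 (by norm_num) (by decide +kernel)
      (Bern.good_node (p := [(0, 7, true), (0, 7, false)]) 0 7 (by norm_num) (by decide +kernel)
      (Bern.good_leaf (p := [(0, 7, true), (0, 7, false), (0, 7, false)]) (by decide +kernel))
      (Bern.good_node (p := [(0, 7, true), (0, 7, false), (0, 7, true)]) 0 7 (by norm_num) (by decide +kernel)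
      (Bern.good_leaf (p := [(0, 7, true), (0, 7, false), (0, 7, true), (0, 7, false)]) (by decide +kernel))
      (Bern.good_leaf (p := [(0, 7, true), (0, 7, false), (0, 7, true), (0, 7, true)]) (by decide +kernel))))
      (Bern.good_leaf (p := [(0, 7, true), (0, 7, true)]) (by decide +kernel))))

theorem WB1_nonneg (u : ℝ) (h0 : (-1:ℝ) ≤ u) (h1 : u ≤ (2:ℝ)) :
    0 ≤ Kit.pv [((198641:ℝ)/1000000000), ((-6131:ℝ)/1000000000), ((3998409:ℝ)/500000000), ((1947977:ℝ)/50000000), ((973961:ℝ)/125000000), ((-1362879:ℝ)/12500000), ((4921259:ℝ)/250000000), ((8775711:ℝ)/250000000)] u := by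
  have e : Bern.ev 1 cWB1 (fun _ => (u - (-1:ℝ)) / (3:ℝ)) = 1000000000 * Kit.pv [((198641:ℝ)/1000000000), ((-6131:ℝ)/1000000000), ((3998409:ℝ)/500000000), ((1947977:ℝ)/50000000), ((973961:ℝ)/125000000), ((-1362879:ℝ)/12500000), ((4921259:ℝ)/250000000), ((8775711:ℝ)/250000000)] u := by
    show List.foldr (fun (c : ℤ) r => (c : ℝ) + (u - (-1:ℝ)) / (3:ℝ) * r) 0 cWB1 = _
    simp only [cWB1, List.foldr_cons, List.foldr_nil, Kit.pv]
    push_cast
    ring
  have h := goodWB1 (fun _ => (u - (-1:ℝ)) / (3:ℝ)) fun _ => ⟨div_nonneg (by linarith) (by norm_num), (div_le_one (by norm_num)).2 (by linarith)⟩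
  change 0 ≤ Bern.ev 1 cWB1 _ at h
  rw [e] at h
  exact nonneg_of_mul_nonneg_right h (by norm_num)

/-- Scaled coefficients on the unit interval: reciprocal bound `e`, step 2. -/
noncomputable def cWe2 : List ℤ := [362945811, -2344118823, 4702702797, -2718325305]

theorem goodWe2 : Bern.Good 1 [] cWe2 :=
  (Bern.good_node (p := []) 0 3 (by norm_num) (by decide +kernel)
      (Bern.good_node (p := [(0, 3, false)]) 0 3 (by norm_num) (by decide +kernel)
      (Bern.good_leaf (p := [(0, 3, false), (0, 3, false)]) (by decide +kernel))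
      (Bern.good_node (p := [(0, 3, false), (0, 3, true)]) 0 3 (by norm_num) (by decide +kernel)
      (Bern.good_leaf (p := [(0, 3, false), (0, 3, true), (0, 3, false)]) (by decide +kernel))
      (Bern.good_leaf (p := [(0, 3, false), (0, 3, true), (0, 3, true)]) (by decide +kernel))))
      (Bern.good_leaf (p := [(0, 3, true)]) (by decide +kernel)))

theorem We2_nonneg (u : ℝ) (h0 : ((-1:ℝ)/2) ≤ u) (h1 : u ≤ (1:ℝ)) :
    0 ≤ Kit.pv [((213543:ℝ)/500000000), ((-1918201:ℝ)/200000000), ((55121597:ℝ)/500000000), ((-20135743:ℝ)/200000000)] u := by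
  have e : Bern.ev 1 cWe2 (fun _ => (u - ((-1:ℝ)/2)) / ((3:ℝ)/2)) = 8000000000 * Kit.pv [((213543:ℝ)/500000000), ((-1918201:ℝ)/200000000), ((55121597:ℝ)/500000000), ((-20135743:ℝ)/200000000)] u := by
    show List.foldr (fun (c : ℤ) r => (c : ℝ) + (u - ((-1:ℝ)/2)) / ((3:ℝ)/2) * r) 0 cWe2 = _
    simp only [cWe2, List.foldr_cons, List.foldr_nil, Kit.pv]
    push_cast
    ring
  have h := goodWe2 (fun _ => (u - ((-1:ℝ)/2)) / ((3:ℝ)/2)) fun _ => ⟨div_nonneg (by linarith) (by norm_num), (div_le_one (by norm_num)).2 (by linarith)⟩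
  change 0 ≤ Bern.ev 1 cWe2 _ at h
  rw [e] at h
  exact nonneg_of_mul_nonneg_right h (by norm_num)

/-- Scaled coefficients on the unit interval: reciprocal bound `f`, step 2. -/
noncomputable def cWf2 : List ℤ := [3182189, 37317832782, -205554638745, 129570213924, 961774866747, -1807627165074, 894335608593]

theorem goodWf2 : Bern.Good 1 [] cWf2 :=
  (Bern.good_node (p := []) 0 6 (by norm_num) (by decide +kernel)
      (Bern.good_node (p := [(0, 6, false)]) 0 6 (by norm_num) (by decide +kernel)
      (Bern.good_leaf (p := [(0, 6, false), (0, 6, false)]) (by decide +kernel))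
      (Bern.good_node (p := [(0, 6, false), (0, 6, true)]) 0 6 (by norm_num) (by decide +kernel)
      (Bern.good_node (p := [(0, 6, false), (0, 6, true), (0, 6, false)]) 0 6 (by norm_num) (by decide +kernel)
      (Bern.good_leaf (p := [(0, 6, false), (0, 6, true), (0, 6, false), (0, 6, false)]) (by decide +kernel))
      (Bern.good_leaf (p := [(0, 6, false), (0, 6, true), (0, 6, false), (0, 6, true)]) (by decide +kernel)))
      (Bern.good_leaf (p := [(0, 6, false), (0, 6, true), (0, 6, true)]) (by decide +kernel))))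
      (Bern.good_node (p := [(0, 6, true)]) 0 6 (by norm_num) (by decide +kernel)
      (Bern.good_leaf (p := [(0, 6, true), (0, 6, false)]) (by decide +kernel))
      (Bern.good_node (p := [(0, 6, true), (0, 6, true)]) 0 6 (by norm_num) (by decide +kernel)
      (Bern.good_node (p := [(0, 6, true), (0, 6, true), (0, 6, false)]) 0 6 (by norm_num) (by decide +kernel)
      (Bern.good_leaf (p := [(0, 6, true), (0, 6, true), (0, 6, false), (0, 6, false)]) (by decide +kernel))
      (Bern.good_leaf (p := [(0, 6, true), (0, 6, true), (0, 6, false), (0, 6, true)]) (by decide +kernel)))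
      (Bern.good_leaf (p := [(0, 6, true), (0, 6, true), (0, 6, true)]) (by decide +kernel)))))

theorem Wf2_nonneg (u : ℝ) (h0 : ((-1:ℝ)/2) ≤ u) (h1 : u ≤ (1:ℝ)) :
    0 ≤ Kit.pv [((995609:ℝ)/1000000000), ((-3690541:ℝ)/100000000), ((425867933:ℝ)/1000000000), ((30524489:ℝ)/100000000), ((-1729560887:ℝ)/1000000000), ((-4875501:ℝ)/125000000), ((1226797817:ℝ)/1000000000)] u := by
  have e : Bern.ev 1 cWf2 (fun _ => (u - ((-1:ℝ)/2)) / ((3:ℝ)/2)) = 64000000000 * Kit.pv [((995609:ℝ)/1000000000), ((-3690541:ℝ)/100000000), ((425867933:ℝ)/1000000000), ((30524489:ℝ)/100000000), ((-1729560887:ℝ)/1000000000), ((-4875501:ℝ)/125000000), ((1226797817:ℝ)/1000000000)] u := by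
    show List.foldr (fun (c : ℤ) r => (c : ℝ) + (u - ((-1:ℝ)/2)) / ((3:ℝ)/2) * r) 0 cWf2 = _
    simp only [cWf2, List.foldr_cons, List.foldr_nil, Kit.pv]
    push_cast
    ring
  have h := goodWf2 (fun _ => (u - ((-1:ℝ)/2)) / ((3:ℝ)/2)) fun _ => ⟨div_nonneg (by linarith) (by norm_num), (div_le_one (by norm_num)).2 (by linarith)⟩
  change 0 ≤ Bern.ev 1 cWf2 _ at h
  rw [e] at h
  exact nonneg_of_mul_nonneg_right h (by norm_num)

/-- Scaled coefficients on the unit interval: reciprocal bound `g`, step 2. -/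
noncomputable def cWg2 : List ℤ := [9494798193, -17870533947, -74135146410, 102566907558, 208336423977, -228341118555]

theorem goodWg2 : Bern.Good 1 [] cWg2 :=
  (Bern.good_node (p := []) 0 5 (by norm_num) (by decide +kernel)
      (Bern.good_node (p := [(0, 5, false)]) 0 5 (by norm_num) (by decide +kernel)
      (Bern.good_leaf (p := [(0, 5, false), (0, 5, false)]) (by decide +kernel))
      (Bern.good_node (p := [(0, 5, false), (0, 5, true)]) 0 5 (by norm_num) (by decide +kernel)
      (Bern.good_leaf (p := [(0, 5, false), (0, 5, true), (0, 5, false)]) (by decide +kernel))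
      (Bern.good_node (p := [(0, 5, false), (0, 5, true), (0, 5, true)]) 0 5 (by norm_num) (by decide +kernel)
      (Bern.good_node (p := [(0, 5, false), (0, 5, true), (0, 5, true), (0, 5, false)]) 0 5 (by norm_num) (by decide +kernel)
      (Bern.good_leaf (p := [(0, 5, false), (0, 5, true), (0, 5, true), (0, 5, false), (0, 5, false)]) (by decide +kernel))
      (Bern.good_leaf (p := [(0, 5, false), (0, 5, true), (0, 5, true), (0, 5, false), (0, 5, true)]) (by decide +kernel)))
      (Bern.good_leaf (p := [(0, 5, false), (0, 5, true), (0, 5, true), (0, 5, true)]) (by decide +kernel)))))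
      (Bern.good_leaf (p := [(0, 5, true)]) (by decide +kernel)))

theorem Wg2_nonneg (u : ℝ) (h0 : ((-1:ℝ)/2) ≤ u) (h1 : u ≤ (1:ℝ)) :
    0 ≤ Kit.pv [((4574179:ℝ)/200000000), ((-170161157:ℝ)/500000000), ((1149332303:ℝ)/1000000000), ((1172559743:ℝ)/1000000000), ((-531580577:ℝ)/500000000), ((-187935077:ℝ)/200000000)] u := by
  have e : Bern.ev 1 cWg2 (fun _ => (u - ((-1:ℝ)/2)) / ((3:ℝ)/2)) = 32000000000 * Kit.pv [((4574179:ℝ)/200000000), ((-170161157:ℝ)/500000000), ((1149332303:ℝ)/1000000000), ((1172559743:ℝ)/1000000000), ((-531580577:ℝ)/500000000), ((-187935077:ℝ)/200000000)] u := by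
    show List.foldr (fun (c : ℤ) r => (c : ℝ) + (u - ((-1:ℝ)/2)) / ((3:ℝ)/2) * r) 0 cWg2 = _
    simp only [cWg2, List.foldr_cons, List.foldr_nil, Kit.pv]
    push_cast
    ring
  have h := goodWg2 (fun _ => (u - ((-1:ℝ)/2)) / ((3:ℝ)/2)) fun _ => ⟨div_nonneg (by linarith) (by norm_num), (div_le_one (by norm_num)).2 (by linarith)⟩
  change 0 ≤ Bern.ev 1 cWg2 _ at h
  rw [e] at h
  exact nonneg_of_mul_nonneg_right h (by norm_num)

/-- Scaled coefficients on the unit interval: entropy drop, step 2. -/
noncomputable def cWA2 : List ℤ := [348846500, -5388454803, 32957702937, -101970960507, 168719584635, -141992594352, 47679941736]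

theorem goodWA2 : Bern.Good 1 [] cWA2 :=
  (Bern.good_node (p := []) 0 6 (by norm_num) (by decide +kernel)
      (Bern.good_node (p := [(0, 6, false)]) 0 6 (by norm_num) (by decide +kernel)
      (Bern.good_node (p := [(0, 6, false), (0, 6, false)]) 0 6 (by norm_num) (by decide +kernel)
      (Bern.good_leaf (p := [(0, 6, false), (0, 6, false), (0, 6, false)]) (by decide +kernel))
      (Bern.good_node (p := [(0, 6, false), (0, 6, false), (0, 6, true)]) 0 6 (by norm_num) (by decide +kernel)
      (Bern.good_leaf (p := [(0, 6, false), (0, 6, false), (0, 6, true), (0, 6, false)]) (by decide +kernel))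
      (Bern.good_node (p := [(0, 6, false), (0, 6, false), (0, 6, true), (0, 6, true)]) 0 6 (by norm_num) (by decide +kernel)
      (Bern.good_leaf (p := [(0, 6, false), (0, 6, false), (0, 6, true), (0, 6, true), (0, 6, false)]) (by decide +kernel))
      (Bern.good_leaf (p := [(0, 6, false), (0, 6, false), (0, 6, true), (0, 6, true), (0, 6, true)]) (by decide +kernel)))))
      (Bern.good_node (p := [(0, 6, false), (0, 6, true)]) 0 6 (by norm_num) (by decide +kernel)
      (Bern.good_leaf (p := [(0, 6, false), (0, 6, true), (0, 6, false)]) (by decide +kernel))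
      (Bern.good_node (p := [(0, 6, false), (0, 6, true), (0, 6, true)]) 0 6 (by norm_num) (by decide +kernel)
      (Bern.good_leaf (p := [(0, 6, false), (0, 6, true), (0, 6, true), (0, 6, false)]) (by decide +kernel))
      (Bern.good_leaf (p := [(0, 6, false), (0, 6, true), (0, 6, true), (0, 6, true)]) (by decide +kernel)))))
      (Bern.good_node (p := [(0, 6, true)]) 0 6 (by norm_num) (by decide +kernel)
      (Bern.good_leaf (p := [(0, 6, true), (0, 6, false)]) (by decide +kernel))
      (Bern.good_node (p := [(0, 6, true), (0, 6, true)]) 0 6 (by norm_num) (by decide +kernel)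
      (Bern.good_node (p := [(0, 6, true), (0, 6, true), (0, 6, false)]) 0 6 (by norm_num) (by decide +kernel)
      (Bern.good_node (p := [(0, 6, true), (0, 6, true), (0, 6, false), (0, 6, false)]) 0 6 (by norm_num) (by decide +kernel)
      (Bern.good_leaf (p := [(0, 6, true), (0, 6, true), (0, 6, false), (0, 6, false), (0, 6, false)]) (by decide +kernel))
      (Bern.good_leaf (p := [(0, 6, true), (0, 6, true), (0, 6, false), (0, 6, false), (0, 6, true)]) (by decide +kernel)))
      (Bern.good_leaf (p := [(0, 6, true), (0, 6, true), (0, 6, false), (0, 6, true)]) (by decide +kernel)))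
      (Bern.good_leaf (p := [(0, 6, true), (0, 6, true), (0, 6, true)]) (by decide +kernel)))))

theorem WA2_nonneg (u : ℝ) (h0 : (-1:ℝ) ≤ u) (h1 : u ≤ (2:ℝ)) :
    0 ≤ Kit.pv [((995203:ℝ)/250000000), ((138093:ℝ)/250000000), ((-163203:ℝ)/2500000), ((19904139:ℝ)/500000000), ((5694731:ℝ)/20000000), ((-1199401:ℝ)/3125000), ((8175573:ℝ)/62500000)] u := by
  have e : Bern.ev 1 cWA2 (fun _ => (u - (-1:ℝ)) / (3:ℝ)) = 500000000 * Kit.pv [((995203:ℝ)/250000000), ((138093:ℝ)/250000000), ((-163203:ℝ)/2500000), ((19904139:ℝ)/500000000), ((5694731:ℝ)/20000000), ((-1199401:ℝ)/3125000), ((8175573:ℝ)/62500000)] u := by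
    show List.foldr (fun (c : ℤ) r => (c : ℝ) + (u - (-1:ℝ)) / (3:ℝ) * r) 0 cWA2 = _
    simp only [cWA2, List.foldr_cons, List.foldr_nil, Kit.pv]
    push_cast
    ring
  have h := goodWA2 (fun _ => (u - (-1:ℝ)) / (3:ℝ)) fun _ => ⟨div_nonneg (by linarith) (by norm_num), (div_le_one (by norm_num)).2 (by linarith)⟩
  change 0 ≤ Bern.ev 1 cWA2 _ at h
  rw [e] at h
  exact nonneg_of_mul_nonneg_right h (by norm_num)

/-- Scaled coefficients on the unit interval: entropy of the new child, step 2. -/
noncomputable def cWB2 : List ℤ := [141292500, -2279086857, 12513316590, -18133354170, -72362277126, 311943718944, -423455209776, 198027198792]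

theorem goodWB2 : Bern.Good 1 [] cWB2 :=
  (Bern.good_node (p := []) 0 7 (by norm_num) (by decide +kernel)
      (Bern.good_node (p := [(0, 7, false)]) 0 7 (by norm_num) (by decide +kernel)
      (Bern.good_node (p := [(0, 7, false), (0, 7, false)]) 0 7 (by norm_num) (by decide +kernel)
      (Bern.good_leaf (p := [(0, 7, false), (0, 7, false), (0, 7, false)]) (by decide +kernel))
      (Bern.good_node (p := [(0, 7, false), (0, 7, false), (0, 7, true)]) 0 7 (by norm_num) (by decide +kernel)
      (Bern.good_leaf (p := [(0, 7, false), (0, 7, false), (0, 7, true), (0, 7, false)]) (by decide +kernel))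
      (Bern.good_leaf (p := [(0, 7, false), (0, 7, false), (0, 7, true), (0, 7, true)]) (by decide +kernel))))
      (Bern.good_node (p := [(0, 7, false), (0, 7, true)]) 0 7 (by norm_num) (by decide +kernel)
      (Bern.good_leaf (p := [(0, 7, false), (0, 7, true), (0, 7, false)]) (by decide +kernel))
      (Bern.good_leaf (p := [(0, 7, false), (0, 7, true), (0, 7, true)]) (by decide +kernel))))
      (Bern.good_node (p := [(0, 7, true)]) 0 7 (by norm_num) (by decide +kernel)
      (Bern.good_node (p := [(0, 7, true), (0, 7, false)]) 0 7 (by norm_num) (by decide +kernel)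
      (Bern.good_leaf (p := [(0, 7, true), (0, 7, false), (0, 7, false)]) (by decide +kernel))
      (Bern.good_node (p := [(0, 7, true), (0, 7, false), (0, 7, true)]) 0 7 (by norm_num) (by decide +kernel)
      (Bern.good_leaf (p := [(0, 7, true), (0, 7, false), (0, 7, true), (0, 7, false)]) (by decide +kernel))
      (Bern.good_node (p := [(0, 7, true), (0, 7, false), (0, 7, true), (0, 7, true)]) 0 7 (by norm_num) (by decide +kernel)
      (Bern.good_leaf (p := [(0, 7, true), (0, 7, false), (0, 7, true), (0, 7, true), (0, 7, false)]) (by decide +kernel))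
      (Bern.good_leaf (p := [(0, 7, true), (0, 7, false), (0, 7, true), (0, 7, true), (0, 7, true)]) (by decide +kernel)))))
      (Bern.good_leaf (p := [(0, 7, true), (0, 7, true)]) (by decide +kernel))))

theorem WB2_nonneg (u : ℝ) (h0 : (-1:ℝ) ≤ u) (h1 : u ≤ (2:ℝ)) :
    0 ≤ Kit.pv [((78663:ℝ)/400000000), ((-181:ℝ)/16000000), ((1024959:ℝ)/50000000), ((71935633:ℝ)/1000000000), ((-9338503:ℝ)/1000000000), ((-7500333:ℝ)/50000000), ((6620071:ℝ)/250000000), ((11318427:ℝ)/250000000)] u := by
  have e : Bern.ev 1 cWB2 (fun _ => (u - (-1:ℝ)) / (3:ℝ)) = 2000000000 * Kit.pv [((78663:ℝ)/400000000), ((-181:ℝ)/16000000), ((1024959:ℝ)/50000000), ((71935633:ℝ)/1000000000), ((-9338503:ℝ)/1000000000), ((-7500333:ℝ)/50000000), ((6620071:ℝ)/250000000), ((11318427:ℝ)/250000000)] u := by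
    show List.foldr (fun (c : ℤ) r => (c : ℝ) + (u - (-1:ℝ)) / (3:ℝ) * r) 0 cWB2 = _
    simp only [cWB2, List.foldr_cons, List.foldr_nil, Kit.pv]
    push_cast
    ring
  have h := goodWB2 (fun _ => (u - (-1:ℝ)) / (3:ℝ)) fun _ => ⟨div_nonneg (by linarith) (by norm_num), (div_le_one (by norm_num)).2 (by linarith)⟩
  change 0 ≤ Bern.ev 1 cWB2 _ at h
  rw [e] at h
  exact nonneg_of_mul_nonneg_right h (by norm_num)

/-- Scaled coefficients on the unit interval: reciprocal bound `e`, step 3. -/
noncomputable def cWe3 : List ℤ := [794975, 1996338303, -8641159623, 9361980729]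

theorem goodWe3 : Bern.Good 1 [] cWe3 :=
  (Bern.good_node (p := []) 0 3 (by norm_num) (by decide +kernel)
      (Bern.good_node (p := [(0, 3, false)]) 0 3 (by norm_num) (by decide +kernel)
      (Bern.good_leaf (p := [(0, 3, false), (0, 3, false)]) (by decide +kernel))
      (Bern.good_node (p := [(0, 3, false), (0, 3, true)]) 0 3 (by norm_num) (by decide +kernel)
      (Bern.good_leaf (p := [(0, 3, false), (0, 3, true), (0, 3, false)]) (by decide +kernel))
      (Bern.good_node (p := [(0, 3, false), (0, 3, true), (0, 3, true)]) 0 3 (by norm_num) (by decide +kernel)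
      (Bern.good_leaf (p := [(0, 3, false), (0, 3, true), (0, 3, true), (0, 3, false)]) (by decide +kernel))
      (Bern.good_leaf (p := [(0, 3, false), (0, 3, true), (0, 3, true), (0, 3, true)]) (by decide +kernel)))))
      (Bern.good_leaf (p := [(0, 3, true)]) (by decide +kernel)))

theorem We3_nonneg (u : ℝ) (h0 : ((-1:ℝ)/2) ≤ u) (h1 : u ≤ (1:ℝ)) :
    0 ≤ Kit.pv [((1651633:ℝ)/250000000), ((-26823939:ℝ)/500000000), ((40045617:ℝ)/1000000000), ((346740027:ℝ)/1000000000)] u := by
  have e : Bern.ev 1 cWe3 (fun _ => (u - ((-1:ℝ)/2)) / ((3:ℝ)/2)) = 8000000000 * Kit.pv [((1651633:ℝ)/250000000), ((-26823939:ℝ)/500000000), ((40045617:ℝ)/1000000000), ((346740027:ℝ)/1000000000)] u := by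
    show List.foldr (fun (c : ℤ) r => (c : ℝ) + (u - ((-1:ℝ)/2)) / ((3:ℝ)/2) * r) 0 cWe3 = _
    simp only [cWe3, List.foldr_cons, List.foldr_nil, Kit.pv]
    push_cast
    ring
  have h := goodWe3 (fun _ => (u - ((-1:ℝ)/2)) / ((3:ℝ)/2)) fun _ => ⟨div_nonneg (by linarith) (by norm_num), (div_le_one (by norm_num)).2 (by linarith)⟩
  change 0 ≤ Bern.ev 1 cWe3 _ at h
  rw [e] at h
  exact nonneg_of_mul_nonneg_right h (by norm_num)

/-- Scaled coefficients on the unit interval: reciprocal bound `f`, step 3. -/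
noncomputable def cWf3 : List ℤ := [1610061, 12463875921, -63491637600, 25033226634, 304428589893, -497500239627, 219147931134]

theorem goodWf3 : Bern.Good 1 [] cWf3 :=
  (Bern.good_node (p := []) 0 6 (by norm_num) (by decide +kernel)
      (Bern.good_node (p := [(0, 6, false)]) 0 6 (by norm_num) (by decide +kernel)
      (Bern.good_leaf (p := [(0, 6, false), (0, 6, false)]) (by decide +kernel))
      (Bern.good_node (p := [(0, 6, false), (0, 6, true)]) 0 6 (by norm_num) (by decide +kernel)
      (Bern.good_leaf (p := [(0, 6, false), (0, 6, true), (0, 6, false)]) (by decide +kernel))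
      (Bern.good_leaf (p := [(0, 6, false), (0, 6, true), (0, 6, true)]) (by decide +kernel))))
      (Bern.good_node (p := [(0, 6, true)]) 0 6 (by norm_num) (by decide +kernel)
      (Bern.good_leaf (p := [(0, 6, true), (0, 6, false)]) (by decide +kernel))
      (Bern.good_node (p := [(0, 6, true), (0, 6, true)]) 0 6 (by norm_num) (by decide +kernel)
      (Bern.good_leaf (p := [(0, 6, true), (0, 6, true), (0, 6, false)]) (by decide +kernel))
      (Bern.good_node (p := [(0, 6, true), (0, 6, true), (0, 6, true)]) 0 6 (by norm_num) (by decide +kernel)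
      (Bern.good_leaf (p := [(0, 6, true), (0, 6, true), (0, 6, true), (0, 6, false)]) (by decide +kernel))
      (Bern.good_leaf (p := [(0, 6, true), (0, 6, true), (0, 6, true), (0, 6, true)]) (by decide +kernel))))))

theorem Wf3_nonneg (u : ℝ) (h0 : ((-1:ℝ)/2) ≤ u) (h1 : u ≤ (1:ℝ)) :
    0 ≤ Kit.pv [((252697:ℝ)/200000000), ((-35786939:ℝ)/1000000000), ((144566559:ℝ)/500000000), ((93730949:ℝ)/250000000), ((-984518051:ℝ)/1000000000), ((-243639413:ℝ)/1000000000), ((150307223:ℝ)/250000000)] u := by
  have e : Bern.ev 1 cWf3 (fun _ => (u - ((-1:ℝ)/2)) / ((3:ℝ)/2)) = 32000000000 * Kit.pv [((252697:ℝ)/200000000), ((-35786939:ℝ)/1000000000), ((144566559:ℝ)/500000000), ((93730949:ℝ)/250000000), ((-984518051:ℝ)/1000000000), ((-243639413:ℝ)/1000000000), ((150307223:ℝ)/250000000)] u := by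
    show List.foldr (fun (c : ℤ) r => (c : ℝ) + (u - ((-1:ℝ)/2)) / ((3:ℝ)/2) * r) 0 cWf3 = _
    simp only [cWf3, List.foldr_cons, List.foldr_nil, Kit.pv]
    push_cast
    ring
  have h := goodWf3 (fun _ => (u - ((-1:ℝ)/2)) / ((3:ℝ)/2)) fun _ => ⟨div_nonneg (by linarith) (by norm_num), (div_le_one (by norm_num)).2 (by linarith)⟩
  change 0 ≤ Bern.ev 1 cWf3 _ at h
  rw [e] at h
  exact nonneg_of_mul_nonneg_right h (by norm_num)

/-- Scaled coefficients on the unit interval: reciprocal bound `g`, step 3. -/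
noncomputable def cWg3 : List ℤ := [2089107564, -4121720493, -16470848592, 23967839574, 47094148764, -52532811873]

theorem goodWg3 : Bern.Good 1 [] cWg3 :=
  (Bern.good_node (p := []) 0 5 (by norm_num) (by decide +kernel)
      (Bern.good_node (p := [(0, 5, false)]) 0 5 (by norm_num) (by decide +kernel)
      (Bern.good_leaf (p := [(0, 5, false), (0, 5, false)]) (by decide +kernel))
      (Bern.good_node (p := [(0, 5, false), (0, 5, true)]) 0 5 (by norm_num) (by decide +kernel)
      (Bern.good_leaf (p := [(0, 5, false), (0, 5, true), (0, 5, false)]) (by decide +kernel))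
      (Bern.good_node (p := [(0, 5, false), (0, 5, true), (0, 5, true)]) 0 5 (by norm_num) (by decide +kernel)
      (Bern.good_node (p := [(0, 5, false), (0, 5, true), (0, 5, true), (0, 5, false)]) 0 5 (by norm_num) (by decide +kernel)
      (Bern.good_leaf (p := [(0, 5, false), (0, 5, true), (0, 5, true), (0, 5, false), (0, 5, false)]) (by decide +kernel))
      (Bern.good_leaf (p := [(0, 5, false), (0, 5, true), (0, 5, true), (0, 5, false), (0, 5, true)]) (by decide +kernel)))
      (Bern.good_leaf (p := [(0, 5, false), (0, 5, true), (0, 5, true), (0, 5, true)]) (by decide +kernel)))))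
      (Bern.good_leaf (p := [(0, 5, true)]) (by decide +kernel)))

theorem Wg3_nonneg (u : ℝ) (h0 : ((-1:ℝ)/2) ≤ u) (h1 : u ≤ (1:ℝ)) :
    0 ≤ Kit.pv [((1725363:ℝ)/200000000), ((-1407859:ℝ)/10000000), ((134975647:ℝ)/250000000), ((262872657:ℝ)/500000000), ((-499512811:ℝ)/1000000000), ((-216184411:ℝ)/500000000)] u := by
  have e : Bern.ev 1 cWg3 (fun _ => (u - ((-1:ℝ)/2)) / ((3:ℝ)/2)) = 16000000000 * Kit.pv [((1725363:ℝ)/200000000), ((-1407859:ℝ)/10000000), ((134975647:ℝ)/250000000), ((262872657:ℝ)/500000000), ((-499512811:ℝ)/1000000000), ((-216184411:ℝ)/500000000)] u := by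
    show List.foldr (fun (c : ℤ) r => (c : ℝ) + (u - ((-1:ℝ)/2)) / ((3:ℝ)/2) * r) 0 cWg3 = _
    simp only [cWg3, List.foldr_cons, List.foldr_nil, Kit.pv]
    push_cast
    ring
  have h := goodWg3 (fun _ => (u - ((-1:ℝ)/2)) / ((3:ℝ)/2)) fun _ => ⟨div_nonneg (by linarith) (by norm_num), (div_le_one (by norm_num)).2 (by linarith)⟩
  change 0 ≤ Bern.ev 1 cWg3 _ at h
  rw [e] at h
  exact nonneg_of_mul_nonneg_right h (by norm_num)

/-- Scaled coefficients on the unit interval: entropy drop, step 3. -/
noncomputable def cWA3 : List ℤ := [175267500, -2950482486, 19322025507, -62814713166, 107675711451, -92974040460, 31823185716]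

theorem goodWA3 : Bern.Good 1 [] cWA3 :=
  (Bern.good_node (p := []) 0 6 (by norm_num) (by decide +kernel)
      (Bern.good_node (p := [(0, 6, false)]) 0 6 (by norm_num) (by decide +kernel)
      (Bern.good_node (p := [(0, 6, false), (0, 6, false)]) 0 6 (by norm_num) (by decide +kernel)
      (Bern.good_leaf (p := [(0, 6, false), (0, 6, false), (0, 6, false)]) (by decide +kernel))
      (Bern.good_node (p := [(0, 6, false), (0, 6, false), (0, 6, true)]) 0 6 (by norm_num) (by decide +kernel)
      (Bern.good_leaf (p := [(0, 6, false), (0, 6, false), (0, 6, true), (0, 6, false)]) (by decide +kernel))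
      (Bern.good_node (p := [(0, 6, false), (0, 6, false), (0, 6, true), (0, 6, true)]) 0 6 (by norm_num) (by decide +kernel)
      (Bern.good_leaf (p := [(0, 6, false), (0, 6, false), (0, 6, true), (0, 6, true), (0, 6, false)]) (by decide +kernel))
      (Bern.good_leaf (p := [(0, 6, false), (0, 6, false), (0, 6, true), (0, 6, true), (0, 6, true)]) (by decide +kernel)))))
      (Bern.good_node (p := [(0, 6, false), (0, 6, true)]) 0 6 (by norm_num) (by decide +kernel)
      (Bern.good_leaf (p := [(0, 6, false), (0, 6, true), (0, 6, false)]) (by decide +kernel))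
      (Bern.good_node (p := [(0, 6, false), (0, 6, true), (0, 6, true)]) 0 6 (by norm_num) (by decide +kernel)
      (Bern.good_leaf (p := [(0, 6, false), (0, 6, true), (0, 6, true), (0, 6, false)]) (by decide +kernel))
      (Bern.good_leaf (p := [(0, 6, false), (0, 6, true), (0, 6, true), (0, 6, true)]) (by decide +kernel)))))
      (Bern.good_node (p := [(0, 6, true)]) 0 6 (by norm_num) (by decide +kernel)
      (Bern.good_leaf (p := [(0, 6, true), (0, 6, false)]) (by decide +kernel))
      (Bern.good_node (p := [(0, 6, true), (0, 6, true)]) 0 6 (by norm_num) (by decide +kernel)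
      (Bern.good_node (p := [(0, 6, true), (0, 6, true), (0, 6, false)]) 0 6 (by norm_num) (by decide +kernel)
      (Bern.good_node (p := [(0, 6, true), (0, 6, true), (0, 6, false), (0, 6, false)]) 0 6 (by norm_num) (by decide +kernel)
      (Bern.good_leaf (p := [(0, 6, true), (0, 6, true), (0, 6, false), (0, 6, false), (0, 6, false)]) (by decide +kernel))
      (Bern.good_leaf (p := [(0, 6, true), (0, 6, true), (0, 6, false), (0, 6, false), (0, 6, true)]) (by decide +kernel)))
      (Bern.good_leaf (p := [(0, 6, true), (0, 6, true), (0, 6, false), (0, 6, true)]) (by decide +kernel)))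
      (Bern.good_leaf (p := [(0, 6, true), (0, 6, true), (0, 6, true)]) (by decide +kernel)))))

theorem WA3_nonneg (u : ℝ) (h0 : (-1:ℝ) ≤ u) (h1 : u ≤ (2:ℝ)) :
    0 ≤ Kit.pv [((1283979:ℝ)/250000000), ((-1465541:ℝ)/250000000), ((-5567273:ℝ)/100000000), ((18910053:ℝ)/250000000), ((71081731:ℝ)/500000000), ((-30172499:ℝ)/125000000), ((10913301:ℝ)/125000000)] u := by
  have e : Bern.ev 1 cWA3 (fun _ => (u - (-1:ℝ)) / (3:ℝ)) = 500000000 * Kit.pv [((1283979:ℝ)/250000000), ((-1465541:ℝ)/250000000), ((-5567273:ℝ)/100000000), ((18910053:ℝ)/250000000), ((71081731:ℝ)/500000000), ((-30172499:ℝ)/125000000), ((10913301:ℝ)/125000000)] u := by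
    show List.foldr (fun (c : ℤ) r => (c : ℝ) + (u - (-1:ℝ)) / (3:ℝ) * r) 0 cWA3 = _
    simp only [cWA3, List.foldr_cons, List.foldr_nil, Kit.pv]
    push_cast
    ring
  have h := goodWA3 (fun _ => (u - (-1:ℝ)) / (3:ℝ)) fun _ => ⟨div_nonneg (by linarith) (by norm_num), (div_le_one (by norm_num)).2 (by linarith)⟩
  change 0 ≤ Bern.ev 1 cWA3 _ at h
  rw [e] at h
  exact nonneg_of_mul_nonneg_right h (by norm_num)

/-- Scaled coefficients on the unit interval: entropy of the new child, step 3. -/
noncomputable def cWB3 : List ℤ := [70646250, -1241712564, 7384301172, -12131147520, -41301892224, 191707185051, -264964623228, 124058642256]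

theorem goodWB3 : Bern.Good 1 [] cWB3 :=
  (Bern.good_node (p := []) 0 7 (by norm_num) (by decide +kernel)
      (Bern.good_node (p := [(0, 7, false)]) 0 7 (by norm_num) (by decide +kernel)
      (Bern.good_node (p := [(0, 7, false), (0, 7, false)]) 0 7 (by norm_num) (by decide +kernel)
      (Bern.good_leaf (p := [(0, 7, false), (0, 7, false), (0, 7, false)]) (by decide +kernel))
      (Bern.good_node (p := [(0, 7, false), (0, 7, false), (0, 7, true)]) 0 7 (by norm_num) (by decide +kernel)
      (Bern.good_leaf (p := [(0, 7, false), (0, 7, false), (0, 7, true), (0, 7, false)]) (by decide +kernel))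
      (Bern.good_leaf (p := [(0, 7, false), (0, 7, false), (0, 7, true), (0, 7, true)]) (by decide +kernel))))
      (Bern.good_node (p := [(0, 7, false), (0, 7, true)]) 0 7 (by norm_num) (by decide +kernel)
      (Bern.good_node (p := [(0, 7, false), (0, 7, true), (0, 7, false)]) 0 7 (by norm_num) (by decide +kernel)
      (Bern.good_leaf (p := [(0, 7, false), (0, 7, true), (0, 7, false), (0, 7, false)]) (by decide +kernel))
      (Bern.good_leaf (p := [(0, 7, false), (0, 7, true), (0, 7, false), (0, 7, true)]) (by decide +kernel)))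
      (Bern.good_leaf (p := [(0, 7, false), (0, 7, true), (0, 7, true)]) (by decide +kernel))))
      (Bern.good_node (p := [(0, 7, true)]) 0 7 (by norm_num) (by decide +kernel)
      (Bern.good_node (p := [(0, 7, true), (0, 7, false)]) 0 7 (by norm_num) (by decide +kernel)
      (Bern.good_leaf (p := [(0, 7, true), (0, 7, false), (0, 7, false)]) (by decide +kernel))
      (Bern.good_node (p := [(0, 7, true), (0, 7, false), (0, 7, true)]) 0 7 (by norm_num) (by decide +kernel)
      (Bern.good_leaf (p := [(0, 7, true), (0, 7, false), (0, 7, true), (0, 7, false)]) (by decide +kernel))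
      (Bern.good_node (p := [(0, 7, true), (0, 7, false), (0, 7, true), (0, 7, true)]) 0 7 (by norm_num) (by decide +kernel)
      (Bern.good_leaf (p := [(0, 7, true), (0, 7, false), (0, 7, true), (0, 7, true), (0, 7, false)]) (by decide +kernel))
      (Bern.good_node (p := [(0, 7, true), (0, 7, false), (0, 7, true), (0, 7, true), (0, 7, true)]) 0 7 (by norm_num) (by decide +kernel)
      (Bern.good_leaf (p := [(0, 7, true), (0, 7, false), (0, 7, true), (0, 7, true), (0, 7, true), (0, 7, false)]) (by decide +kernel))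
      (Bern.good_leaf (p := [(0, 7, true), (0, 7, false), (0, 7, true), (0, 7, true), (0, 7, true), (0, 7, true)]) (by decide +kernel))))))
      (Bern.good_leaf (p := [(0, 7, true), (0, 7, true)]) (by decide +kernel))))

theorem WB3_nonneg (u : ℝ) (h0 : (-1:ℝ) ≤ u) (h1 : u ≤ (2:ℝ)) :
    0 ≤ Kit.pv [((199119:ℝ)/1000000000), ((438641:ℝ)/1000000000), ((20823021:ℝ)/500000000), ((58206317:ℝ)/500000000), ((-31862519:ℝ)/1000000000), ((-200625087:ℝ)/1000000000), ((8403821:ℝ)/250000000), ((3545343:ℝ)/62500000)] u := by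
  have e : Bern.ev 1 cWB3 (fun _ => (u - (-1:ℝ)) / (3:ℝ)) = 1000000000 * Kit.pv [((199119:ℝ)/1000000000), ((438641:ℝ)/1000000000), ((20823021:ℝ)/500000000), ((58206317:ℝ)/500000000), ((-31862519:ℝ)/1000000000), ((-200625087:ℝ)/1000000000), ((8403821:ℝ)/250000000), ((3545343:ℝ)/62500000)] u := by
    show List.foldr (fun (c : ℤ) r => (c : ℝ) + (u - (-1:ℝ)) / (3:ℝ) * r) 0 cWB3 = _
    simp only [cWB3, List.foldr_cons, List.foldr_nil, Kit.pv]
    push_cast
    ring
  have h := goodWB3 (fun _ => (u - (-1:ℝ)) / (3:ℝ)) fun _ => ⟨div_nonneg (by linarith) (by norm_num), (div_le_one (by norm_num)).2 (by linarith)⟩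
  change 0 ≤ Bern.ev 1 cWB3 _ at h
  rw [e] at h
  exact nonneg_of_mul_nonneg_right h (by norm_num)

/-- Scaled coefficients on the unit interval: entropy of a single child. -/
noncomputable def cWS : List ℤ := [141292500, -1599360405, 6016964202, -3669825042, -32672815290, 91911956958, -96944198760, 38725751376]

theorem goodWS : Bern.Good 1 [] cWS :=
  (Bern.good_node (p := []) 0 7 (by norm_num) (by decide +kernel)
      (Bern.good_node (p := [(0, 7, false)]) 0 7 (by norm_num) (by decide +kernel)
      (Bern.good_leaf (p := [(0, 7, false), (0, 7, false)]) (by decide +kernel))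
      (Bern.good_leaf (p := [(0, 7, false), (0, 7, true)]) (by decide +kernel)))
      (Bern.good_leaf (p := [(0, 7, true)]) (by decide +kernel)))

theorem WS_nonneg (u : ℝ) (h0 : (-1:ℝ) ≤ u) (h1 : u ≤ (2:ℝ)) :
    0 ≤ Kit.pv [((399721:ℝ)/2000000000), ((949:ℝ)/2000000000), ((10671:ℝ)/250000000), ((-3450933:ℝ)/1000000000), ((1410519:ℝ)/25000000), ((-23901963:ℝ)/1000000000), ((-1128963:ℝ)/250000000), ((1106703:ℝ)/125000000)] u := by
  have e : Bern.ev 1 cWS (fun _ => (u - (-1:ℝ)) / (3:ℝ)) = 2000000000 * Kit.pv [((399721:ℝ)/2000000000), ((949:ℝ)/2000000000), ((10671:ℝ)/250000000), ((-3450933:ℝ)/1000000000), ((1410519:ℝ)/25000000), ((-23901963:ℝ)/1000000000), ((-1128963:ℝ)/250000000), ((1106703:ℝ)/125000000)] u := by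
    show List.foldr (fun (c : ℤ) r => (c : ℝ) + (u - (-1:ℝ)) / (3:ℝ) * r) 0 cWS = _
    simp only [cWS, List.foldr_cons, List.foldr_nil, Kit.pv]
    push_cast
    ring
  have h := goodWS (fun _ => (u - (-1:ℝ)) / (3:ℝ)) fun _ => ⟨div_nonneg (by linarith) (by norm_num), (div_le_one (by norm_num)).2 (by linarith)⟩
  change 0 ≤ Bern.ev 1 cWS _ at h
  rw [e] at h
  exact nonneg_of_mul_nonneg_right h (by norm_num)

end Vale.Agent.P154.D4
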