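import Mathlib

/-!
Three moments of a pair of centred vectors, their algebraic relations, the
expansion of the directional invariants, and the orbit averages.
-/

namespace Vale.Agent.P154

/-- The quadratic invariant of a centred vector given by two coordinates. -/
noncomputable def sI (a b : ℝ) : ℝ := (a ^ 2 + a * b + b ^ 2) / 3

/-- The cubic invariant of a centred vector given by two coordinates. -/
noncomputable def tI (a b : ℝ) : ℝ := -(a * b * (a + b)) / 2

/-- First moment. -/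
noncomputable def wM (a b c d : ℝ) : ℝ := (a * c + b * d + (a + b) * (c + d)) / 3

/-- Second moment. -/
noncomputable def pM (a b c d : ℝ) : ℝ := (a ^ 2 * c + b ^ 2 * d - (a + b) ^ 2 * (c + d)) / 3

/-- Third moment. -/
noncomputable def rM (a b c d : ℝ) : ℝ := (a * c ^ 2 + b * d ^ 2 - (a + b) * (c + d) ^ 2) / 3

/-- Linear mixed term of the quadratic invariant. -/
noncomputable def lI (a b v v' : ℝ) : ℝ := (a * v + b * v' + (a + b) * (v + v')) / 3

/-- First mixed term of the cubic invariant. -/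
noncomputable def t1I (a b v v' : ℝ) : ℝ :=
  (v * b * (-a - b) + a * v' * (-a - b) + a * b * (-v - v')) / 2

/-- Second mixed term of the cubic invariant. -/
noncomputable def t2I (a b v v' : ℝ) : ℝ :=
  (a * v' * (-v - v') + v * b * (-v - v') + v * v' * (-a - b)) / 2

variable (a b c d : ℝ)

/-- Velocity, first coordinate. -/
noncomputable def vA : ℝ := (1 + a) * (c - wM a b c d)

/-- Velocity, second coordinate. -/
noncomputable def vB : ℝ := (1 + b) * (d - wM a b c d)

lemma sI_nonneg : 0 ≤ sI a b := by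
  unfold sI; nlinarith [sq_nonneg (a + b), sq_nonneg a, sq_nonneg b]

lemma tI_sq_le : tI a b ^ 2 ≤ sI a b ^ 3 := by
  have : sI a b ^ 3 - tI a b ^ 2 = 1 / 108 * ((a - b) * (a + 2 * b) * (2 * a + b)) ^ 2 := by
    simp only [sI, tI]; ring
  nlinarith [sq_nonneg ((a - b) * (a + 2 * b) * (2 * a + b))]

lemma rel_wp :
    wM a b c d * pM a b c d = 2 * tI a b * sI c d + sI a b * rM a b c d := by
  simp only [sI, tI, wM, pM, rM]; ring

lemma rel_wR :
    wM a b c d * rM a b c d = sI c d * pM a b c d + 2 * sI a b * tI c d := by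
  simp only [sI, tI, wM, pM, rM]; ring

lemma rel_pp : pM a b c d ^ 2
    = 2 * tI a b * rM a b c d - sI a b * wM a b c d ^ 2 + 4 * sI a b ^ 2 * sI c d := by
  simp only [sI, tI, wM, pM, rM]; ring

lemma rel_RR : rM a b c d ^ 2
    = 2 * tI c d * pM a b c d - sI c d * wM a b c d ^ 2 + 4 * sI a b * sI c d ^ 2 := by
  simp only [sI, tI, wM, pM, rM]; ring

lemma rel_pR : pM a b c d * rM a b c d
    = 4 * tI a b * tI c d - wM a b c d ^ 3 + 4 * sI a b * sI c d * wM a b c d := by
  simp only [sI, tI, wM, pM, rM]; ring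

lemma rel_w6 : wM a b c d ^ 6 = 6 * (sI a b * sI c d) * wM a b c d ^ 4
    + 4 * (tI a b * tI c d) * wM a b c d ^ 3 - 9 * (sI a b * sI c d) ^ 2 * wM a b c d ^ 2
    - 12 * (sI a b * sI c d) * (tI a b * tI c d) * wM a b c d
    - 4 * (sI a b ^ 3 * tI c d ^ 2 + sI c d ^ 3 * tI a b ^ 2 - sI a b ^ 3 * sI c d ^ 3) := by
  simp only [sI, tI, wM]; ring

lemma l_eq : lI a b (vA a b c d) (vB a b c d)
    = wM a b c d + pM a b c d - 2 * sI a b * wM a b c d := by
  simp only [lI, vA, vB, sI, wM, pM]; ring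

lemma q_eq : sI (vA a b c d) (vB a b c d) = sI c d * (1 + sI a b) + sI a b * wM a b c d ^ 2
    + rM a b c d - wM a b c d ^ 2 - wM a b c d * pM a b c d := by
  simp only [vA, vB, sI, wM, pM, rM]; ring

lemma t1_eq : t1I a b (vA a b c d) (vB a b c d) = 3 / 2 * (pM a b c d + sI a b * wM a b c d
    - 2 * tI a b * wM a b c d) := by
  simp only [t1I, vA, vB, sI, tI, wM, pM]; ring

lemma t2_eq : t2I a b (vA a b c d) (vB a b c d) = 3 / 2 * (rM a b c d + sI a b * rM a b c d
    + 2 * tI a b * wM a b c d ^ 2 + 4 * sI a b * sI c d - 2 * wM a b c d * pM a b c d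
    - 2 * sI a b * wM a b c d ^ 2) := by
  simp only [t2I, vA, vB, sI, tI, wM, pM, rM]; ring

lemma t3_eq : tI (vA a b c d) (vB a b c d) = 1 / 2 * (2 * tI c d + 3 * sI c d * wM a b c d
    + 3 * sI c d * pM a b c d + 4 * tI a b * tI c d - wM a b c d ^ 3
    + 3 * sI a b * sI c d * wM a b c d
    - 3 * wM a b c d * (rM a b c d * (1 + sI a b) + 4 * sI a b * sI c d)
    + 3 * wM a b c d ^ 2 * (pM a b c d + sI a b * wM a b c d)
    - 2 * tI a b * wM a b c d ^ 3) := by
  simp only [vA, vB, sI, tI, wM, pM, rM]; ring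

/-- Sum of a function over the six arrangements of a centred vector. -/
def orbit (f : ℝ → ℝ → ℝ) : ℝ :=
  f c d + f d (-c - d) + f (-c - d) c + f d c + f c (-c - d) + f (-c - d) d

lemma orbit_sI : sI d (-c - d) = sI c d ∧ sI (-c - d) c = sI c d ∧ sI d c = sI c d ∧
    sI c (-c - d) = sI c d ∧ sI (-c - d) d = sI c d := by
  refine ⟨?_, ?_, ?_, ?_, ?_⟩ <;> simp only [sI] <;> ring

lemma orbit_tI : tI d (-c - d) = tI c d ∧ tI (-c - d) c = tI c d ∧ tI d c = tI c d ∧
    tI c (-c - d) = tI c d ∧ tI (-c - d) d = tI c d := by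
  refine ⟨?_, ?_, ?_, ?_, ?_⟩ <;> simp only [tI] <;> ring

lemma orbit_w1 : orbit c d (fun x y => wM a b x y) = 0 := by
  simp only [orbit, wM]; ring

lemma orbit_p : orbit c d (fun x y => pM a b x y) = 0 := by
  simp only [orbit, pM]; ring

lemma orbit_R : orbit c d (fun x y => rM a b x y) = 0 := by
  simp only [orbit, rM]; ring

lemma orbit_w2 : orbit c d (fun x y => wM a b x y ^ 2) = 12 * (sI a b * sI c d) := by
  simp only [orbit, wM, sI]; ring

lemma orbit_w3 : orbit c d (fun x y => wM a b x y ^ 3) = 12 * (tI a b * tI c d) := by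
  simp only [orbit, wM, tI]; ring

lemma orbit_w4 : orbit c d (fun x y => wM a b x y ^ 4) = 36 * (sI a b * sI c d) ^ 2 := by
  simp only [orbit, wM, sI]; ring

lemma orbit_w5 : orbit c d (fun x y => wM a b x y ^ 5)
    = 60 * (sI a b * sI c d) * (tI a b * tI c d) := by
  simp only [orbit, wM, sI, tI]; ring

/-- A normal form in the moments averages to a polynomial in the invariants. -/
lemma orbit_normal (k0 k1 k2 k3 k4 k5 kp kR : ℝ) :
    orbit c d (fun x y => k0 + k1 * wM a b x y + k2 * wM a b x y ^ 2 + k3 * wM a b x y ^ 3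
      + k4 * wM a b x y ^ 4 + k5 * wM a b x y ^ 5 + kp * pM a b x y + kR * rM a b x y)
      = 6 * (k0 + 2 * k2 * (sI a b * sI c d) + 2 * k3 * (tI a b * tI c d)
          + 6 * k4 * (sI a b * sI c d) ^ 2
          + 10 * k5 * (sI a b * sI c d) * (tI a b * tI c d)) := by
  have h1 := orbit_w1 a b c d
  have h2 := orbit_w2 a b c d
  have h3 := orbit_w3 a b c d
  have h4 := orbit_w4 a b c d
  have h5 := orbit_w5 a b c d
  have hp := orbit_p a b c d
  have hR := orbit_R a b c d
  simp only [orbit] at *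
  linear_combination k1 * h1 + k2 * h2 + k3 * h3 + k4 * h4 + k5 * h5 + kp * hp + kR * hR

lemma l_sq_le (v v' : ℝ) : lI a b v v' ^ 2 ≤ 4 * sI a b * sI v v' := by
  have : 4 * sI a b * sI v v' - lI a b v v' ^ 2 = 1 / 3 * (a * v' - b * v) ^ 2 := by
    simp only [lI, sI]; ring
  nlinarith [sq_nonneg (a * v' - b * v)]

lemma t1_sq_le (v v' : ℝ) : t1I a b v v' ^ 2 ≤ 9 * sI a b ^ 2 * sI v v' := by
  have : 9 * sI a b ^ 2 * sI v v' - t1I a b v v' ^ 2
      = 3 / 4 * ((a ^ 2 - 2 * sI a b) * v' - (b ^ 2 - 2 * sI a b) * v) ^ 2 := by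
    simp only [t1I, sI]; ring
  nlinarith [sq_nonneg ((a ^ 2 - 2 * sI a b) * v' - (b ^ 2 - 2 * sI a b) * v)]

lemma t2_sq_le (v v' : ℝ) : t2I a b v v' ^ 2 ≤ 9 * sI a b * sI v v' ^ 2 := by
  have : 9 * sI a b * sI v v' ^ 2 - t2I a b v v' ^ 2
      = 3 / 4 * ((v ^ 2 - 2 * sI v v') * b - (v' ^ 2 - 2 * sI v v') * a) ^ 2 := by
    simp only [t2I, sI]; ring
  nlinarith [sq_nonneg ((v ^ 2 - 2 * sI v v') * b - (v' ^ 2 - 2 * sI v v') * a)]

lemma q_le {G : ℝ} (hG : 0 ≤ G) (hA : sI a b ≤ 1)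
    (hB : sI a b + sI a b ^ 2 - 2 * tI a b ≤ G ^ 2) :
    sI (vA a b c d) (vB a b c d) ≤ ((1 - sI a b) + G) ^ 2 * sI c d := by
  set A := 1 - sI a b with hAdef
  set r := vA a b c d - A * c
  set r' := vB a b c d - A * d
  have hr : sI r r' = (sI a b + sI a b ^ 2 - 2 * tI a b) * sI c d := by
    simp only [r, r', A, vA, vB, sI, tI, wM]; ring
  have hexp : sI (vA a b c d) (vB a b c d) = A ^ 2 * sI c d + A * lI c d r r' + sI r r' := by
    simp only [r, r', lI, sI]; ring
  have hS := sI_nonneg c d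
  have hrG : sI r r' ≤ G ^ 2 * sI c d := by rw [hr]; exact mul_le_mul_of_nonneg_right hB hS
  have hl : lI c d r r' ^ 2 ≤ (2 * G * sI c d) ^ 2 := by
    have h := l_sq_le c d r r'
    nlinarith [mul_le_mul_of_nonneg_left hrG hS]
  have hl' : lI c d r r' ≤ 2 * G * sI c d := (le_abs_self _).trans (abs_le_of_sq_le_sq hl (by positivity))
  have hA0 : 0 ≤ A := by linarith
  rw [hexp]
  nlinarith [mul_le_mul_of_nonneg_left hl' hA0]

end Vale.Agent.P154
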