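import Vale.Agent.P154.DeBoxStep
import Vale.Agent.P154.Moments
import Vale.Agent.P154.Monotone

/-!
From a first box of moments to nonreconstruction.
-/

open scoped BigOperators
open Filter

namespace Vale.Agent.P154.DeBox

variable {κ : Type} [Fintype κ] {l : ℝ}

lemma expect_single (F : (Spin → ℝ) → ℝ) {g : κ → Spin → ℝ} (hg : Fam g) :
    expect F (kids l fun _ : Fin 1 => g) = expect (fun y => F (img l y)) g := by
  simp only [expect]
  rw [← Equiv.sum_comp (Equiv.funUnique (Fin 1) κ).symm]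
  refine Finset.sum_congr rfl fun j _ => ?_
  obtain ⟨hw, hp⟩ := post_kids_one (l := l) hg ((Equiv.funUnique (Fin 1) κ).symm j)
  simp only [Equiv.funUnique_symm_apply, uniqueElim_const] at hw hp ⊢
  rw [hw]
  by_cases h0 : wt (g j) = 0
  · simp [h0]
  rw [hp h0]

/-- All joins of one level. -/
lemma kids_inSt {C : Bds} (hC : Certs l C) (hl : -(1 / 2) ≤ l) (hu : l ≤ 1)
    {r c : ℚ} {b : Bx} {X : ℝ} (hX0 : 0 < X) (hX : X ≤ b.X) {g : κ → Spin → ℝ} (hg : Fam g)
    (hb : (child r c b).Mem (l ^ 2 * expect sq g / X) (l ^ 3 * expect cub g / X)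
      (l ^ 4 * expect (fun a => sq a ^ 2) g / X)) :
    ∀ (m k : ℕ) (σ σ' : St), runFrom C r b.X (child r c b) m σ = some σ' →
      InSt σ X (expect sq (kids l fun _ : Fin (k + 1) => g))
        (expect cub (kids l fun _ : Fin (k + 1) => g))
        (expect (fun a => sq a ^ 2) (kids l fun _ : Fin (k + 1) => g)) →
      InSt σ' X (expect sq (kids l fun _ : Fin (k + m + 1) => g))
        (expect cub (kids l fun _ : Fin (k + m + 1) => g))
        (expect (fun a => sq a ^ 2) (kids l fun _ : Fin (k + m + 1) => g)) := by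
  intro m
  induction m with
  | zero =>
    intro k σ σ' h hin
    simp only [runFrom, Option.some.injEq] at h
    subst h; exact hin
  | succ m ih =>
    intro k σ σ' h hin
    simp only [runFrom] at h
    by_cases hok : okStep C b.X (child r c b) σ = true
    · rw [if_pos hok] at h
      have hF : Fam (kids l fun _ : Fin (k + 1) => g) :=
        Fam.kids hl hu (ι := fun _ : Fin (k + 1) => κ) fun _ => hg
      have hj := join_step hC hl hu hok rfl rfl hX0 hX hF hg hin hb
      have hsplit := kids_split (l := l) (ι := fun _ : Fin (k + 2) => κ) fun _ => g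
      rw [← hsplit, expect_reindex (splitFirst fun _ : Fin (k + 2) => κ),
        expect_reindex (splitFirst fun _ : Fin (k + 2) => κ),
        expect_reindex (splitFirst fun _ : Fin (k + 2) => κ)] at hj
      have := ih (k + 1) _ σ' h hj
      rw [show k + 1 + m + 1 = k + (m + 1) + 1 by omega] at this
      exact this
    · rw [if_neg hok] at h
      exact absurd h (by simp)

/-- The moments of one level of the tree lie in a box at scale `X`. -/
def InBx (b : Bx) (X l : ℝ) (d n : ℕ) : Prop :=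
  expect sq (lik l n (regular d n)) ≤ X ∧
    -((b.tm : ℝ) * X) ≤ expect cub (lik l n (regular d n)) ∧
    expect cub (lik l n (regular d n)) ≤ b.tp * X ∧
    expect (fun a => sq a ^ 2) (lik l n (regular d n)) ≤ b.eta * X

/-- One level. -/
lemma level {C : Bds} {d : ℕ} {c : ℚ} (hd : 1 ≤ d) (hC : Certs l C) (hl : -(1 / 2) ≤ l)
    (hl0 : l ≤ 0) (hdl : l ^ 2 = 1 / (d : ℝ)) (hc : -l ≤ (c : ℝ)) {b : Bx}
    (htm : 0 ≤ b.tm) (htp : 0 ≤ b.tp) {σ : St} (h : runLevel C d c b = some σ) {X : ℝ}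
    (hX0 : 0 < X) (hX : X ≤ b.X) {n : ℕ} (hin : InBx b X l d n) :
    expect sq (lik l (n + 1) (regular d (n + 1))) ≤ σ.u * X - σ.be * X ^ 2 ∧
      -((σ.p : ℝ) * X) ≤ expect cub (lik l (n + 1) (regular d (n + 1))) ∧
      expect cub (lik l (n + 1) (regular d (n + 1))) ≤ σ.t * X ∧
      expect (fun a => sq a ^ 2) (lik l (n + 1) (regular d (n + 1))) ≤ σ.s * X := by
  obtain ⟨m, rfl⟩ : ∃ m, d = m + 1 := ⟨d - 1, by omega⟩
  have hu : l ≤ 1 := by linarith
  set g := lik l n (regular (m + 1) n)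
  have hg : Fam g := fam_lik hl hu n _
  obtain ⟨i1, i2, i3, i4⟩ := hin
  set r : ℚ := 1 / ((m + 1 : ℕ) : ℚ) with hr
  have hr' : l ^ 2 = (r : ℝ) := by rw [hdl, hr]; push_cast; rfl
  have hr0 : (0 : ℝ) ≤ r := hr' ▸ sq_nonneg l
  have q0 : 0 ≤ expect (fun a => sq a ^ 2) g :=
    Finset.sum_nonneg fun k _ => mul_nonneg (wt_nonneg (hg.nonneg k)) (sq_nonneg _)
  have x0 := expect_sq_nonneg hg
  have htm' : (0 : ℝ) ≤ b.tm := by exact_mod_cast htm
  have htp' : (0 : ℝ) ≤ b.tp := by exact_mod_cast htp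
  set τ := expect cub g / X with hτ
  have j2 : -(b.tm : ℝ) ≤ τ ∧ τ ≤ b.tp := by
    constructor
    · rw [le_div_iff₀ hX0]; linarith
    · rw [div_le_iff₀ hX0]; linarith
  have hb : (child r c b).Mem (l ^ 2 * expect sq g / X) (l ^ 3 * expect cub g / X)
      (l ^ 4 * expect (fun a => sq a ^ 2) g / X) := by
    have e3 : l ^ 3 * expect cub g / X = (r : ℝ) * (l * τ) := by rw [hτ, ← hr']; ring
    have k1 : -((c : ℝ) * b.tp) ≤ l * τ ∧ l * τ ≤ (c : ℝ) * b.tm := by
      constructor
      · rcases le_total 0 τ with h0 | h0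
        · have := mul_le_mul_of_nonneg_right hc h0
          have := mul_le_mul_of_nonneg_left j2.2 (by linarith : (0 : ℝ) ≤ c)
          linarith
        · have := mul_nonneg (by linarith : (0 : ℝ) ≤ c) htp'
          have := mul_nonneg_of_nonpos_of_nonpos hl0 h0
          linarith
      · rcases le_total 0 τ with h0 | h0
        · have := mul_nonneg (by linarith : (0 : ℝ) ≤ c) htm'
          have := mul_nonpos_of_nonpos_of_nonneg hl0 h0
          linarith
        · have := mul_le_mul_of_nonneg_right hc (neg_nonneg.2 h0)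
          have := mul_le_mul_of_nonneg_left (neg_le.1 j2.1) (by linarith : (0 : ℝ) ≤ c)
          linarith
    refine ⟨⟨?_, ?_⟩, ⟨?_, ?_⟩, ?_, ?_⟩ <;> simp only [child] <;> push_cast
    · positivity
    · rw [div_le_iff₀ hX0, hr']; exact mul_le_mul_of_nonneg_left i1 hr0
    · rw [e3]; linarith [mul_le_mul_of_nonneg_left k1.1 hr0]
    · rw [e3]; linarith [mul_le_mul_of_nonneg_left k1.2 hr0]
    · positivity
    · rw [div_le_iff₀ hX0, show l ^ 4 = (l ^ 2) ^ 2 by ring, hr']
      linarith [mul_le_mul_of_nonneg_left i4 (sq_nonneg (r : ℝ))]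
  obtain ⟨b1, b2, b3⟩ := hb
  have hstart : InSt (st1 r c b) X (expect sq (kids l fun _ : Fin (0 + 1) => g))
      (expect cub (kids l fun _ : Fin (0 + 1) => g))
      (expect (fun a => sq a ^ 2) (kids l fun _ : Fin (0 + 1) => g)) := by
    have e1 : (fun y : Spin → ℝ => sq (img l y)) = fun y => l ^ 2 * sq y := by
      funext y; simp only [P154.sq, img]; ring
    have e2 : (fun y : Spin → ℝ => cub (img l y)) = fun y => l ^ 3 * cub y := by
      funext y; simp only [cub, img]; ring
    have e3 : (fun y : Spin → ℝ => sq (img l y) ^ 2) = fun y => l ^ 4 * sq y ^ 2 := by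
      funext y; simp only [P154.sq, img]; ring
    have sm : ∀ (a : ℝ) (F : (Spin → ℝ) → ℝ), expect (fun y => a * F y) g = a * expect F g :=
      fun a F => by
        simp only [expect, Finset.mul_sum]; exact Finset.sum_congr rfl fun _ _ => by ring
    rw [expect_single sq hg, expect_single cub hg, expect_single (fun a => sq a ^ 2) hg, e1, e2, e3,
      sm, sm, sm]
    simp only [child] at b1 b2 b3
    push_cast at b1 b2 b3
    rw [div_le_iff₀ hX0, le_div_iff₀ hX0] at b1 b2 b3
    simp only [InSt, st1]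
    push_cast
    exact ⟨by positivity, by linarith [b1.2], by linarith [b2.1], by linarith [b2.2],
      by positivity, by linarith [b3.2]⟩
  have hrun : runFrom C r b.X (child r c b) m (st1 r c b) = some σ := h
  have := kids_inSt hC hl hu hX0 hX hg ⟨b1, b2, b3⟩ m 0 _ σ hrun hstart
  rw [Nat.zero_add] at this
  exact ⟨this.2.1, this.2.2.1, this.2.2.2.1, this.2.2.2.2.2⟩

lemma runFrom_u (C : Bds) (r X1 : ℚ) (B : Iv) : ∀ (m : ℕ) (σ σ' : St),
    runFrom C r X1 B m σ = some σ' → σ'.u = σ.u + m * r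
  | 0, σ, σ', h => by simp only [runFrom, Option.some.injEq] at h; subst h; simp
  | m + 1, σ, σ', h => by
    simp only [runFrom] at h
    split at h
    · rw [runFrom_u C r X1 B m _ σ' h]; simp only [nextSt]; push_cast; ring
    · simp at h

lemma runLevel_u {C : Bds} {d : ℕ} {c : ℚ} {b : Bx} {σ : St} (hd : 1 ≤ d)
    (h : runLevel C d c b = some σ) : (σ.u : ℝ) = 1 := by
  obtain ⟨m, rfl⟩ : ∃ m, d = m + 1 := ⟨d - 1, by omega⟩
  have := runFrom_u C _ _ _ m _ σ h
  rw [this]
  simp only [st1]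
  push_cast
  field_simp
  ring

/-- The ratios are nonnegative. -/
def okSigns (L : List Bx) : Bool := L.all fun b => decide (0 ≤ b.tm) && decide (0 ≤ b.tp)

/-- Through the list of boxes, then to zero. -/
lemma tendsto_of_list {C : Bds} {d : ℕ} {c : ℚ} (hd : 1 ≤ d) (hC : Certs l C)
    (hl : -(1 / 2) ≤ l) (hl0 : l ≤ 0) (hdl : l ^ 2 = 1 / (d : ℝ)) (hc : -l ≤ (c : ℝ)) :
    ∀ (L : List Bx) (b : Bx) (n : ℕ), okList C d c (b :: L) = true →
      okSigns (b :: L) = true → InBx b b.X l d n →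
      Tendsto (fun k => expect sq (lik l k (regular d k))) atTop (nhds 0) := by
  intro L
  induction L with
  | nil =>
    intro b n hok hs hin
    simp only [okList, okSelf, Bool.and_eq_true, decide_eq_true_eq] at hok
    simp only [okSigns, List.all_cons, List.all_nil, Bool.and_true, Bool.and_eq_true,
      decide_eq_true_eq] at hs
    obtain ⟨hbX, hok⟩ := hok
    cases hrun : runLevel C d c b with
    | none => simp [hrun] at hok
    | some σ =>
      simp only [hrun, Bool.and_eq_true, decide_eq_true_eq] at hok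
      obtain ⟨⟨⟨⟨hβ, hβ1⟩, hp⟩, ht⟩, hq⟩ := hok
      have hbX' : (0 : ℝ) < b.X := by exact_mod_cast hbX
      have hβ' : (0 : ℝ) < σ.be := by exact_mod_cast hβ
      have hβ1' : (σ.be : ℝ) * b.X < 1 := by exact_mod_cast hβ1
      have hp' : (σ.p : ℝ) ≤ b.tm * (1 - σ.be * b.X) := by exact_mod_cast hp
      have ht' : (σ.t : ℝ) ≤ b.tp * (1 - σ.be * b.X) := by exact_mod_cast ht
      have hq' : (σ.s : ℝ) ≤ b.eta * (1 - σ.be * b.X) := by exact_mod_cast hq
      have htm : (0 : ℝ) ≤ b.tm := by exact_mod_cast hs.1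
      have htp : (0 : ℝ) ≤ b.tp := by exact_mod_cast hs.2
      have heta : (0 : ℝ) ≤ b.eta := by
        have hg := fam_lik hl (by linarith : l ≤ 1) n (regular d n)
        have h0 : 0 ≤ expect (fun a => sq a ^ 2) (lik l n (regular d n)) :=
          Finset.sum_nonneg fun k _ => mul_nonneg (wt_nonneg (hg.nonneg k)) (sq_nonneg _)
        exact nonneg_of_mul_nonneg_left (h0.trans hin.2.2.2) hbX'
      let X : ℕ → ℝ := fun j => Nat.rec (b.X : ℝ) (fun _ x => x - σ.be * x ^ 2) j
      have hXs : ∀ j, X (j + 1) = X j - σ.be * X j ^ 2 := fun j => rfl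
      have inv : ∀ j, (0 < X j ∧ X j ≤ b.X) ∧ InBx b (X j) l d (n + j) := by
        intro j
        induction j with
        | zero => exact ⟨⟨hbX', le_rfl⟩, hin⟩
        | succ j ih =>
          obtain ⟨⟨x0, x1⟩, hj⟩ := ih
          obtain ⟨c1, c2, c3, c4⟩ := level hd hC hl hl0 hdl hc hs.1 hs.2 hrun x0 x1 hj
          rw [runLevel_u hd hrun, one_mul] at c1
          have hg : 1 - σ.be * b.X ≤ 1 - σ.be * X j := by
            linarith [mul_le_mul_of_nonneg_left x1 hβ'.le]
          have e : X (j + 1) = (1 - σ.be * X j) * X j := by rw [hXs]; ring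
          have sc : ∀ {v w : ℝ}, v ≤ w * (1 - σ.be * b.X) → 0 ≤ w → v * X j ≤ w * X (j + 1) := by
            intro v w hv hw
            rw [e, ← mul_assoc]
            exact mul_le_mul_of_nonneg_right (hv.trans (mul_le_mul_of_nonneg_left hg hw)) x0.le
          refine ⟨⟨?_, ?_⟩, c1.trans (le_of_eq (hXs j).symm), ?_, ?_, ?_⟩
          · rw [e]; exact mul_pos (by linarith) x0
          · rw [hXs]; linarith [mul_nonneg hβ'.le (sq_nonneg (X j))]
          · exact le_trans (neg_le_neg (sc hp' htm)) c2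
          · exact c3.trans (sc ht' htp)
          · exact c4.trans (sc hq' heta)
      have hX := seq_decay hβ' (fun j => (inv j).1.1.le) fun j => by rw [hXs]; linarith
      refine (Filter.tendsto_add_atTop_iff_nat n).1 ?_
      refine squeeze_zero (fun j => expect_sq_nonneg (fam_lik hl (by linarith) _ _)) (fun j => ?_) hX
      rw [Nat.add_comm]
      exact (inv j).2.1
  | cons b' L ih =>
    intro b n hok hs hin
    simp only [okList, okTo, Bool.and_eq_true, decide_eq_true_eq] at hok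
    simp only [okSigns, List.all_cons, Bool.and_eq_true, decide_eq_true_eq] at hs
    obtain ⟨⟨hbX, hok⟩, hrest⟩ := hok
    cases hrun : runLevel C d c b with
    | none => simp [hrun] at hok
    | some σ =>
      simp only [hrun, Bool.and_eq_true, decide_eq_true_eq] at hok
      obtain ⟨⟨⟨h1, h2⟩, h3⟩, h4⟩ := hok
      have hbX' : (0 : ℝ) < b.X := by exact_mod_cast hbX
      have h1' : (b.X : ℝ) - σ.be * b.X ^ 2 ≤ b'.X := by exact_mod_cast h1
      have h2' : (σ.p : ℝ) * b.X ≤ b'.tm * b'.X := by exact_mod_cast h2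
      have h3' : (σ.t : ℝ) * b.X ≤ b'.tp * b'.X := by exact_mod_cast h3
      have h4' : (σ.s : ℝ) * b.X ≤ b'.eta * b'.X := by exact_mod_cast h4
      obtain ⟨c1, c2, c3, c4⟩ :=
        level hd hC hl hl0 hdl hc hs.1.1 hs.1.2 hrun hbX' le_rfl hin
      rw [runLevel_u hd hrun, one_mul] at c1
      refine ih b' (n + 1) hrest ?_ ⟨c1.trans h1', le_trans (neg_le_neg h2') c2, c3.trans h3',
        c4.trans h4'⟩
      simp only [okSigns, List.all_cons, Bool.and_eq_true, decide_eq_true_eq]
      exact hs.2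

/-- The first box contains every family with two bounded moments. -/
def okFirst (s Y : ℚ) (b : Bx) : Bool :=
  decide (0 < s) && decide (s * b.X + Y / s ≤ 2 * b.tm * b.X) &&
    decide (s * b.X + Y / s ≤ 2 * b.tp * b.X) && decide (Y ≤ b.eta * b.X)

lemma inBx_first {s Y : ℚ} {b : Bx} (h : okFirst s Y b = true) {d n : ℕ}
    (hl : -(1 / 2) ≤ l) (hu : l ≤ 1)
    (h1 : expect sq (lik l n (regular d n)) ≤ b.X)
    (h2 : expect (fun a => sq a ^ 2) (lik l n (regular d n)) ≤ Y) : InBx b b.X l d n := by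
  simp only [okFirst, Bool.and_eq_true, decide_eq_true_eq] at h
  obtain ⟨⟨⟨hs, hm⟩, hp⟩, hY⟩ := h
  have hs' : (0 : ℝ) < s := by exact_mod_cast hs
  have hm' : (s : ℝ) * b.X + Y / s ≤ 2 * b.tm * b.X := by exact_mod_cast hm
  have hp' : (s : ℝ) * b.X + Y / s ≤ 2 * b.tp * b.X := by exact_mod_cast hp
  have hY' : (Y : ℝ) ≤ b.eta * b.X := by exact_mod_cast hY
  set g := lik l n (regular d n)
  have hg : Fam g := fam_lik hl hu n _
  have hpt : ∀ a : Spin → ℝ, InS a → 2 * |cub a| ≤ (s : ℝ) * sq a + sq a ^ 2 / s := by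
    intro a ha
    obtain ⟨hp0, hsum⟩ := ha
    have e2 : a 2 - 1 = -(a 0 - 1) - (a 1 - 1) := by linarith
    have h0 : 0 ≤ sq a := by unfold P154.sq; positivity
    have h3 : cub a ^ 2 ≤ sq a ^ 3 := by
      have e1 : sq a = sI (a 0 - 1) (a 1 - 1) := by rw [P154.sq, sI, e2]; ring
      have e3 : cub a = tI (a 0 - 1) (a 1 - 1) := by rw [cub, tI, e2]; ring
      rw [e1, e3]; exact tI_sq_le _ _
    have hrhs : 0 ≤ (s : ℝ) * sq a + sq a ^ 2 / s := by positivity
    have key : (2 * |cub a|) ^ 2 ≤ ((s : ℝ) * sq a + sq a ^ 2 / s) ^ 2 := by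
      have e : ((s : ℝ) * sq a + sq a ^ 2 / s) ^ 2 =
          4 * sq a ^ 3 + ((s : ℝ) * sq a - sq a ^ 2 / s) ^ 2 := by
        field_simp; ring
      rw [e, mul_pow, sq_abs]
      nlinarith [sq_nonneg ((s : ℝ) * sq a - sq a ^ 2 / s)]
    exact (abs_le_of_sq_le_sq' key hrhs).2
  have hT : 2 * |expect cub g| ≤ (s : ℝ) * b.X + Y / s := by
    have : 2 * |expect cub g| ≤
        (s : ℝ) * expect sq g + expect (fun a => sq a ^ 2) g / s := by
      calc 2 * |expect cub g| ≤ 2 * ∑ k, |wt (g k) * cub (post (g k))| :=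
            mul_le_mul_of_nonneg_left (Finset.abs_sum_le_sum_abs _ _) (by norm_num)
        _ ≤ _ := by
          simp only [expect, Finset.mul_sum, Finset.sum_div, ← Finset.sum_add_distrib]
          refine Finset.sum_le_sum fun k _ => ?_
          have hw := wt_nonneg (hg.nonneg k)
          rw [abs_mul, abs_of_nonneg hw]
          have := mul_le_mul_of_nonneg_left (hpt _ (post_inS (hg.nonneg k))) hw
          rw [mul_add, mul_div_assoc'] at this
          linarith
    refine this.trans (add_le_add (mul_le_mul_of_nonneg_left h1 hs'.le) ?_)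
    exact div_le_div_of_nonneg_right h2 hs'.le
  have ha := le_abs_self (expect cub g)
  have hb := neg_abs_le (expect cub g)
  exact ⟨h1, by linarith, by linarith, h2.trans hY'⟩

/-- The critical edge parameter of the `d`-ary tree. -/
noncomputable def ld (d : ℕ) : ℝ := -Real.sqrt (1 / (d : ℝ))

/-- Nonreconstruction for every subcritical antiferromagnetic parameter. -/
theorem tendsto_tv_of_box {C : Bds} {d : ℕ} {c s Y : ℚ} {b : Bx} {L : List Bx} (hd : 4 ≤ d)
    (hC : ∀ m, -(1 / 2) ≤ m → m ≤ 0 → Certs m C) (hc : 0 ≤ c) (hcd : 1 ≤ (d : ℚ) * c ^ 2)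
    (hfirst : okFirst s Y b = true) (hlist : okList C d c (b :: L) = true)
    (hsigns : okSigns (b :: L) = true)
    (hn : ∃ n, expect sq (lik (ld d) n (regular d n)) ≤ b.X ∧
      expect (fun a => sq a ^ 2) (lik (ld d) n (regular d n)) ≤ Y)
    {l : ℝ} (hl0 : l ≤ 0) (hdl : (d : ℝ) * l ^ 2 ≤ 1) :
    Tendsto (fun n => tv l n (regular d n)) atTop (nhds 0) := by
  have hd4 : (4 : ℝ) ≤ d := by exact_mod_cast hd
  have hd0 : (0 : ℝ) < d := by linarith
  have hsq : ld d ^ 2 = 1 / (d : ℝ) := by rw [ld, neg_sq, Real.sq_sqrt (by positivity)]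
  have hq : 1 / (d : ℝ) ≤ 1 / 4 := one_div_le_one_div_of_le (by norm_num) hd4
  have hpos : ld d < 0 := by
    simp only [ld, neg_lt_zero]; positivity
  have hm : -(1 / 2) ≤ ld d := by nlinarith
  have hc' : -ld d ≤ (c : ℝ) := by
    have h1 : (1 : ℝ) ≤ (d : ℝ) * (c : ℝ) ^ 2 := by exact_mod_cast hcd
    have h2 : (-ld d) ^ 2 ≤ (c : ℝ) ^ 2 := by
      rw [neg_sq, hsq, div_le_iff₀ hd0]; linarith
    exact (abs_le_of_sq_le_sq' h2 (by exact_mod_cast hc)).2
  obtain ⟨n0, hn1, hn2⟩ := hn
  have hS := tendsto_of_list (by omega) (hC _ hm hpos.le) hm hpos.le hsq hc' L b n0 hlist hsigns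
    (inBx_first hfirst hm (by linarith) hn1 hn2)
  set m := l / ld d with hmdef
  have hm0 : 0 ≤ m := div_nonneg_of_nonpos hl0 hpos.le
  have hm1 : m ≤ 1 := by
    rw [div_le_one_of_neg hpos]
    have h2 : (-l) ^ 2 ≤ (-ld d) ^ 2 := by
      rw [neg_sq, neg_sq, hsq, le_div_iff₀ hd0]; linarith
    linarith [(abs_le_of_sq_le_sq' h2 (by linarith)).2]
  have hlm : ld d * m = l := mul_div_cancel₀ _ hpos.ne
  rw [Metric.tendsto_atTop] at hS ⊢
  intro ε hε
  obtain ⟨N, hN⟩ := hS (ε / 3 * (ε / 3)) (by positivity)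
  refine ⟨N, fun n hn => ?_⟩
  have h1 := tv_le hm (by linarith : ld d ≤ 1) n (regular d n) (by positivity : 0 < ε / 3)
  have h2 := hN n hn
  rw [Real.dist_eq, sub_zero,
    abs_of_nonneg (expect_sq_nonneg (fam_lik hm (by linarith) n _))] at h2
  have h3 : expect sq (lik (ld d) n (regular d n)) / (ε / 3) < ε / 3 := by
    rw [div_lt_iff₀ (by positivity)]; exact h2
  have h4 := tv_mono hm (by linarith : ld d ≤ 1) hm0 hm1 n (regular d n)
  rw [hlm] at h4
  have hll : -(1 / 2) ≤ l := by rw [← hlm]; nlinarith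
  have h5 : 0 ≤ tv l n (regular d n) := by
    rw [tv_eq hll (by linarith)]
    exact Finset.sum_nonneg fun _ _ => by positivity
  rw [Real.dist_eq, sub_zero, abs_of_nonneg h5]
  linarith

end Vale.Agent.P154.DeBox
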