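import Vale.Agent.P154.DeBoxCertDefs
import Vale.Agent.P154.DeBoxLevel

/-!
Box checks of the endgame.
-/

namespace Vale.Agent.P154.DeBox

/-- The boxes for `d = 4`. -/
def boxes4 : List Bx :=
  [⟨76 / 625, 111 / 500, 71 / 200, 117 / 500⟩,
    ⟨12229 / 100000, 177 / 1000, 3 / 10, 119 / 500⟩,
    ⟨6119 / 50000, 151 / 1000, 29 / 100, 6 / 25⟩]

theorem check4 : okList bds 4 (1 / 2) (⟨3 / 25, 161 / 360, 161 / 360, 1 / 5⟩ :: boxes4) = true := by decide +kernel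

/-- The boxes for `d = 5`. -/
def boxes5 : List Bx :=
  [⟨13711 / 100000, 53 / 250, 93 / 250, 13 / 50⟩,
    ⟨13789 / 100000, 83 / 500, 161 / 500, 263 / 1000⟩,
    ⟨6901 / 50000, 29 / 200, 63 / 200, 53 / 200⟩,
    ⟨6903 / 50000, 71 / 500, 39 / 125, 53 / 200⟩]

theorem check5 : okList bds 5 (4473 / 10000) (⟨27 / 200, 7763 / 16200, 7763 / 16200, 31 / 135⟩ :: boxes5) = true := by decide +kernel

end Vale.Agent.P154.DeBox
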