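import Vale.Agent.P154.DeBoxCertDefs
import Vale.Agent.P154.DeBoxLevel

/-!
Box checks of the endgame.
-/

namespace Vale.Agent.P154.DeBox

/-- The boxes for `d = 6`. -/
def boxes6 : List Bx :=
  [⟨14197 / 100000, 199 / 1000, 47 / 125, 269 / 1000⟩,
    ⟨7121 / 50000, 77 / 500, 33 / 100, 271 / 1000⟩,
    ⟨7121 / 50000, 17 / 125, 81 / 250, 273 / 1000⟩]

theorem check6 : okList bds 6 (4083 / 10000) (⟨7 / 50, 69 / 140, 69 / 140, 17 / 70⟩ :: boxes6) = true := by decide +kernel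

/-- The boxes for `d = 7`. -/
def boxes7 : List Bx :=
  [⟨2829 / 20000, 37 / 200, 187 / 500, 27 / 100⟩,
    ⟨2829 / 20000, 71 / 500, 329 / 1000, 271 / 1000⟩]

theorem check7 : okList bds 7 (189 / 500) (⟨7 / 50, 69 / 140, 69 / 140, 17 / 70⟩ :: boxes7) = true := by decide +kernel

end Vale.Agent.P154.DeBox
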