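import Vale.Agent.P154.DeBoxCertDefs
import Vale.Agent.P154.DeBoxLevel

/-!
Box checks of the endgame.
-/

namespace Vale.Agent.P154.DeBox

/-- The boxes for `d = 8`. -/
def boxes8 : List Bx :=
  [⟨7051 / 50000, 87 / 500, 93 / 250, 27 / 100⟩,
    ⟨7051 / 50000, 133 / 1000, 33 / 100, 34 / 125⟩]

theorem check8 : okList bds 8 (221 / 625) (⟨7 / 50, 69 / 140, 69 / 140, 17 / 70⟩ :: boxes8) = true := by decide +kernel

/-- The boxes for `d = 9`. -/
def boxes9 : List Bx :=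
  [⟨879 / 6250, 41 / 250, 37 / 100, 27 / 100⟩,
    ⟨879 / 6250, 1 / 8, 331 / 1000, 273 / 1000⟩]

theorem check9 : okList bds 9 (1 / 3) (⟨7 / 50, 69 / 140, 69 / 140, 17 / 70⟩ :: boxes9) = true := by decide +kernel

end Vale.Agent.P154.DeBox
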