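import Vale.Agent.P154.DeBoxCertDefs
import Vale.Agent.P154.DeBoxLevel

/-!
Box checks of the endgame.
-/

namespace Vale.Agent.P154.DeBox

/-- The boxes for `d = 10`. -/
def boxes10 : List Bx :=
  [⟨14033 / 100000, 39 / 250, 369 / 1000, 271 / 1000⟩]

theorem check10 : okList bds 10 (3163 / 10000) (⟨7 / 50, 69 / 140, 69 / 140, 17 / 70⟩ :: boxes10) = true := by decide +kernel

/-- The boxes for `d = 11`. -/
def boxes11 : List Bx :=
  [⟨2801 / 20000, 149 / 1000, 46 / 125, 271 / 1000⟩]

theorem check11 : okList bds 11 (377 / 1250) (⟨7 / 50, 69 / 140, 69 / 140, 17 / 70⟩ :: boxes11) = true := by decide +kernel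

end Vale.Agent.P154.DeBox
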