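import Vale.Agent.P154.DeBoxCert
import Vale.Agent.P154.DeBoxCheckA
import Vale.Agent.P154.DeBoxCheckB
import Vale.Agent.P154.DeBoxCheckC
import Vale.Agent.P154.DeBoxCheckD
import Vale.Agent.P154.DeBoxLevel

/-!
Nonreconstruction on the `d`-ary tree, `4 ≤ d ≤ 11`, for the antiferromagnetic three-state channel
up to the second-moment threshold, from two bounded moments at one level.
-/

open Filter

namespace Vale.Agent.P154.DeBox

/-- The critical parameter lies in every rational interval reaching it. -/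
lemma ld_mem {d : ℕ} {c : ℝ} (hd : 1 ≤ d) (hc : 0 ≤ c) (hcd : 1 ≤ (d : ℝ) * c ^ 2) :
    -c ≤ ld d ∧ ld d ≤ 0 := by
  have hd0 : (0 : ℝ) < d := by exact_mod_cast hd
  refine ⟨neg_le_neg (Real.sqrt_le_iff.2 ⟨hc, ?_⟩), neg_nonpos.2 (Real.sqrt_nonneg _)⟩
  rw [div_le_iff₀ hd0]; linarith

/-- From `E sq ≤ 3 / 25` and `E sq² ≤ 3 / 125` at one level at the critical parameter to
nonreconstruction for every `l ≤ 0` with `4 l² ≤ 1`. -/
theorem box_decay_4 (hn : ∃ n, expect sq (lik (ld 4) n (regular 4 n)) ≤ 3 / 25 ∧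
    expect (fun a => sq a ^ 2) (lik (ld 4) n (regular 4 n)) ≤ 3 / 125)
    {l : ℝ} (hl0 : l ≤ 0) (hdl : (4 : ℝ) * l ^ 2 ≤ 1) :
    Tendsto (fun n => tv l n (regular 4 n)) atTop (nhds 0) := by
  refine tendsto_tv_of_box (C := bds) (c := 1 / 2) (s := 9 / 20) (Y := 3 / 125)
    (b := ⟨3 / 25, 161 / 360, 161 / 360, 1 / 5⟩) (L := boxes4) (by norm_num) (fun m h h' => certs h h') (by norm_num)
    (by norm_num) (by decide +kernel) check4 (by decide +kernel) ?_ hl0 (by exact_mod_cast hdl)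
  simpa using hn

/-- From `E sq ≤ 27 / 200` and `E sq² ≤ 31 / 1000` at one level at the critical parameter to
nonreconstruction for every `l ≤ 0` with `5 l² ≤ 1`. -/
theorem box_decay_5 (hn : ∃ n, expect sq (lik (ld 5) n (regular 5 n)) ≤ 27 / 200 ∧
    expect (fun a => sq a ^ 2) (lik (ld 5) n (regular 5 n)) ≤ 31 / 1000)
    {l : ℝ} (hl0 : l ≤ 0) (hdl : (5 : ℝ) * l ^ 2 ≤ 1) :
    Tendsto (fun n => tv l n (regular 5 n)) atTop (nhds 0) := by
  refine tendsto_tv_of_box (C := bds) (c := 4473 / 10000) (s := 12 / 25) (Y := 31 / 1000)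
    (b := ⟨27 / 200, 7763 / 16200, 7763 / 16200, 31 / 135⟩) (L := boxes5) (by norm_num) (fun m h h' => certs h h') (by norm_num)
    (by norm_num) (by decide +kernel) check5 (by decide +kernel) ?_ hl0 (by exact_mod_cast hdl)
  simpa using hn

/-- From `E sq ≤ 7 / 50` and `E sq² ≤ 17 / 500` at one level at the critical parameter to
nonreconstruction for every `l ≤ 0` with `6 l² ≤ 1`. -/
theorem box_decay_6 (hn : ∃ n, expect sq (lik (ld 6) n (regular 6 n)) ≤ 7 / 50 ∧
    expect (fun a => sq a ^ 2) (lik (ld 6) n (regular 6 n)) ≤ 17 / 500)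
    {l : ℝ} (hl0 : l ≤ 0) (hdl : (6 : ℝ) * l ^ 2 ≤ 1) :
    Tendsto (fun n => tv l n (regular 6 n)) atTop (nhds 0) := by
  refine tendsto_tv_of_box (C := bds) (c := 4083 / 10000) (s := 1 / 2) (Y := 17 / 500)
    (b := ⟨7 / 50, 69 / 140, 69 / 140, 17 / 70⟩) (L := boxes6) (by norm_num) (fun m h h' => certs h h') (by norm_num)
    (by norm_num) (by decide +kernel) check6 (by decide +kernel) ?_ hl0 (by exact_mod_cast hdl)
  simpa using hn

/-- From `E sq ≤ 7 / 50` and `E sq² ≤ 17 / 500` at one level at the critical parameter to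
nonreconstruction for every `l ≤ 0` with `7 l² ≤ 1`. -/
theorem box_decay_7 (hn : ∃ n, expect sq (lik (ld 7) n (regular 7 n)) ≤ 7 / 50 ∧
    expect (fun a => sq a ^ 2) (lik (ld 7) n (regular 7 n)) ≤ 17 / 500)
    {l : ℝ} (hl0 : l ≤ 0) (hdl : (7 : ℝ) * l ^ 2 ≤ 1) :
    Tendsto (fun n => tv l n (regular 7 n)) atTop (nhds 0) := by
  refine tendsto_tv_of_box (C := bds) (c := 189 / 500) (s := 1 / 2) (Y := 17 / 500)
    (b := ⟨7 / 50, 69 / 140, 69 / 140, 17 / 70⟩) (L := boxes7) (by norm_num) (fun m h h' => certs h h') (by norm_num)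
    (by norm_num) (by decide +kernel) check7 (by decide +kernel) ?_ hl0 (by exact_mod_cast hdl)
  simpa using hn

/-- From `E sq ≤ 7 / 50` and `E sq² ≤ 17 / 500` at one level at the critical parameter to
nonreconstruction for every `l ≤ 0` with `8 l² ≤ 1`. -/
theorem box_decay_8 (hn : ∃ n, expect sq (lik (ld 8) n (regular 8 n)) ≤ 7 / 50 ∧
    expect (fun a => sq a ^ 2) (lik (ld 8) n (regular 8 n)) ≤ 17 / 500)
    {l : ℝ} (hl0 : l ≤ 0) (hdl : (8 : ℝ) * l ^ 2 ≤ 1) :
    Tendsto (fun n => tv l n (regular 8 n)) atTop (nhds 0) := by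
  refine tendsto_tv_of_box (C := bds) (c := 221 / 625) (s := 1 / 2) (Y := 17 / 500)
    (b := ⟨7 / 50, 69 / 140, 69 / 140, 17 / 70⟩) (L := boxes8) (by norm_num) (fun m h h' => certs h h') (by norm_num)
    (by norm_num) (by decide +kernel) check8 (by decide +kernel) ?_ hl0 (by exact_mod_cast hdl)
  simpa using hn

/-- From `E sq ≤ 7 / 50` and `E sq² ≤ 17 / 500` at one level at the critical parameter to
nonreconstruction for every `l ≤ 0` with `9 l² ≤ 1`. -/
theorem box_decay_9 (hn : ∃ n, expect sq (lik (ld 9) n (regular 9 n)) ≤ 7 / 50 ∧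
    expect (fun a => sq a ^ 2) (lik (ld 9) n (regular 9 n)) ≤ 17 / 500)
    {l : ℝ} (hl0 : l ≤ 0) (hdl : (9 : ℝ) * l ^ 2 ≤ 1) :
    Tendsto (fun n => tv l n (regular 9 n)) atTop (nhds 0) := by
  refine tendsto_tv_of_box (C := bds) (c := 1 / 3) (s := 1 / 2) (Y := 17 / 500)
    (b := ⟨7 / 50, 69 / 140, 69 / 140, 17 / 70⟩) (L := boxes9) (by norm_num) (fun m h h' => certs h h') (by norm_num)
    (by norm_num) (by decide +kernel) check9 (by decide +kernel) ?_ hl0 (by exact_mod_cast hdl)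
  simpa using hn

/-- From `E sq ≤ 7 / 50` and `E sq² ≤ 17 / 500` at one level at the critical parameter to
nonreconstruction for every `l ≤ 0` with `10 l² ≤ 1`. -/
theorem box_decay_10 (hn : ∃ n, expect sq (lik (ld 10) n (regular 10 n)) ≤ 7 / 50 ∧
    expect (fun a => sq a ^ 2) (lik (ld 10) n (regular 10 n)) ≤ 17 / 500)
    {l : ℝ} (hl0 : l ≤ 0) (hdl : (10 : ℝ) * l ^ 2 ≤ 1) :
    Tendsto (fun n => tv l n (regular 10 n)) atTop (nhds 0) := by
  refine tendsto_tv_of_box (C := bds) (c := 3163 / 10000) (s := 1 / 2) (Y := 17 / 500)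
    (b := ⟨7 / 50, 69 / 140, 69 / 140, 17 / 70⟩) (L := boxes10) (by norm_num) (fun m h h' => certs h h') (by norm_num)
    (by norm_num) (by decide +kernel) check10 (by decide +kernel) ?_ hl0 (by exact_mod_cast hdl)
  simpa using hn

/-- From `E sq ≤ 7 / 50` and `E sq² ≤ 17 / 500` at one level at the critical parameter to
nonreconstruction for every `l ≤ 0` with `11 l² ≤ 1`. -/
theorem box_decay_11 (hn : ∃ n, expect sq (lik (ld 11) n (regular 11 n)) ≤ 7 / 50 ∧
    expect (fun a => sq a ^ 2) (lik (ld 11) n (regular 11 n)) ≤ 17 / 500)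
    {l : ℝ} (hl0 : l ≤ 0) (hdl : (11 : ℝ) * l ^ 2 ≤ 1) :
    Tendsto (fun n => tv l n (regular 11 n)) atTop (nhds 0) := by
  refine tendsto_tv_of_box (C := bds) (c := 377 / 1250) (s := 1 / 2) (Y := 17 / 500)
    (b := ⟨7 / 50, 69 / 140, 69 / 140, 17 / 70⟩) (L := boxes11) (by norm_num) (fun m h h' => certs h h') (by norm_num)
    (by norm_num) (by decide +kernel) check11 (by decide +kernel) ?_ hl0 (by exact_mod_cast hdl)
  simpa using hn

end Vale.Agent.P154.DeBox
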