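import Vale.Agent.P154.DeBoxCertDefs

/-!
Polynomial checks of bound Q, last two chart pairs.
-/

namespace Vale.Agent.P154.DeBox

open Bin

set_option linter.unusedSimpArgs false

/-- Coefficients of bound Q on the charts SL. -/
def litQSL : Bern.MP 4 :=
  ([[[[6756352, 36438016], [184352768, -79233024], [37904384, 24576000], [-66560000, 36651008], [-32000000, -12288000], [-9216000, -6144000], [-1536000]]], [[[24012288, 28304384, 0], [155649024, -58328576, 0], [8014336, 18432000, 0], [-49842176, 24776192, 0], [12499456, -11136000, 0], [14976000, -3648000, 0], [2496000, 1280000, 0], [0, 320000, 0], [0, 0, 0]], [[-48024576, -56608768, 0], [-311298048, 116657152, 0], [-16028672, -36864000, 0], [99684352, -49552384, 0], [-24998912, 22272000, 0], [-29952000, 7296000, 0], [-4992000, -2560000, 0], [0, -640000, 0], [0, 0, 0]], [[0, 0, 0], [0, 0, 0], [0, 0, 0], [0, 0, 0], [0, 0, 0], [0, 0, 0], [0, 0, 0], [0, 0, 0], [0, 0, 0]]], [[[24926768, -44555264, -3072000], [-181314176, 83728896, 9216000], [-66475200, -24576000, -6912000], [19305088, -31109632, -3072000], [-2940128, 18048000,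 4608000], [-6998400, 3264000, 0], [-3115200, -3840000, -768000], [-835200, -960000, 0], [-104400, 0, 0]], [[0, 0, 0], [0, 0, 0], [0, 0, 0], [0, 0, 0], [0, 0, 0], [0, 0, 0], [0, 0, 0], [0, 0, 0], [0, 0, 0]], [[0, 0, 0], [0, 0, 0], [0, 0, 0], [0, 0, 0], [0, 0, 0], [0, 0, 0], [0, 0, 0], [0, 0, 0], [0, 0, 0]]], [[[-13770000, -32038400, -4841600], [-127876800, 17875200, 15081600], [-63317600, 32435200, -12285600], [-21939200, 5491200, -4424000], [-32014400, -17907200, 8445600], [-13579200, -7264000, -556800], [-314400, 1126400, -1628000], [835200, 281600, 139200], [104400, 0, 69600]], [[27540000, 64076800, 9683200], [255753600, -35750400, -30163200], [126635200, -64870400, 24571200], [43878400, -10982400, 8848000], [64028800, 35814400, -16891200], [27158400, 14528000, 1113600], [628800, -2252800, 3256000], [-1670400, -563200, -278400], [-208800, 0, -139200]], [[0, 0, 0], [0, 0, 0], [0, 0, 0], [0, 0, 0], [0, 0, 0], [0, 0, 0], [0, 0, 0], [0, 0, 0], [0, 0, 0]]], [[[-17432700, 3881600, 3497600], [22037600, -15179200, -11049600], [5098000, 13004800, 9261600], [26383200, 7134400,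 3080000], [45723000, -9238400, -6429600], [21722400, -1883200, 556800], [2158800, 1824000, 1292000], [-626400, 456000, -139200], [-78300, 0, -69600]], [[-544800, 27980800, -9728000], [109561600, -68288000, 29184000], [102531200, 17408000, -21888000], [12499200, 38182400, -9728000], [-39825600, -2022400, 14592000], [-24211200, -7692800, 0], [-2736000, -4454400, -2432000], [556800, -1113600, 0], [69600, 0, 0]], [[544800, -27980800, 9728000], [-109561600, 68288000, -29184000], [-102531200, -17408000, 21888000], [-12499200, -38182400, 9728000], [39825600, 2022400, -14592000], [24211200, 7692800, 0], [2736000, 4454400, 2432000], [-556800, 1113600, 0], [-69600, 0, 0]]], [[[-10970100, 7864800, 2296800], [-670800, 3706800, -6751200], [7677400, -10630400, 4819800], [31739200, -10132400, 2401200], [38010400, 1660000, -3149400], [18630000, 4485200, -139200], [3592200, 2436800, 469800], [208800, 609200, 34800], [26100, 0, 17400]], [[21940200, -15729600, -4593600], [1341600, -7413600, 13502400], [-15354800, 21260800, -9639600], [-63478400, 20264800, -4802400], [-76020800, -3320000,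 6298800], [-37260000, -8970400, 278400], [-7184400, -4873600, -939600], [-417600, -1218400, -69600], [-52200, 0, -34800]], [[0, 0, 0], [0, 0, 0], [0, 0, 0], [0, 0, 0], [0, 0, 0], [0, 0, 0], [0, 0, 0], [0, 0, 0], [0, 0, 0]]], [[[-3654000, 3097200, -139200], [-3166800, 504600, 696000], [3079800, -2784000, -1009200], [6751200, -3497400, 69600], [5133000, -382800, 800400], [3236400, 1583400, -278400], [1513800, 1183200, -243600], [417600, 295800, 69600], [52200, 0, 34800]], [[3340800, -3619200, -1113600], [1392000, -9048000, 1113600], [-15451200, 0, 3062400], [-26169600, 16286400, -2784000], [-16843200, 10857600, -3062400], [-3062400, -5428800, 2227200], [2088000, -7238400, 1392000], [1113600, -1809600, -556800], [139200, 0, -278400]], [[-3340800, 3619200, 1113600], [-1392000, 9048000, -1113600], [15451200, 0, -3062400], [26169600, -16286400, 2784000], [16843200, -10857600, 3062400], [3062400, 5428800, -2227200], [-2088000, 7238400, -1392000], [-1113600, 1809600, 556800], [-139200, 0, 278400]]]] : List (List (List (List ℤ))))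

theorem eqQSL : poly4 8 false true monsQ = litQSL :=
  eq_of_eqb 4 _ _ (by decide +kernel)

set_option maxHeartbeats 2000000 in
theorem goodQSL : Bern.Good 4 [] (poly4 8 false true monsQ) := by
  rw [eqQSL]
  exact
    (Bern.good_node (p := []) 0 6 (by norm_num) (by decide +kernel)
      (Bern.good_leaf (p := [(0, 6, false)]) (by decide +kernel))
      (Bern.good_node (p := [(0, 6, true)]) 2 8 (by norm_num) (by decide +kernel)
        (Bern.good_leaf (p := [(0, 6, true), (2, 8, false)]) (by decide +kernel))
        (Bern.good_node (p := [(0, 6, true), (2, 8, true)]) 2 8 (by norm_num) (by decide +kernel)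
          (Bern.good_leaf (p := [(0, 6, true), (2, 8, true), (2, 8, false)]) (by decide +kernel))
          (Bern.good_node (p := [(0, 6, true), (2, 8, true), (2, 8, true)]) 0 6 (by norm_num) (by decide +kernel)
            (Bern.good_node (p := [(0, 6, true), (2, 8, true), (2, 8, true), (0, 6, false)]) 0 6 (by norm_num) (by decide +kernel)
              (Bern.good_leaf (p := [(0, 6, true), (2, 8, true), (2, 8, true), (0, 6, false), (0, 6, false)]) (by decide +kernel))
              (Bern.good_leaf (p := [(0, 6, true), (2, 8, true), (2, 8, true), (0, 6, false), (0, 6, true)]) (by decide +kernel)))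
            (Bern.good_leaf (p := [(0, 6, true), (2, 8, true), (2, 8, true), (0, 6, true)]) (by decide +kernel))))))

/-- Coefficients of bound Q on the charts SS. -/
def litQSS : Bern.MP 4 :=
  ([[[[17039360], [-24363008, 48726016], [9472000, 0], [6144000, -12288000], [-1536000]]], [[[46465024], [-18440192, 36880384, 0], [-9836544, 0, 0], [4608000, -9216000, 0], [1536000, 0, 0], [-320000, 640000, 0], [0, 0, 0]], [[-92930048], [36880384, -73760768, 0], [19673088, 0, 0], [-9216000, 18432000, 0], [-3072000, 0, 0], [640000, -1280000, 0], [0, 0, 0]], [[], [0, 0, 0], [0, 0, 0], [0, 0, 0], [0, 0, 0], [0, 0, 0], [0, 0, 0]]], [[[21233664], [33605632, -67211264, 0], [-21936128, 0, 0], [-10752000, 21504000, 0], [1920000, 3072000, -3072000], [960000, -1920000, 0], [-104400, 0, 0]], [[0], [0, 0, 0], [0, 0, 0], [0, 0, 0], [0, 0, 0], [0, 0, 0], [0, 0, 0]], [[], [0, 0, 0], [0, 0, 0], [0, 0, 0], [0, 0, 0], [0, 0, 0], [0, 0, 0]]], [[[-49152000], [18432000, -36864000, 0], [21504000, 0, 0], [-128000, 256000, 0], [-4736000, 5120000, -5120000], [136000, -272000, 0], [174000, -278400, 278400]],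 [[98304000], [-36864000, 73728000, 0], [-43008000, 0, 0], [256000, -512000, 0], [9472000, -10240000, 10240000], [-272000, 544000, 0], [-348000, 556800, -556800]], [[], [0, 0, 0], [0, 0, 0], [0, 0, 0], [0, 0, 0], [0, 0, 0], [0, 0, 0]]], [[[-24576000], [-12288000, 24576000, 0], [7680000, 0, 0], [9472000, -18944000, 0], [3300800, -3776000, 3776000], [-873600, 1747200, 0], [-147900, 278400, -278400]], [[], [0, 0, 0], [12288000, 0, 0], [-10240000, 20480000, 0], [-3776000, 9728000, -9728000], [1113600, -2227200, 0], [69600, 0, 0]], [[], [0, 0, 0], [-12288000, 0, 0], [10240000, -20480000, 0], [3776000, -9728000, 9728000], [-1113600, 2227200, 0], [-69600, 0, 0]]], [[[], [-5120000, 10240000, 0], [-7680000, 0, 0], [544000, -1088000, 0], [1747200, -2227200, 2227200], [-504800, 1009600, 0], [43500, -69600, 69600]], [[], [10240000, -20480000, 0], [15360000, 0, 0], [-1088000, 2176000, 0], [-3494400, 4454400, -4454400], [1009600, -2019200, 0], [-87000, 139200, -139200]], [[], [0, 0, 0], [0, 0, 0], [0, 0, 0], [0, 0, 0], [0, 0, 0], [0, 0, 0]]], [[[], [0, 0, 0], [-1670400, 0, 0], [-1392000,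 2784000, 0], [-591600, 278400, -278400], [-87000, 174000, 0], [87000, -139200, 139200]], [[], [0, 0, 0], [0, 0, 0], [2227200, -4454400, 0], [1113600, 0, 0], [139200, -278400, 0], [-139200, 1113600, -1113600]], [[], [0, 0, 0], [0, 0, 0], [-2227200, 4454400, 0], [-1113600, 0, 0], [-139200, 278400, 0], [139200, -1113600, 1113600]]]] : List (List (List (List ℤ))))

theorem eqQSS : poly4 8 false false monsQ = litQSS :=
  eq_of_eqb 4 _ _ (by decide +kernel)

set_option maxHeartbeats 2000000 in
theorem goodQSS : Bern.Good 4 [] (poly4 8 false false monsQ) := by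
  rw [eqQSS]
  exact
    (Bern.good_node (p := []) 0 6 (by norm_num) (by decide +kernel)
      (Bern.good_node (p := [(0, 6, false)]) 0 6 (by norm_num) (by decide +kernel)
        (Bern.good_leaf (p := [(0, 6, false), (0, 6, false)]) (by decide +kernel))
        (Bern.good_node (p := [(0, 6, false), (0, 6, true)]) 2 6 (by norm_num) (by decide +kernel)
          (Bern.good_leaf (p := [(0, 6, false), (0, 6, true), (2, 6, false)]) (by decide +kernel))
          (Bern.good_node (p := [(0, 6, false), (0, 6, true), (2, 6, true)]) 0 6 (by norm_num) (by decide +kernel)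
            (Bern.good_leaf (p := [(0, 6, false), (0, 6, true), (2, 6, true), (0, 6, false)]) (by decide +kernel))
            (Bern.good_node (p := [(0, 6, false), (0, 6, true), (2, 6, true), (0, 6, true)]) 0 6 (by norm_num) (by decide +kernel)
              (Bern.good_leaf (p := [(0, 6, false), (0, 6, true), (2, 6, true), (0, 6, true), (0, 6, false)]) (by decide +kernel))
              (Bern.good_leaf (p := [(0, 6, false), (0, 6, true), (2, 6, true), (0, 6, true), (0, 6, true)]) (by decide +kernel))))))
      (Bern.good_leaf (p := [(0, 6, true)]) (by decide +kernel)))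

end Vale.Agent.P154.DeBox
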