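import Vale.Agent.P154.DeBoxCertDefs

/-!
Polynomial checks of bound Q, second chart pair.
-/

namespace Vale.Agent.P154.DeBox

open Bin

set_option linter.unusedSimpArgs false

/-- Coefficients of bound Q on the charts LS. -/
def litQLS : Bern.MP 4 :=
  ([[[[11010048], [-8173568, 16347136, 0], [-2467072, 0, 0], [8496000, -16992000, 0], [1640400, 2467200, -2467200], [-689400, 1378800, 0], [52200, -208800, 208800]], [[5373952], [10256384, -20512768, 0], [4313088, 0, 0], [-18060800, 36121600, 0], [243200, 3942400, -3942400], [2630400, -5260800, 0], [-504600, 1809600, -1809600]], [[], [0, 0, 0], [-12288000, 0, 0], [8012800, -16025600, 0], [2662400, -9728000, 9728000], [-1252800, 2505600, 0], [69600, -1113600, 1113600]]], [[[-110624768], [59121664, -118243328, 0], [7575552, 0, 0], [-49305600, 98611200, 0], [13932800, 19609600, -19609600], [5925600, -11851200, 0], [-1705200, 6820800, -6820800]], [[188547072], [-48152576, 96305152, 0], [-104773632, 0, 0], [75782400, -151564800, 0], [22803200, -66944000, 66944000], [-7689600, 15379200, 0], [-147900, -5498400, 5498400]], [[], [0, 0, 0], [36864000, 0, 0], [-28492800, 56985600,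 0], [-10214400, 29184000, -29184000], [3480000, -6960000, 0], [69600, 1113600, -1113600]]], [[[324534272], [-102256640, 204513280, 0], [-210062336, 0, 0], [71372800, -142745600, 0], [87942400, -91801600, 91801600], [-3568400, 7136800, 0], [-4750200, 11484000, -11484000]], [[-196608000], [73728000, -147456000, 0], [159744000, 0, 0], [-79769600, 159539200, 0], [-50508800, 78848000, -78848000], [6112000, -12224000, 0], [2227200, -10022400, 10022400]], [[], [0, 0, 0], [-27648000, 0, 0], [29164800, -58329600, 0], [11558400, -21888000, 21888000], [-2122800, 4245600, 0], [-539400, 3062400, -3062400]]], [[[183238656], [-107241472, 214482944, 0], [3033088, 0, 0], [71449600, -142899200, 0], [27830400, -49996800, 49996800], [-3353600, 6707200, 0], [-1809600, -3619200, 3619200]], [[-144769024], [9224192, -18448384, 0], [45164544, 0, 0], [-30009600, 60019200, 0], [-3584000, 38835200, -38835200], [2939200, -5878400, 0], [-234900, 9396000, -9396000]], [[], [0, 0, 0], [-12288000, 0, 0], [4672000, -9344000, 0], [992000, -9728000, 9728000], [-1461600, 2923200, 0], [278400, -2784000, 2784000]]], [[[-199950336], [3909632, -7819264, 0],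 [245135872, 0, 0], [-26220800, 52441600, 0], [-64485600, 56467200, -56467200], [2298400, -4596800, 0], [2992800, -13293600, 13293600]], [[98304000], [-67584000, 135168000, 0], [-125952000, 0, 0], [63193600, -126387200, 0], [45760000, -52787200, 52787200], [-4832000, 9664000, 0], [-2105400, 14616000, -14616000]], [[], [0, 0, 0], [18432000, 0, 0], [-21484800, 42969600, 0], [-8726400, 14592000, -14592000], [1287600, -2575200, 0], [487200, -3062400, 3062400]]], [[[-147456000], [18432000, -36864000, 0], [109209600, 0, 0], [-45158400, 90316800, 0], [-49881600, 47616000, -47616000], [712800, -1425600, 0], [3236400, -4315200, 4315200]], [[49152000], [-3072000, 6144000, 0], [-16896000, 0, 0], [8288000, -16576000, 0], [2374400, -13030400, 13030400], [-640000, 1280000, 0], [-60900, -2296800, 2296800]], [[], [0, 0, 0], [0, 0, 0], [4454400, -8908800, 0], [2227200, 0, 0], [278400, -556800, 0], [-278400, 2227200, -2227200]]], [[[-24576000], [3072000, -6144000, 0], [-12979200, 0, 0], [-23116800, 46233600, 0], [-14160000, 13132800, -13132800], [-855600, 1711200, 0], [1513800, 1879200, -1879200]], [[], [20480000, -40960000, 0], [30720000,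 0, 0], [-15539200, 31078400, 0], [-13670400, 8908800, -8908800], [1184000, -2368000, 0], [661200, -6403200, 6403200]], [[], [0, 0, 0], [-3072000, 0, 0], [5344000, -10688000, 0], [2336000, -2432000, 2432000], [-104400, 208800, 0], [-191400, 1392000, -1392000]]], [[[], [0, 0, 0], [-13363200, 0, 0], [-6681600, 13363200, 0], [-2505600, 2227200, -2227200], [-417600, 835200, 0], [417600, 1113600, -1113600]], [[], [5120000, -10240000, 0], [7680000, 0, 0], [-3884800, 7769600, 0], [-3417600, 2227200, -2227200], [296000, -592000, 0], [165300, -1600800, 1600800]], [[], [0, 0, 0], [0, 0, 0], [-1113600, 2227200, 0], [-556800, 0, 0], [-69600, 139200, 0], [69600, -556800, 556800]]], [[[], [0, 0, 0], [-1670400, 0, 0], [-835200, 1670400, 0], [-313200, 278400, -278400], [-52200, 104400, 0], [52200, 139200, -139200]], [[], [0, 0, 0], [0, 0, 0], [0, 0, 0], [0, 0, 0], [0, 0, 0], [0, 0, 0]], [[], [0, 0, 0], [0, 0, 0], [-556800, 1113600, 0], [-278400, 0, 0], [-34800, 69600, 0], [34800, -278400, 278400]]]] : List (List (List (List ℤ))))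

theorem eqQLS : poly4 8 true false monsQ = litQLS :=
  eq_of_eqb 4 _ _ (by decide +kernel)

set_option maxHeartbeats 2000000 in
theorem goodQLS : Bern.Good 4 [] (poly4 8 true false monsQ) := by
  rw [eqQLS]
  exact
    (Bern.good_node (p := []) 0 8 (by norm_num) (by decide +kernel)
      (Bern.good_node (p := [(0, 8, false)]) 0 8 (by norm_num) (by decide +kernel)
        (Bern.good_node (p := [(0, 8, false), (0, 8, false)]) 1 2 (by norm_num) (by decide +kernel)
          (Bern.good_node (p := [(0, 8, false), (0, 8, false), (1, 2, false)]) 1 2 (by norm_num) (by decide +kernel)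
            (Bern.good_node (p := [(0, 8, false), (0, 8, false), (1, 2, false), (1, 2, false)]) 1 2 (by norm_num) (by decide +kernel)
              (Bern.good_node (p := [(0, 8, false), (0, 8, false), (1, 2, false), (1, 2, false), (1, 2, false)]) 1 2 (by norm_num) (by decide +kernel)
                (Bern.good_node (p := [(0, 8, false), (0, 8, false), (1, 2, false), (1, 2, false), (1, 2, false), (1, 2, false)]) 2 6 (by norm_num) (by decide +kernel)
                  (Bern.good_node (p := [(0, 8, false), (0, 8, false), (1, 2, false), (1, 2, false), (1, 2, false), (1, 2, false), (2, 6, false)]) 0 8 (by norm_num) (by decide +kernel)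
                    (Bern.good_leaf (p := [(0, 8, false), (0, 8, false), (1, 2, false), (1, 2, false), (1, 2, false), (1, 2, false), (2, 6, false), (0, 8, false)]) (by decide +kernel))
                    (Bern.good_leaf (p := [(0, 8, false), (0, 8, false), (1, 2, false), (1, 2, false), (1, 2, false), (1, 2, false), (2, 6, false), (0, 8, true)]) (by decide +kernel)))
                  (Bern.good_node (p := [(0, 8, false), (0, 8, false), (1, 2, false), (1, 2, false), (1, 2, false), (1, 2, false), (2, 6, true)]) 0 8 (by norm_num) (by decide +kernel)
                    (Bern.good_leaf (p := [(0, 8, false), (0, 8, false), (1, 2, false), (1, 2, false), (1, 2, false), (1, 2, false), (2, 6, true), (0, 8, false)]) (by decide +kernel))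
                    (Bern.good_node (p := [(0, 8, false), (0, 8, false), (1, 2, false), (1, 2, false), (1, 2, false), (1, 2, false), (2, 6, true), (0, 8, true)]) 0 8 (by norm_num) (by decide +kernel)
                      (Bern.good_node (p := [(0, 8, false), (0, 8, false), (1, 2, false), (1, 2, false), (1, 2, false), (1, 2, false), (2, 6, true), (0, 8, true), (0, 8, false)]) 2 6 (by norm_num) (by decide +kernel)
                        (Bern.good_leaf (p := [(0, 8, false), (0, 8, false), (1, 2, false), (1, 2, false), (1, 2, false), (1, 2, false), (2, 6, true), (0, 8, true), (0, 8, false), (2, 6, false)]) (by decide +kernel))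
                        (Bern.good_leaf (p := [(0, 8, false), (0, 8, false), (1, 2, false), (1, 2, false), (1, 2, false), (1, 2, false), (2, 6, true), (0, 8, true), (0, 8, false), (2, 6, true)]) (by decide +kernel)))
                      (Bern.good_leaf (p := [(0, 8, false), (0, 8, false), (1, 2, false), (1, 2, false), (1, 2, false), (1, 2, false), (2, 6, true), (0, 8, true), (0, 8, true)]) (by decide +kernel)))))
                (Bern.good_leaf (p := [(0, 8, false), (0, 8, false), (1, 2, false), (1, 2, false), (1, 2, false), (1, 2, true)]) (by decide +kernel)))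
              (Bern.good_leaf (p := [(0, 8, false), (0, 8, false), (1, 2, false), (1, 2, false), (1, 2, true)]) (by decide +kernel)))
            (Bern.good_leaf (p := [(0, 8, false), (0, 8, false), (1, 2, false), (1, 2, true)]) (by decide +kernel)))
          (Bern.good_leaf (p := [(0, 8, false), (0, 8, false), (1, 2, true)]) (by decide +kernel)))
        (Bern.good_leaf (p := [(0, 8, false), (0, 8, true)]) (by decide +kernel)))
      (Bern.good_node (p := [(0, 8, true)]) 2 6 (by norm_num) (by decide +kernel)
        (Bern.good_leaf (p := [(0, 8, true), (2, 6, false)]) (by decide +kernel))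
        (Bern.good_node (p := [(0, 8, true), (2, 6, true)]) 2 6 (by norm_num) (by decide +kernel)
          (Bern.good_leaf (p := [(0, 8, true), (2, 6, true), (2, 6, false)]) (by decide +kernel))
          (Bern.good_leaf (p := [(0, 8, true), (2, 6, true), (2, 6, true)]) (by decide +kernel)))))

end Vale.Agent.P154.DeBox
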