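import Vale.Agent.P154.DeBoxCertS
import Vale.Agent.P154.DeBoxCertT
import Vale.Agent.P154.DeBoxCertN
import Vale.Agent.P154.DeBoxCertQA
import Vale.Agent.P154.DeBoxCertQB
import Vale.Agent.P154.DeBoxCertQC

/-!
Coefficients and polynomial checks of the four bilinear bounds.
-/

namespace Vale.Agent.P154.DeBox

open Bin

set_option linter.unusedSimpArgs false

theorem okQ : okM 8 monsQ = true := by decide +kernel

set_option maxHeartbeats 1000000 in
theorem idQ (S T P Q : ℝ) : evalM monsQ S T P Q =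
    (32000 : ℝ) * (fnQ.val 1 S T (S ^ 2) (P / 4) (-Q / 8) (P ^ 2 / 16) -
      avgU joinS2 p3 rr3 S T (P / 4) (-Q / 8)) := by
  simp only [evalM, monsQ, fnQ, Fn.val, Mat.bil, avgU, bundle, oneF, p3, rr3, joinTn, joinS2,
    List.foldr_cons, List.foldr_nil, OForm.avg, OForm.pw, OForm.mulw, OForm.mulp, OForm.mulR,
    OForm.mul, OForm.add, OForm.smul, OForm.joinS, OForm.joinT]
  push_cast
  ring

theorem certQ {l : ℝ} (hl : -(1 / 2) ≤ l) (hl0 : l ≤ 0) : Cert l (fun a => sq a ^ 2) fnQ :=
  cert_of term_S2 form_S2 (by norm_num : (0 : ℝ) < 32000) okQ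
    (fun ca cb => match ca, cb with
      | true, true => goodQLL
      | true, false => goodQLS
      | false, true => goodQSL
      | false, false => goodQSS) idQ hl hl0

theorem certs {l : ℝ} (hl : -(1 / 2) ≤ l) (hl0 : l ≤ 0) : Certs l bds :=
  ⟨certS hl hl0, certT hl hl0, certN hl hl0, certQ hl hl0, rfl, rfl, rfl⟩

end Vale.Agent.P154.DeBox
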