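import Vale.Agent.P154.DeBoxChart

/-!
Coefficients and scaled polynomials of the four bilinear bounds.
-/

namespace Vale.Agent.P154.DeBox

open Bin

set_option linter.unusedSimpArgs false

/-- Coefficients of bound S. -/
def fnS : Fn :=
  ⟨(1 : ℚ), (0 : ℚ), (0 : ℚ),
    ⟨((-983 : ℚ) / 1000),
      ((-252 : ℚ) / 125),
      ((487 : ℚ) / 250),
      ((-197 : ℚ) / 100),
      ((293 : ℚ) / 200),
      ((1607 : ℚ) / 1000),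
      ((509 : ℚ) / 250),
      ((451 : ℚ) / 250),
      ((687 : ℚ) / 500)⟩⟩

/-- The polynomial of bound S, scaled. -/
def monsS : List Mono :=
  [(3210, 0, 1, 0, 1),
    (360, 0, 1, 1, 0),
    (-3000, 0, 1, 1, 1),
    (-1179, 0, 1, 2, 0),
    (4000, 0, 2, 0, 2),
    (4000, 0, 2, 1, 1),
    (-2000, 0, 2, 3, 0),
    (96, 1, 0, 0, 1),
    (204, 1, 0, 1, 0),
    (-156, 1, 0, 2, 0),
    (-12000, 1, 1, 0, 1),
    (-2000, 1, 1, 0, 2),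
    (2000, 1, 1, 1, 1),
    (18000, 1, 1, 2, 0),
    (-3000, 1, 1, 3, 0),
    (1176, 2, 0, 0, 1),
    (432, 2, 0, 1, 0),
    (-9000, 2, 0, 1, 1),
    (10122, 2, 0, 2, 0),
    (-3000, 2, 0, 3, 0),
    (-2000, 3, 0, 0, 2),
    (6000, 3, 0, 1, 1),
    (-12000, 3, 0, 2, 0),
    (8000, 3, 0, 3, 0)]

/-- Coefficients of bound T. -/
def fnT : Fn :=
  ⟨(0 : ℚ), (1 : ℚ), (0 : ℚ),
    ⟨((6047 : ℚ) / 1000),
      ((-3449 : ℚ) / 500),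
      (0 : ℚ),
      ((-3331 : ℚ) / 500),
      ((3687 : ℚ) / 1000),
      ((-3 : ℚ) / 1000),
      ((309 : ℚ) / 500),
      ((553 : ℚ) / 250),
      ((3 : ℚ) / 1000)⟩⟩

/-- The polynomial of bound T, scaled. -/
def monsT : List Mono :=
  [(-10748, 0, 1, 0, 1),
    (4000, 0, 1, 0, 2),
    (-5296, 0, 1, 1, 0),
    (9000, 0, 1, 1, 1),
    (-6006, 0, 1, 2, 0),
    (-32000, 0, 2, 0, 1),
    (21200, 0, 2, 0, 2),
    (18600, 0, 2, 1, 1),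
    (4650, 0, 2, 2, 1),
    (-6600, 0, 2, 3, 0),
    (3592, 1, 0, 0, 1),
    (376, 1, 0, 1, 0),
    (6000, 1, 0, 1, 1),
    (12000, 1, 0, 2, 0),
    (36000, 1, 1, 0, 1),
    (-9300, 1, 1, 0, 2),
    (-48000, 1, 1, 1, 0),
    (-45000, 1, 1, 1, 1),
    (54000, 1, 1, 2, 0),
    (11625, 1, 1, 2, 1),
    (4050, 1, 1, 3, 0),
    (3152, 2, 0, 0, 1),
    (52944, 2, 0, 1, 0),
    (-27000, 2, 0, 1, 1),
    (-94794, 2, 0, 2, 0),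
    (4650, 2, 0, 2, 1),
    (18000, 2, 0, 3, 0),
    (-9300, 2, 1, 0, 2),
    (46500, 2, 1, 1, 1),
    (-37200, 2, 1, 2, 0),
    (-27900, 2, 1, 2, 1),
    (-13950, 2, 1, 3, 0),
    (-6600, 3, 0, 0, 2),
    (-8100, 3, 0, 1, 1),
    (72000, 3, 0, 2, 0),
    (6975, 3, 0, 2, 1),
    (-1500, 3, 0, 3, 0)]

/-- Coefficients of bound N. -/
def fnN : Fn :=
  ⟨(0 : ℚ), (-1 : ℚ), (0 : ℚ),
    ⟨(0 : ℚ),
      (0 : ℚ),
      (0 : ℚ),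
      ((3877 : ℚ) / 1000),
      ((-9857 : ℚ) / 250),
      (0 : ℚ),
      ((2467 : ℚ) / 1000),
      ((15699 : ℚ) / 1000),
      ((7351 : ℚ) / 200)⟩⟩

/-- The polynomial of bound N, scaled. -/
def monsN : List Mono :=
  [(153712, 0, 1, 0, 1),
    (-4000, 0, 1, 0, 2),
    (-16984, 0, 1, 1, 0),
    (-9000, 0, 1, 1, 1),
    (6000, 0, 1, 2, 0),
    (32000, 0, 2, 0, 1),
    (21200, 0, 2, 0, 2),
    (-18600, 0, 2, 1, 1),
    (-4650, 0, 2, 2, 1),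
    (-14600, 0, 2, 3, 0),
    (24000, 1, 0, 0, 1),
    (48000, 1, 0, 1, 0),
    (-6000, 1, 0, 1, 1),
    (-12000, 1, 0, 2, 0),
    (-36000, 1, 1, 0, 1),
    (9300, 1, 1, 0, 2),
    (48000, 1, 1, 1, 0),
    (39000, 1, 1, 1, 1),
    (-54000, 1, 1, 2, 0),
    (-11625, 1, 1, 2, 1),
    (-4050, 1, 1, 3, 0),
    (-74796, 2, 0, 0, 1),
    (-28264, 2, 0, 1, 0),
    (27000, 2, 0, 1, 1),
    (122710, 2, 0, 2, 0),
    (-4650, 2, 0, 2, 1),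
    (-18000, 2, 0, 3, 0),
    (9300, 2, 1, 0, 2),
    (-46500, 2, 1, 1, 1),
    (37200, 2, 1, 2, 0),
    (-37200, 2, 1, 2, 1),
    (13950, 2, 1, 3, 0),
    (-14600, 3, 0, 0, 2),
    (8100, 3, 0, 1, 1),
    (-72000, 3, 0, 2, 0),
    (-6975, 3, 0, 2, 1),
    (118100, 3, 0, 3, 0)]

/-- Coefficients of bound Q. -/
def fnQ : Fn :=
  ⟨(0 : ℚ), (0 : ℚ), (1 : ℚ),
    ⟨((113 : ℚ) / 25),
      ((513 : ℚ) / 500),
      ((-27 : ℚ) / 8),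
      ((291 : ℚ) / 250),
      ((1251 : ℚ) / 500),
      ((-7197 : ℚ) / 500),
      ((-676 : ℚ) / 125),
      ((-7591 : ℚ) / 1000),
      ((7989 : ℚ) / 250)⟩⟩

/-- The polynomial of bound Q, scaled. -/
def monsQ : List Mono :=
  [(-18008, 0, 1, 0, 1),
    (-22688, 0, 1, 1, 0),
    (18000, 0, 1, 1, 1),
    (19212, 0, 1, 2, 0),
    (-5000, 0, 1, 2, 1),
    (-12000, 0, 1, 3, 0),
    (38000, 0, 2, 0, 2),
    (-80000, 0, 2, 1, 1),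
    (-48000, 0, 2, 2, 0),
    (34800, 0, 2, 2, 1),
    (21000, 0, 2, 3, 0),
    (-4350, 0, 2, 4, 0),
    (11896, 1, 0, 0, 1),
    (4160, 1, 0, 1, 0),
    (-12000, 1, 0, 1, 1),
    (9250, 1, 0, 2, 0),
    (-6000, 1, 0, 3, 0),
    (72000, 1, 1, 0, 1),
    (40000, 1, 1, 0, 2),
    (96000, 1, 1, 1, 0),
    (-2000, 1, 1, 1, 1),
    (-8700, 1, 1, 1, 2),
    (-168000, 1, 1, 2, 0),
    (8500, 1, 1, 2, 1),
    (108000, 1, 1, 3, 0),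
    (-13050, 1, 1, 4, 0),
    (69600, 1, 2, 1, 1),
    (69600, 1, 2, 1, 2),
    (17400, 1, 2, 2, 1),
    (-69600, 1, 2, 3, 0),
    (-34800, 1, 2, 4, 0),
    (-65636, 2, 0, 0, 1),
    (-12000, 2, 0, 0, 2),
    (20736, 2, 0, 1, 0),
    (84000, 2, 0, 1, 1),
    (-85688, 2, 0, 2, 0),
    (-30000, 2, 0, 2, 1),
    (42000, 2, 0, 3, 0),
    (-6525, 2, 0, 4, 0),
    (-80000, 2, 1, 0, 1),
    (-69600, 2, 1, 0, 2),
    (34000, 2, 1, 1, 1),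
    (-8700, 2, 1, 1, 2),
    (240000, 2, 1, 2, 0),
    (-126200, 2, 1, 2, 1),
    (-148800, 2, 1, 3, 0),
    (-13050, 2, 1, 4, 0),
    (96000, 3, 0, 0, 1),
    (21000, 3, 0, 0, 2),
    (-96000, 3, 0, 1, 0),
    (-216000, 3, 0, 1, 1),
    (-17400, 3, 0, 1, 2),
    (168000, 3, 0, 2, 0),
    (74400, 3, 0, 2, 1),
    (126300, 3, 0, 3, 0),
    (-15225, 3, 0, 4, 0),
    (-17400, 4, 0, 0, 2),
    (104400, 4, 0, 1, 1),
    (-34800, 4, 0, 1, 2),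
    (-104400, 4, 0, 2, 0),
    (26100, 4, 0, 2, 1),
    (-60900, 4, 0, 3, 0),
    (87000, 4, 0, 4, 0)]

/-- The four bounds. -/
def bds : Bds := ⟨fnS, fnT, fnN, fnQ⟩

end Vale.Agent.P154.DeBox
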