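import Vale.Agent.P154.DeBoxCertDefs

/-!
Polynomial checks of bound S.
-/

namespace Vale.Agent.P154.DeBox

open Bin

set_option linter.unusedSimpArgs false

theorem okS : okM 8 monsS = true := by decide +kernel

set_option maxHeartbeats 1000000 in
theorem idS (S T P Q : ℝ) : evalM monsS S T P Q =
    (48000 : ℝ) * (fnS.val 1 S T (S ^ 2) (P / 4) (-Q / 8) (P ^ 2 / 16) -
      avgU OForm.joinS p1 rr1 S T (P / 4) (-Q / 8)) := by
  simp only [evalM, monsS, fnS, Fn.val, Mat.bil, avgU, bundle, oneF, p1, rr1, joinTn, joinS2,
    List.foldr_cons, List.foldr_nil, OForm.avg, OForm.pw, OForm.mulw, OForm.mulp, OForm.mulR,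
    OForm.mul, OForm.add, OForm.smul, OForm.joinS, OForm.joinT]
  push_cast
  ring

/-- Coefficients of bound S on the charts LL. -/
def litSLL : Bern.MP 4 :=
  ([[[[208128, 399360, 384000], [2515968, 936960, -1152000], [2262528, -1536000, 864000], [1004544, -952320, 384000], [251136, 768000, -576000], [0, 384000], [0, 0, 96000]], [[5789184, -1187840, -1536000], [16188416, -14602240, 4608000], [-14398976, 16384000, -3456000], [-23005184, 11694080, -1536000], [-6391296, -8192000, 2304000], [-384000, -4096000], [-64000, 0, -384000]], [[-384000, 0, 1024000], [-1792000, 8192000, -3072000], [12928000, -8192000, 2304000], [12800000, -6144000, 1024000], [1920000, 4096000, -1536000], [-768000, 2048000], [-128000, 0, 256000]]], [[[16531968, 7159808, -4864000], [99510272, -76275712, 14592000], [-58950656, 65536000, -10944000], [-108705792, 52731904, -4864000], [-27176448, -32768000, 7296000], [0, -16384000], [0, 0, -1216000]], [[9364224, -20746240, 7424000], [-69082624, 100751360, -22272000], [111326464, -69632000, 16704000], [137419776, -62597120, 7424000], [23794944, 34816000, -11136000],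 [-6336000, 17408000], [-1056000, 0, 1856000]], [[1152000, 0, -3072000], [5376000, -24576000, 9216000], [-38784000, 24576000, -6912000], [-38400000, 18432000, -3072000], [-5760000, -12288000, 4608000], [2304000, -6144000], [384000, 0, -768000]]], [[[69063936, -62259200, 2176000], [-45931520, 103628800, -6528000], [106989056, -10240000, 4896000], [117666816, -38809600, 2176000], [14056704, 5120000, -3264000], [-9216000, 2560000], [-1536000, 0, 544000]], [[-18048000, 22528000, -5120000], [44800000, -78848000, 15360000], [-89728000, 45056000, -11520000], [-102912000, 45056000, -5120000], [-14208000, -22528000, 7680000], [6912000, -11264000], [1152000, 0, -1280000]], [[-864000, 0, 2304000], [-4032000, 18432000, -6912000], [29088000, -18432000, 5184000], [28800000, -13824000, 2304000], [4320000, 9216000, -3456000], [-1728000, 4608000], [-288000, 0, 576000]]], [[[53885952, -61743104, 3584000], [-104902656, 135622656, -10752000], [128784384, -43008000, 8064000], [177139712, -63127552, 3584000], [39164928, 21504000, -5376000], [-3072000, 10752000], [-512000, 0, 896000]], [[-10641408, 16302080,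 -4608000], [41694208, -66437120, 13824000], [-74495488, 41984000, -10368000], [-88686592, 39639040, -4608000], [-13851648, -20992000, 6912000], [4992000, -10496000], [832000, 0, -1152000]], [[-384000, 0, 1024000], [-1792000, 8192000, -3072000], [12928000, -8192000, 2304000], [12800000, -6144000, 1024000], [1920000, 4096000, -1536000], [-768000, 2048000], [-128000, 0, 256000]]], [[[4831488, -10315776, -384000], [-37745664, 26225664, 1152000], [22596096, -10752000, -864000], [50684928, -13221888, -384000], [24191232, 5376000, 576000], [6912000, 2688000], [1152000, 0, -96000]], [[9024000, -11264000, 2560000], [-22400000, 39424000, -7680000], [44864000, -22528000, 5760000], [51456000, -22528000, 2560000], [7104000, 11264000, -3840000], [-3456000, 5632000], [-576000, 0, 640000]], [[576000, 0, -1536000], [2688000, -12288000, 4608000], [-19392000, 12288000, -3456000], [-19200000, 9216000, -1536000], [-2880000, -6144000, 2304000], [1152000, -3072000], [192000, 0, -384000]]], [[[-5184000, 3072000, -768000], [-6912000, -4608000, 2304000], [-5760000, 0, -1728000], [3840000, 1536000, -768000],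 [8640000, 0, 1152000], [4608000, 0], [768000, 0, -192000]], [[4512000, -5632000, 1280000], [-11200000, 19712000, -3840000], [22432000, -11264000, 2880000], [25728000, -11264000, 1280000], [3552000, 5632000, -1920000], [-1728000, 2816000], [-288000, 0, 320000]]], [[[-864000, 512000, -128000], [-1152000, -768000, 384000], [-960000, 0, -288000], [640000, 256000, -128000], [1440000, 0, 192000], [768000, 0], [128000, 0, -32000]], [[0, 0, 0], [0, 0, 0], [0, 0, 0], [0, 0, 0], [0, 0, 0], [0, 0], [0, 0, 0]], [[-96000, 0, 256000], [-448000, 2048000, -768000], [3232000, -2048000, 576000], [3200000, -1536000, 256000], [480000, 1024000, -384000], [-192000, 512000], [-32000, 0, 64000]]]] : List (List (List (List ℤ))))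

theorem eqSLL : poly4 8 true true monsS = litSLL :=
  eq_of_eqb 4 _ _ (by decide +kernel)

set_option maxHeartbeats 2000000 in
theorem goodSLL : Bern.Good 4 [] (poly4 8 true true monsS) := by
  rw [eqSLL]
  exact
    (Bern.good_node (p := []) 0 6 (by norm_num) (by decide +kernel)
      (Bern.good_node (p := [(0, 6, false)]) 1 2 (by norm_num) (by decide +kernel)
        (Bern.good_node (p := [(0, 6, false), (1, 2, false)]) 0 6 (by norm_num) (by decide +kernel)
          (Bern.good_node (p := [(0, 6, false), (1, 2, false), (0, 6, false)]) 1 2 (by norm_num) (by decide +kernel)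
            (Bern.good_node (p := [(0, 6, false), (1, 2, false), (0, 6, false), (1, 2, false)]) 0 6 (by norm_num) (by decide +kernel)
              (Bern.good_leaf (p := [(0, 6, false), (1, 2, false), (0, 6, false), (1, 2, false), (0, 6, false)]) (by decide +kernel))
              (Bern.good_leaf (p := [(0, 6, false), (1, 2, false), (0, 6, false), (1, 2, false), (0, 6, true)]) (by decide +kernel)))
            (Bern.good_leaf (p := [(0, 6, false), (1, 2, false), (0, 6, false), (1, 2, true)]) (by decide +kernel)))
          (Bern.good_leaf (p := [(0, 6, false), (1, 2, false), (0, 6, true)]) (by decide +kernel)))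
        (Bern.good_leaf (p := [(0, 6, false), (1, 2, true)]) (by decide +kernel)))
      (Bern.good_leaf (p := [(0, 6, true)]) (by decide +kernel)))

/-- Coefficients of bound S on the charts LS. -/
def litSLS : Bern.MP 4 :=
  ([[[[540672], [-583680, 1167360, 0], [-36864, 0, 0], [192000, -384000, 0], [96000, -384000, 384000]], [[1474560], [-430080, 860160, 0], [3400704, 0, 0], [1792000, -3584000, 0], [-448000, 1536000, -1536000]], [[], [0, 0, 0], [0, 0, 0], [-512000, 1024000, 0], [128000, -1024000, 1024000]]], [[[7864320], [-10235904, 20471808, 0], [11031552, 0, 0], [9088000, -18176000, 0], [-1216000, 4864000, -4864000]], [[-2211840], [12933120, -25866240, 0], [4114944, 0, 0], [-6272000, 12544000, 0], [800000, -7424000, 7424000]], [[], [0, 0, 0], [0, 0, 0], [1536000, -3072000, 0], [-384000, 3072000, -3072000]]], [[[5701632], [29337600, -58675200, 0], [34312704, 0, 0], [704000, -1408000, 0], [-992000, -2176000, 2176000]], [[], [-12288000, 24576000, 0], [-9216000, 0, 0], [3584000, -7168000, 0], [-128000, 5120000, -5120000]], [[], [0, 0, 0], [0, 0, 0], [-1152000, 2304000, 0], [288000,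 -2304000, 2304000]]], [[[1769472], [34455552, -68911104, 0], [22652928, 0, 0], [-5376000, 10752000, 0], [384000, -3584000, 3584000]], [[737280], [-9431040, 18862080, 0], [-5211648, 0, 0], [3584000, -7168000, 0], [-320000, 4608000, -4608000]], [[], [0, 0, 0], [0, 0, 0], [-512000, 1024000, 0], [128000, -1024000, 1024000]]], [[[442368], [8613888, -17227776, 0], [-2016768, 0, 0], [-3264000, 6528000, 0], [1056000, 384000, -384000]], [[], [6144000, -12288000, 0], [4608000, 0, 0], [-1792000, 3584000, 0], [64000, -2560000, 2560000]], [[], [0, 0, 0], [0, 0, 0], [768000, -1536000, 0], [-192000, 1536000, -1536000]]], [[[], [0, 0, 0], [-4608000, 0, 0], [-1152000, 2304000, 0], [576000, 768000, -768000]], [[], [3072000, -6144000, 0], [2304000, 0, 0], [-896000, 1792000, 0], [32000, -1280000, 1280000]]], [[[], [0, 0, 0], [-768000, 0, 0], [-192000, 384000, 0], [96000, 128000, -128000]], [[], [0, 0, 0], [0, 0, 0], [0, 0, 0], [0, 0, 0]], [[], [0, 0, 0], [0, 0, 0], [-128000, 256000, 0], [32000, -256000, 256000]]]] : List (List (List (List ℤ))))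

theorem eqSLS : poly4 8 true false monsS = litSLS :=
  eq_of_eqb 4 _ _ (by decide +kernel)

set_option maxHeartbeats 2000000 in
theorem goodSLS : Bern.Good 4 [] (poly4 8 true false monsS) := by
  rw [eqSLS]
  exact
    (Bern.good_node (p := []) 2 4 (by norm_num) (by decide +kernel)
      (Bern.good_leaf (p := [(2, 4, false)]) (by decide +kernel))
      (Bern.good_leaf (p := [(2, 4, true)]) (by decide +kernel)))

/-- Coefficients of bound S on the charts SL. -/
def litSSL : Bern.MP 4 :=
  ([[[[479232, 393216], [2211840, -589824], [466944], [-638976, 196608], [-159744]]], [[[2385408, -5038080, 0], [-15710208, 10629120, 0], [3775488, -3072000, 0], [11630592, -4823040, 0], [2907648, 1536000, 0], [0, 768000], [0, 0, 0]], [[-4770816, 10076160, 0], [31420416, -21258240, 0], [-7550976, 6144000, 0], [-23261184, 9646080, 0], [-5815296, -3072000, 0], [0, -1536000], [0, 0, 0]], [[0, 0, 0], [0, 0, 0], [0, 0, 0], [0, 0, 0], [0, 0, 0], [0, 0], [0, 0, 0]]], [[[3391488, -1099776, 0], [9102336, -2958336, 0], [-1211904, 4608000, 0], [-7299072, 2906112, 0], [-3744768, -2304000, 0], [-1152000, -1152000],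 [-192000, 0, 0]], [[0, 0, 0], [0, 0, 0], [0, 0, 0], [0, 0, 0], [0, 0, 0], [0, 0], [0, 0, 0]], [[0, 0, 0], [0, 0, 0], [0, 0, 0], [0, 0, 0], [0, 0, 0], [0, 0], [0, 0, 0]]], [[[-5088000, 5632000, 256000], [8512000, -7424000, -768000], [-3040000, -1024000, 576000], [-6528000, 2048000, 256000], [-672000, 512000, -384000], [576000, 256000], [96000, 0, 64000]], [[10176000, -11264000, -512000], [-17024000, 14848000, 1536000], [6080000, 2048000, -1152000], [13056000, -4096000, -512000], [1344000, -1024000, 768000], [-1152000, -512000], [-192000, 0, -128000]], [[0, 0, 0], [0, 0, 0], [0, 0, 0], [0, 0, 0], [0, 0, 0], [0, 0], [0, 0, 0]]], [[[-960000, 512000, 128000], [-1600000, 1280000, -384000], [2272000, -2048000, 288000], [3840000, -1280000, 128000], [1920000, 1024000, -192000], [576000, 512000], [96000, 0, 32000]], [[384000, 0, -1024000], [1792000, -8192000, 3072000], [-12928000, 8192000, -2304000], [-12800000, 6144000, -1024000], [-1920000, -4096000, 1536000], [768000, -2048000], [128000, 0, -256000]], [[-384000, 0, 1024000], [-1792000, 8192000, -3072000], [12928000, -8192000, 2304000],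 [12800000, -6144000, 1024000], [1920000, 4096000, -1536000], [-768000, 2048000], [-128000, 0, 256000]]]] : List (List (List (List ℤ))))

theorem eqSSL : poly4 8 false true monsS = litSSL :=
  eq_of_eqb 4 _ _ (by decide +kernel)

set_option maxHeartbeats 2000000 in
theorem goodSSL : Bern.Good 4 [] (poly4 8 false true monsS) := by
  rw [eqSSL]
  exact
    (Bern.good_node (p := []) 0 4 (by norm_num) (by decide +kernel)
      (Bern.good_leaf (p := [(0, 4, false)]) (by decide +kernel))
      (Bern.good_node (p := [(0, 4, true)]) 1 2 (by norm_num) (by decide +kernel)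
        (Bern.good_leaf (p := [(0, 4, true), (1, 2, false)]) (by decide +kernel))
        (Bern.good_leaf (p := [(0, 4, true), (1, 2, true)]) (by decide +kernel))))

/-- Coefficients of bound S on the charts SS. -/
def litSSS : Bern.MP 4 :=
  ([[[[835584], [-196608, 393216], [-159744]]], [[[-737280], [3287040, -6574080, 0], [603648, 0, 0], [-768000, 1536000, 0], [0, 0, 0]], [[1474560], [-6574080, 13148160, 0], [-1207296, 0, 0], [1536000, -3072000, 0], [0, 0, 0]], [[], [0, 0, 0], [0, 0, 0], [0, 0, 0], [0, 0, 0]]], [[[442368], [-602112, 1204224, 0], [2591232, 0, 0], [1152000, -2304000, 0], [-192000, 0, 0]], [[], [0, 0, 0], [0, 0, 0], [0, 0, 0], [0, 0, 0]], [[], [0, 0, 0], [0, 0, 0], [0, 0, 0], [0, 0, 0]]], [[[], [-3072000, 6144000, 0], [-2304000, 0, 0], [128000, -256000, 0], [160000, -256000, 256000]], [[], [6144000, -12288000, 0], [4608000, 0, 0], [-256000, 512000, 0], [-320000, 512000, -512000]], [[], [0, 0, 0], [0, 0, 0], [0, 0, 0], [0, 0, 0]]], [[[], [0, 0, 0], [-768000, 0, 0], [-320000, 640000, 0], [128000, -128000, 128000]], [[], [0, 0, 0], [0, 0, 0], [512000, -1024000, 0],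 [-128000, 1024000, -1024000]], [[], [0, 0, 0], [0, 0, 0], [-512000, 1024000, 0], [128000, -1024000, 1024000]]]] : List (List (List (List ℤ))))

theorem eqSSS : poly4 8 false false monsS = litSSS :=
  eq_of_eqb 4 _ _ (by decide +kernel)

set_option maxHeartbeats 2000000 in
theorem goodSSS : Bern.Good 4 [] (poly4 8 false false monsS) := by
  rw [eqSSS]
  exact
    (Bern.good_node (p := []) 0 4 (by norm_num) (by decide +kernel)
      (Bern.good_leaf (p := [(0, 4, false)]) (by decide +kernel))
      (Bern.good_leaf (p := [(0, 4, true)]) (by decide +kernel)))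

theorem certS {l : ℝ} (hl : -(1 / 2) ≤ l) (hl0 : l ≤ 0) : Cert l sq fnS :=
  cert_of term_S form_S (by norm_num : (0 : ℝ) < 48000) okS
    (fun ca cb => match ca, cb with
      | true, true => goodSLL
      | true, false => goodSLS
      | false, true => goodSSL
      | false, false => goodSSS) idS hl hl0

end Vale.Agent.P154.DeBox
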