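import Vale.Agent.P154.BinMain

/-!
Polynomial upper bounds of the joined invariants, one term and their averages over the six
arrangements of the channelled child.
-/

open scoped BigOperators

namespace Vale.Agent.P154.DeBox

open Bin

/-- Evaluation of a coefficient list. -/
def pol : List ℝ → ℝ → ℝ
  | [], _ => 0
  | a :: p, x => a + x * pol p x

/-- A normal form times a polynomial in the first moment. -/
noncomputable def bundle (S T P Q : ℝ) (n : OForm) : List ℝ → OForm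
  | [] => ⟨0, 0, 0, 0, 0, 0, 0, 0⟩
  | c :: cs => OForm.add (OForm.smul c n) (OForm.mulw S T P Q (bundle S T P Q n cs))

lemma val_bundle (a b x y : ℝ) (n : OForm) : ∀ cs : List ℝ,
    (bundle (sI a b) (tI a b) (sI x y) (tI x y) n cs).val a b x y =
      n.val a b x y * pol cs (wM a b x y)
  | [] => by simp [bundle, OForm.val, pol]
  | c :: cs => by
    rw [bundle, OForm.val_add, OForm.val_smul, OForm.val_mulw, val_bundle a b x y n cs]
    simp only [pol]; ring

/-- The constant form. -/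
noncomputable def oneF : OForm := ⟨1, 0, 0, 0, 0, 0, 0, 0⟩

/-- A polynomial multiple of a numerator plus a polynomial in the excess weight. -/
noncomputable def bnd (num : ℝ → ℝ → ℝ → ℝ → ℝ → ℝ) (p rr : List ℝ) (a b u v w : ℝ) : ℝ :=
  num a b u v w * pol p (zf a b u v w) + pol rr (zf a b u v w)

/-- The averaged bound, in the invariants. -/
noncomputable def avgU (N : ℝ → ℝ → ℝ → ℝ → OForm) (p rr : List ℝ) (S T P Q : ℝ) : ℝ :=
  OForm.avg S T P Q (OForm.add (bundle S T P Q (N S T P Q) p) (bundle S T P Q oneF rr))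

/-- A numerator with a normal form. -/
def HasForm (num : ℝ → ℝ → ℝ → ℝ → ℝ → ℝ) (N : ℝ → ℝ → ℝ → ℝ → OForm) : Prop :=
  ∀ a b x y, num a b x y (-x - y) = (N (sI a b) (tI a b) (sI x y) (tI x y)).val a b x y

lemma avg_bnd {num : ℝ → ℝ → ℝ → ℝ → ℝ → ℝ} {N : ℝ → ℝ → ℝ → ℝ → OForm} (h : HasForm num N)
    (p rr : List ℝ) (a b c d : ℝ) :
    avg6 (bnd num p rr a b) c d = avgU N p rr (iS a b) (iT a b) (iS c d) (iT c d) :=
  avg6_form _ a b c d
    (fun S T P Q => OForm.add (bundle S T P Q (N S T P Q) p) (bundle S T P Q oneF rr)) fun x y => by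
    rw [OForm.val_add, val_bundle, val_bundle, ← h, bnd, zf_eq]
    simp [oneF, OForm.val]

/-- Numerator of the negated cubic invariant. -/
noncomputable def nTn (a b u v w : ℝ) : ℝ := -nT a b u v w

/-- Numerator of the squared quadratic invariant. -/
noncomputable def nS2 (a b u v w : ℝ) : ℝ := nS a b u v w ^ 2

/-- Normal form of the negated cubic numerator. -/
noncomputable def joinTn (S T P Q : ℝ) : OForm := OForm.smul (-1) (OForm.joinT S T P Q)

/-- Normal form of the squared quadratic numerator. -/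
noncomputable def joinS2 (S T P Q : ℝ) : OForm :=
  OForm.mul S T P Q (OForm.joinS S T P Q) (OForm.joinS S T P Q)

lemma form_S : HasForm nS OForm.joinS := nS_eq

lemma form_T : HasForm nT OForm.joinT := nT_eq

lemma form_Tn : HasForm nTn joinTn := fun a b x y => by
  rw [nTn, nT_eq, joinTn, OForm.val_smul]; ring

lemma form_S2 : HasForm nS2 joinS2 := fun a b x y => by
  rw [nS2, nS_eq, joinS2, OForm.val_mul, pow_two]

/-- Coefficients of the reciprocal bound. -/
noncomputable def p1 : List ℝ := [1, -1, 1, -1, 2 / 3]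
/-- Coefficients of the reciprocal square bound. -/
noncomputable def p2 : List ℝ := [1, -2, 3, -4, 31 / 10]
/-- Coefficients of the reciprocal cube bound. -/
noncomputable def p3 : List ℝ := [1, -3, 6, -10, 87 / 10]
/-- The remainder of the first bound. -/
noncomputable def rr1 : List ℝ := [0, 0, 0, 0, 1 / 3, -(1 / 3), -(2 / 3)]
/-- The remainder of the second bound. -/
noncomputable def rr2 : List ℝ := [0, 0, 0, 0, 19 / 10, -(3 / 10), -(53 / 10), -(31 / 10)]
/-- The remainder of the third bound. -/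
noncomputable def rr3 : List ℝ :=
  [0, 0, 0, 0, 63 / 10, 42 / 10, -(182 / 10), -(248 / 10), -(87 / 10)]

/-- The joined numerators and the weight. -/
lemma num_all {a b : Spin → ℝ} (ha : InS a) (hb : InS b) :
    let z := zf (a 0 - 1) (a 1 - 1) (b 0 - 1) (b 1 - 1) (b 2 - 1)
    let N := nS (a 0 - 1) (a 1 - 1) (b 0 - 1) (b 1 - 1) (b 2 - 1)
    let K := nT (a 0 - 1) (a 1 - 1) (b 0 - 1) (b 1 - 1) (b 2 - 1)
    zw a b = 1 + z ∧ 0 ≤ zw a b ∧ (zw a b = 0 → N = 0 ∧ K = 0) ∧
      (zw a b ≠ 0 → InS (comb a b) ∧ N = zw a b ^ 2 * sq (comb a b) ∧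
        K = zw a b ^ 3 * cub (comb a b)) := by
  intro z N K
  set Z := zw a b with hZ
  have hZe : Z = (a 0 * b 0 + a 1 * b 1 + a 2 * b 2) / 3 := by
    rw [hZ, zw, Fin.sum_univ_three]
  have ea2 : a 2 = 3 - a 0 - a 1 := by linarith [ha.2]
  have eb2 : b 2 = 3 - b 0 - b 1 := by linarith [hb.2]
  have ez : Z = 1 + z := by simp only [z]; rw [hZe, zf, ea2, eb2]; ring
  have m0 := mul_nonneg (ha.1 0) (hb.1 0)
  have m1 := mul_nonneg (ha.1 1) (hb.1 1)
  have m2 := mul_nonneg (ha.1 2) (hb.1 2)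
  have hzz : zf (a 0 - 1) (a 1 - 1) (b 0 - 1) (b 1 - 1) (b 2 - 1) = Z - 1 := by linarith [ez]
  have eN : N = ((a 0 * b 0 - Z) ^ 2 + (a 1 * b 1 - Z) ^ 2 + (a 2 * b 2 - Z) ^ 2) / 6 := by
    simp only [N, nS]; rw [hzz, ea2, eb2]; ring
  have eK : K = (a 0 * b 0 - Z) * (a 1 * b 1 - Z) * (a 2 * b 2 - Z) / 2 := by
    simp only [K, nT]; rw [hzz, ea2, eb2]; ring
  have hZ0 : 0 ≤ Z := by rw [hZe]; linarith
  refine ⟨ez, hZ0, fun h0 => ?_, fun hne => ?_⟩
  · rw [hZe] at h0
    have c0 : a 0 * b 0 = 0 := by linarith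
    have c1 : a 1 * b 1 = 0 := by linarith
    have c2 : a 2 * b 2 = 0 := by linarith
    rw [eN, eK, hZe, c0, c1, c2]; norm_num
  · have hpos : 0 < Z := lt_of_le_of_ne hZ0 (Ne.symm hne)
    refine ⟨⟨fun i => div_nonneg (mul_nonneg (ha.1 i) (hb.1 i)) hpos.le, ?_⟩, ?_, ?_⟩
    · simp only [comb, ← hZ]
      rw [← add_div, ← add_div, div_eq_iff hpos.ne', hZe]
      ring
    · rw [eN]
      simp only [P154.sq, comb, ← hZ]
      field_simp
    · rw [eK]
      simp only [cub, comb, ← hZ]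
      field_simp

lemma pairing {a b : Spin → ℝ} (ha : InS a) (hb : InS b) :
    0 ≤ (a 0 * b 0 + a 1 * b 1 + a 2 * b 2) / 3 := by
  have := mul_nonneg (ha.1 0) (hb.1 0); have := mul_nonneg (ha.1 1) (hb.1 1)
  have := mul_nonneg (ha.1 2) (hb.1 2); linarith

lemma img_half_inS {x : Spin → ℝ} (hx : InS x) : InS (img (-1 / 2) x) := by
  refine ⟨fun i => ?_, by simp only [img]; linarith [hx.2]⟩
  simp only [img]
  have := hx.2; have := hx.1 0; have := hx.1 1; have := hx.1 2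
  fin_cases i <;> simp <;> linarith

lemma zw_le {a y : Spin → ℝ} (ha : InS a) (hy : InS y) : zw a (img (-1 / 2) y) ≤ 3 / 2 := by
  have h0 := pairing ha hy
  have e' : zw a (img (-1 / 2) y) =
      1 - 1 / 2 * ((a 0 * y 0 + a 1 * y 1 + a 2 * y 2) / 3 - 1) := by
    simp only [zw, img, Fin.sum_univ_three]
    linear_combination (1 / 2 : ℝ) * ha.2
  rw [e']; linarith

/-- A pointwise bound of one joined term. -/
def TermOK (F : (Spin → ℝ) → ℝ) (num : ℝ → ℝ → ℝ → ℝ → ℝ → ℝ) (p rr : List ℝ) : Prop :=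
  ∀ {a y : Spin → ℝ}, InS a → InS y →
    zw a (img (-1 / 2) y) * F (comb a (img (-1 / 2) y)) ≤
      bnd num p rr (a 0 - 1) (a 1 - 1) (img (-1 / 2) y 0 - 1) (img (-1 / 2) y 1 - 1)
        (img (-1 / 2) y 2 - 1)

lemma rem2_nonneg {z : ℝ} (h0 : -1 ≤ z) (h1 : z ≤ 1 / 2) :
    0 ≤ 19 / 10 - 22 / 10 * z - 31 / 10 * z ^ 2 := by
  nlinarith [mul_nonneg (sub_nonneg.2 h0) (sub_nonneg.2 h1)]

lemma rem3_nonneg {z : ℝ} (h0 : -1 ≤ z) (h1 : z ≤ 1 / 2) :
    0 ≤ 63 / 10 - 21 / 10 * z - 161 / 10 * z ^ 2 - 87 / 10 * z ^ 3 := by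
  nlinarith [mul_nonneg (sub_nonneg.2 h0) (sub_nonneg.2 h1), sq_nonneg (z + 1),
    mul_nonneg (mul_nonneg (sub_nonneg.2 h0) (sub_nonneg.2 h1)) (sub_nonneg.2 h0),
    mul_nonneg (mul_nonneg (sub_nonneg.2 h0) (sub_nonneg.2 h1)) (sub_nonneg.2 h1)]

lemma term_S : TermOK sq nS p1 rr1 := by
  intro a y ha hy
  obtain ⟨ez, hZ0, hzero, hf⟩ := num_all ha (img_half_inS hy)
  have hr := zw_le ha hy
  set Z := zw a (img (-1 / 2) y)
  simp only [bnd]
  generalize zf (a 0 - 1) _ _ _ _ = z at ez ⊢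
  generalize nS (a 0 - 1) _ _ _ _ = N at hzero hf ⊢
  have hz4 : 0 ≤ z ^ 4 := by positivity
  have hq : (0 : ℝ) ≤ 1 / 3 - 2 / 3 * z := by linarith
  by_cases h0 : Z = 0
  · obtain ⟨rfl, -⟩ := hzero h0
    have : z = -1 := by linarith
    subst this; simp only [h0, p1, rr1, pol]; norm_num
  · obtain ⟨hc, hN, -⟩ := hf h0
    obtain ⟨-, hs1, -⟩ := inS_facts hc
    have key := mul_le_mul_of_nonneg_left hs1 (mul_nonneg (mul_nonneg hZ0 hz4) hq)
    have h1 : pol p1 z * Z + z ^ 4 * (1 / 3 - 2 / 3 * z) = 1 := by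
      rw [ez]; simp only [p1, pol]; ring
    have h2 : pol rr1 z = Z * (z ^ 4 * (1 / 3 - 2 / 3 * z)) := by
      rw [ez]; simp only [rr1, pol]; ring
    rw [hN, h2]
    linear_combination key - Z * sq (comb a (img (-1 / 2) y)) * h1

lemma term_cub {s : ℝ} (hs : s = 1 ∨ s = -1) :
    TermOK (fun a => s * cub a) (fun a b u v w => s * nT a b u v w) p2 rr2 := by
  intro a y ha hy
  obtain ⟨ez, hZ0, hzero, hf⟩ := num_all ha (img_half_inS hy)
  have hr := zw_le ha hy
  set Z := zw a (img (-1 / 2) y)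
  simp only [bnd]
  generalize zf (a 0 - 1) _ _ _ _ = z at ez ⊢
  generalize nT (a 0 - 1) _ _ _ _ = K at hzero hf ⊢
  have hz4 : 0 ≤ z ^ 4 := by positivity
  have hq := rem2_nonneg (z := z) (by linarith) (by linarith)
  by_cases h0 : Z = 0
  · obtain ⟨-, rfl⟩ := hzero h0
    have : z = -1 := by linarith
    subst this; simp only [h0, p2, rr2, pol]; norm_num
  · obtain ⟨hc, -, hK⟩ := hf h0
    obtain ⟨-, hs1, -, hct, -⟩ := inS_facts hc
    have hc1 : s * cub (comb a (img (-1 / 2) y)) ≤ 1 := by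
      rcases hs with rfl | rfl <;> linarith [(abs_le.1 hct).1, (abs_le.1 hct).2]
    have key := mul_le_mul_of_nonneg_left hc1 (mul_nonneg (mul_nonneg hZ0 hz4) hq)
    have h1 : pol p2 z * Z ^ 2 + z ^ 4 * (19 / 10 - 22 / 10 * z - 31 / 10 * z ^ 2) = 1 := by
      rw [ez]; simp only [p2, pol]; ring
    have h2 : pol rr2 z = Z * (z ^ 4 * (19 / 10 - 22 / 10 * z - 31 / 10 * z ^ 2)) := by
      rw [ez]; simp only [rr2, pol]; ring
    rw [hK, h2]
    linear_combination key - Z * (s * cub (comb a (img (-1 / 2) y))) * h1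

lemma term_T : TermOK cub nT p2 rr2 := by
  intro a y ha hy
  have h := term_cub (Or.inl rfl) ha hy
  simpa [bnd] using h

lemma term_Tn : TermOK (fun a => -cub a) nTn p2 rr2 := by
  intro a y ha hy
  have h := term_cub (Or.inr rfl) ha hy
  have e : (fun a b u v w : ℝ => (-1 : ℝ) * nT a b u v w) = nTn := by
    funext a b u v w; simp [nTn]
  rw [e] at h
  simpa using h

lemma term_S2 : TermOK (fun a => sq a ^ 2) nS2 p3 rr3 := by
  intro a y ha hy
  obtain ⟨ez, hZ0, hzero, hf⟩ := num_all ha (img_half_inS hy)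
  have hr := zw_le ha hy
  set Z := zw a (img (-1 / 2) y)
  simp only [bnd, nS2]
  generalize zf (a 0 - 1) _ _ _ _ = z at ez ⊢
  generalize nS (a 0 - 1) _ _ _ _ = N at hzero hf ⊢
  have hz4 : 0 ≤ z ^ 4 := by positivity
  have hq := rem3_nonneg (z := z) (by linarith) (by linarith)
  by_cases h0 : Z = 0
  · obtain ⟨rfl, -⟩ := hzero h0
    have : z = -1 := by linarith
    subst this; simp only [h0, p3, rr3, pol]; norm_num
  · obtain ⟨hc, hN, -⟩ := hf h0
    obtain ⟨hs0, hs1, -⟩ := inS_facts hc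
    have key := mul_le_mul_of_nonneg_left (pow_le_one₀ (n := 2) hs0 hs1)
      (mul_nonneg (mul_nonneg hZ0 hz4) hq)
    have h1 : pol p3 z * Z ^ 3 + z ^ 4 * (63 / 10 - 21 / 10 * z - 161 / 10 * z ^ 2 -
        87 / 10 * z ^ 3) = 1 := by
      rw [ez]; simp only [p3, pol]; ring
    have h2 : pol rr3 z = Z * (z ^ 4 * (63 / 10 - 21 / 10 * z - 161 / 10 * z ^ 2 -
        87 / 10 * z ^ 3)) := by
      rw [ez]; simp only [rr3, pol]; ring
    rw [hN, h2]
    linear_combination key - Z * sq (comb a (img (-1 / 2) y)) ^ 2 * h1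

/-- The averaged bound of the six joined terms. -/
theorem avg_le {F : (Spin → ℝ) → ℝ} {num : ℝ → ℝ → ℝ → ℝ → ℝ → ℝ}
    {N : ℝ → ℝ → ℝ → ℝ → OForm} {p rr : List ℝ} (hF : TermOK F num p rr) (hN : HasForm num N)
    {a y : Spin → ℝ} (ha : InS a) (hy : InS y) :
    (1 / 6 : ℝ) * ∑ σ : Equiv.Perm Spin, zw a (fun i => img (-1 / 2) y (σ i)) *
        F (comb a (fun i => img (-1 / 2) y (σ i)))
      ≤ avgU N p rr (sq a) (cub a) (sq y / 4) (-cub y / 8) := by
  have fun_img : ∀ σ : Equiv.Perm Spin,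
      (fun i => img (-1 / 2) y (σ i)) = img (-1 / 2) ![y (σ 0), y (σ 1), y (σ 2)] := fun σ => by
    funext i; fin_cases i <;> rfl
  simp only [fun_img]
  rw [sum_perm_spin (fun i j k => zw a (img (-1 / 2) ![y i, y j, y k]) *
    F (comb a (img (-1 / 2) ![y i, y j, y k])))]
  have t : ∀ i j k : Spin, y i + y j + y k = 3 →
      zw a (img (-1 / 2) ![y i, y j, y k]) * F (comb a (img (-1 / 2) ![y i, y j, y k])) ≤
      bnd num p rr (a 0 - 1) (a 1 - 1) (img (-1 / 2) y i - 1)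
        (img (-1 / 2) y j - 1) (img (-1 / 2) y k - 1) := fun i j k hs => by
    have := hF ha (inS_perm hy hs)
    simpa [img] using this
  have hy3 := hy.2
  have s1 := t 0 1 2 (by linarith); have s2 := t 0 2 1 (by linarith)
  have s3 := t 1 0 2 (by linarith); have s4 := t 1 2 0 (by linarith)
  have s5 := t 2 0 1 (by linarith); have s6 := t 2 1 0 (by linarith)
  obtain ⟨-, -, -, -, a1, a2⟩ := inS_facts ha
  obtain ⟨-, -, -, -, b1, b2⟩ := inS_facts (img_half_inS hy)
  have y1 : sq (img (-1 / 2) y) = sq y / 4 := by simp only [P154.sq, img]; ring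
  have y2 : cub (img (-1 / 2) y) = -cub y / 8 := by simp only [cub, img]; ring
  have y3 : -(img (-1 / 2) y 0 - 1) - (img (-1 / 2) y 1 - 1) = img (-1 / 2) y 2 - 1 := by
    linarith [(img_half_inS hy).2]
  have hT := avg_bnd hN p rr (a 0 - 1) (a 1 - 1) (img (-1 / 2) y 0 - 1) (img (-1 / 2) y 1 - 1)
  simp only [avg6] at hT
  rw [← a1, ← a2, ← b1, ← b2, y1, y2, y3] at hT
  linarith

end Vale.Agent.P154.DeBox
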