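import Vale.Agent.P154.Chain

/-!
Bilinear bounds for one join and the propagation of a box of three moments through the joins
of one level, with a decidable test.
-/

open scoped BigOperators
open Filter

namespace Vale.Agent.P154.DeBox

/-- A three by three matrix of rationals. -/
structure Mat where
  /-- entry -/
  a11 : ℚ
  /-- entry -/
  a12 : ℚ
  /-- entry -/
  a13 : ℚ
  /-- entry -/
  a21 : ℚ
  /-- entry -/
  a22 : ℚ
  /-- entry -/
  a23 : ℚ
  /-- entry -/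
  a31 : ℚ
  /-- entry -/
  a32 : ℚ
  /-- entry -/
  a33 : ℚ

/-- The bilinear form of a matrix. -/
noncomputable def Mat.bil (q : Mat) (a1 a2 a3 b1 b2 b3 : ℝ) : ℝ :=
  (a1 * q.a11 + a2 * q.a21 + a3 * q.a31) * b1 + (a1 * q.a12 + a2 * q.a22 + a3 * q.a32) * b2
    + (a1 * q.a13 + a2 * q.a23 + a3 * q.a33) * b3

/-- A bound: the linear weights and the bilinear matrix. -/
structure Fn where
  /-- first weight -/
  g1 : ℚ
  /-- second weight -/
  g2 : ℚ
  /-- third weight -/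
  g3 : ℚ
  /-- matrix -/
  q : Mat

/-- The value of a bound at scale `X`. -/
noncomputable def Fn.val (f : Fn) (X a1 a2 a3 b1 b2 b3 : ℝ) : ℝ :=
  f.g1 * (a1 + b1) + f.g2 * (a2 + b2) + f.g3 * (a3 + b3) + X * f.q.bil a1 a2 a3 b1 b2 b3

/-- Three intervals. -/
structure Iv where
  /-- lower end -/
  l1 : ℚ
  /-- upper end -/
  h1 : ℚ
  /-- lower end -/
  l2 : ℚ
  /-- upper end -/
  h2 : ℚ
  /-- lower end -/
  l3 : ℚ
  /-- upper end -/
  h3 : ℚ

/-- Membership in three intervals. -/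
def Iv.Mem (B : Iv) (b1 b2 b3 : ℝ) : Prop :=
  ((B.l1 : ℝ) ≤ b1 ∧ b1 ≤ B.h1) ∧ ((B.l2 : ℝ) ≤ b2 ∧ b2 ≤ B.h2) ∧ ((B.l3 : ℝ) ≤ b3 ∧ b3 ≤ B.h3)

/-- The larger value of a linear function at the ends of an interval. -/
def m2 (lo hi c : ℚ) : ℚ := max (lo * c) (hi * c)

/-- The value at a corner, maximised over the child. -/
def hb (f : Fn) (B : Iv) (X a1 a2 a3 : ℚ) : ℚ :=
  f.g1 * a1 + f.g2 * a2 + f.g3 * a3
    + m2 B.l1 B.h1 (f.g1 + X * (a1 * f.q.a11 + a2 * f.q.a21 + a3 * f.q.a31))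
    + m2 B.l2 B.h2 (f.g2 + X * (a1 * f.q.a12 + a2 * f.q.a22 + a3 * f.q.a32))
    + m2 B.l3 B.h3 (f.g3 + X * (a1 * f.q.a13 + a2 * f.q.a23 + a3 * f.q.a33))

/-- The larger value at two points. -/
def mx (lo hi : ℚ) (g : ℚ → ℚ) : ℚ := max (g lo) (g hi)

/-- The maximum over all corners. -/
def top (f : Fn) (x0 x1 : ℚ) (A B : Iv) : ℚ :=
  mx x0 x1 fun X => mx A.l1 A.h1 fun a1 => mx A.l2 A.h2 fun a2 => mx A.l3 A.h3 fun a3 =>
    hb f B X a1 a2 a3

lemma le_mx {lo hi : ℚ} {x : ℝ} (h : (lo : ℝ) ≤ x ∧ x ≤ hi) {v : ℝ → ℝ} {g : ℚ → ℚ}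
    (haff : ∀ s t z : ℝ, v (s + z * (t - s)) = v s + z * (v t - v s))
    (hg : ∀ q : ℚ, v q ≤ g q) : v x ≤ (mx lo hi g : ℚ) := by
  rw [mx, Rat.cast_max]
  refine le_trans ?_ (max_le_max (hg lo) (hg hi))
  rcases eq_or_lt_of_le (h.1.trans h.2) with he | hlt
  · have : x = lo := le_antisymm (he ▸ h.2) h.1
    subst this; exact le_max_left _ _
  · have hne : (hi : ℝ) - lo ≠ 0 := (sub_pos.2 hlt).ne'
    set z := (x - lo) / ((hi : ℝ) - lo) with hz
    have ex : x = lo + z * ((hi : ℝ) - lo) := by rw [hz, div_mul_cancel₀ _ hne]; ring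
    have z0 : 0 ≤ z := div_nonneg (by linarith [h.1]) (by linarith)
    have z1 : z ≤ 1 := (div_le_one (by linarith)).2 (by linarith [h.2])
    rw [ex, haff]
    rcases le_total (v lo) (v hi) with hv | hv
    · exact le_max_of_le_right (by nlinarith)
    · exact le_max_of_le_left (by nlinarith)

lemma le_m2 {lo hi : ℚ} {x : ℝ} (h : (lo : ℝ) ≤ x ∧ x ≤ hi) (c : ℚ) :
    x * (c : ℝ) ≤ (m2 lo hi c : ℚ) := by
  have := le_mx h (v := fun y => y * (c : ℝ)) (g := fun q => q * c) (fun s t z => by ring)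
    (fun q => le_of_eq (by push_cast; rfl))
  exact this

lemma val_le_top (f : Fn) {x0 x1 : ℚ} {A B : Iv} {X a1 a2 a3 b1 b2 b3 : ℝ}
    (hX : (x0 : ℝ) ≤ X ∧ X ≤ x1) (hA : A.Mem a1 a2 a3) (hB : B.Mem b1 b2 b3) :
    f.val X a1 a2 a3 b1 b2 b3 ≤ (top f x0 x1 A B : ℚ) := by
  refine le_mx hX (v := fun Y => f.val Y a1 a2 a3 b1 b2 b3)
    (fun s t z => by simp only [Fn.val]; ring) fun Y => ?_
  refine le_mx hA.1 (v := fun w => f.val Y w a2 a3 b1 b2 b3)
    (fun s t z => by simp only [Fn.val, Mat.bil]; ring) fun c1 => ?_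
  refine le_mx hA.2.1 (v := fun w => f.val Y c1 w a3 b1 b2 b3)
    (fun s t z => by simp only [Fn.val, Mat.bil]; ring) fun c2 => ?_
  refine le_mx hA.2.2 (v := fun w => f.val Y c1 c2 w b1 b2 b3)
    (fun s t z => by simp only [Fn.val, Mat.bil]; ring) fun c3 => ?_
  have i1 := le_m2 hB.1 (f.g1 + Y * (c1 * f.q.a11 + c2 * f.q.a21 + c3 * f.q.a31))
  have i2 := le_m2 hB.2.1 (f.g2 + Y * (c1 * f.q.a12 + c2 * f.q.a22 + c3 * f.q.a32))
  have i3 := le_m2 hB.2.2 (f.g3 + Y * (c1 * f.q.a13 + c2 * f.q.a23 + c3 * f.q.a33))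
  simp only [hb, Fn.val, Mat.bil]
  push_cast at i1 i2 i3 ⊢
  linarith

/-- The least value of a linear form on three intervals. -/
def low (B : Iv) (c1 c2 c3 : ℚ) : ℚ :=
  min (B.l1 * c1) (B.h1 * c1) + min (B.l2 * c2) (B.h2 * c2) + min (B.l3 * c3) (B.h3 * c3)

lemma min_le_mul {lo hi : ℚ} {x : ℝ} (h : (lo : ℝ) ≤ x ∧ x ≤ hi) (c : ℚ) :
    ((min (lo * c) (hi * c) : ℚ) : ℝ) ≤ x * c := by
  have := le_m2 h (-c)
  rw [show m2 lo hi (-c) = -min (lo * c) (hi * c) by
    simp [m2, max_neg_neg]] at this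
  push_cast at this ⊢
  linarith

lemma low_le {B : Iv} {b1 b2 b3 : ℝ} (hB : B.Mem b1 b2 b3) (c1 c2 c3 : ℚ) :
    ((low B c1 c2 c3 : ℚ) : ℝ) ≤ b1 * c1 + b2 * c2 + b3 * c3 := by
  have := min_le_mul hB.1 c1; have := min_le_mul hB.2.1 c2; have := min_le_mul hB.2.2 c3
  simp only [low]; push_cast at *; linarith

/-- The four bounds. -/
structure Bds where
  /-- for the squared distance -/
  fS : Fn
  /-- for the cubic invariant -/
  fT : Fn
  /-- for its negation -/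
  fN : Fn
  /-- for the squared squared distance -/
  fQ : Fn

/-- A box of moments: `E sq ≤ X`, `-tm X ≤ E cub ≤ tp X`, `E sq² ≤ eta X`. -/
structure Bx where
  /-- scale -/
  X : ℚ
  /-- lower ratio -/
  tm : ℚ
  /-- upper ratio -/
  tp : ℚ
  /-- square ratio -/
  eta : ℚ

/-- The state after some joins. -/
structure St where
  /-- linear weight -/
  u : ℚ
  /-- decrease -/
  be : ℚ
  /-- lower ratio -/
  p : ℚ
  /-- upper ratio -/
  t : ℚ
  /-- square ratio -/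
  s : ℚ

/-- The intervals of a channelled child. -/
def child (r c : ℚ) (b : Bx) : Iv :=
  ⟨0, r, -(c * r * b.tp), c * r * b.tm, 0, b.eta * r ^ 2⟩

/-- The state after one child. -/
def st1 (r c : ℚ) (b : Bx) : St := ⟨r, 0, c * r * b.tp, c * r * b.tm, b.eta * r ^ 2⟩

/-- The intervals of a state. -/
def stIv (X1 : ℚ) (σ : St) : Iv :=
  ⟨0, σ.u + max 0 (-σ.be) * X1, -σ.p, σ.t, 0, σ.s⟩

/-- The next state. -/
def nextSt (C : Bds) (r X1 : ℚ) (B : Iv) (σ : St) : St :=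
  ⟨σ.u + r,
    σ.be - top ⟨0, 0, 0, C.fS.q⟩ 1 1
      { stIv X1 σ with l1 := σ.u - max 0 σ.be * X1 } { B with l1 := r },
    max 0 (top C.fN 0 X1 (stIv X1 σ) B),
    max 0 (top C.fT 0 X1 (stIv X1 σ) B),
    max 0 (top C.fQ 0 X1 (stIv X1 σ) B)⟩

/-- The squared distance is monotone on the box. -/
def okStep (C : Bds) (X1 : ℚ) (B : Iv) (σ : St) : Bool :=
  decide (0 ≤ 1 + X1 * low B C.fS.q.a11 C.fS.q.a12 C.fS.q.a13) &&
    decide (0 ≤ 1 + X1 * low (stIv X1 σ) C.fS.q.a11 C.fS.q.a21 C.fS.q.a31)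

/-- All joins of a level from the state `σ` on. -/
def runFrom (C : Bds) (r X1 : ℚ) (B : Iv) : ℕ → St → Option St
  | 0, σ => some σ
  | k + 1, σ =>
    if okStep C X1 B σ then runFrom C r X1 B k (nextSt C r X1 B σ) else none

/-- A level of the `d`-ary tree. -/
def runLevel (C : Bds) (d : ℕ) (c : ℚ) (b : Bx) : Option St :=
  runFrom C (1 / d) b.X (child (1 / d) c b) (d - 1) (st1 (1 / d) c b)

/-- The box maps into another one. -/
def okTo (C : Bds) (d : ℕ) (c : ℚ) (b b' : Bx) : Bool :=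
  match runLevel C d c b with
  | none => false
  | some σ => decide (b.X - σ.be * b.X ^ 2 ≤ b'.X) && decide (σ.p * b.X ≤ b'.tm * b'.X) &&
      decide (σ.t * b.X ≤ b'.tp * b'.X) && decide (σ.s * b.X ≤ b'.eta * b'.X)

/-- The box shrinks into itself at every smaller scale. -/
def okSelf (C : Bds) (d : ℕ) (c : ℚ) (b : Bx) : Bool :=
  match runLevel C d c b with
  | none => false
  | some σ => decide (0 < σ.be) && decide (σ.be * b.X < 1) &&
      decide (σ.p ≤ b.tm * (1 - σ.be * b.X)) && decide (σ.t ≤ b.tp * (1 - σ.be * b.X)) &&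
      decide (σ.s ≤ b.eta * (1 - σ.be * b.X))

/-- A list of boxes, each mapped into the next and the last into itself. -/
def okList (C : Bds) (d : ℕ) (c : ℚ) : List Bx → Bool
  | [] => false
  | [b] => decide (0 < b.X) && okSelf C d c b
  | b :: b' :: L => decide (0 < b.X) && okTo C d c b b' && okList C d c (b' :: L)

/-- A pointwise bound at the edge parameter `l`. -/
def Cert (l : ℝ) (F : (Spin → ℝ) → ℝ) (f : Fn) : Prop :=
  ∀ a y, InS a → InS y →
    (1 / 6 : ℝ) * ∑ σ : Equiv.Perm Spin, zw a (fun i => img l y (σ i)) *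
        F (comb a (fun i => img l y (σ i)))
      ≤ f.val 1 (sq a) (cub a) (sq a ^ 2) (l ^ 2 * sq y) (l ^ 3 * cub y) (l ^ 4 * sq y ^ 2)

/-- The four pointwise bounds. -/
structure Certs (l : ℝ) (C : Bds) : Prop where
  cS : Cert l sq C.fS
  cT : Cert l cub C.fT
  cN : Cert l (fun a => -cub a) C.fN
  cQ : Cert l (fun a => sq a ^ 2) C.fQ
  g1 : C.fS.g1 = 1
  g2 : C.fS.g2 = 0
  g3 : C.fS.g3 = 0

variable {ι κ : Type} [Fintype ι] [Fintype κ] {l : ℝ}

/-- The joining bound with a bound that depends on both posteriors. -/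
lemma expect_join_le_two {ψ : (Spin → ℝ) → ℝ} {G : (Spin → ℝ) → (Spin → ℝ) → ℝ}
    {f : ι → Spin → ℝ} {g : κ → Spin → ℝ} (hf : Fam f) (hg : Fam g)
    (hstep : ∀ a y, InS a → InS y →
      (1 / 6 : ℝ) * ∑ σ : Equiv.Perm Spin,
          zw a (fun i => img l y (σ i)) * ψ (comb a (fun i => img l y (σ i))) ≤ G a y) :
    expect ψ (join l f g) ≤ ∑ j, ∑ k, wt (f j) * wt (g k) * G (post (f j)) (post (g k)) := by
  classical
  let F : (Spin → ℝ) → (Spin → ℝ) → ℝ := fun a b => zw a b * ψ (comb a b)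
  have h1 : expect ψ (join l f g) = ∑ j, ∑ k, wt (f j) * wt (g k) *
      F (post (f j)) (img l (post (g k))) := by
    simp only [expect, Fintype.sum_prod_type]
    exact Finset.sum_congr rfl fun j _ => Finset.sum_congr rfl fun k _ =>
      join_term ψ (hf.nonneg j) (hg.nonneg k)
  have h2 : ∀ σ : Equiv.Perm Spin, ∀ j, ∑ k, wt (g k) * F (post (f j)) (img l (post (g k))) =
      ∑ k, wt (g k) * F (post (f j)) (fun i => img l (post (g k)) (σ i)) := fun σ j => by
    obtain ⟨e, he⟩ := hg.equiv σ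
    rw [← Equiv.sum_comp e (fun k => wt (g k) * F (post (f j)) (img l (post (g k))))]
    refine Finset.sum_congr rfl fun k _ => ?_
    obtain ⟨hw, hp⟩ := post_perm σ (he k)
    have : img l (post (g (e k))) = fun i => img l (post (g k)) (σ i) := by
      funext i; simp [img, hp i]
    rw [hw, this]
  have h6 : (Fintype.card (Equiv.Perm Spin) : ℝ) = 6 := by
    rw [Fintype.card_perm, Fintype.card_fin]; norm_num [Nat.factorial]
  rw [h1]
  refine Finset.sum_le_sum fun j _ => ?_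
  calc ∑ k, wt (f j) * wt (g k) * F (post (f j)) (img l (post (g k)))
      = (1 / 6 : ℝ) * ∑ _σ : Equiv.Perm Spin,
          wt (f j) * ∑ k, wt (g k) * F (post (f j)) (img l (post (g k))) := by
        rw [Finset.sum_const, Finset.card_univ, nsmul_eq_mul, h6, Finset.mul_sum]
        simp only [mul_assoc]; ring_nf
    _ = ∑ k, wt (f j) * wt (g k) * ((1 / 6 : ℝ) * ∑ σ : Equiv.Perm Spin,
          F (post (f j)) (fun i => img l (post (g k)) (σ i))) := by
        rw [Finset.sum_congr rfl fun σ _ => by rw [h2 σ j], ← Finset.mul_sum, Finset.sum_comm,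
          Finset.mul_sum, Finset.mul_sum]
        refine Finset.sum_congr rfl fun k _ => ?_
        rw [← Finset.mul_sum]; ring
    _ ≤ _ := Finset.sum_le_sum fun k _ => mul_le_mul_of_nonneg_left
        (hstep _ _ (post_inS (hf.nonneg j)) (post_inS (hg.nonneg k)))
        (mul_nonneg (wt_nonneg (hf.nonneg j)) (wt_nonneg (hg.nonneg k)))

lemma dsum_val (fn : Fn) {f : ι → Spin → ℝ} {g : κ → Spin → ℝ} (hf : Fam f) (hg : Fam g)
    (A1 A2 A3 B1 B2 B3 : (Spin → ℝ) → ℝ) :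
    ∑ j, ∑ k, wt (f j) * wt (g k) * fn.val 1 (A1 (post (f j))) (A2 (post (f j))) (A3 (post (f j)))
        (B1 (post (g k))) (B2 (post (g k))) (B3 (post (g k)))
      = fn.val 1 (expect A1 f) (expect A2 f) (expect A3 f) (expect B1 g) (expect B2 g)
          (expect B3 g) := by
  have hl : ∀ A : (Spin → ℝ) → ℝ,
      ∑ j, ∑ k, wt (f j) * wt (g k) * A (post (f j)) = expect A f := fun A => by
    simp only [expect]
    refine Finset.sum_congr rfl fun j _ => ?_
    rw [← Finset.sum_mul, ← Finset.mul_sum, sum_wt_one hg, mul_one]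
  have hr : ∀ B : (Spin → ℝ) → ℝ,
      ∑ j, ∑ k, wt (f j) * wt (g k) * B (post (g k)) = expect B g := fun B => by
    simp only [expect]
    rw [Finset.sum_comm]
    refine Finset.sum_congr rfl fun k _ => ?_
    rw [← Finset.sum_mul, ← Finset.sum_mul, sum_wt_one hf, one_mul]
  have hm : ∀ A B : (Spin → ℝ) → ℝ,
      ∑ j, ∑ k, wt (f j) * wt (g k) * (A (post (f j)) * B (post (g k))) =
        expect A f * expect B g := fun A B => by
    rw [expect, expect, Finset.sum_mul_sum]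
    exact Finset.sum_congr rfl fun j _ => Finset.sum_congr rfl fun k _ => by ring
  have e : ∀ j k, wt (f j) * wt (g k) * fn.val 1 (A1 (post (f j))) (A2 (post (f j))) (A3 (post (f j))) (B1 (post (g k))) (B2 (post (g k))) (B3 (post (g k))) =
      (fn.g1 : ℝ) * (wt (f j) * wt (g k) * A1 (post (f j))) +
      (fn.g2 : ℝ) * (wt (f j) * wt (g k) * A2 (post (f j))) +
      (fn.g3 : ℝ) * (wt (f j) * wt (g k) * A3 (post (f j))) +
      (fn.g1 : ℝ) * (wt (f j) * wt (g k) * B1 (post (g k))) +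
      (fn.g2 : ℝ) * (wt (f j) * wt (g k) * B2 (post (g k))) +
      (fn.g3 : ℝ) * (wt (f j) * wt (g k) * B3 (post (g k))) +
      (fn.q.a11 : ℝ) * (wt (f j) * wt (g k) * (A1 (post (f j)) * B1 (post (g k)))) +
      (fn.q.a12 : ℝ) * (wt (f j) * wt (g k) * (A1 (post (f j)) * B2 (post (g k)))) +
      (fn.q.a13 : ℝ) * (wt (f j) * wt (g k) * (A1 (post (f j)) * B3 (post (g k)))) +
      (fn.q.a21 : ℝ) * (wt (f j) * wt (g k) * (A2 (post (f j)) * B1 (post (g k)))) +
      (fn.q.a22 : ℝ) * (wt (f j) * wt (g k) * (A2 (post (f j)) * B2 (post (g k)))) +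
      (fn.q.a23 : ℝ) * (wt (f j) * wt (g k) * (A2 (post (f j)) * B3 (post (g k)))) +
      (fn.q.a31 : ℝ) * (wt (f j) * wt (g k) * (A3 (post (f j)) * B1 (post (g k)))) +
      (fn.q.a32 : ℝ) * (wt (f j) * wt (g k) * (A3 (post (f j)) * B2 (post (g k)))) +
      (fn.q.a33 : ℝ) * (wt (f j) * wt (g k) * (A3 (post (f j)) * B3 (post (g k)))) := fun j k => by
    simp only [Fn.val, Mat.bil]; ring
  simp only [e, Finset.sum_add_distrib, ← Finset.mul_sum, hl, hr, hm]
  simp only [Fn.val, Mat.bil]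
  ring

/-- The three moments after a join are bounded by the value of each bound. -/
lemma join_val {F : (Spin → ℝ) → ℝ} {fn : Fn} (hF : Cert l F fn)
    {f : ι → Spin → ℝ} {g : κ → Spin → ℝ} (hf : Fam f) (hg : Fam g) :
    expect F (join l f g) ≤ fn.val 1 (expect sq f) (expect cub f) (expect (fun a => sq a ^ 2) f)
      (l ^ 2 * expect sq g) (l ^ 3 * expect cub g) (l ^ 4 * expect (fun a => sq a ^ 2) g) := by
  refine (expect_join_le_two hf hg hF).trans (le_of_eq ?_)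
  rw [dsum_val fn hf hg sq cub (fun a => sq a ^ 2) (fun y => l ^ 2 * sq y) (fun y => l ^ 3 * cub y)
    (fun y => l ^ 4 * sq y ^ 2)]
  simp only [expect, Finset.mul_sum]
  congr 1 <;> exact Finset.sum_congr rfl fun _ _ => by ring

/-- The moments lie in a state at scale `X`. -/
def InSt (σ : St) (X x τ s : ℝ) : Prop :=
  0 ≤ x ∧ x ≤ σ.u * X - σ.be * X ^ 2 ∧ -(σ.p * X) ≤ τ ∧ τ ≤ σ.t * X ∧ 0 ≤ s ∧ s ≤ σ.s * X

/-- One join. -/
lemma join_step {C : Bds} (hC : Certs l C) (hl : -(1 / 2) ≤ l) (hu : l ≤ 1)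
    {r X1 : ℚ} {B : Iv} {σ : St} (hok : okStep C X1 B σ = true) (hB1 : B.l1 = 0) (hBr : B.h1 = r)
    {X : ℝ} (hX0 : 0 < X) (hX : X ≤ X1)
    {f : ι → Spin → ℝ} {g : κ → Spin → ℝ} (hf : Fam f) (hg : Fam g)
    (hin : InSt σ X (expect sq f) (expect cub f) (expect (fun a => sq a ^ 2) f))
    (hb : B.Mem (l ^ 2 * expect sq g / X) (l ^ 3 * expect cub g / X)
      (l ^ 4 * expect (fun a => sq a ^ 2) g / X)) :
    InSt (nextSt C r X1 B σ) X (expect sq (join l f g)) (expect cub (join l f g))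
      (expect (fun a => sq a ^ 2) (join l f g)) := by
  simp only [okStep, Bool.and_eq_true, decide_eq_true_eq] at hok
  obtain ⟨hk1, hk2⟩ := hok
  have hk1' : (0 : ℝ) ≤ 1 + (X1 : ℝ) * (low B C.fS.q.a11 C.fS.q.a12 C.fS.q.a13 : ℚ) := by
    exact_mod_cast hk1
  have hk2' : (0 : ℝ) ≤ 1 + (X1 : ℝ) * (low (stIv X1 σ) C.fS.q.a11 C.fS.q.a21 C.fS.q.a31 : ℚ) := by
    exact_mod_cast hk2
  obtain ⟨x0, x1, t0, t1, s0, s1⟩ := hin
  set a1 := expect sq f / X
  set a2 := expect cub f / X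
  set a3 := expect (fun a => sq a ^ 2) f / X
  set b1 := l ^ 2 * expect sq g / X
  set b2 := l ^ 3 * expect cub g / X
  set b3 := l ^ 4 * expect (fun a => sq a ^ 2) g / X
  have bX : (0 : ℝ) ≤ X1 := hX0.le.trans hX
  have ha1 : a1 ≤ σ.u - σ.be * X := by
    rw [div_le_iff₀ hX0]; linarith
  have hneg : -(σ.be : ℝ) * X ≤ max 0 (-(σ.be : ℝ)) * X1 :=
    (mul_le_mul_of_nonneg_right (le_max_right 0 _) hX0.le).trans
      (mul_le_mul_of_nonneg_left hX (le_max_left 0 _))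
  have hpos : (σ.be : ℝ) * X ≤ max 0 (σ.be : ℝ) * X1 :=
    (mul_le_mul_of_nonneg_right (le_max_right 0 _) hX0.le).trans
      (mul_le_mul_of_nonneg_left hX (le_max_left 0 _))
  have hA : (stIv X1 σ).Mem a1 a2 a3 := by
    refine ⟨⟨?_, ?_⟩, ⟨?_, ?_⟩, ?_, ?_⟩ <;> simp only [stIv] <;> push_cast
    · exact div_nonneg x0 hX0.le
    · linarith
    · rw [le_div_iff₀ hX0]; linarith
    · rw [div_le_iff₀ hX0]; linarith
    · exact div_nonneg s0 hX0.le
    · rw [div_le_iff₀ hX0]; linarith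
  have scale : ∀ {F : (Spin → ℝ) → ℝ} {fn : Fn}, Cert l F fn →
      expect F (join l f g) ≤ X * fn.val X a1 a2 a3 b1 b2 b3 := by
    intro F fn hF
    refine (join_val hF hf hg).trans (le_of_eq ?_)
    simp only [Fn.val, Mat.bil, a1, a2, a3, b1, b2, b3]
    field_simp
  have hXX : ((0 : ℚ) : ℝ) ≤ X ∧ X ≤ X1 := ⟨by simpa using hX0.le, hX⟩
  have side : ∀ {F : (Spin → ℝ) → ℝ} {fn : Fn}, Cert l F fn →
      expect F (join l f g) ≤ ((max 0 (top fn 0 X1 (stIv X1 σ) B) : ℚ) : ℝ) * X := by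
    intro F fn hF
    rw [mul_comm]
    refine (scale hF).trans (mul_le_mul_of_nonneg_left ?_ hX0.le)
    refine (val_le_top fn hXX hA hb).trans ?_
    push_cast
    exact le_max_right _ _
  refine ⟨expect_sq_nonneg (Fam.join hl hu hf hg), ?_, ?_, side hC.cT, ?_, side hC.cQ⟩
  · refine (scale hC.cS).trans ?_
    have m1 : 0 ≤ 1 + X * (a1 * C.fS.q.a11 + a2 * C.fS.q.a21 + a3 * C.fS.q.a31) := by
      have h := mul_le_mul_of_nonneg_left (low_le hA C.fS.q.a11 C.fS.q.a21 C.fS.q.a31) hX0.le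
      rcases le_total ((low (stIv X1 σ) C.fS.q.a11 C.fS.q.a21 C.fS.q.a31 : ℚ) : ℝ) 0 with hn | hn
      · have := mul_le_mul_of_nonpos_right hX hn; linarith
      · have := mul_nonneg hX0.le hn; linarith
    have m2' : 0 ≤ 1 + X * (b1 * C.fS.q.a11 + b2 * C.fS.q.a12 + b3 * C.fS.q.a13) := by
      have h := mul_le_mul_of_nonneg_left (low_le hb C.fS.q.a11 C.fS.q.a12 C.fS.q.a13) hX0.le
      rcases le_total ((low B C.fS.q.a11 C.fS.q.a12 C.fS.q.a13 : ℚ) : ℝ) 0 with hn | hn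
      · have := mul_le_mul_of_nonpos_right hX hn; linarith
      · have := mul_nonneg hX0.le hn; linarith
    have hr' : B.Mem (r : ℝ) b2 b3 := by
      refine ⟨⟨?_, by rw [hBr]⟩, hb.2⟩
      rw [hB1]
      have := hb.1
      rw [hB1, hBr] at this
      linarith [this.1, this.2]
    have m3 : 0 ≤ 1 + X * ((r : ℝ) * C.fS.q.a11 + b2 * C.fS.q.a12 + b3 * C.fS.q.a13) := by
      have h := mul_le_mul_of_nonneg_left (low_le hr' C.fS.q.a11 C.fS.q.a12 C.fS.q.a13) hX0.le
      rcases le_total ((low B C.fS.q.a11 C.fS.q.a12 C.fS.q.a13 : ℚ) : ℝ) 0 with hn | hn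
      · have := mul_le_mul_of_nonpos_right hX hn; linarith
      · have := mul_nonneg hX0.le hn; linarith
    have hbr : b1 ≤ (r : ℝ) := hBr ▸ hb.1.2
    have st1' := mul_nonneg (sub_nonneg.2 hbr) m1
    have st2 := mul_nonneg (sub_nonneg.2 ha1) m3
    have hT := val_le_top ⟨0, 0, 0, C.fS.q⟩ (x0 := 1) (x1 := 1)
      (A := { stIv X1 σ with l1 := σ.u - max 0 σ.be * X1 }) (B := { B with l1 := r })
      (X := 1) (a1 := σ.u - σ.be * X) (a2 := a2) (a3 := a3) (b1 := r) (b2 := b2) (b3 := b3)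
      ⟨by simp, by simp⟩
      ⟨⟨by push_cast; linarith, by simp only [stIv]; push_cast; linarith⟩, hA.2⟩
      ⟨⟨le_rfl, by rw [hBr]⟩, hb.2⟩
    simp only [nextSt]
    push_cast
    simp only [Fn.val, Mat.bil, hC.g1, hC.g2, hC.g3] at hT ⊢
    push_cast at hT ⊢
    have main := mul_le_mul_of_nonneg_left
      (add_le_add (add_le_add st1' st2) (mul_le_mul_of_nonneg_left hT hX0.le)) hX0.le
    linear_combination main
  · have h := side hC.cN
    have e : expect (fun a => -cub a) (join l f g) = -expect cub (join l f g) := by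
      simp [expect]
    rw [e] at h
    simp only [nextSt]
    linarith
  · exact Finset.sum_nonneg fun k _ => mul_nonneg
      (wt_nonneg ((Fam.join hl hu hf hg).nonneg k)) (sq_nonneg _)

end Vale.Agent.P154.DeBox
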