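import Vale.Agent.P154.DeBoxPoly
import Vale.Agent.P154.DeBoxForm
import Vale.Agent.P154.DeBoxStep

/-!
From four nonnegative polynomials on the charts to a pointwise bound.
-/

open scoped BigOperators

namespace Vale.Agent.P154.DeBox

open Bin

/-- Every posterior lies in one of the two charts. -/
lemma exists_chart {a : Spin → ℝ} (ha : InS a) :
    ∃ c r b, 0 ≤ r ∧ r ≤ 1 ∧ 0 ≤ b ∧ b ≤ 1 ∧ sq a = chS c r ∧ cub a = chT c r b := by
  obtain ⟨h0, h1, h2, -, e1, e3⟩ := inS_facts ha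
  obtain ⟨ρ, hρ, hρ2⟩ : ∃ ρ, 0 ≤ ρ ∧ sq a = ρ ^ 2 :=
    ⟨√(sq a), Real.sqrt_nonneg _, (Real.sq_sqrt h0).symm⟩
  rw [hρ2] at h1 h2
  have hρ1 : ρ ≤ 1 := (sq_le_one_iff₀ hρ).1 h1
  have hb : |cub a| ≤ ρ ^ 3 :=
    abs_le_of_sq_le_sq (by linarith [h2]) (pow_nonneg hρ 3)
  obtain ⟨b1, b2⟩ := abs_le.1 hb
  rcases le_total (1 / 2) ρ with hc | hc
  · refine ⟨true, 2 * ρ - 1, ?_⟩
    have hlow : (3 * ρ ^ 2 - 1) / 2 ≤ cub a := by
      have hp := mul_nonneg (mul_nonneg (ha.1 0) (ha.1 1)) (ha.1 2)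
      have e2 : a 2 = 3 - a 0 - a 1 := by linarith [ha.2]
      have : a 0 * a 1 * a 2 = 2 * cub a - 3 * sq a + 1 := by
        simp only [P154.sq, cub]; rw [e2]; ring
      rw [hρ2] at this
      linarith
    simp only [chS, chT]
    have er : (1 + (2 * ρ - 1)) / 2 = ρ := by ring
    rw [er]
    rcases eq_or_lt_of_le (hlow.trans b2) with he | hlt
    · refine ⟨0, by linarith, by linarith, le_rfl, zero_le_one, hρ2, ?_⟩
      simp; linarith
    · set L := (3 * ρ ^ 2 - 1) / 2
      have hd : 0 < ρ ^ 3 - L := by linarith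
      refine ⟨(cub a - L) / (ρ ^ 3 - L), by linarith, by linarith, by positivity,
        (div_le_one hd).2 (by linarith), hρ2, ?_⟩
      have := hd.ne'
      field_simp; ring
  · refine ⟨false, 2 * ρ, ?_⟩
    simp only [chS, chT]
    have er : 2 * ρ / 2 = ρ := by ring
    rw [er]
    rcases eq_or_lt_of_le (pow_nonneg hρ 3) with he | hlt
    · refine ⟨0, by linarith, by linarith, le_rfl, zero_le_one, hρ2, ?_⟩
      rw [← he]; linarith
    · refine ⟨(cub a / ρ ^ 3 + 1) / 2, by linarith, by linarith, ?_, ?_, hρ2, ?_⟩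
      · have := (le_div_iff₀ hlt).2 (by linarith : (-1 : ℝ) * ρ ^ 3 ≤ cub a); linarith
      · have := (div_le_one hlt).2 b2; linarith
      · have hne : ρ ≠ 0 := fun h => by simp [h] at hlt
        field_simp; ring

/-- Comparison of polynomials. -/
def eqb : (n : ℕ) → Bern.MP n → Bern.MP n → Bool
  | 0, a, b => decide ((show ℤ from a) = (show ℤ from b))
  | n + 1, a, b =>
    (List.length a == List.length b) && (List.zipWith (eqb n) a b).all id

lemma eq_of_eqb : ∀ (n : ℕ) (a b : Bern.MP n), eqb n a b = true → a = b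
  | 0, a, b, h => of_decide_eq_true (p := (show ℤ from a) = (show ℤ from b)) h
  | n + 1, a, b, h => by
    change List (Bern.MP n) at a b
    simp only [eqb, Bool.and_eq_true, beq_iff_eq] at h
    obtain ⟨h1, h2⟩ := h
    induction a generalizing b with
    | nil => exact (List.length_eq_zero_iff.1 h1.symm).symm
    | cons x a ih =>
      cases b with
      | nil => simp at h1
      | cons y b =>
        simp only [List.zipWith_cons_cons, List.all_cons, id, Bool.and_eq_true] at h2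
        rw [eq_of_eqb n x y h2.1, ih b (by simpa using h1) h2.2]

/-- Four coordinates. -/
def pt4 (r b r' b' : ℝ) : ℕ → ℝ
  | 0 => r
  | 1 => b
  | 2 => r'
  | _ + 3 => b'

/-- Nonnegativity at all pairs of posteriors. -/
theorem nonneg_of_good {E : ℕ} {M : List Mono} (hM : okM E M = true)
    (hG : ∀ ca cb, Bern.Good 4 [] (poly4 E ca cb M)) {a y : Spin → ℝ} (ha : InS a) (hy : InS y) :
    0 ≤ evalM M (sq a) (cub a) (sq y) (cub y) := by
  obtain ⟨ca, r, b, r0, r1, b0, b1, eS, eT⟩ := exists_chart ha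
  obtain ⟨cb, r', b', p0, p1, q0, q1, fS, fT⟩ := exists_chart hy
  rw [eS, eT, fS, fT]
  have h : 0 ≤ Bern.ev 4 (poly4 E ca cb M) (pt4 r b r' b') := hG ca cb (pt4 r b r' b') (by
    rintro (_ | _ | _ | i)
    exacts [⟨r0, r1⟩, ⟨b0, b1⟩, ⟨p0, p1⟩, ⟨q0, q1⟩])
  have e := ev_poly4 (E := E) (ca := ca) (cb := cb) r b r' b' (pt4 r b r' b') rfl rfl rfl rfl M hM
  have h' := mul_nonneg h (mul_nonneg (chF_nonneg ca r) (chF_nonneg cb r'))
  rw [e] at h'
  exact nonneg_of_mul_nonneg_right h' (by positivity)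

/-- The bound at every parameter from the bound at `-1/2`. -/
theorem cert_of {F : (Spin → ℝ) → ℝ} {num : ℝ → ℝ → ℝ → ℝ → ℝ → ℝ}
    {N : ℝ → ℝ → ℝ → ℝ → OForm} {p rr : List ℝ} (hF : TermOK F num p rr) (hN : HasForm num N)
    {f : Fn} {E : ℕ} {M : List Mono} {K : ℝ} (hK : 0 < K) (hM : okM E M = true)
    (hG : ∀ ca cb, Bern.Good 4 [] (poly4 E ca cb M))
    (hid : ∀ S T P Q : ℝ, evalM M S T P Q =
      K * (f.val 1 S T (S ^ 2) (P / 4) (-Q / 8) (P ^ 2 / 16) - avgU N p rr S T (P / 4) (-Q / 8)))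
    {l : ℝ} (hl : -(1 / 2) ≤ l) (hl0 : l ≤ 0) : Cert l F f := by
  intro a y ha hy
  set y' := img (-2 * l) y with hy'def
  have hy' : InS y' := by
    refine ⟨fun i => ?_, by simp only [hy'def, img]; linear_combination (-2 * l) * hy.2⟩
    have : y' i = (1 - -2 * l) + (-2 * l) * y i := by simp only [hy'def, img]; ring
    rw [this]
    exact add_nonneg (by linarith) (mul_nonneg (by linarith) (hy.1 i))
  have e : ∀ σ : Equiv.Perm Spin, (fun i => img (-1 / 2) y' (σ i)) = fun i => img l y (σ i) :=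
    fun σ => by funext i; simp only [hy'def, img]; ring
  have h := avg_le hF hN ha hy'
  simp only [e] at h
  have h0 := nonneg_of_good hM hG ha hy'
  rw [hid] at h0
  have h1 := nonneg_of_mul_nonneg_right h0 hK
  have s1 : sq y' / 4 = l ^ 2 * sq y := by simp only [hy'def, P154.sq, img]; ring
  have s2 : -cub y' / 8 = l ^ 3 * cub y := by simp only [hy'def, cub, img]; ring
  have s3 : sq y' ^ 2 / 16 = l ^ 4 * sq y ^ 2 := by simp only [hy'def, P154.sq, img]; ring
  rw [s1, s2] at h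
  rw [s1, s2, s3] at h1
  linarith

end Vale.Agent.P154.DeBox
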