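import Vale.Agent.P154.InvPoly
import Vale.Agent.P154.BinMain

/-!
A list of monomials in the invariants of two posteriors, moved to the two charts of each of
them as a polynomial in four variables, for the Bernstein test.
-/

namespace Vale.Agent.P154.DeBox

open Bin

/-- A coefficient and four exponents. -/
abbrev Mono := ℤ × ℕ × ℕ × ℕ × ℕ

/-- The value of a list of monomials. -/
noncomputable def evalM (M : List Mono) (S T P Q : ℝ) : ℝ :=
  M.foldr (fun m r => (m.1 : ℝ) * (S ^ m.2.1 * T ^ m.2.2.1 * (P ^ m.2.2.2.1 * Q ^ m.2.2.2.2)) + r) 0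

/-- The constant one. -/
def c1 : Bern.MP 2 := ([[1]] : List (List ℤ))

/-- Powers of a polynomial in two variables. -/
def mpw (p : Bern.MP 2) : ℕ → Bern.MP 2
  | 0 => c1
  | k + 1 => Bern.mul 2 p (mpw p k)

/-- The point of two coordinates. -/
def pt2 (r b : ℝ) : ℕ → ℝ
  | 0 => r
  | _ + 1 => b

lemma ev2_lit (a : Bern.MP 2) (r b : ℝ) :
    Bern.ev 2 a (pt2 r b) =
      List.foldr (fun (c : List ℤ) s => List.foldr (fun (z : ℤ) u => (z : ℝ) + b * u) 0 c + r * s) 0
        (show List (List ℤ) from a) := rfl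

lemma ev_mpw (p : Bern.MP 2) (r b : ℝ) :
    ∀ k, Bern.ev 2 (mpw p k) (pt2 r b) = Bern.ev 2 p (pt2 r b) ^ k
  | 0 => by
    show Bern.ev 2 c1 (pt2 r b) = _
    rw [ev2_lit]; simp [c1]
  | k + 1 => by rw [mpw, Bern.ev_mul, ev_mpw p r b k, pow_succ]; ring

/-- The coordinate. -/
def cR : Bern.MP 2 := ([[], [1]] : List (List ℤ))
/-- The sign coordinate of the inner chart. -/
def cB : Bern.MP 2 := ([[-1, 2]] : List (List ℤ))
/-- The radius of the outer chart. -/
def cU : Bern.MP 2 := ([[1], [1]] : List (List ℤ))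
/-- The cubic invariant of the outer chart. -/
def cW : Bern.MP 2 := ([[-1, 2], [6, -3], [3], [0, 1]] : List (List ℤ))

/-- A monomial in one chart; on the inner chart two powers of the radius are removed. -/
def side (E : ℕ) : Bool → ℕ → ℕ → Bern.MP 2
  | false, i, j => Bern.smul 2 ((2 : ℤ) ^ (E - (2 * i + 3 * j)))
      (Bern.mul 2 (mpw cR (2 * i + 3 * j - 2)) (mpw cB j))
  | true, i, j => Bern.smul 2 ((2 : ℤ) ^ (E - (2 * i + 3 * j)))
      (Bern.mul 2 (mpw cU (2 * i)) (mpw cW j))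

/-- The quadratic invariant in a chart. -/
noncomputable def chS : Bool → ℝ → ℝ
  | false, r => (r / 2) ^ 2
  | true, r => ((1 + r) / 2) ^ 2

/-- The cubic invariant in a chart. -/
noncomputable def chT : Bool → ℝ → ℝ → ℝ
  | false, r, b => (r / 2) ^ 3 * (2 * b - 1)
  | true, r, b => (1 - b) * ((3 * ((1 + r) / 2) ^ 2 - 1) / 2) + b * ((1 + r) / 2) ^ 3

/-- The removed factor. -/
noncomputable def chF : Bool → ℝ → ℝ
  | false, r => r ^ 2
  | true, _ => 1

lemma chF_nonneg (c : Bool) (r : ℝ) : 0 ≤ chF c r := by cases c <;> simp [chF, sq_nonneg]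

lemma ev_side {E i j : ℕ} (c : Bool) (h : 2 * i + 3 * j ≤ E) (hp : 1 ≤ i + j) (r b : ℝ) :
    Bern.ev 2 (side E c i j) (pt2 r b) * chF c r =
      2 ^ E * (chS c r ^ i * chT c r b ^ j) := by
  obtain ⟨e, rfl⟩ : ∃ e, E = 2 * i + 3 * j + e := ⟨E - (2 * i + 3 * j), by omega⟩
  have hR : Bern.ev 2 cR (pt2 r b) = r := by rw [ev2_lit]; simp [cR]
  have hB : Bern.ev 2 cB (pt2 r b) = 2 * b - 1 := by
    rw [ev2_lit]; simp [cB]; ring
  have hU : Bern.ev 2 cU (pt2 r b) = 1 + r := by rw [ev2_lit]; simp [cU]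
  have hW : Bern.ev 2 cW (pt2 r b) =
      (1 - b) * (3 * (1 + r) ^ 2 - 4) + b * (1 + r) ^ 3 := by
    rw [ev2_lit]; simp [cW]; ring
  cases c
  · simp only [side, Nat.add_sub_cancel_left, Bern.ev_smul, Bern.ev_mul, ev_mpw, hR, hB, chF, chS,
      chT]
    obtain ⟨m, hm⟩ : ∃ m, 2 * i + 3 * j = m + 2 := ⟨2 * i + 3 * j - 2, by omega⟩
    have e1 : r ^ (2 * i + 3 * j - 2) * r ^ 2 = r ^ (2 * i + 3 * j) := by
      rw [← pow_add]; congr 1; omega
    push_cast
    calc (2 : ℝ) ^ e * (r ^ (2 * i + 3 * j - 2) * (2 * b - 1) ^ j) * r ^ 2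
        = (2 : ℝ) ^ e * (2 * b - 1) ^ j * r ^ (2 * i + 3 * j) := by rw [← e1]; ring
      _ = _ := by
        rw [mul_pow, ← pow_mul, ← pow_mul, div_pow, div_pow, pow_add (2 : ℝ), pow_add (2 : ℝ),
          pow_add r]
        field_simp
  · simp only [side, Nat.add_sub_cancel_left, Bern.ev_smul, Bern.ev_mul, ev_mpw, hU, hW, chF, chS,
      chT]
    have e1 : (1 - b) * ((3 * ((1 + r) / 2) ^ 2 - 1) / 2) + b * ((1 + r) / 2) ^ 3 =
        ((1 - b) * (3 * (1 + r) ^ 2 - 4) + b * (1 + r) ^ 3) / 2 ^ 3 := by ring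
    rw [e1, ← pow_mul, div_pow, div_pow, ← pow_mul, pow_add (2 : ℝ), pow_add (2 : ℝ)]
    push_cast
    field_simp

/-- Product of polynomials in disjoint sets of variables. -/
def outer (Y : Bern.MP 2) : (n : ℕ) → Bern.MP n → Bern.MP (n + 2)
  | 0, z => Bern.smul 2 z Y
  | n + 1, a => List.map (outer Y n) a

lemma ev_outer (Y : Bern.MP 2) : ∀ (n : ℕ) (a : Bern.MP n) (x : ℕ → ℝ),
    Bern.ev (n + 2) (outer Y n a) x = Bern.ev n a x * Bern.ev 2 Y (fun i => x (i + n))
  | 0, z, x => by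
    exact Bern.ev_smul 2 z Y x
  | n + 1, a, x => by
    show Bern.ev (n + 2 + 1) (List.map (outer Y n) a) x = _
    induction a with
    | nil => simp [Bern.ev_succ_nil]
    | cons c a ih =>
      simp only [List.map_cons, Bern.ev_succ_cons, ih, ev_outer Y n c]
      rw [show (fun i => x (i + n + 1)) = fun i => x (i + (n + 1)) from rfl]
      ring

/-- A list of monomials in a pair of charts. -/
def poly4 (E : ℕ) (ca cb : Bool) : List Mono → Bern.MP 4
  | [] => Bern.zero 4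
  | (c, i, j, k, l) :: M =>
      Bern.add 4 (Bern.smul 4 c (outer (side E cb k l) 2 (side E ca i j))) (poly4 E ca cb M)

/-- All monomials vanish when either posterior is uniform and have small degree. -/
def okM (E : ℕ) (M : List Mono) : Bool :=
  M.all fun m => Nat.ble 1 (m.2.1 + m.2.2.1) && Nat.ble 1 (m.2.2.2.1 + m.2.2.2.2) &&
    Nat.ble (2 * m.2.1 + 3 * m.2.2.1) E && Nat.ble (2 * m.2.2.2.1 + 3 * m.2.2.2.2) E

lemma ev_poly4 {E : ℕ} {ca cb : Bool} (r b r' b' : ℝ) (x : ℕ → ℝ) (h0 : x 0 = r) (h1 : x 1 = b)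
    (h2 : x 2 = r') (h3 : x 3 = b') : ∀ M : List Mono, okM E M = true →
      Bern.ev 4 (poly4 E ca cb M) x * (chF ca r * chF cb r') =
        2 ^ (2 * E) * evalM M (chS ca r) (chT ca r b) (chS cb r') (chT cb r' b') := by
  intro M
  induction M with
  | nil => intro _; simp [poly4, Bern.ev_zero, evalM]
  | cons m M ih =>
    intro h
    obtain ⟨c, i, j, k, l⟩ := m
    simp only [okM, List.all_cons, Bool.and_eq_true, Nat.ble_eq] at h
    obtain ⟨⟨⟨⟨p1, p2⟩, q1⟩, q2⟩, hrest⟩ := h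
    have e1 := ev_side ca q1 p1 r b
    have e2 := ev_side cb q2 p2 r' b'
    have f1 : Bern.ev 2 (side E ca i j) (fun i => x i) = Bern.ev 2 (side E ca i j) (pt2 r b) := by
      subst h0 h1; rfl
    have f2 : Bern.ev 2 (side E cb k l) (fun i => x (i + 2)) =
        Bern.ev 2 (side E cb k l) (pt2 r' b') := by
      subst h2 h3; rfl
    rw [poly4, Bern.ev_add, Bern.ev_smul, ev_outer, f1, f2, add_mul, ih hrest]
    simp only [evalM, List.foldr_cons]
    linear_combination ((c : ℝ) * (Bern.ev 2 (side E cb k l) (pt2 r' b') * chF cb r')) * e1 +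
      ((c : ℝ) * (2 ^ E * (chS ca r ^ i * chT ca r b ^ j))) * e2

end Vale.Agent.P154.DeBox
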