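import Mathlib

/-!
An integer checker for one joining step of an upper bound of the law of the posterior, in the order
of symmetric sublinear test functions. Laws live on the orbit representatives of the lattice
`{v : ℕ³ | v₀ + v₁ + v₂ = M}`; several levels are checked at once, packed into one natural number.
-/

namespace Vale.Agent.P154.De

/-- Coefficients of the linear map `v ↦ (c0 * (v j + v k) + c1 * v i)ᵢ`, with denominator `den`. -/
structure Map where
  /-- Weight of the other two coordinates. -/
  c0 : ℕ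
  /-- Weight of the coordinate itself. -/
  c1 : ℕ
  /-- The denominator. -/
  den : ℕ

/-- The identity map. -/
noncomputable def idMap : Map := ⟨0, 1, 1⟩

/-- The channel with eigenvalue `-p/q`, `2 p ≤ q`. -/
noncomputable def chMap (p q : ℕ) : Map := ⟨q + p, q - 2 * p, 3 * q⟩

/-- Slots per value of the least coordinate. -/
noncomputable def row (M : ℕ) : ℕ := Nat.add (Nat.div M 2) 1

/-- The number of slots. -/
noncomputable def slots (M : ℕ) : ℕ := (M / 3 + 1) * row M

/-- Least coordinate of a slot. -/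
noncomputable def sa (M s : ℕ) : ℕ := Nat.div s (row M)

/-- Middle coordinate of a slot. -/
noncomputable def sb (M s : ℕ) : ℕ := Nat.add (Nat.div s (row M)) (Nat.mod s (row M))

/-- A slot holds a representative. -/
noncomputable def valid (M s : ℕ) : Bool := decide (sa M s + 2 * sb M s ≤ M)

/-- Slot of a sorted triple, given by its two least entries. -/
noncomputable def pos (M a b : ℕ) : ℕ := Nat.add (Nat.mul a (row M)) (Nat.sub b a)

/-- Slot of an arbitrary triple. -/
noncomputable def slot (M x y z : ℕ) : ℕ :=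
  bif x.ble y then
    (bif y.ble z then pos M x y else bif x.ble z then pos M x z else pos M z x)
  else (bif x.ble z then pos M y x else bif y.ble z then pos M y z else pos M z y)

/-- Decomposition of `M` times a vector along the corners of its lattice triangle. -/
noncomputable def cell (M o0 o1 o2 : ℕ) : List (ℕ × ℕ) :=
  let Z := o0 + o1 + o2
  bif Z.beq 0 then [] else
  let f0 := o0 * M / Z
  let f1 := o1 * M / Z
  let f2 := o2 * M / Z
  bif (f0 + f1 + f2 + 1).beq M then
    [(slot M (f0 + 1) f1 f2, o0 * M % Z), (slot M f0 (f1 + 1) f2, o1 * M % Z),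
      (slot M f0 f1 (f2 + 1), o2 * M % Z)]
  else bif (f0 + f1 + f2).beq M then [(slot M f0 f1 f2, Z)]
  else
    [(slot M f0 (f1 + 1) (f2 + 1), Z - o0 * M % Z), (slot M (f0 + 1) f1 (f2 + 1), Z - o1 * M % Z),
      (slot M (f0 + 1) (f1 + 1) f2, Z - o2 * M % Z)]

/-- The six orders of the second argument, with the triangles met. -/
noncomputable def six (M a0 a1 a2 b0 b1 b2 : ℕ) : List (List (ℕ × ℕ)) :=
  [cell M (a0 * b0) (a1 * b1) (a2 * b2), cell M (a0 * b0) (a1 * b2) (a2 * b1),
    cell M (a0 * b1) (a1 * b0) (a2 * b2), cell M (a0 * b1) (a1 * b2) (a2 * b0),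
    cell M (a0 * b2) (a1 * b0) (a2 * b1), cell M (a0 * b2) (a1 * b1) (a2 * b0)]

/-- The triangles met by a pair of slots. -/
noncomputable def pairT (M : ℕ) (mA mB : Map) (s t : ℕ) : List (List (ℕ × ℕ)) :=
  let a := sa M s
  let b := sb M s
  let c := M - a - b
  let x := sa M t
  let y := sb M t
  let z := M - x - y
  six M (mA.c0 * (b + c) + mA.c1 * a) (mA.c0 * (a + c) + mA.c1 * b) (mA.c0 * (a + b) + mA.c1 * c)
    (mB.c0 * (y + z) + mB.c1 * x) (mB.c0 * (x + z) + mB.c1 * y) (mB.c0 * (x + y) + mB.c1 * z)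

/-- Evaluates a natural number before passing it on. -/
noncomputable def nk {α : Type} (m : ℕ) (k : ℕ → α) : α :=
  Nat.rec (k 0) (fun n _ => k (Nat.succ n)) m

lemma nk_eq {α : Type} : ∀ (m : ℕ) (k : ℕ → α), nk m k = k m
  | 0, _ => rfl
  | _ + 1, _ => rfl

/-- Number of representatives below a slot. -/
noncomputable def cidx (M : ℕ) : ℕ → ℕ :=
  Nat.rec 0 fun s ih => bif valid M s then Nat.succ ih else ih

/-- The offset of the digit of a triple. -/
noncomputable def place (M w x y z : ℕ) : ℕ := Nat.mul w (cidx M (slot M x y z))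

/-- The entries when one unit is missing after rounding down. -/
noncomputable def cellUp (M w f0 f1 f2 r0 r1 r2 : ℕ) : ℕ :=
  Nat.add (Nat.add (Nat.shiftLeft r0 (place M w (Nat.succ f0) f1 f2))
    (Nat.shiftLeft r1 (place M w f0 (Nat.succ f1) f2))) (Nat.shiftLeft r2 (place M w f0 f1 (Nat.succ f2)))

/-- The entries when two units are missing after rounding down. -/
noncomputable def cellDn (M w f0 f1 f2 r0 r1 r2 : ℕ) : ℕ :=
  Nat.add (Nat.add (Nat.shiftLeft r0 (place M w f0 (Nat.succ f1) (Nat.succ f2)))
    (Nat.shiftLeft r1 (place M w (Nat.succ f0) f1 (Nat.succ f2))))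
    (Nat.shiftLeft r2 (place M w (Nat.succ f0) (Nat.succ f1) f2))

/-- Choice of the triangle. -/
noncomputable def cellBy (M w Z p0 p1 p2 f0 f1 f2 : ℕ) : ℕ :=
  bif (Nat.succ (Nat.add (Nat.add f0 f1) f2)).beq M then
    cellUp M w f0 f1 f2 (Nat.mod p0 Z) (Nat.mod p1 Z) (Nat.mod p2 Z)
  else bif (Nat.add (Nat.add f0 f1) f2).beq M then Nat.shiftLeft Z (place M w f0 f1 f2)
  else cellDn M w f0 f1 f2 (Nat.sub Z (Nat.mod p0 Z)) (Nat.sub Z (Nat.mod p1 Z)) (Nat.sub Z (Nat.mod p2 Z))

/-- The rounded coordinates of one product. -/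
noncomputable def cellDiv (M w Z p0 p1 p2 : ℕ) : ℕ :=
  nk (Nat.div p0 Z) fun f0 => nk (Nat.div p1 Z) fun f1 => nk (Nat.div p2 Z) fun f2 =>
    cellBy M w Z p0 p1 p2 f0 f1 f2

/-- The triangle entries of one product, packed by representative with digit width `w`. -/
noncomputable def cellG (M w o0 o1 o2 : ℕ) : ℕ :=
  nk (Nat.add (Nat.add o0 o1) o2) fun Z => bif Z.beq 0 then 0 else
    cellDiv M w Z (Nat.mul o0 M) (Nat.mul o1 M) (Nat.mul o2 M)

/-- The six products of a pair. -/
noncomputable def sixG (M w a0 a1 a2 b0 b1 b2 : ℕ) : ℕ :=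
  Nat.add (Nat.add (Nat.add (Nat.add (Nat.add
    (cellG M w (Nat.mul a0 b0) (Nat.mul a1 b1) (Nat.mul a2 b2))
    (cellG M w (Nat.mul a0 b0) (Nat.mul a1 b2) (Nat.mul a2 b1)))
    (cellG M w (Nat.mul a0 b1) (Nat.mul a1 b0) (Nat.mul a2 b2)))
    (cellG M w (Nat.mul a0 b1) (Nat.mul a1 b2) (Nat.mul a2 b0)))
    (cellG M w (Nat.mul a0 b2) (Nat.mul a1 b0) (Nat.mul a2 b1)))
    (cellG M w (Nat.mul a0 b2) (Nat.mul a1 b1) (Nat.mul a2 b0))

/-- The image of a slot under a map, evaluated eagerly. -/
noncomputable def coords {α : Type} (M : ℕ) (m : Map) (s : ℕ) (k : ℕ → ℕ → ℕ → α) : α :=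
  nk (sa M s) fun a => nk (sb M s) fun b => nk (Nat.sub (Nat.sub M a) b) fun c =>
  nk (Nat.add (Nat.mul m.c0 (Nat.add b c)) (Nat.mul m.c1 a)) fun x =>
  nk (Nat.add (Nat.mul m.c0 (Nat.add a c)) (Nat.mul m.c1 b)) fun y =>
  nk (Nat.add (Nat.mul m.c0 (Nat.add a b)) (Nat.mul m.c1 c)) fun z => k x y z

/-- A pair's geometry, keyed by small numbers so that equal pairs share their evaluation. -/
noncomputable def geo (M w : ℕ) (mB : Map) (a0 a1 a2 t : ℕ) : ℕ :=
  coords M mB t fun b0 b1 b2 => sixG M w a0 a1 a2 b0 b1 b2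

/-- A row placed in the top digit blocks of width `S`. -/
noncomputable def spread (S : ℕ) : List ℕ → ℕ :=
  List.rec (motive := fun _ => ℕ) 0 fun b _ ih => Nat.add b (Nat.shiftLeft ih S)

/-- The weighted geometry of one pair, nothing for an empty row. -/
noncomputable def term (M w S : ℕ) (mB : Map) (a0 a1 a2 t : ℕ) (x : List ℕ) : ℕ :=
  List.casesOn (motive := fun _ => ℕ) x 0 fun _ _ => Nat.mul (spread S x) (geo M w mB a0 a1 a2 t)

/-- The second law summed against the geometry of one slot. -/
noncomputable def innerQ (M w S : ℕ) (mB : Map) (a0 a1 a2 : ℕ) (B : List (List ℕ)) : ℕ → ℕ :=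
  List.rec (motive := fun _ => ℕ → ℕ) (fun _ => 0)
    (fun x _ ih t => Nat.add (term M w S mB a0 a1 a2 t x) (nk (Nat.succ t) ih)) B

/-- Each block of `Q` times the matching weight. -/
noncomputable def scale (S : ℕ) (as : List ℕ) : ℕ → ℕ :=
  List.rec (motive := fun _ => ℕ → ℕ) (fun _ => 0) (fun a _ ih Q =>
    Nat.add (Nat.mul a (Nat.mod Q (Nat.pow 2 S))) (Nat.shiftLeft (ih (Nat.shiftRight Q S)) S)) as

/-- The block width. -/
noncomputable def blockW (M w : ℕ) : ℕ := Nat.mul w (cidx M (slots M))

/-- The weights of one slot against the second law. -/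
noncomputable def rowV (M w S : ℕ) (mA mB : Map) (B : List (List ℕ)) (s : ℕ) (x : List ℕ) : ℕ :=
  List.casesOn (motive := fun _ => ℕ) x 0 fun _ _ => coords M mA s fun a0 a1 a2 =>
    nk (innerQ M w S mB a0 a1 a2 B 0) (scale S x)

/-- The outer loop over the slots of the first law. -/
noncomputable def outerV (M w : ℕ) (mA mB : Map) (B A : List (List ℕ)) : ℕ → ℕ :=
  List.rec (motive := fun _ => ℕ → ℕ) (fun _ => 0)
    (fun x _ ih s => Nat.add (rowV M w (blockW M w) mA mB B s x) (nk (Nat.succ s) ih)) A

/-- One slot with itself, and twice with the later slots. -/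
noncomputable def rowS (M w S : ℕ) (m : Map) (s : ℕ) (x : List ℕ) (rest : List (List ℕ)) : ℕ :=
  List.casesOn (motive := fun _ => ℕ) x 0 fun _ _ => coords M m s fun a0 a1 a2 =>
    nk (Nat.add (term M w S m a0 a1 a2 s x) (Nat.mul 2 (nk (Nat.succ s) (innerQ M w S m a0 a1 a2 rest))))
      (scale S x)

/-- The loop over unordered pairs of slots of one law. -/
noncomputable def outerS (M w : ℕ) (m : Map) (A : List (List ℕ)) : ℕ → ℕ :=
  List.rec (motive := fun _ => ℕ → ℕ) (fun _ => 0)
    (fun x rest ih s => Nat.add (rowS M w (blockW M w) m s x rest) (nk (Nat.succ s) ih)) A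

/-- Only representatives carry weight. -/
noncomputable def supp (M : ℕ) (A : List (List ℕ)) : ℕ → Bool :=
  List.rec (motive := fun _ => ℕ → Bool) (fun _ => true) (fun x _ ih s =>
    List.casesOn (motive := fun _ => Bool) x (nk (Nat.succ s) ih)
      fun _ _ => valid M s && nk (Nat.succ s) ih) A

/-- The length of a row. -/
noncomputable def len : List ℕ → ℕ :=
  List.rec (motive := fun _ => ℕ) 0 fun _ _ ih => Nat.succ ih

/-- The number of rows. -/
noncomputable def rows : List (List ℕ) → ℕ :=
  List.rec (motive := fun _ => ℕ) 0 fun _ _ ih => Nat.succ ih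

/-- The first entries of all rows, added. -/
noncomputable def hsum : List (List ℕ) → ℕ :=
  List.rec (motive := fun _ => ℕ) 0 fun x _ ih => Nat.add (x.headD 0) ih

/-- All rows without their first entries. -/
noncomputable def tails : List (List ℕ) → List (List ℕ) :=
  List.rec (motive := fun _ => List (List ℕ)) [] fun x _ ih => x.tail :: ih

/-- All rows have at most `L` entries. -/
noncomputable def lensLe (L : ℕ) : List (List ℕ) → Bool :=
  List.rec (motive := fun _ => Bool) true fun x _ ih => (len x).ble L && ih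

/-- All rows have `L` entries. -/
noncomputable def lensEq (L : ℕ) : List (List ℕ) → Bool :=
  List.rec (motive := fun _ => Bool) true fun x _ ih => (len x).beq L && ih

/-- At each level: no digit overflows, and the total weight is the product of the totals. -/
noncomputable def levels (M K w X : ℕ) (L : ℕ) : List (List ℕ) → List (List ℕ) → List (List ℕ) → Bool :=
  Nat.rec (motive := fun _ => List (List ℕ) → List (List ℕ) → List (List ℕ) → Bool) (fun _ _ _ => true)
    (fun _ ih A B C =>
      (Nat.succ (Nat.mul X (Nat.mul (hsum A) (hsum B)))).ble (Nat.pow 2 w) &&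
        (Nat.succ (Nat.mul X (hsum B))).ble (Nat.pow 2 w) &&
        (Nat.mul (Nat.mul 3 K) (hsum C)).beq (Nat.mul M (Nat.mul (hsum A) (hsum B))) &&
        ih (tails A) (tails B) (tails C)) L

/-- One level: the digits dominate `f` times the claimed weights, except at slot `0`. -/
noncomputable def digits (M w f : ℕ) (C : List (List ℕ)) : ℕ → ℕ → Bool :=
  List.rec (motive := fun _ => ℕ → ℕ → Bool) (fun _ _ => true) (fun c _ ih num s =>
    bif valid M s then
      (Nat.beq s 0 || (Nat.mul f (c.headD 0)).ble (Nat.mod num (Nat.pow 2 w))) &&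
        nk (Nat.succ s) fun s' => nk (Nat.shiftRight num w) fun num' => ih num' s'
    else (c.headD 0).beq 0 && nk (Nat.succ s) fun s' => ih num s') C

/-- All levels of the claimed law. -/
noncomputable def digitsAll (M w f S : ℕ) (L : ℕ) : List (List ℕ) → ℕ → Bool :=
  Nat.rec (motive := fun _ => List (List ℕ) → ℕ → Bool) (fun _ _ => true)
    (fun _ ih C acc => (nk (Nat.mod acc (Nat.pow 2 S)) fun num => digits M w f C num 0) &&
      nk (Nat.shiftRight acc S) (ih (tails C))) L

/-- The check of a joining step, given the accumulated products. -/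
noncomputable def chkAcc (M K w L : ℕ) (mA mB : Map) (A B C : List (List ℕ)) (acc : ℕ) : Bool :=
  decide (0 < M) && decide (0 < mA.den) && decide (0 < mB.den) &&
    decide (2 * mA.c0 + mA.c1 = mA.den) && decide (2 * mB.c0 + mB.c1 = mB.den) &&
    (rows A).ble (slots M) && (rows B).ble (slots M) && (rows C).beq (slots M) &&
    lensEq L C && lensLe L A && lensLe L B &&
    levels M K w (6 * (mA.den * mB.den) * M * M) L A B C && supp M A 0 && supp M B 0 &&
    nk acc (digitsAll M w (6 * (mA.den * mB.den) * M * K) (blockW M w) L C)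

/-- The check of a joining step at `L` levels, scale `K`. -/
noncomputable def chk (M K w L : ℕ) (mA mB : Map) (A B C : List (List ℕ)) : Bool :=
  chkAcc M K w L mA mB A B C (outerV M w mA mB B A 0)

/-- The check of a law joined with a copy of itself. -/
noncomputable def chkS (M K w L : ℕ) (m : Map) (A C : List (List ℕ)) : Bool :=
  chkAcc M K w L m m A A C (outerS M w m A 0)

end Vale.Agent.P154.De
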