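import Vale.Agent.P154.DeSound
import Vale.Agent.P154.Chain

/-!
Upper bounds of the law of the root posterior in the order of symmetric sublinear test functions,
and their propagation through a level of a regular tree.
-/

open scoped BigOperators

namespace Vale.Agent.P154.De

variable {ι κ : Type} [Fintype ι] [Fintype κ] {M K : ℕ} {l : ℝ}

/-- A nonnegative family closed under permutations of the spins. -/
structure Orb (f : ι → Spin → ℝ) : Prop where
  nonneg : ∀ k i, 0 ≤ f k i
  equiv : ∀ σ : Equiv.Perm Spin, ∃ e : ι ≃ ι, ∀ k i, f (e k) i = f k (σ i)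

lemma Orb.of_fam {f : ι → Spin → ℝ} (h : Fam f) : Orb f := ⟨h.nonneg, h.equiv⟩

/-- The action of a map on vectors. -/
noncomputable def act (m : Map) (x : Fin 3 → ℝ) : Fin 3 → ℝ :=
  fun i => ((m.c0 : ℝ) * ((x 0 + x 1 + x 2) - x i) + (m.c1 : ℝ) * x i) / m.den

lemma act_id (x : Fin 3 → ℝ) : act idMap x = x := by
  funext i; simp [act, idMap]

lemma act_ch {p q : ℕ} (hq : 0 < q) (hp : 2 * p ≤ q) (x : Fin 3 → ℝ) :
    act (chMap p q) x = push (-(p : ℝ) / q) x := by
  have hq' : (q : ℝ) ≠ 0 := by exact_mod_cast hq.ne'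
  funext i
  simp only [act, chMap, push_eq, Fin.sum_univ_three, Nat.cast_add, Nat.cast_sub hp, Nat.cast_mul,
    Nat.cast_ofNat]
  field_simp
  ring

/-- The law of `f` is below the lattice law `G` at level `n`, seen through the map `m`. -/
noncomputable def Below (M K : ℕ) (m : Map) (f : ι → Spin → ℝ) (G : List (List ℕ)) (n : ℕ) : Prop :=
  ∀ H, Test H →
    ∑ k, H (f k) ≤ (1 / K : ℝ) * ∑ s ∈ Finset.range G.length, (wgt G n s : ℝ) * H (act m (rep M s))

lemma act_nonneg (m : Map) {x : Fin 3 → ℝ} (hx : ∀ i, 0 ≤ x i) : ∀ i, 0 ≤ act m x i := fun i => by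
  refine div_nonneg (add_nonneg (mul_nonneg (Nat.cast_nonneg _) ?_)
    (mul_nonneg (Nat.cast_nonneg _) (hx i))) (Nat.cast_nonneg _)
  have := hx 0; have := hx 1; have := hx 2
  fin_cases i <;> simp <;> linarith

lemma push_nonneg (hl : -(1 / 2) ≤ l) (hu : l ≤ 1) {x : Fin 3 → ℝ} (hx : ∀ i, 0 ≤ x i) :
    ∀ i, 0 ≤ push l x i := fun i =>
  Finset.sum_nonneg fun j _ => mul_nonneg (chan_nonneg hl hu i j) (hx j)

lemma Test.comp_push {H : (Fin 3 → ℝ) → ℝ} (hH : Test H) (hl : -(1 / 2) ≤ l) (hu : l ≤ 1) :
    Test fun x => H (push l x) := by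
  refine ⟨fun x hx => hH.nonneg _ (push_nonneg hl hu hx), fun x y hx hy => ?_, fun c x hc hx => ?_,
    fun σ x hx => ?_⟩
  · have e : push l (x + y) = push l x + push l y := by
      funext i; simp [push, mul_add, Finset.sum_add_distrib]
    rw [e]; exact hH.add_le _ _ (push_nonneg hl hu hx) (push_nonneg hl hu hy)
  · have e : push l (c • x) = c • push l x := by
      funext i; simp [push, Finset.mul_sum, mul_left_comm]
    rw [e]; exact hH.smul _ _ hc (push_nonneg hl hu hx)
  · have e : push l (fun i => x (σ i)) = fun i => push l x (σ i) := by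
      funext i; simp only [push_eq, Equiv.sum_comp σ x]
    rw [e]; exact hH.symm σ _ (push_nonneg hl hu hx)

/-- Less signal means a smaller value of every test function. -/
lemma push_mono {H : (Fin 3 → ℝ) → ℝ} (hH : Test H) {m : ℝ} (hm : -(1 / 2) ≤ m) (hml : m ≤ l)
    (hl0 : l ≤ 0) {x : Fin 3 → ℝ} (hx : ∀ i, 0 ≤ x i) : H (push l x) ≤ H (push m x) := by
  rcases eq_or_lt_of_le (hml.trans hl0) with rfl | hm0
  · rw [le_antisymm hl0 hml]
  set a := l / m with ha
  have a0 : 0 ≤ a := div_nonneg_of_nonpos hl0 hm0.le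
  have a1 : a ≤ 1 := (div_le_one_of_neg hm0).2 hml
  set u := push m x with hu
  have hun := push_nonneg hm (by linarith) hx
  set v : Fin 3 → ℝ := fun _ => (x 0 + x 1 + x 2) / 3 with hv
  have hvn : ∀ i, 0 ≤ v i := fun _ => by
    have := hx 0; have := hx 1; have := hx 2
    simp only [hv]; linarith
  have e : push l x = a • u + (1 - a) • v := by
    funext i
    simp only [hu, hv, Pi.add_apply, Pi.smul_apply, smul_eq_mul, push_eq, Fin.sum_univ_three]
    have : a * m = l := div_mul_cancel₀ _ hm0.ne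
    rw [← this]; ring
  let c : Equiv.Perm (Fin 3) := finRotate 3
  have p1 : ∀ i, 0 ≤ u (c i) := fun i => hun _
  have p2 : ∀ i, 0 ≤ u (c (c i)) := fun i => hun _
  have ev : v = (1 / 3 : ℝ) • u + (1 / 3 : ℝ) • (fun i => u (c i)) + (1 / 3 : ℝ) • (fun i => u (c (c i))) := by
    funext i
    fin_cases i <;>
      simp [hu, hv, c, push_eq, Fin.sum_univ_three] <;> ring
  have h1 : H v ≤ H u := by
    rw [ev]
    refine (hH.add3 (by norm_num) (by norm_num) (by norm_num) hun p1 p2).trans (le_of_eq ?_)
    rw [hH.symm c u hun, show H (fun i => u (c (c i))) = H u from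
      (hH.symm c (fun i => u (c i)) p1).trans (hH.symm c u hun)]
    ring
  have h2 := hH.add_le (a • u) ((1 - a) • v) (fun i => mul_nonneg a0 (hun i))
    (fun i => mul_nonneg (sub_nonneg.2 a1) (hvn i))
  rw [hH.smul _ _ a0 hun, hH.smul _ _ (sub_nonneg.2 a1) hvn] at h2
  rw [e]
  nlinarith

/-- Passing a law through an antiferromagnetic edge. -/
lemma Below.channel {f : ι → Spin → ℝ} {G : List (List ℕ)} {n p q : ℕ}
    (h : Below M K idMap f G n) (hq : 0 < q) (hp : 2 * p ≤ q) (hml : -(p : ℝ) / q ≤ l)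
    (hl0 : l ≤ 0) : Below M K (chMap p q) (fun k => push l (f k)) G n := by
  intro H hH
  have hm : -(1 / 2) ≤ -(p : ℝ) / q := by
    rw [le_div_iff₀ (by exact_mod_cast hq)]
    have : (2 : ℝ) * p ≤ q := by exact_mod_cast hp
    linarith
  refine (h _ (hH.comp_push (hm.trans hml) (by linarith))).trans (mul_le_mul_of_nonneg_left ?_
    (by positivity))
  refine Finset.sum_le_sum fun s _ => mul_le_mul_of_nonneg_left ?_ (Nat.cast_nonneg _)
  rw [act_id, act_ch hq hp]
  exact push_mono hH hm hml hl0 (rep_nonneg M s)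

/-- Componentwise products of two families. -/
noncomputable def prodF (f : ι → Spin → ℝ) (g : κ → Spin → ℝ) : ι × κ → Spin → ℝ := fun p i => f p.1 i * g p.2 i

lemma image_eq_act {m : Map} (hd : 0 < m.den) (s : ℕ) (i : Fin 3) :
    image M m s i = (m.den : ℝ) * act m (rep M s) i := by
  have : (m.den : ℝ) ≠ 0 := by exact_mod_cast hd.ne'
  simp only [image, act]
  field_simp

/-- A sound accumulator check gives the law of a product of two independent families. -/
theorem Below.joinWith {f : ι → Spin → ℝ} {g : κ → Spin → ℝ} {n : ℕ} {mA mB : Map}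
    {A B C : List (List ℕ)} (hf : Below M K mA f A n) (hg : Below M K mB g B n)
    (og : Orb g) (hK : 0 < K) (hd : 0 < mA.den ∧ 0 < mB.den)
    (hs : ∀ H, Test H → ∑ s ∈ Finset.range A.length, ∑ t ∈ Finset.range B.length,
        (wgt A n s : ℝ) * wgt B n t *
          ∑ σ : Equiv.Perm (Fin 3), H (fun i => image M mA s i * image M mB t (σ i))
      ≤ 6 * ((mA.den : ℝ) * mB.den) * K * value M H C n) :
    Below M K idMap (prodF f g) C n := by
  intro H hH
  let H1 : (Fin 3 → ℝ) → ℝ := fun x => ∑ k, H (fun i => x i * g k i)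
  have nn : ∀ {x : Fin 3 → ℝ}, (∀ i, 0 ≤ x i) → ∀ k i, 0 ≤ x i * g k i := fun hx k i =>
    mul_nonneg (hx i) (og.nonneg k i)
  have hH1 : Test H1 := by
    refine ⟨fun x hx => Finset.sum_nonneg fun k _ => hH.nonneg _ (nn hx k), fun x y hx hy => ?_,
      fun c x hc hx => ?_, fun σ x hx => ?_⟩
    · simp only [H1, ← Finset.sum_add_distrib]
      refine Finset.sum_le_sum fun k _ => ?_
      have e : (fun i => (x + y) i * g k i) = (fun i => x i * g k i) + fun i => y i * g k i := by
        funext i; simp [add_mul]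
      rw [e]; exact hH.add_le _ _ (nn hx k) (nn hy k)
    · simp only [H1, Finset.mul_sum]
      refine Finset.sum_congr rfl fun k _ => ?_
      rw [← hH.smul _ _ hc (nn hx k)]
      congr 1; funext i; simp [mul_assoc]
    · obtain ⟨e, he⟩ := og.equiv σ
      simp only [H1]
      rw [← e.sum_comp fun k => H (fun i => x (σ i) * g k i)]
      refine Finset.sum_congr rfl fun k _ => ?_
      simp only [he]
      exact hH.symm σ _ (nn hx k)
  have s1 : ∑ p, H (prodF f g p) = ∑ j, H1 (f j) := Fintype.sum_prod_type _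
  rw [s1]
  refine (hf H1 hH1).trans ?_
  have key : ∀ u : Fin 3 → ℝ, (∀ i, 0 ≤ u i) → H1 u ≤ (1 / K : ℝ) * ∑ t ∈ Finset.range B.length,
      (wgt B n t : ℝ) * ((1 / 6 : ℝ) * ∑ σ : Equiv.Perm (Fin 3),
        H (fun i => u i * act mB (rep M t) (σ i))) := fun u hu => by
    let H2 : (Fin 3 → ℝ) → ℝ := fun y => (1 / 6 : ℝ) * ∑ σ : Equiv.Perm (Fin 3), H (fun i => u i * y (σ i))
    have mm : ∀ {y : Fin 3 → ℝ}, (∀ i, 0 ≤ y i) → ∀ (σ : Equiv.Perm (Fin 3)) i, 0 ≤ u i * y (σ i) :=
      fun hy σ i => mul_nonneg (hu i) (hy _)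
    have hH2 : Test H2 := by
      refine ⟨fun y hy => mul_nonneg (by norm_num) (Finset.sum_nonneg fun σ _ => hH.nonneg _ (mm hy σ)),
        fun x y hx hy => ?_, fun c x hc hx => ?_, fun τ x hx => ?_⟩
      · simp only [H2, ← mul_add, ← Finset.sum_add_distrib]
        refine mul_le_mul_of_nonneg_left (Finset.sum_le_sum fun σ _ => ?_) (by norm_num)
        have e : (fun i => u i * (x + y) (σ i)) =
            (fun i => u i * x (σ i)) + fun i => u i * y (σ i) := by
          funext i; simp [mul_add]
        rw [e]; exact hH.add_le _ _ (mm hx σ) (mm hy σ)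
      · simp only [H2, Finset.mul_sum]
        refine Finset.sum_congr rfl fun σ _ => ?_
        rw [mul_left_comm c, ← hH.smul _ _ hc (mm hx σ)]
        congr 2; funext i; simp only [Pi.smul_apply, smul_eq_mul]; ring
      · simp only [H2]
        congr 1
        exact Equiv.sum_comp (Equiv.mulLeft τ) fun σ : Equiv.Perm (Fin 3) => H (fun i => u i * x (σ i))
    have h6 : (Fintype.card (Equiv.Perm (Fin 3)) : ℝ) = 6 := by
      rw [Fintype.card_perm, Fintype.card_fin]; norm_num [Nat.factorial]
    have e : H1 u = ∑ k, H2 (g k) := by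
      simp only [H1, H2, Finset.mul_sum]
      rw [Finset.sum_comm]
      have : ∀ σ : Equiv.Perm (Fin 3), ∑ k, 1 / 6 * H (fun i => u i * g k (σ i)) =
          ∑ k, 1 / 6 * H (fun i => u i * g k i) := fun σ => by
        obtain ⟨eq, he⟩ := og.equiv σ
        rw [← eq.sum_comp fun k => 1 / 6 * H (fun i => u i * g k i)]
        simp only [he]
      simp only [this, Finset.sum_const, Finset.card_univ, nsmul_eq_mul, h6, Finset.mul_sum]
      exact Finset.sum_congr rfl fun k _ => by ring
    rw [e]
    exact hg H2 hH2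
  refine (mul_le_mul_of_nonneg_left (Finset.sum_le_sum fun s _ => mul_le_mul_of_nonneg_left
    (key _ (act_nonneg mA (rep_nonneg M s))) (Nat.cast_nonneg _)) (by positivity)).trans ?_
  have h := hs H hH
  have him : ∀ s t (σ : Equiv.Perm (Fin 3)), H (fun i => image M mA s i * image M mB t (σ i)) =
      (mA.den : ℝ) * mB.den * H (fun i => act mA (rep M s) i * act mB (rep M t) (σ i)) :=
    fun s t σ => by
      rw [← hH.smul _ _ (by positivity) (fun i => mul_nonneg (act_nonneg mA (rep_nonneg M s) i)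
        (act_nonneg mB (rep_nonneg M t) _))]
      congr 1; funext i
      simp only [image_eq_act hd.1, image_eq_act hd.2, Pi.smul_apply, smul_eq_mul]
      ring
  simp only [him] at h
  set X := ∑ s ∈ Finset.range A.length, ∑ t ∈ Finset.range B.length, (wgt A n s : ℝ) * wgt B n t *
    ∑ σ : Equiv.Perm (Fin 3), H (fun i => act mA (rep M s) i * act mB (rep M t) (σ i)) with hX
  have h' : X ≤ 6 * K * value M H C n := by
    refine le_of_mul_le_mul_left (le_trans (le_of_eq ?_) (h.trans (le_of_eq (by ring))))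
      (show (0 : ℝ) < (mA.den : ℝ) * mB.den by
        have := hd.1; have := hd.2; positivity)
    simp only [hX, Finset.mul_sum]
    exact Finset.sum_congr rfl fun s _ => Finset.sum_congr rfl fun t _ =>
      Finset.sum_congr rfl fun σ _ => by ring
  simp only [act_id]
  have hK' : (0 : ℝ) < K := by exact_mod_cast hK
  calc _ = (1 / K : ℝ) * (1 / K) * (1 / 6) * X := by
        simp only [hX, Finset.mul_sum]
        exact Finset.sum_congr rfl fun s _ => Finset.sum_congr rfl fun t _ =>
          Finset.sum_congr rfl fun σ _ => by ring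
    _ ≤ (1 / K : ℝ) * (1 / K) * (1 / 6) * (6 * K * value M H C n) :=
        mul_le_mul_of_nonneg_left h' (by positivity)
    _ = (1 / K : ℝ) * value M H C n := by field_simp

/-- The checker gives the law of a product of two independent families. -/
theorem Below.join {f : ι → Spin → ℝ} {g : κ → Spin → ℝ} {w L n : ℕ} {mA mB : Map}
    {A B C : List (List ℕ)} (hf : Below M K mA f A n) (hg : Below M K mB g B n)
    (og : Orb g) (hc : chk M K w L mA mB A B C = true) (hK : 0 < K) (hn : n < L) :
    Below M K idMap (prodF f g) C n := by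
  refine hf.joinWith hg og hK ?_ fun H hH => chk_sound hc hH hK hn
  simp only [chk, chkAcc, Bool.and_eq_true, decide_eq_true_eq] at hc
  tauto

/-- The checker of a law with a copy of itself. -/
theorem Below.joinS {f : ι → Spin → ℝ} {g : κ → Spin → ℝ} {w L n : ℕ} {m : Map}
    {A C : List (List ℕ)} (hf : Below M K m f A n) (hg : Below M K m g A n)
    (og : Orb g) (hc : chkS M K w L m A C = true) (hK : 0 < K) (hn : n < L) :
    Below M K idMap (prodF f g) C n := by
  refine hf.joinWith hg og hK ?_ fun H hH => chkS_sound hc hH hK hn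
  simp only [chkS, chkAcc, Bool.and_eq_true, decide_eq_true_eq] at hc
  tauto

variable {g : κ → Spin → ℝ}

/-- The law of `k` children. -/
noncomputable def many (l : ℝ) (k : ℕ) (g : κ → Spin → ℝ) : (Fin k → κ) → Spin → ℝ :=
  kids l fun _ : Fin k => g

lemma many_orb (hl : -(1 / 2) ≤ l) (hu : l ≤ 1) (hg : Fam g) (k : ℕ) : Orb (many l k g) :=
  Orb.of_fam (Fam.kids hl hu (ι := fun _ : Fin k => κ) fun _ => hg)

lemma Orb.push {f : ι → Spin → ℝ} (hl : -(1 / 2) ≤ l) (hu : l ≤ 1) (hf : Orb f) :
    Orb fun k => P154.push l (f k) := by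
  refine ⟨fun k => push_nonneg hl hu (hf.nonneg k), fun σ => ?_⟩
  obtain ⟨e, he⟩ := hf.equiv σ
  refine ⟨e, fun k i => ?_⟩
  simp only [push_eq, he, Equiv.sum_comp σ (f k)]

lemma many_one {G : List (List ℕ)} {n : ℕ} {m : Map}
    (h : Below M K m (fun k => push l (g k)) G n) : Below M K m (many l 1 g) G n := by
  intro H hH
  refine le_of_eq_of_le ?_ (h H hH)
  rw [← Equiv.sum_comp (Equiv.funUnique (Fin 1) κ).symm]
  refine Finset.sum_congr rfl fun j _ => congrArg H ?_
  funext i
  simp [many, kids]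

lemma many_add {G : List (List ℕ)} {n a b : ℕ}
    (h : Below M K idMap (prodF (many l a g) (many l b g)) G n) :
    Below M K idMap (many l (a + b) g) G n := by
  intro H hH
  refine le_of_eq_of_le ?_ (h H hH)
  rw [← Equiv.sum_comp (Fin.appendEquiv a b)]
  refine Finset.sum_congr rfl fun p _ => congrArg H ?_
  funext i
  simp [many, kids, prodF, Fin.prod_univ_add, Fin.appendEquiv]

/-! ### Chaining levels and reading off bounds -/

/-- The columns of `C` are those of `A`, shifted by one level. -/
noncomputable def link : List (List ℕ) → List (List ℕ) → Bool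
  | [], [] => true
  | a :: A, c :: C =>
    decide (c.length ≥ a.length - 1) &&
      (a.tail ++ List.replicate (c.length - (a.length - 1)) 0).dropLast == c.dropLast && link A C
  | _, _ => false

lemma getD_dropLast : ∀ (x : List ℕ) (n : ℕ), n + 1 < x.length → x.dropLast.getD n 0 = x.getD n 0
  | [], n, h => absurd h (by simp)
  | [a], n, h => absurd h (by simp)
  | a :: b :: x, 0, _ => by simp
  | a :: b :: x, n + 1, h => by
    rw [List.dropLast_cons_cons, List.getD_cons_succ, List.getD_cons_succ]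
    exact getD_dropLast (b :: x) n (by simpa using h)

lemma link_sound : ∀ (A C : List (List ℕ)), link A C = true → A.length = C.length ∧
    ∀ s n, n + 1 < (C.getD s []).length → wgt A (n + 1) s = wgt C n s
  | [], [], _ => ⟨rfl, fun s n h => absurd h (by simp)⟩
  | [], _ :: _, h => absurd h (by simp [link])
  | _ :: _, [], h => absurd h (by simp [link])
  | a :: A, c :: C, h => by
    simp only [link, Bool.and_eq_true, decide_eq_true_eq, beq_iff_eq] at h
    obtain ⟨hl, hr⟩ := link_sound A C h.2
    refine ⟨by simp [hl], fun s n hn => ?_⟩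
    cases s with
    | succ s => exact hr s n (by simpa using hn)
    | zero =>
      simp only [List.getD_cons_zero] at hn
      simp only [wgt, List.getD_cons_zero]
      have h1 := congrArg (fun x : List ℕ => x.getD n 0) h.1.2
      simp only [getD_dropLast c n hn] at h1
      rw [getD_dropLast _ n (by simp; omega)] at h1
      rw [← h1]
      cases a with
      | nil => simp [List.getD_eq_getElem?_getD]
      | cons a0 a =>
        rw [List.getD_cons_succ, List.tail_cons]
        rcases Nat.lt_or_ge n a.length with u | u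
        · rw [List.getD_append _ _ _ _ u]
        · rw [List.getD_append_right _ _ _ _ u, List.getD_eq_default _ _ u]
          simp [List.getD_eq_getElem?_getD]

lemma Below.link {f : ι → Spin → ℝ} {A C : List (List ℕ)} {n L : ℕ} (h : Below M K idMap f C n)
    (hk : link A C = true) (hC : ∀ c ∈ C, c.length = L) (hn : n + 1 < L) :
    Below M K idMap f A (n + 1) := by
  intro H hH
  obtain ⟨hl, hr⟩ := link_sound A C hk
  refine (h H hH).trans (le_of_eq ?_)
  rw [hl]
  refine congrArg _ (Finset.sum_congr rfl fun s hs => ?_)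
  have hs' := Finset.mem_range.1 hs
  rw [hr s n]
  rw [List.getD_eq_getElem?_getD, List.getElem?_eq_getElem hs', Option.getD_some,
    hC _ (List.getElem_mem hs')]
  exact hn

/-- `(3 v - M)²` summed over the coordinates of a slot. -/
noncomputable def qd (M s : ℕ) : ℕ :=
  let f := fun v => ((3 * v - M) + (M - 3 * v)) * ((3 * v - M) + (M - 3 * v))
  f (sa M s) + f (sb M s) + f (M - sa M s - sb M s)

/-- Weighted sum of powers of `qd`. -/
noncomputable def qsum (M e n : ℕ) : List (List ℕ) → ℕ → ℕ
  | [], _ => 0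
  | x :: G, s => x.getD n 0 * qd M s ^ e + qsum M e n G (s + 1)

lemma qsum_eq (M e n : ℕ) : ∀ (G : List (List ℕ)) (s : ℕ),
    qsum M e n G s = ∑ i ∈ Finset.range G.length, wgt G n i * qd M (s + i) ^ e
  | [], _ => by simp [qsum]
  | x :: G, s => by
    rw [qsum, qsum_eq M e n G (s + 1), List.length_cons, Finset.sum_range_succ']
    simp [wgt, add_comm, add_left_comm]

lemma qd_cast (M s : ℕ) : (qd M s : ℝ) = (3 * rep M s 0 - M) ^ 2 + (3 * rep M s 1 - M) ^ 2
    + (3 * rep M s 2 - M) ^ 2 := by
  have e : ∀ v : ℕ, ((((3 * v - M) + (M - 3 * v)) * ((3 * v - M) + (M - 3 * v)) : ℕ) : ℝ) =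
      (3 * (v : ℝ) - M) ^ 2 := fun v => by
    rcases le_total (3 * v) M with h | h
    · rw [Nat.sub_eq_zero_of_le h, Nat.zero_add, Nat.cast_mul, Nat.cast_sub h]; push_cast; ring
    · rw [Nat.sub_eq_zero_of_le h, Nat.add_zero, Nat.cast_mul, Nat.cast_sub h]; push_cast; ring
  simp only [qd, Nat.cast_add, e, rep, vec]
  simp

/-- The perspective of a potential. -/
noncomputable def persp (φ : (Spin → ℝ) → ℝ) (x : Spin → ℝ) : ℝ := wt x * φ (post x)

/-- A symmetric convex nonnegative potential gives a test function. -/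
lemma persp_test {φ : (Spin → ℝ) → ℝ} (h0 : ∀ a, 0 ≤ φ a)
    (hs : ∀ (σ : Equiv.Perm Spin) a, φ (fun i => a (σ i)) = φ a)
    (hc : ∀ a b (t : ℝ), InS a → InS b → 0 ≤ t → t ≤ 1 →
      φ (fun i => t * a i + (1 - t) * b i) ≤ t * φ a + (1 - t) * φ b) : Test (persp φ) := by
  refine ⟨fun x hx => mul_nonneg (wt_nonneg hx) (h0 _), fun x y hx hy => ?_, fun c x hc' hx => ?_,
    fun σ x hx => ?_⟩
  · have hw : wt (x + y) = wt x + wt y := by
      simp only [wt, Pi.add_apply, Finset.sum_add_distrib]; ring
    have wx := wt_nonneg hx; have wy := wt_nonneg hy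
    simp only [persp]
    rcases eq_or_lt_of_le (add_nonneg wx wy) with h | h
    · rw [hw, ← h, show wt x = 0 by linarith, show wt y = 0 by linarith]; simp
    have hne : wt (x + y) ≠ 0 := by rw [hw]; exact h.ne'
    have e : post (x + y) =
        fun i => wt x / (wt x + wt y) * post x i + (1 - wt x / (wt x + wt y)) * post y i := by
      funext i
      have e1 := wt_mul_post hx i
      have e2 := wt_mul_post hy i
      rw [post, if_neg hne]
      show (x + y) i / wt (x + y) = _
      rw [hw, one_sub_div h.ne', add_sub_cancel_left, div_mul_eq_mul_div, div_mul_eq_mul_div, e1, e2,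
        ← add_div, Pi.add_apply]
    rw [hw, e]
    have hcc := hc _ _ (wt x / (wt x + wt y)) (post_inS hx) (post_inS hy) (div_nonneg wx h.le)
      ((div_le_one h).2 (by linarith))
    refine (mul_le_mul_of_nonneg_left hcc h.le).trans (le_of_eq ?_)
    field_simp
    ring
  · have hw : wt (c • x) = c * wt x := by
      simp only [wt, Pi.smul_apply, smul_eq_mul, ← Finset.mul_sum]; ring
    simp only [persp]
    rw [hw]
    rcases eq_or_ne (c * wt x) 0 with h | h
    · rw [h, ← mul_assoc, h]; simp
    have e : post (c • x) = post x := by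
      funext i
      simp only [post, hw, if_neg h, if_neg (right_ne_zero_of_mul h), Pi.smul_apply, smul_eq_mul]
      rw [mul_div_mul_left _ _ (left_ne_zero_of_mul h)]
    rw [e, mul_assoc]
  · obtain ⟨hw, hp⟩ := post_perm (g := x) (h := fun i => x (σ i)) σ fun _ => rfl
    simp only [persp]
    rw [hw, show post (fun i => x (σ i)) = fun i => post x (σ i) from funext hp, hs]

lemma sq_symm (σ : Equiv.Perm Spin) (a : Spin → ℝ) : sq (fun i => a (σ i)) = sq a := by
  have := Equiv.sum_comp σ fun i => (a i - 1) ^ 2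
  simp only [Fin.sum_univ_three] at this
  simp only [P154.sq, this]

lemma sq_nonneg' (a : Spin → ℝ) : 0 ≤ sq a := by unfold P154.sq; positivity

lemma sq_convex (a b : Spin → ℝ) {t : ℝ} (h0 : 0 ≤ t) (h1 : t ≤ 1) :
    sq (fun i => t * a i + (1 - t) * b i) ≤ t * sq a + (1 - t) * sq b := by
  simp only [P154.sq]
  nlinarith [mul_nonneg (mul_nonneg h0 (sub_nonneg.2 h1))
    (add_nonneg (add_nonneg (sq_nonneg (a 0 - b 0)) (sq_nonneg (a 1 - b 1))) (sq_nonneg (a 2 - b 2)))]

lemma test_sq : Test (persp sq) :=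
  persp_test sq_nonneg' sq_symm fun a b _ _ _ h0 h1 => sq_convex a b h0 h1

lemma test_sq2 : Test (persp fun a => sq a ^ 2) := by
  refine persp_test (fun a => sq_nonneg _) (fun σ a => by rw [sq_symm]) fun a b t _ _ h0 h1 => ?_
  refine (pow_le_pow_left₀ (sq_nonneg' _) (sq_convex a b h0 h1) 2).trans ?_
  nlinarith [mul_nonneg (mul_nonneg h0 (sub_nonneg.2 h1)) (sq_nonneg (sq a - sq b))]

lemma persp_rep {s : ℕ} (hM : 0 < M) (hs : valid M s = true) :
    persp sq (rep M s) = qd M s / (18 * (M : ℝ)) ∧
      persp (fun a => sq a ^ 2) (rep M s) = (qd M s : ℝ) ^ 2 / (108 * (M : ℝ) ^ 3) := by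
  simp only [valid, decide_eq_true_eq] at hs
  have hsum : rep M s 0 + rep M s 1 + rep M s 2 = M := by
    simp only [rep, vec]
    simp
    exact_mod_cast (show sa M s + sb M s + (M - sa M s - sb M s) = M by omega)
  have hM' : (M : ℝ) ≠ 0 := by exact_mod_cast hM.ne'
  have hw : wt (rep M s) = M / 3 := by simp only [wt, Fin.sum_univ_three, hsum]
  have hsq : sq (post (rep M s)) = qd M s / (6 * (M : ℝ) ^ 2) := by
    rw [qd_cast, post, if_neg (by rw [hw]; positivity), P154.sq]
    simp only [hw]
    field_simp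
  simp only [persp, hw, hsq]
  constructor <;> field_simp <;> ring

/-- Reading off the bounds on `sq` and its square. -/
theorem Below.bounds {f : ι → Spin → ℝ} {G : List (List ℕ)} {n : ℕ} (h : Below M K idMap f G n)
    (hM : 0 < M) (hK : 0 < K) (hG : supp M G 0 = true) {a b a' b' : ℕ} (hb : 0 < b) (hb' : 0 < b')
    (h1 : b * qsum M 1 n G 0 ≤ a * (18 * M * K))
    (h2 : b' * qsum M 2 n G 0 ≤ a' * (108 * M ^ 3 * K)) :
    expect sq f ≤ (a : ℝ) / b ∧ expect (fun x => sq x ^ 2) f ≤ (a' : ℝ) / b' := by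
  have hv : ∀ s, wgt G n s = 0 ∨ valid M s = true := fun s =>
    (eq_or_ne (wgt G n s) 0).imp_right fun hs => by simpa using supp_sound G 0 hG n s hs
  have hM' : (0 : ℝ) < M := by exact_mod_cast hM
  have hK' : (0 : ℝ) < K := by exact_mod_cast hK
  constructor
  · refine (h _ test_sq).trans ?_
    have e : ∑ s ∈ Finset.range G.length, (wgt G n s : ℝ) * persp sq (act idMap (rep M s)) =
        (qsum M 1 n G 0 : ℝ) / (18 * M) := by
      rw [qsum_eq, Nat.cast_sum, Finset.sum_div]
      refine Finset.sum_congr rfl fun s _ => ?_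
      rw [act_id]
      rcases hv s with z | z
      · simp [z]
      · rw [(persp_rep hM z).1]; push_cast; simp; ring
    have h1' : (b : ℝ) * qsum M 1 n G 0 ≤ a * (18 * M * K) := by exact_mod_cast h1
    rw [e, div_mul_div_comm, one_mul, div_le_div_iff₀ (by positivity) (by exact_mod_cast hb)]
    linarith
  · refine (h _ test_sq2).trans ?_
    have e : ∑ s ∈ Finset.range G.length,
          (wgt G n s : ℝ) * persp (fun x => sq x ^ 2) (act idMap (rep M s)) =
        (qsum M 2 n G 0 : ℝ) / (108 * (M : ℝ) ^ 3) := by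
      rw [qsum_eq, Nat.cast_sum, Finset.sum_div]
      refine Finset.sum_congr rfl fun s _ => ?_
      rw [act_id]
      rcases hv s with z | z
      · simp [z]
      · rw [(persp_rep hM z).2]; push_cast; simp; ring
    have h2' : (b' : ℝ) * qsum M 2 n G 0 ≤ a' * (108 * (M : ℝ) ^ 3 * K) := by exact_mod_cast h2
    rw [e, div_mul_div_comm, one_mul, div_le_div_iff₀ (by positivity) (by exact_mod_cast hb')]
    linarith

/-- The leaves: the root is known. -/
lemma below_leaf {G : List (List ℕ)} {M K : ℕ} (hK : 0 < K) (hG : 0 < G.length)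
    (h0 : M * wgt G 0 0 = 3 * K) (l : ℝ) (T : Tr 0) : Below M K idMap (lik l 0 T) G 0 := by
  intro H hH
  have hr : rep M 0 = vec 0 0 M := by simp [rep, sa_eq, sb_eq]
  have hMe : rep M 0 = (M : ℝ) • vec 0 0 1 := by
    rw [hr]; funext i; fin_cases i <;> simp [vec]
  have e1 : H (vec 0 1 0) = H (vec 0 0 1) := hH.swap12 0 0 1
  have e2 : H (vec 1 0 0) = H (vec 0 0 1) := (hH.swap01 0 1 0).trans e1
  have hl : ∀ c : Spin, H (lik l 0 T c) = H (vec 0 0 1) := fun c => by
    have d01 : (0 : Spin) ≠ 1 := by decide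
    have d02 : (0 : Spin) ≠ 2 := by decide
    have d12 : (1 : Spin) ≠ 2 := by decide
    have hc : ∀ t : Spin, t = 0 ∨ t = 1 ∨ t = 2 := by decide
    rcases hc c with rfl | rfl | rfl
    · refine (congrArg H ?_).trans e2
      funext i; rcases hc i with rfl | rfl | rfl <;> simp [lik, vec, d01.symm, d02.symm]
    · refine (congrArg H ?_).trans e1
      funext i; rcases hc i with rfl | rfl | rfl <;> simp [lik, vec, d01, d12.symm]
    · refine congrArg H ?_
      funext i; rcases hc i with rfl | rfl | rfl <;> simp [lik, vec, d02, d12]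
  show ∑ c : Spin, H (lik l 0 T c) ≤ _
  simp only [hl, Fin.sum_univ_three, act_id]
  refine le_trans ?_ (mul_le_mul_of_nonneg_left (Finset.single_le_sum (fun s _ =>
    mul_nonneg (Nat.cast_nonneg _) (hH.nonneg _ (rep_nonneg M s))) (Finset.mem_range.2 hG))
    (by positivity))
  rw [hMe, hH.smul _ _ (Nat.cast_nonneg M) (vec_nonneg 0 0 1)]
  have h0' : (M : ℝ) * wgt G 0 0 = 3 * K := by exact_mod_cast h0
  have hK' : (K : ℝ) ≠ 0 := by exact_mod_cast hK.ne'
  refine le_of_eq ?_
  field_simp
  linear_combination (-H (vec 0 0 1)) * h0'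

end Vale.Agent.P154.De
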