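import Vale.Agent.P154.DeDom

/-!
Assembling checked joining steps into bounds of the root posterior on regular trees.
-/

open scoped BigOperators

namespace Vale.Agent.P154.De

variable {κ : Type} [Fintype κ] {M K w L n : ℕ} {l : ℝ} {g : κ → Spin → ℝ}

/-- Full rows of zeros for the slots without weight. -/
noncomputable def pad (L : ℕ) (G : List (List ℕ)) : List (List ℕ) :=
  G.map fun x => bif x.isEmpty then List.replicate L 0 else x

lemma wgt_pad (L : ℕ) (G : List (List ℕ)) (n s : ℕ) : wgt (pad L G) n s = wgt G n s := by
  rcases h : G[s]? with _ | x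
  · simp [wgt, pad, List.getD_eq_getElem?_getD, h]
  · cases x <;> simp [wgt, pad, List.getD_eq_getElem?_getD, h, List.getElem?_replicate] <;> split_ifs <;> simp

lemma Below.unpad {ι : Type} [Fintype ι] {f : ι → Spin → ℝ} {m : Map} {G : List (List ℕ)}
    (h : Below M K m f (pad L G) n) : Below M K m f G n := fun H hH => by
  have := h H hH
  simp only [wgt_pad] at this
  rwa [show (pad L G).length = G.length from List.length_map ..] at this

/-- One child seen through its edge. -/
lemma Below.one {p q : ℕ} {A : List (List ℕ)} (h : Below M K idMap g A n) (hq : 0 < q)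
    (hp : 2 * p ≤ q) (hml : -(p : ℝ) / q ≤ l) (hl0 : l ≤ 0) :
    Below M K (chMap p q) (many l 1 g) A n :=
  many_one (h.channel hq hp hml hl0)

/-- Two groups of children together. -/
lemma Below.two {a b : ℕ} {mA mB : Map} {A B C : List (List ℕ)}
    (hf : Below M K mA (many l a g) A n) (hg : Below M K mB (many l b g) B n)
    (hc : chk M K w L mA mB A B (pad L C) = true) (hK : 0 < K) (hn : n < L)
    (hl : -(1 / 2) ≤ l) (hl0 : l ≤ 0) (hfam : Fam g) :
    Below M K idMap (many l (a + b) g) C n :=
  (many_add (Below.join hf hg
    (many_orb hl (by linarith) hfam b) hc hK hn)).unpad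

/-- Two equal groups of children together. -/
lemma Below.double {a : ℕ} {m : Map} {A C : List (List ℕ)}
    (hf : Below M K m (many l a g) A n)
    (hc : chkS M K w L m A (pad L C) = true) (hK : 0 < K) (hn : n < L)
    (hl : -(1 / 2) ≤ l) (hl0 : l ≤ 0) (hfam : Fam g) :
    Below M K idMap (many l (a + a) g) C n :=
  (many_add (Below.joinS hf hf (many_orb hl (by linarith) hfam a) hc hK hn)).unpad

/-- What one checked joining step of consecutive levels gives for `d` children. -/
noncomputable def Step (M K L d : ℕ) (l : ℝ) (Y R : List (List ℕ)) : Prop :=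
  ∀ (κ : Type) [Fintype κ] (g : κ → Spin → ℝ) (n : ℕ), Fam g → n < L →
    Below M K idMap g Y n → Below M K idMap (many l d g) R n

/-- Side conditions of one block of levels. -/
noncomputable def blockOk (L : ℕ) (Y R : List (List ℕ)) : Bool :=
  decide (0 < L) && link Y (pad L R) && (pad L R).all fun c => decide (c.length = L)

/-- One block of levels on the regular tree. -/
theorem block {d n0 : ℕ} {Y R : List (List ℕ)} (hok : blockOk L Y R = true)
    (hl : -(1 / 2) ≤ l) (hl0 : l ≤ 0) (hstep : Step M K L d l Y R)
    (hbase : Below M K idMap (lik l n0 (regular d n0)) Y 0) :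
    Below M K idMap (lik l (n0 + L) (regular d (n0 + L))) R (L - 1) := by
  simp only [blockOk, Bool.and_eq_true, decide_eq_true_eq] at hok
  obtain ⟨⟨hL, hlink⟩, hlen⟩ := hok
  have key : ∀ n, n < L → Below M K idMap (lik l (n0 + n) (regular d (n0 + n))) Y n := by
    intro n
    induction n with
    | zero => exact fun _ => hbase
    | succ n ih =>
      intro hn
      have hs := hstep _ _ n (fam_lik hl (by linarith) (n0 + n) (regular d (n0 + n))) (by omega)
        (ih (by omega))
      have hp : Below M K idMap (lik l (n0 + n + 1) (regular d (n0 + n + 1))) (pad L R) n := by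
        intro H hH
        have h := hs H hH
        simp only [wgt_pad]
        rw [show (pad L R).length = R.length from List.length_map ..]
        exact h
      refine hp.link hlink (fun c hc => ?_) hn
      simpa using List.all_eq_true.1 hlen c hc
  obtain ⟨m, rfl⟩ : ∃ m, L = m + 1 := ⟨L - 1, by omega⟩
  exact hstep _ _ m (fam_lik hl (by linarith) (n0 + m) (regular d (n0 + m))) (by omega)
    (key m (by omega))

/-- The first column of `Y` is column `n` of `R`. -/
noncomputable def glue (n : ℕ) (R Y : List (List ℕ)) : Bool :=
  (R.map fun x => x.getD n 0) == Y.map fun x => x.getD 0 0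

lemma Below.glue {ι : Type} [Fintype ι] {f : ι → Spin → ℝ} {m : Map} {R Y : List (List ℕ)}
    (h : Below M K m f R n) (hg : De.glue n R Y = true) : Below M K m f Y 0 := fun H hH => by
  simp only [De.glue, beq_iff_eq] at hg
  have hlen : R.length = Y.length := by simpa using congrArg List.length hg
  refine (h H hH).trans (le_of_eq ?_)
  rw [hlen]
  refine congrArg _ (Finset.sum_congr rfl fun s hs => ?_)
  have hs' := Finset.mem_range.1 hs
  have := congrArg (fun x : List ℕ => x.getD s 0) hg
  simp [List.getD_eq_getElem?_getD, hlen, hs'] at this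
  simp [wgt, List.getD_eq_getElem?_getD, hlen, hs', this]

end Vale.Agent.P154.De
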