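import Vale.Agent.P154.DeKids
import Vale.Agent.P154.DeRun10D0
import Vale.Agent.P154.DeRun10D1

/-!
Kernel checks of one joining step for 10 children, several blocks of levels at once.
-/

namespace Vale.Agent.P154.De.R10

/-- The checks of the step `P`, blocks 0 to 1. -/
theorem allP0 : (chkS 36 39582418599936 114 9 (chMap 37 117) wY0 (pad 9 wP0) &&
    (chkS 36 39582418599936 114 9 (chMap 37 117) wY1 (pad 9 wP1))) = true := by decide +kernel

theorem chkP0 : chkS 36 39582418599936 114 9 (chMap 37 117) wY0 (pad 9 wP0) = true :=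
  (Bool.and_eq_true_iff.1 allP0).1

theorem chkP1 : chkS 36 39582418599936 114 9 (chMap 37 117) wY1 (pad 9 wP1) = true :=
  (Bool.and_eq_true_iff.1 allP0).2

end Vale.Agent.P154.De.R10
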