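import Vale.Agent.P154.DeKids
import Vale.Agent.P154.DeRun10D2

/-!
Kernel checks of one joining step for 10 children, several blocks of levels at once.
-/

namespace Vale.Agent.P154.De.R10

/-- The checks of the step `R`, blocks 2 to 2. -/
theorem allR1 : (chk 36 39582418599936 97 9 idMap idMap wS2 wP2 (pad 9 wR2)) = true := by decide +kernel

theorem chkR2 : chk 36 39582418599936 97 9 idMap idMap wS2 wP2 (pad 9 wR2) = true :=
  allR1

end Vale.Agent.P154.De.R10
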