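import Vale.Agent.P154.DeKids
import Vale.Agent.P154.DeRun11D0
import Vale.Agent.P154.DeRun11D1

/-!
Kernel checks of one joining step for 11 children, several blocks of levels at once.
-/

namespace Vale.Agent.P154.De.R11

/-- The checks of the step `T`, blocks 0 to 1. -/
theorem allT0 : (chk 36 39582418599936 107 9 idMap (chMap 139 461) wP0 wY0 (pad 9 wT0) &&
    (chk 36 39582418599936 107 9 idMap (chMap 139 461) wP1 wY1 (pad 9 wT1))) = true := by decide +kernel

theorem chkT0 : chk 36 39582418599936 107 9 idMap (chMap 139 461) wP0 wY0 (pad 9 wT0) = true :=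
  (Bool.and_eq_true_iff.1 allT0).1

theorem chkT1 : chk 36 39582418599936 107 9 idMap (chMap 139 461) wP1 wY1 (pad 9 wT1) = true :=
  (Bool.and_eq_true_iff.1 allT0).2

end Vale.Agent.P154.De.R11
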