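import Vale.Agent.P154.DeKids
import Vale.Agent.P154.DeRun10Q0
import Vale.Agent.P154.DeRun11D2

/-!
Kernel checks of one joining step for 11 children, several blocks of levels at once.
-/

namespace Vale.Agent.P154.De.R11

/-- The checks of the step `Q`, blocks 2 to 2. -/
theorem allQ1 : (chkS 36 39582418599936 97 9 idMap wP2 (pad 9 wQ2)) = true := by decide +kernel

theorem chkQ2 : chkS 36 39582418599936 97 9 idMap wP2 (pad 9 wQ2) = true :=
  allQ1

end Vale.Agent.P154.De.R11
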