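import Vale.Agent.P154.DeKids
import Vale.Agent.P154.DeRun11D0
import Vale.Agent.P154.DeRun11D1

/-!
Kernel checks of one joining step for 11 children, several blocks of levels at once.
-/

namespace Vale.Agent.P154.De.R11

/-- The checks of the step `S`, blocks 0 to 1. -/
theorem allS0 : (chkS 36 39582418599936 97 9 idMap wQ0 (pad 9 wS0) &&
    (chkS 36 39582418599936 97 9 idMap wQ1 (pad 9 wS1))) = true := by decide +kernel

theorem chkS0 : chkS 36 39582418599936 97 9 idMap wQ0 (pad 9 wS0) = true :=
  (Bool.and_eq_true_iff.1 allS0).1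

theorem chkS1 : chkS 36 39582418599936 97 9 idMap wQ1 (pad 9 wS1) = true :=
  (Bool.and_eq_true_iff.1 allS0).2

end Vale.Agent.P154.De.R11
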