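import Vale.Agent.P154.DeRun4C0

/-!
A level with small moments on the regular tree with 4 children, up to criticality.
-/

namespace Vale.Agent.P154.De

/-- For 4 children one height has small second and fourth moments, uniformly up to criticality. -/
theorem level_d4 {l : ℝ} (hl0 : l ≤ 0) (hml : -((1 : ℕ) : ℝ) / (2 : ℕ) ≤ l) :
    expect sq (lik l 171 (regular 4 171)) ≤ 3 / 25 ∧
      expect (fun x => sq x ^ 2) (lik l 171 (regular 4 171)) ≤ 3 / 125 := by
  have hl : -(1 / 2) ≤ l := le_trans (by norm_num) hml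
  have e0 : Below 30 32985348833280 idMap (lik l 0 (regular 4 0)) R4.wY0 0 := by
    refine below_leaf (by norm_num) ?_ ?_ l _ <;> decide +kernel
  have b0 : Below 30 32985348833280 idMap (lik l 15 (regular 4 15)) R4.wR0 14 :=
    block (n0 := 0) (L := 15) R4.ok0 hl hl0 (R4.step0 hml hl hl0) e0
  have e1 := b0.glue R4.glue1
  have b1 : Below 30 32985348833280 idMap (lik l 31 (regular 4 31)) R4.wR1 15 :=
    block (n0 := 15) (L := 16) R4.ok1 hl hl0 (R4.step1 hml hl hl0) e1
  have e2 := b1.glue R4.glue2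
  have b2 : Below 30 32985348833280 idMap (lik l 46 (regular 4 46)) R4.wR2 14 :=
    block (n0 := 31) (L := 15) R4.ok2 hl hl0 (R4.step2 hml hl hl0) e2
  have e3 := b2.glue R4.glue3
  have b3 : Below 30 32985348833280 idMap (lik l 62 (regular 4 62)) R4.wR3 15 :=
    block (n0 := 46) (L := 16) R4.ok3 hl hl0 (R4.step3 hml hl hl0) e3
  have e4 := b3.glue R4.glue4
  have b4 : Below 30 32985348833280 idMap (lik l 77 (regular 4 77)) R4.wR4 14 :=
    block (n0 := 62) (L := 15) R4.ok4 hl hl0 (R4.step4 hml hl hl0) e4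
  have e5 := b4.glue R4.glue5
  have b5 : Below 30 32985348833280 idMap (lik l 93 (regular 4 93)) R4.wR5 15 :=
    block (n0 := 77) (L := 16) R4.ok5 hl hl0 (R4.step5 hml hl hl0) e5
  have e6 := b5.glue R4.glue6
  have b6 : Below 30 32985348833280 idMap (lik l 108 (regular 4 108)) R4.wR6 14 :=
    block (n0 := 93) (L := 15) R4.ok6 hl hl0 (R4.step6 hml hl hl0) e6
  have e7 := b6.glue R4.glue7
  have b7 : Below 30 32985348833280 idMap (lik l 124 (regular 4 124)) R4.wR7 15 :=
    block (n0 := 108) (L := 16) R4.ok7 hl hl0 (R4.step7 hml hl hl0) e7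
  have e8 := b7.glue R4.glue8
  have b8 : Below 30 32985348833280 idMap (lik l 139 (regular 4 139)) R4.wR8 14 :=
    block (n0 := 124) (L := 15) R4.ok8 hl hl0 (R4.step8 hml hl hl0) e8
  have e9 := b8.glue R4.glue9
  have b9 : Below 30 32985348833280 idMap (lik l 155 (regular 4 155)) R4.wR9 15 :=
    block (n0 := 139) (L := 16) R4.ok9 hl hl0 (R4.step9 hml hl hl0) e9
  have e10 := b9.glue R4.glue10
  have b10 : Below 30 32985348833280 idMap (lik l 171 (regular 4 171)) R4.wR10 15 :=
    block (n0 := 155) (L := 16) R4.ok10 hl hl0 (R4.step10 hml hl hl0) e10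
  exact_mod_cast b10.bounds (a := 3) (b := 25) (a' := 3) (b' := 125)
    (by norm_num) (by norm_num) (by decide +kernel) (by norm_num) (by norm_num) (by decide +kernel)
    (by decide +kernel)

end Vale.Agent.P154.De
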