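import Vale.Agent.P154.DeKids
import Vale.Agent.P154.DeRun4D6
import Vale.Agent.P154.DeRun4D7
import Vale.Agent.P154.DeRun4D8

/-!
Kernel checks of one joining step for 4 children, several blocks of levels at once.
-/

namespace Vale.Agent.P154.De.R4

/-- The checks of the step `R`, blocks 6 to 8. -/
theorem allR2 : (chkS 30 32985348833280 96 15 idMap wP6 (pad 15 wR6) &&
    (chkS 30 32985348833280 96 16 idMap wP7 (pad 16 wR7) &&
    (chkS 30 32985348833280 96 15 idMap wP8 (pad 15 wR8)))) = true := by decide +kernel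

theorem chkR6 : chkS 30 32985348833280 96 15 idMap wP6 (pad 15 wR6) = true :=
  (Bool.and_eq_true_iff.1 allR2).1

theorem chkR7 : chkS 30 32985348833280 96 16 idMap wP7 (pad 16 wR7) = true :=
  (Bool.and_eq_true_iff.1 (Bool.and_eq_true_iff.1 allR2).2).1

theorem chkR8 : chkS 30 32985348833280 96 15 idMap wP8 (pad 15 wR8) = true :=
  (Bool.and_eq_true_iff.1 (Bool.and_eq_true_iff.1 allR2).2).2

end Vale.Agent.P154.De.R4
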