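import Vale.Agent.P154.DeKids
import Vale.Agent.P154.DeRun9R0
import Vale.Agent.P154.DeRun4D10
import Vale.Agent.P154.DeRun4D9

/-!
Kernel checks of one joining step for 4 children, several blocks of levels at once.
-/

namespace Vale.Agent.P154.De.R4

/-- The checks of the step `P`, blocks 9 to 10. -/
theorem allP3 : (chkS 30 32985348833280 101 16 (chMap 1 2) wY9 (pad 16 wP9) &&
    (chkS 30 32985348833280 101 16 (chMap 1 2) wY10 (pad 16 wP10))) = true := by decide +kernel

theorem chkP9 : chkS 30 32985348833280 101 16 (chMap 1 2) wY9 (pad 16 wP9) = true :=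
  (Bool.and_eq_true_iff.1 allP3).1

theorem chkP10 : chkS 30 32985348833280 101 16 (chMap 1 2) wY10 (pad 16 wP10) = true :=
  (Bool.and_eq_true_iff.1 allP3).2

end Vale.Agent.P154.De.R4
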