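import Vale.Agent.P154.DeRun4P0
import Vale.Agent.P154.DeRun4R0
import Vale.Agent.P154.DeRun4D0
import Vale.Agent.P154.DeRun4D1
import Vale.Agent.P154.DeRun4P1
import Vale.Agent.P154.DeRun4R1
import Vale.Agent.P154.DeRun4D2
import Vale.Agent.P154.DeRun4D3
import Vale.Agent.P154.DeRun4D4
import Vale.Agent.P154.DeRun4P2
import Vale.Agent.P154.DeRun4R2
import Vale.Agent.P154.DeRun4D5
import Vale.Agent.P154.DeRun4D6
import Vale.Agent.P154.DeRun4D7
import Vale.Agent.P154.DeRun4P3
import Vale.Agent.P154.DeRun4R3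
import Vale.Agent.P154.DeRun4D8
import Vale.Agent.P154.DeRun4D9

/-!
Kernel checks for 4 children, levels 0 to 15.
-/

namespace Vale.Agent.P154.De.R4

theorem ok0 : blockOk 15 wY0 wR0 = true := by decide +kernel

lemma step0 {l : ℝ} (hml : -((1 : ℕ) : ℝ) / (2 : ℕ) ≤ l) (hl : -(1 / 2) ≤ l) (hl0 : l ≤ 0) :
    Step 30 32985348833280 15 4 l wY0 wR0 := by
  intro κ _ g n hg hn h
  have hY := h.one (g := g) (p := 1) (q := 2) (by norm_num) (by norm_num) hml hl0
  have hP : Below 30 32985348833280 idMap (many l (1 + 1) g) wP0 n :=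
    hY.double chkP0 (by norm_num) hn hl hl0 hg
  have hR : Below 30 32985348833280 idMap (many l (2 + 2) g) wR0 n :=
    hP.double chkR0 (by norm_num) hn hl hl0 hg
  exact hR

theorem ok1 : blockOk 16 wY1 wR1 = true := by decide +kernel

theorem glue1 : glue 14 wR0 wY1 = true := by decide +kernel

lemma step1 {l : ℝ} (hml : -((1 : ℕ) : ℝ) / (2 : ℕ) ≤ l) (hl : -(1 / 2) ≤ l) (hl0 : l ≤ 0) :
    Step 30 32985348833280 16 4 l wY1 wR1 := by
  intro κ _ g n hg hn h
  have hY := h.one (g := g) (p := 1) (q := 2) (by norm_num) (by norm_num) hml hl0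
  have hP : Below 30 32985348833280 idMap (many l (1 + 1) g) wP1 n :=
    hY.double chkP1 (by norm_num) hn hl hl0 hg
  have hR : Below 30 32985348833280 idMap (many l (2 + 2) g) wR1 n :=
    hP.double chkR1 (by norm_num) hn hl hl0 hg
  exact hR

theorem ok2 : blockOk 15 wY2 wR2 = true := by decide +kernel

theorem glue2 : glue 15 wR1 wY2 = true := by decide +kernel

lemma step2 {l : ℝ} (hml : -((1 : ℕ) : ℝ) / (2 : ℕ) ≤ l) (hl : -(1 / 2) ≤ l) (hl0 : l ≤ 0) :
    Step 30 32985348833280 15 4 l wY2 wR2 := by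
  intro κ _ g n hg hn h
  have hY := h.one (g := g) (p := 1) (q := 2) (by norm_num) (by norm_num) hml hl0
  have hP : Below 30 32985348833280 idMap (many l (1 + 1) g) wP2 n :=
    hY.double chkP2 (by norm_num) hn hl hl0 hg
  have hR : Below 30 32985348833280 idMap (many l (2 + 2) g) wR2 n :=
    hP.double chkR2 (by norm_num) hn hl hl0 hg
  exact hR

theorem ok3 : blockOk 16 wY3 wR3 = true := by decide +kernel

theorem glue3 : glue 14 wR2 wY3 = true := by decide +kernel

lemma step3 {l : ℝ} (hml : -((1 : ℕ) : ℝ) / (2 : ℕ) ≤ l) (hl : -(1 / 2) ≤ l) (hl0 : l ≤ 0) :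
    Step 30 32985348833280 16 4 l wY3 wR3 := by
  intro κ _ g n hg hn h
  have hY := h.one (g := g) (p := 1) (q := 2) (by norm_num) (by norm_num) hml hl0
  have hP : Below 30 32985348833280 idMap (many l (1 + 1) g) wP3 n :=
    hY.double chkP3 (by norm_num) hn hl hl0 hg
  have hR : Below 30 32985348833280 idMap (many l (2 + 2) g) wR3 n :=
    hP.double chkR3 (by norm_num) hn hl hl0 hg
  exact hR

theorem ok4 : blockOk 15 wY4 wR4 = true := by decide +kernel

theorem glue4 : glue 15 wR3 wY4 = true := by decide +kernel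

lemma step4 {l : ℝ} (hml : -((1 : ℕ) : ℝ) / (2 : ℕ) ≤ l) (hl : -(1 / 2) ≤ l) (hl0 : l ≤ 0) :
    Step 30 32985348833280 15 4 l wY4 wR4 := by
  intro κ _ g n hg hn h
  have hY := h.one (g := g) (p := 1) (q := 2) (by norm_num) (by norm_num) hml hl0
  have hP : Below 30 32985348833280 idMap (many l (1 + 1) g) wP4 n :=
    hY.double chkP4 (by norm_num) hn hl hl0 hg
  have hR : Below 30 32985348833280 idMap (many l (2 + 2) g) wR4 n :=
    hP.double chkR4 (by norm_num) hn hl hl0 hg
  exact hR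

theorem ok5 : blockOk 16 wY5 wR5 = true := by decide +kernel

theorem glue5 : glue 14 wR4 wY5 = true := by decide +kernel

lemma step5 {l : ℝ} (hml : -((1 : ℕ) : ℝ) / (2 : ℕ) ≤ l) (hl : -(1 / 2) ≤ l) (hl0 : l ≤ 0) :
    Step 30 32985348833280 16 4 l wY5 wR5 := by
  intro κ _ g n hg hn h
  have hY := h.one (g := g) (p := 1) (q := 2) (by norm_num) (by norm_num) hml hl0
  have hP : Below 30 32985348833280 idMap (many l (1 + 1) g) wP5 n :=
    hY.double chkP5 (by norm_num) hn hl hl0 hg
  have hR : Below 30 32985348833280 idMap (many l (2 + 2) g) wR5 n :=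
    hP.double chkR5 (by norm_num) hn hl hl0 hg
  exact hR

theorem ok6 : blockOk 15 wY6 wR6 = true := by decide +kernel

theorem glue6 : glue 15 wR5 wY6 = true := by decide +kernel

lemma step6 {l : ℝ} (hml : -((1 : ℕ) : ℝ) / (2 : ℕ) ≤ l) (hl : -(1 / 2) ≤ l) (hl0 : l ≤ 0) :
    Step 30 32985348833280 15 4 l wY6 wR6 := by
  intro κ _ g n hg hn h
  have hY := h.one (g := g) (p := 1) (q := 2) (by norm_num) (by norm_num) hml hl0
  have hP : Below 30 32985348833280 idMap (many l (1 + 1) g) wP6 n :=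
    hY.double chkP6 (by norm_num) hn hl hl0 hg
  have hR : Below 30 32985348833280 idMap (many l (2 + 2) g) wR6 n :=
    hP.double chkR6 (by norm_num) hn hl hl0 hg
  exact hR

theorem ok7 : blockOk 16 wY7 wR7 = true := by decide +kernel

theorem glue7 : glue 14 wR6 wY7 = true := by decide +kernel

lemma step7 {l : ℝ} (hml : -((1 : ℕ) : ℝ) / (2 : ℕ) ≤ l) (hl : -(1 / 2) ≤ l) (hl0 : l ≤ 0) :
    Step 30 32985348833280 16 4 l wY7 wR7 := by
  intro κ _ g n hg hn h
  have hY := h.one (g := g) (p := 1) (q := 2) (by norm_num) (by norm_num) hml hl0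
  have hP : Below 30 32985348833280 idMap (many l (1 + 1) g) wP7 n :=
    hY.double chkP7 (by norm_num) hn hl hl0 hg
  have hR : Below 30 32985348833280 idMap (many l (2 + 2) g) wR7 n :=
    hP.double chkR7 (by norm_num) hn hl hl0 hg
  exact hR

theorem ok8 : blockOk 15 wY8 wR8 = true := by decide +kernel

theorem glue8 : glue 15 wR7 wY8 = true := by decide +kernel

lemma step8 {l : ℝ} (hml : -((1 : ℕ) : ℝ) / (2 : ℕ) ≤ l) (hl : -(1 / 2) ≤ l) (hl0 : l ≤ 0) :
    Step 30 32985348833280 15 4 l wY8 wR8 := by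
  intro κ _ g n hg hn h
  have hY := h.one (g := g) (p := 1) (q := 2) (by norm_num) (by norm_num) hml hl0
  have hP : Below 30 32985348833280 idMap (many l (1 + 1) g) wP8 n :=
    hY.double chkP8 (by norm_num) hn hl hl0 hg
  have hR : Below 30 32985348833280 idMap (many l (2 + 2) g) wR8 n :=
    hP.double chkR8 (by norm_num) hn hl hl0 hg
  exact hR

theorem ok9 : blockOk 16 wY9 wR9 = true := by decide +kernel

theorem glue9 : glue 14 wR8 wY9 = true := by decide +kernel

lemma step9 {l : ℝ} (hml : -((1 : ℕ) : ℝ) / (2 : ℕ) ≤ l) (hl : -(1 / 2) ≤ l) (hl0 : l ≤ 0) :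
    Step 30 32985348833280 16 4 l wY9 wR9 := by
  intro κ _ g n hg hn h
  have hY := h.one (g := g) (p := 1) (q := 2) (by norm_num) (by norm_num) hml hl0
  have hP : Below 30 32985348833280 idMap (many l (1 + 1) g) wP9 n :=
    hY.double chkP9 (by norm_num) hn hl hl0 hg
  have hR : Below 30 32985348833280 idMap (many l (2 + 2) g) wR9 n :=
    hP.double chkR9 (by norm_num) hn hl hl0 hg
  exact hR

theorem ok10 : blockOk 16 wY10 wR10 = true := by decide +kernel

theorem glue10 : glue 15 wR9 wY10 = true := by decide +kernel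

lemma step10 {l : ℝ} (hml : -((1 : ℕ) : ℝ) / (2 : ℕ) ≤ l) (hl : -(1 / 2) ≤ l) (hl0 : l ≤ 0) :
    Step 30 32985348833280 16 4 l wY10 wR10 := by
  intro κ _ g n hg hn h
  have hY := h.one (g := g) (p := 1) (q := 2) (by norm_num) (by norm_num) hml hl0
  have hP : Below 30 32985348833280 idMap (many l (1 + 1) g) wP10 n :=
    hY.double chkP10 (by norm_num) hn hl hl0 hg
  have hR : Below 30 32985348833280 idMap (many l (2 + 2) g) wR10 n :=
    hP.double chkR10 (by norm_num) hn hl hl0 hg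
  exact hR

end Vale.Agent.P154.De.R4
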