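import Vale.Agent.P154.DeRun5C0

/-!
A level with small moments on the regular tree with 5 children, up to criticality.
-/

namespace Vale.Agent.P154.De

/-- For 5 children one height has small second and fourth moments, uniformly up to criticality. -/
theorem level_d5 {l : ℝ} (hl0 : l ≤ 0) (hml : -((161 : ℕ) : ℝ) / (360 : ℕ) ≤ l) :
    expect sq (lik l 49 (regular 5 49)) ≤ 27 / 200 ∧
      expect (fun x => sq x ^ 2) (lik l 49 (regular 5 49)) ≤ 31 / 1000 := by
  have hl : -(1 / 2) ≤ l := le_trans (by norm_num) hml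
  have e0 : Below 30 32985348833280 idMap (lik l 0 (regular 5 0)) R5.wY0 0 := by
    refine below_leaf (by norm_num) ?_ ?_ l _ <;> decide +kernel
  have b0 : Below 30 32985348833280 idMap (lik l 12 (regular 5 12)) R5.wR0 11 :=
    block (n0 := 0) (L := 12) R5.ok0 hl hl0 (R5.step0 hml hl hl0) e0
  have e1 := b0.glue R5.glue1
  have b1 : Below 30 32985348833280 idMap (lik l 24 (regular 5 24)) R5.wR1 11 :=
    block (n0 := 12) (L := 12) R5.ok1 hl hl0 (R5.step1 hml hl hl0) e1
  have e2 := b1.glue R5.glue2
  have b2 : Below 30 32985348833280 idMap (lik l 36 (regular 5 36)) R5.wR2 11 :=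
    block (n0 := 24) (L := 12) R5.ok2 hl hl0 (R5.step2 hml hl hl0) e2
  have e3 := b2.glue R5.glue3
  have b3 : Below 30 32985348833280 idMap (lik l 49 (regular 5 49)) R5.wR3 12 :=
    block (n0 := 36) (L := 13) R5.ok3 hl hl0 (R5.step3 hml hl hl0) e3
  exact_mod_cast b3.bounds (a := 27) (b := 200) (a' := 31) (b' := 1000)
    (by norm_num) (by norm_num) (by decide +kernel) (by norm_num) (by norm_num) (by decide +kernel)
    (by decide +kernel)

end Vale.Agent.P154.De
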