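import Vale.Agent.P154.DeKids
import Vale.Agent.P154.DeRun7R0
import Vale.Agent.P154.DeRun6D0
import Vale.Agent.P154.DeRun6D1
import Vale.Agent.P154.DeRun6D2

/-!
Kernel checks of one joining step for 6 children, several blocks of levels at once.
-/

namespace Vale.Agent.P154.De.R6

/-- The checks of the step `R`, blocks 0 to 2. -/
theorem allR0 : (chk 30 32985348833280 96 13 idMap idMap wQ0 wP0 (pad 13 wR0) &&
    (chk 30 32985348833280 96 13 idMap idMap wQ1 wP1 (pad 13 wR1) &&
    (chk 30 32985348833280 96 13 idMap idMap wQ2 wP2 (pad 13 wR2)))) = true := by decide +kernel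

theorem chkR0 : chk 30 32985348833280 96 13 idMap idMap wQ0 wP0 (pad 13 wR0) = true :=
  (Bool.and_eq_true_iff.1 allR0).1

theorem chkR1 : chk 30 32985348833280 96 13 idMap idMap wQ1 wP1 (pad 13 wR1) = true :=
  (Bool.and_eq_true_iff.1 (Bool.and_eq_true_iff.1 allR0).2).1

theorem chkR2 : chk 30 32985348833280 96 13 idMap idMap wQ2 wP2 (pad 13 wR2) = true :=
  (Bool.and_eq_true_iff.1 (Bool.and_eq_true_iff.1 allR0).2).2

end Vale.Agent.P154.De.R6
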