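import Vale.Agent.P154.DeKids
import Vale.Agent.P154.DeRun6R0
import Vale.Agent.P154.DeRun5D2
import Vale.Agent.P154.DeRun5D3

/-!
Kernel checks of one joining step for 5 children, several blocks of levels at once.
-/

namespace Vale.Agent.P154.De.R5

/-- The checks of the step `P`, blocks 2 to 3. -/
theorem allP1 : (chkS 30 32985348833280 116 12 (chMap 161 360) wY2 (pad 12 wP2) &&
    (chkS 30 32985348833280 116 13 (chMap 161 360) wY3 (pad 13 wP3))) = true := by decide +kernel

theorem chkP2 : chkS 30 32985348833280 116 12 (chMap 161 360) wY2 (pad 12 wP2) = true :=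
  (Bool.and_eq_true_iff.1 allP1).1

theorem chkP3 : chkS 30 32985348833280 116 13 (chMap 161 360) wY3 (pad 13 wP3) = true :=
  (Bool.and_eq_true_iff.1 allP1).2

end Vale.Agent.P154.De.R5
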