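import Vale.Agent.P154.DeKids
import Vale.Agent.P154.DeRun4P2
import Vale.Agent.P154.DeRun5D0
import Vale.Agent.P154.DeRun5D1

/-!
Kernel checks of one joining step for 5 children, several blocks of levels at once.
-/

namespace Vale.Agent.P154.De.R5

/-- The checks of the step `R`, blocks 0 to 1. -/
theorem allR0 : (chk 30 32985348833280 106 12 idMap (chMap 161 360) wQ0 wY0 (pad 12 wR0) &&
    (chk 30 32985348833280 106 12 idMap (chMap 161 360) wQ1 wY1 (pad 12 wR1))) = true := by decide +kernel

theorem chkR0 : chk 30 32985348833280 106 12 idMap (chMap 161 360) wQ0 wY0 (pad 12 wR0) = true :=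
  (Bool.and_eq_true_iff.1 allR0).1

theorem chkR1 : chk 30 32985348833280 106 12 idMap (chMap 161 360) wQ1 wY1 (pad 12 wR1) = true :=
  (Bool.and_eq_true_iff.1 allR0).2

end Vale.Agent.P154.De.R5
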