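import Vale.Agent.P154.DeRun5P0
import Vale.Agent.P154.DeRun5Q0
import Vale.Agent.P154.DeRun5R0
import Vale.Agent.P154.DeRun5D0
import Vale.Agent.P154.DeRun5P1
import Vale.Agent.P154.DeRun5Q1
import Vale.Agent.P154.DeRun5R1
import Vale.Agent.P154.DeRun5D1
import Vale.Agent.P154.DeRun5D2

/-!
Kernel checks for 5 children, levels 0 to 12.
-/

namespace Vale.Agent.P154.De.R5

theorem ok0 : blockOk 12 wY0 wR0 = true := by decide +kernel

lemma step0 {l : ℝ} (hml : -((161 : ℕ) : ℝ) / (360 : ℕ) ≤ l) (hl : -(1 / 2) ≤ l) (hl0 : l ≤ 0) :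
    Step 30 32985348833280 12 5 l wY0 wR0 := by
  intro κ _ g n hg hn h
  have hY := h.one (g := g) (p := 161) (q := 360) (by norm_num) (by norm_num) hml hl0
  have hP : Below 30 32985348833280 idMap (many l (1 + 1) g) wP0 n :=
    hY.double chkP0 (by norm_num) hn hl hl0 hg
  have hQ : Below 30 32985348833280 idMap (many l (2 + 2) g) wQ0 n :=
    hP.double chkQ0 (by norm_num) hn hl hl0 hg
  have hR : Below 30 32985348833280 idMap (many l (4 + 1) g) wR0 n :=
    hQ.two hY chkR0 (by norm_num) hn hl hl0 hg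
  exact hR

theorem ok1 : blockOk 12 wY1 wR1 = true := by decide +kernel

theorem glue1 : glue 11 wR0 wY1 = true := by decide +kernel

lemma step1 {l : ℝ} (hml : -((161 : ℕ) : ℝ) / (360 : ℕ) ≤ l) (hl : -(1 / 2) ≤ l) (hl0 : l ≤ 0) :
    Step 30 32985348833280 12 5 l wY1 wR1 := by
  intro κ _ g n hg hn h
  have hY := h.one (g := g) (p := 161) (q := 360) (by norm_num) (by norm_num) hml hl0
  have hP : Below 30 32985348833280 idMap (many l (1 + 1) g) wP1 n :=
    hY.double chkP1 (by norm_num) hn hl hl0 hg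
  have hQ : Below 30 32985348833280 idMap (many l (2 + 2) g) wQ1 n :=
    hP.double chkQ1 (by norm_num) hn hl hl0 hg
  have hR : Below 30 32985348833280 idMap (many l (4 + 1) g) wR1 n :=
    hQ.two hY chkR1 (by norm_num) hn hl hl0 hg
  exact hR

theorem ok2 : blockOk 12 wY2 wR2 = true := by decide +kernel

theorem glue2 : glue 11 wR1 wY2 = true := by decide +kernel

lemma step2 {l : ℝ} (hml : -((161 : ℕ) : ℝ) / (360 : ℕ) ≤ l) (hl : -(1 / 2) ≤ l) (hl0 : l ≤ 0) :
    Step 30 32985348833280 12 5 l wY2 wR2 := by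
  intro κ _ g n hg hn h
  have hY := h.one (g := g) (p := 161) (q := 360) (by norm_num) (by norm_num) hml hl0
  have hP : Below 30 32985348833280 idMap (many l (1 + 1) g) wP2 n :=
    hY.double chkP2 (by norm_num) hn hl hl0 hg
  have hQ : Below 30 32985348833280 idMap (many l (2 + 2) g) wQ2 n :=
    hP.double chkQ2 (by norm_num) hn hl hl0 hg
  have hR : Below 30 32985348833280 idMap (many l (4 + 1) g) wR2 n :=
    hQ.two hY chkR2 (by norm_num) hn hl hl0 hg
  exact hR

theorem ok3 : blockOk 13 wY3 wR3 = true := by decide +kernel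

theorem glue3 : glue 11 wR2 wY3 = true := by decide +kernel

lemma step3 {l : ℝ} (hml : -((161 : ℕ) : ℝ) / (360 : ℕ) ≤ l) (hl : -(1 / 2) ≤ l) (hl0 : l ≤ 0) :
    Step 30 32985348833280 13 5 l wY3 wR3 := by
  intro κ _ g n hg hn h
  have hY := h.one (g := g) (p := 161) (q := 360) (by norm_num) (by norm_num) hml hl0
  have hP : Below 30 32985348833280 idMap (many l (1 + 1) g) wP3 n :=
    hY.double chkP3 (by norm_num) hn hl hl0 hg
  have hQ : Below 30 32985348833280 idMap (many l (2 + 2) g) wQ3 n :=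
    hP.double chkQ3 (by norm_num) hn hl hl0 hg
  have hR : Below 30 32985348833280 idMap (many l (4 + 1) g) wR3 n :=
    hQ.two hY chkR3 (by norm_num) hn hl hl0 hg
  exact hR

end Vale.Agent.P154.De.R5
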