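import Vale.Agent.P154.DeKids
import Vale.Agent.P154.DeRun10R1
import Vale.Agent.P154.DeRun7D0
import Vale.Agent.P154.DeRun7D1
import Vale.Agent.P154.DeRun7D2

/-!
Kernel checks of one joining step for 7 children, several blocks of levels at once.
-/

namespace Vale.Agent.P154.De.R7

/-- The checks of the step `P`, blocks 0 to 2. -/
theorem allP0 : (chkS 30 32985348833280 116 12 (chMap 127 336) wY0 (pad 12 wP0) &&
    (chkS 30 32985348833280 116 12 (chMap 127 336) wY1 (pad 12 wP1) &&
    (chkS 30 32985348833280 116 13 (chMap 127 336) wY2 (pad 13 wP2)))) = true := by decide +kernel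

theorem chkP0 : chkS 30 32985348833280 116 12 (chMap 127 336) wY0 (pad 12 wP0) = true :=
  (Bool.and_eq_true_iff.1 allP0).1

theorem chkP1 : chkS 30 32985348833280 116 12 (chMap 127 336) wY1 (pad 12 wP1) = true :=
  (Bool.and_eq_true_iff.1 (Bool.and_eq_true_iff.1 allP0).2).1

theorem chkP2 : chkS 30 32985348833280 116 13 (chMap 127 336) wY2 (pad 13 wP2) = true :=
  (Bool.and_eq_true_iff.1 (Bool.and_eq_true_iff.1 allP0).2).2

end Vale.Agent.P154.De.R7
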