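import Vale.Agent.P154.DeKids
import Vale.Agent.P154.DeRun7D0
import Vale.Agent.P154.DeRun7D1
import Vale.Agent.P154.DeRun7D2

/-!
Kernel checks of one joining step for 7 children, several blocks of levels at once.
-/

namespace Vale.Agent.P154.De.R7

/-- The checks of the step `T`, blocks 0 to 2. -/
theorem allT0 : (chk 30 32985348833280 106 12 idMap (chMap 127 336) wP0 wY0 (pad 12 wT0) &&
    (chk 30 32985348833280 106 12 idMap (chMap 127 336) wP1 wY1 (pad 12 wT1) &&
    (chk 30 32985348833280 106 13 idMap (chMap 127 336) wP2 wY2 (pad 13 wT2)))) = true := by decide +kernel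

theorem chkT0 : chk 30 32985348833280 106 12 idMap (chMap 127 336) wP0 wY0 (pad 12 wT0) = true :=
  (Bool.and_eq_true_iff.1 allT0).1

theorem chkT1 : chk 30 32985348833280 106 12 idMap (chMap 127 336) wP1 wY1 (pad 12 wT1) = true :=
  (Bool.and_eq_true_iff.1 (Bool.and_eq_true_iff.1 allT0).2).1

theorem chkT2 : chk 30 32985348833280 106 13 idMap (chMap 127 336) wP2 wY2 (pad 13 wT2) = true :=
  (Bool.and_eq_true_iff.1 (Bool.and_eq_true_iff.1 allT0).2).2

end Vale.Agent.P154.De.R7
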