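import Vale.Agent.P154.DeRun8C0

/-!
A level with small moments on the regular tree with 8 children, up to criticality.
-/

namespace Vale.Agent.P154.De

/-- For 8 children one height has small second and fourth moments, uniformly up to criticality. -/
theorem level_d8 {l : ℝ} (hl0 : l ≤ 0) (hml : -((134 : ℕ) : ℝ) / (379 : ℕ) ≤ l) :
    expect sq (lik l 37 (regular 8 37)) ≤ 7 / 50 ∧
      expect (fun x => sq x ^ 2) (lik l 37 (regular 8 37)) ≤ 17 / 500 := by
  have hl : -(1 / 2) ≤ l := le_trans (by norm_num) hml
  have e0 : Below 30 32985348833280 idMap (lik l 0 (regular 8 0)) R8.wY0 0 := by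
    refine below_leaf (by norm_num) ?_ ?_ l _ <;> decide +kernel
  have b0 : Below 30 32985348833280 idMap (lik l 12 (regular 8 12)) R8.wR0 11 :=
    block (n0 := 0) (L := 12) R8.ok0 hl hl0 (R8.step0 hml hl hl0) e0
  have e1 := b0.glue R8.glue1
  have b1 : Below 30 32985348833280 idMap (lik l 24 (regular 8 24)) R8.wR1 11 :=
    block (n0 := 12) (L := 12) R8.ok1 hl hl0 (R8.step1 hml hl hl0) e1
  have e2 := b1.glue R8.glue2
  have b2 : Below 30 32985348833280 idMap (lik l 37 (regular 8 37)) R8.wR2 12 :=
    block (n0 := 24) (L := 13) R8.ok2 hl hl0 (R8.step2 hml hl hl0) e2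
  exact_mod_cast b2.bounds (a := 7) (b := 50) (a' := 17) (b' := 500)
    (by norm_num) (by norm_num) (by decide +kernel) (by norm_num) (by norm_num) (by decide +kernel)
    (by decide +kernel)

end Vale.Agent.P154.De
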