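import Vale.Agent.P154.DeKids
import Vale.Agent.P154.DeRun8P0
import Vale.Agent.P154.DeRun9D0
import Vale.Agent.P154.DeRun9D1
import Vale.Agent.P154.DeRun9D2

/-!
Kernel checks of one joining step for 9 children, several blocks of levels at once.
-/

namespace Vale.Agent.P154.De.R9

/-- The checks of the step `Q`, blocks 0 to 2. -/
theorem allQ0 : (chkS 30 32985348833280 96 13 idMap wP0 (pad 13 wQ0) &&
    (chkS 30 32985348833280 96 14 idMap wP1 (pad 14 wQ1) &&
    (chkS 30 32985348833280 96 14 idMap wP2 (pad 14 wQ2)))) = true := by decide +kernel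

theorem chkQ0 : chkS 30 32985348833280 96 13 idMap wP0 (pad 13 wQ0) = true :=
  (Bool.and_eq_true_iff.1 allQ0).1

theorem chkQ1 : chkS 30 32985348833280 96 14 idMap wP1 (pad 14 wQ1) = true :=
  (Bool.and_eq_true_iff.1 (Bool.and_eq_true_iff.1 allQ0).2).1

theorem chkQ2 : chkS 30 32985348833280 96 14 idMap wP2 (pad 14 wQ2) = true :=
  (Bool.and_eq_true_iff.1 (Bool.and_eq_true_iff.1 allQ0).2).2

end Vale.Agent.P154.De.R9
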