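import Vale.Agent.P154.DeKids
import Vale.Agent.P154.DeRun11R0
import Vale.Agent.P154.DeRun9D0
import Vale.Agent.P154.DeRun9D1
import Vale.Agent.P154.DeRun9D2

/-!
Kernel checks of one joining step for 9 children, several blocks of levels at once.
-/

namespace Vale.Agent.P154.De.R9

/-- The checks of the step `S`, blocks 0 to 2. -/
theorem allS0 : (chkS 30 32985348833280 96 13 idMap wQ0 (pad 13 wS0) &&
    (chkS 30 32985348833280 96 14 idMap wQ1 (pad 14 wS1) &&
    (chkS 30 32985348833280 96 14 idMap wQ2 (pad 14 wS2)))) = true := by decide +kernel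

theorem chkS0 : chkS 30 32985348833280 96 13 idMap wQ0 (pad 13 wS0) = true :=
  (Bool.and_eq_true_iff.1 allS0).1

theorem chkS1 : chkS 30 32985348833280 96 14 idMap wQ1 (pad 14 wS1) = true :=
  (Bool.and_eq_true_iff.1 (Bool.and_eq_true_iff.1 allS0).2).1

theorem chkS2 : chkS 30 32985348833280 96 14 idMap wQ2 (pad 14 wS2) = true :=
  (Bool.and_eq_true_iff.1 (Bool.and_eq_true_iff.1 allS0).2).2

end Vale.Agent.P154.De.R9
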