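import Vale.Agent.P154.DeRun9P0
import Vale.Agent.P154.DeRun9Q0
import Vale.Agent.P154.DeRun9R0
import Vale.Agent.P154.DeRun9S0
import Vale.Agent.P154.DeRun9D0
import Vale.Agent.P154.DeRun9D1

/-!
Kernel checks for 9 children, levels 0 to 13.
-/

namespace Vale.Agent.P154.De.R9

theorem ok0 : blockOk 13 wY0 wR0 = true := by decide +kernel

lemma step0 {l : ℝ} (hml : -((1 : ℕ) : ℝ) / (3 : ℕ) ≤ l) (hl : -(1 / 2) ≤ l) (hl0 : l ≤ 0) :
    Step 30 32985348833280 13 9 l wY0 wR0 := by
  intro κ _ g n hg hn h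
  have hY := h.one (g := g) (p := 1) (q := 3) (by norm_num) (by norm_num) hml hl0
  have hP : Below 30 32985348833280 idMap (many l (1 + 1) g) wP0 n :=
    hY.double chkP0 (by norm_num) hn hl hl0 hg
  have hQ : Below 30 32985348833280 idMap (many l (2 + 2) g) wQ0 n :=
    hP.double chkQ0 (by norm_num) hn hl hl0 hg
  have hS : Below 30 32985348833280 idMap (many l (4 + 4) g) wS0 n :=
    hQ.double chkS0 (by norm_num) hn hl hl0 hg
  have hR : Below 30 32985348833280 idMap (many l (8 + 1) g) wR0 n :=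
    hS.two hY chkR0 (by norm_num) hn hl hl0 hg
  exact hR

theorem ok1 : blockOk 14 wY1 wR1 = true := by decide +kernel

theorem glue1 : glue 12 wR0 wY1 = true := by decide +kernel

lemma step1 {l : ℝ} (hml : -((1 : ℕ) : ℝ) / (3 : ℕ) ≤ l) (hl : -(1 / 2) ≤ l) (hl0 : l ≤ 0) :
    Step 30 32985348833280 14 9 l wY1 wR1 := by
  intro κ _ g n hg hn h
  have hY := h.one (g := g) (p := 1) (q := 3) (by norm_num) (by norm_num) hml hl0
  have hP : Below 30 32985348833280 idMap (many l (1 + 1) g) wP1 n :=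
    hY.double chkP1 (by norm_num) hn hl hl0 hg
  have hQ : Below 30 32985348833280 idMap (many l (2 + 2) g) wQ1 n :=
    hP.double chkQ1 (by norm_num) hn hl hl0 hg
  have hS : Below 30 32985348833280 idMap (many l (4 + 4) g) wS1 n :=
    hQ.double chkS1 (by norm_num) hn hl hl0 hg
  have hR : Below 30 32985348833280 idMap (many l (8 + 1) g) wR1 n :=
    hS.two hY chkR1 (by norm_num) hn hl hl0 hg
  exact hR

theorem ok2 : blockOk 14 wY2 wR2 = true := by decide +kernel

theorem glue2 : glue 13 wR1 wY2 = true := by decide +kernel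

lemma step2 {l : ℝ} (hml : -((1 : ℕ) : ℝ) / (3 : ℕ) ≤ l) (hl : -(1 / 2) ≤ l) (hl0 : l ≤ 0) :
    Step 30 32985348833280 14 9 l wY2 wR2 := by
  intro κ _ g n hg hn h
  have hY := h.one (g := g) (p := 1) (q := 3) (by norm_num) (by norm_num) hml hl0
  have hP : Below 30 32985348833280 idMap (many l (1 + 1) g) wP2 n :=
    hY.double chkP2 (by norm_num) hn hl hl0 hg
  have hQ : Below 30 32985348833280 idMap (many l (2 + 2) g) wQ2 n :=
    hP.double chkQ2 (by norm_num) hn hl hl0 hg
  have hS : Below 30 32985348833280 idMap (many l (4 + 4) g) wS2 n :=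
    hQ.double chkS2 (by norm_num) hn hl hl0 hg
  have hR : Below 30 32985348833280 idMap (many l (8 + 1) g) wR2 n :=
    hS.two hY chkR2 (by norm_num) hn hl hl0 hg
  exact hR

end Vale.Agent.P154.De.R9
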