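import Vale.Agent.P154.DeBox
import Vale.Agent.P154.DeRun4
import Vale.Agent.P154.DeRun5
import Vale.Agent.P154.DeRun6
import Vale.Agent.P154.DeRun7
import Vale.Agent.P154.DeRun8
import Vale.Agent.P154.DeRun9
import Vale.Agent.P154.DeRun10
import Vale.Agent.P154.DeRun11

/-!
Nonreconstruction up to the second-moment threshold, antiferromagnetic three-state Potts channel,
regular trees with four to eleven children.
-/

open Filter

namespace Vale.Agent.P154.De

/-- Decay of the total variation distance on regular trees with four to eleven children. -/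
theorem tendsto_tv_regular_small {d : ℕ} (h4 : 4 ≤ d) (h11 : d ≤ 11) {l : ℝ} (hl0 : l ≤ 0)
    (hdl : (d : ℝ) * l ^ 2 ≤ 1) : Tendsto (fun n => tv l n (regular d n)) atTop (nhds 0) := by
  have lev : ∀ {d p q : ℕ}, 1 ≤ d → 1 ≤ (d : ℝ) * ((p : ℝ) / q) ^ 2 →
      -(p : ℝ) / q ≤ DeBox.ld d ∧ DeBox.ld d ≤ 0 := fun hd hc => by
    rw [neg_div]
    exact DeBox.ld_mem hd (by positivity) hc
  interval_cases d
  · obtain ⟨a, b⟩ := lev (d := 4) (p := 1) (q := 2) (by norm_num) (by norm_num)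
    exact DeBox.box_decay_4 ⟨_, level_d4 b a⟩ hl0 (by exact_mod_cast hdl)
  · obtain ⟨a, b⟩ := lev (d := 5) (p := 161) (q := 360) (by norm_num) (by norm_num)
    exact DeBox.box_decay_5 ⟨_, level_d5 b a⟩ hl0 (by exact_mod_cast hdl)
  · obtain ⟨a, b⟩ := lev (d := 6) (p := 89) (q := 218) (by norm_num) (by norm_num)
    exact DeBox.box_decay_6 ⟨_, level_d6 b a⟩ hl0 (by exact_mod_cast hdl)
  · obtain ⟨a, b⟩ := lev (d := 7) (p := 127) (q := 336) (by norm_num) (by norm_num)
    exact DeBox.box_decay_7 ⟨_, level_d7 b a⟩ hl0 (by exact_mod_cast hdl)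
  · obtain ⟨a, b⟩ := lev (d := 8) (p := 134) (q := 379) (by norm_num) (by norm_num)
    exact DeBox.box_decay_8 ⟨_, level_d8 b a⟩ hl0 (by exact_mod_cast hdl)
  · obtain ⟨a, b⟩ := lev (d := 9) (p := 1) (q := 3) (by norm_num) (by norm_num)
    exact DeBox.box_decay_9 ⟨_, level_d9 b a⟩ hl0 (by exact_mod_cast hdl)
  · obtain ⟨a, b⟩ := lev (d := 10) (p := 37) (q := 117) (by norm_num) (by norm_num)
    exact DeBox.box_decay_10 ⟨_, level_d10 b a⟩ hl0 (by exact_mod_cast hdl)
  · obtain ⟨a, b⟩ := lev (d := 11) (p := 139) (q := 461) (by norm_num) (by norm_num)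
    exact DeBox.box_decay_11 ⟨_, level_d11 b a⟩ hl0 (by exact_mod_cast hdl)

end Vale.Agent.P154.De
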