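import Vale.Agent.P154.DeCheck

/-!
Soundness of the integer checker of a joining step, for symmetric sublinear test functions.
-/

open scoped BigOperators

namespace Vale.Agent.P154.De

lemma div_op (a b : ℕ) : Nat.div a b = a / b := rfl

lemma mod_op (a b : ℕ) : Nat.mod a b = a % b := rfl

lemma shift_op (a b : ℕ) : Nat.shiftLeft a b = a <<< b := rfl

lemma row_eq (M : ℕ) : row M = M / 2 + 1 := rfl

lemma sa_eq (M s : ℕ) : sa M s = s / row M := rfl

lemma sb_eq (M s : ℕ) : sb M s = s / row M + s % row M := rfl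

lemma pos_eq (M a b : ℕ) : pos M a b = a * row M + (b - a) := rfl

/-- A nonnegative, sublinear, symmetric test function on nonnegative vectors. -/
structure Test (H : (Fin 3 → ℝ) → ℝ) : Prop where
  nonneg : ∀ x, (∀ i, 0 ≤ x i) → 0 ≤ H x
  add_le : ∀ x y, (∀ i, 0 ≤ x i) → (∀ i, 0 ≤ y i) → H (x + y) ≤ H x + H y
  smul : ∀ (c : ℝ) x, 0 ≤ c → (∀ i, 0 ≤ x i) → H (c • x) = c * H x
  symm : ∀ (σ : Equiv.Perm (Fin 3)) x, (∀ i, 0 ≤ x i) → H (fun i => x (σ i)) = H x

/-- A triple as a vector. -/
noncomputable def vec (a b c : ℕ) : Fin 3 → ℝ := ![(a : ℝ), b, c]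

lemma vec_nonneg (a b c : ℕ) : ∀ i, 0 ≤ vec a b c i := by
  intro i; fin_cases i <;> simp [vec]

/-- The representative of a slot. -/
noncomputable def rep (M s : ℕ) : Fin 3 → ℝ := vec (sa M s) (sb M s) (M - sa M s - sb M s)

variable {M : ℕ} {H : (Fin 3 → ℝ) → ℝ}

lemma Test.swap01 (hH : Test H) (a b c : ℕ) : H (vec b a c) = H (vec a b c) := by
  rw [← hH.symm (Equiv.swap 0 1) _ (vec_nonneg a b c)]
  congr 1; funext i; fin_cases i <;> simp [vec, Equiv.swap_apply_of_ne_of_ne]

lemma Test.swap12 (hH : Test H) (a b c : ℕ) : H (vec a c b) = H (vec a b c) := by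
  rw [← hH.symm (Equiv.swap 1 2) _ (vec_nonneg a b c)]
  congr 1; funext i; fin_cases i <;> simp [vec, Equiv.swap_apply_of_ne_of_ne]

lemma pos_facts (hH : Test H) {a b c : ℕ} (h : a + b + c = M) (hab : a ≤ b) (hbc : b ≤ c) :
    (pos M a b < slots M ∧ valid M (pos M a b) = true) ∧ H (rep M (pos M a b)) = H (vec a b c) := by
  have hr : b - a < row M := by rw [row_eq]; omega
  have hd : (a * row M + (b - a)) / row M = a := by
    rw [Nat.mul_comm, Nat.mul_add_div (by omega), Nat.div_eq_of_lt hr, Nat.add_zero]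
  have hm : (a * row M + (b - a)) % row M = b - a := by
    rw [Nat.mul_comm, Nat.mul_add_mod, Nat.mod_eq_of_lt hr]
  refine ⟨⟨?_, ?_⟩, ?_⟩
  · calc a * row M + (b - a) < a * row M + row M := by omega
      _ = (a + 1) * row M := by ring
      _ ≤ (M / 3 + 1) * row M := Nat.mul_le_mul_right _ (by omega)
  · simp only [valid, sa_eq, sb_eq, pos_eq, hd, hm, decide_eq_true_eq]
    omega
  · have h1 : sa M (pos M a b) = a := hd
    have h2 : sb M (pos M a b) = b := by simp only [sb_eq, pos_eq, hd, hm]; omega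
    rw [rep, h1, h2, show M - a - b = c by omega]

lemma slot_facts (hH : Test H) {x y z : ℕ} (h : x + y + z = M) :
    (slot M x y z < slots M ∧ valid M (slot M x y z) = true) ∧
      H (rep M (slot M x y z)) = H (vec x y z) := by
  have e01 := hH.swap01
  have e12 := hH.swap12
  unfold slot
  rcases le_or_gt x y with h1 | h1
  · simp only [Nat.ble_eq_true_of_le h1, cond_true]
    rcases le_or_gt y z with h2 | h2
    · simp only [Nat.ble_eq_true_of_le h2, cond_true]
      exact pos_facts hH h h1 h2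
    · rw [Bool.eq_false_iff.2 (mt Nat.le_of_ble_eq_true (by omega)), cond_false]
      rcases le_or_gt x z with h3 | h3
      · simp only [Nat.ble_eq_true_of_le h3, cond_true]
        rw [← e12 x y z]
        exact pos_facts hH (by omega) h3 h2.le
      · rw [Bool.eq_false_iff.2 (mt Nat.le_of_ble_eq_true (by omega)), cond_false]
        rw [← e12 x y z, ← e01 x z y]
        exact pos_facts hH (by omega) h3.le h1
  · rw [Bool.eq_false_iff.2 (mt Nat.le_of_ble_eq_true (by omega)), cond_false]
    rcases le_or_gt x z with h2 | h2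
    · simp only [Nat.ble_eq_true_of_le h2, cond_true]
      rw [← e01 x y z]
      exact pos_facts hH (by omega) h1.le h2
    · rw [Bool.eq_false_iff.2 (mt Nat.le_of_ble_eq_true (by omega)), cond_false]
      rcases le_or_gt y z with h3 | h3
      · simp only [Nat.ble_eq_true_of_le h3, cond_true]
        rw [← e01 x y z, ← e12 y x z]
        exact pos_facts hH (by omega) h3 h2.le
      · rw [Bool.eq_false_iff.2 (mt Nat.le_of_ble_eq_true (by omega)), cond_false]
        rw [← e01 x y z, ← e12 y x z, ← e01 y z x]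
        exact pos_facts hH (by omega) h3.le h1.le

lemma Test.add3 (hH : Test H) {r0 r1 r2 : ℝ} {x y z : Fin 3 → ℝ} (h0 : 0 ≤ r0) (h1 : 0 ≤ r1)
    (h2 : 0 ≤ r2) (hx : ∀ i, 0 ≤ x i) (hy : ∀ i, 0 ≤ y i) (hz : ∀ i, 0 ≤ z i) :
    H (r0 • x + r1 • y + r2 • z) ≤ r0 * H x + r1 * H y + r2 * H z := by
  have n0 : ∀ i, 0 ≤ (r0 • x) i := fun i => mul_nonneg h0 (hx i)
  have n1 : ∀ i, 0 ≤ (r1 • y) i := fun i => mul_nonneg h1 (hy i)
  have n2 : ∀ i, 0 ≤ (r2 • z) i := fun i => mul_nonneg h2 (hz i)
  have a := hH.add_le (r0 • x + r1 • y) (r2 • z) (fun i => add_nonneg (n0 i) (n1 i)) n2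
  have b := hH.add_le _ _ n0 n1
  rw [hH.smul _ _ h0 hx, hH.smul _ _ h1 hy] at b
  rw [hH.smul _ _ h2 hz] at a
  linarith

/-- One product: the mass is kept and the test function grows. -/
lemma cell_facts (hM : 0 < M) (hH : Test H) (o0 o1 o2 : ℕ) :
    (∀ e ∈ cell M o0 o1 o2, e.1 < slots M ∧ valid M e.1 = true) ∧
    ((cell M o0 o1 o2).map Prod.snd).sum = o0 + o1 + o2 ∧
    (M : ℝ) * H (vec o0 o1 o2) ≤
      ((cell M o0 o1 o2).map fun e => (e.2 : ℝ) * H (rep M e.1)).sum := by
  unfold cell
  simp only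
  generalize hZ : o0 + o1 + o2 = Z
  rcases Nat.eq_zero_or_pos Z with rfl | hpos
  · have z : vec o0 o1 o2 = (0 : ℝ) • vec o0 o1 o2 := by
      funext i; fin_cases i <;> simp [vec] <;> omega
    simp only [show Nat.beq 0 0 = true from rfl, cond_true]
    refine ⟨by simp, by simp, ?_⟩
    rw [z, hH.smul 0 _ le_rfl (fun i => vec_nonneg _ _ _ i)]
    simp
  rw [Bool.eq_false_iff.2 (mt Nat.eq_of_beq_eq_true (by omega)), cond_false]
  generalize ef0 : o0 * M / Z = f0
  generalize ef1 : o1 * M / Z = f1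
  generalize ef2 : o2 * M / Z = f2
  generalize er0 : o0 * M % Z = r0
  generalize er1 : o1 * M % Z = r1
  generalize er2 : o2 * M % Z = r2
  have d0 : Z * f0 + r0 = o0 * M := by rw [← ef0, ← er0]; exact Nat.div_add_mod _ _
  have d1 : Z * f1 + r1 = o1 * M := by rw [← ef1, ← er1]; exact Nat.div_add_mod _ _
  have d2 : Z * f2 + r2 = o2 * M := by rw [← ef2, ← er2]; exact Nat.div_add_mod _ _
  have l0 : r0 < Z := er0 ▸ Nat.mod_lt _ hpos
  have l1 : r1 < Z := er1 ▸ Nat.mod_lt _ hpos
  have l2 : r2 < Z := er2 ▸ Nat.mod_lt _ hpos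
  have hs : Z * (f0 + f1 + f2) + (r0 + r1 + r2) = Z * M := by
    linear_combination d0 + d1 + d2 + M * hZ
  have hlo : M < f0 + f1 + f2 + 3 := Nat.lt_of_mul_lt_mul_left (a := Z) (by rw [mul_add]; omega)
  have hhi : f0 + f1 + f2 ≤ M := Nat.le_of_mul_le_mul_left (by omega) hpos
  have c0 : (Z : ℝ) * f0 + r0 = o0 * M := by exact_mod_cast d0
  have c1 : (Z : ℝ) * f1 + r1 = o1 * M := by exact_mod_cast d1
  have c2 : (Z : ℝ) * f2 + r2 = o2 * M := by exact_mod_cast d2
  have hMo : (M : ℝ) * H (vec o0 o1 o2) = H ((M : ℝ) • vec o0 o1 o2) :=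
    (hH.smul _ _ (Nat.cast_nonneg M) (fun i => vec_nonneg _ _ _ i)).symm
  rw [hMo]
  rcases (show f0 + f1 + f2 + 1 = M ∨ f0 + f1 + f2 = M ∨ f0 + f1 + f2 + 2 = M by omega) with h | h | h
  · rw [show Nat.beq (f0 + f1 + f2 + 1) M = true from by rw [h]; exact Nat.beq_refl M, cond_true]
    have hR : r0 + r1 + r2 = Z := by rw [← h] at hs; linarith
    obtain ⟨a1, a2⟩ := slot_facts hH (show f0 + 1 + f1 + f2 = M by omega)
    obtain ⟨b1, b2⟩ := slot_facts hH (show f0 + (f1 + 1) + f2 = M by omega)
    obtain ⟨e1, e2⟩ := slot_facts hH (show f0 + f1 + (f2 + 1) = M by omega)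
    refine ⟨by simp [a1, b1, e1], by simp; omega, ?_⟩
    simp only [List.map_cons, List.map_nil, List.sum_cons, List.sum_nil, add_zero, a2, b2, e2]
    have hR' : (r0 : ℝ) + r1 + r2 = Z := by exact_mod_cast hR
    have ev : (M : ℝ) • vec o0 o1 o2 = (r0 : ℝ) • vec (f0 + 1) f1 f2
        + (r1 : ℝ) • vec f0 (f1 + 1) f2 + (r2 : ℝ) • vec f0 f1 (f2 + 1) := by
      funext i; fin_cases i <;> simp [vec]
      · linear_combination -c0 - (f0 : ℝ) * hR'
      · linear_combination -c1 - (f1 : ℝ) * hR'
      · linear_combination -c2 - (f2 : ℝ) * hR'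
    rw [ev]
    linarith [hH.add3 (Nat.cast_nonneg r0) (Nat.cast_nonneg r1) (Nat.cast_nonneg r2)
      (vec_nonneg (f0 + 1) f1 f2) (vec_nonneg f0 (f1 + 1) f2) (vec_nonneg f0 f1 (f2 + 1))]
  · rw [Bool.eq_false_iff.2 (mt Nat.eq_of_beq_eq_true (by omega)), cond_false,
      show Nat.beq (f0 + f1 + f2) M = true from by rw [h]; exact Nat.beq_refl M, cond_true]
    have hR : r0 + r1 + r2 = 0 := by rw [h] at hs; omega
    obtain ⟨a1, a2⟩ := slot_facts hH h
    refine ⟨by simp [a1], by simp, ?_⟩
    simp only [List.map_cons, List.map_nil, List.sum_cons, List.sum_nil, add_zero, a2]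
    rw [← hH.smul _ _ (Nat.cast_nonneg Z) (fun i => vec_nonneg _ _ _ i)]
    refine le_of_eq (congrArg H ?_)
    obtain ⟨rfl, rfl, rfl⟩ : r0 = 0 ∧ r1 = 0 ∧ r2 = 0 := by omega
    funext i; fin_cases i <;> simp [vec] at c0 c1 c2 ⊢ <;> linarith
  · rw [Bool.eq_false_iff.2 (mt Nat.eq_of_beq_eq_true (by omega)), cond_false,
      Bool.eq_false_iff.2 (mt Nat.eq_of_beq_eq_true (by omega)), cond_false]
    have hR : r0 + r1 + r2 = 2 * Z := by rw [← h] at hs; linarith
    obtain ⟨a1, a2⟩ := slot_facts hH (show f0 + (f1 + 1) + (f2 + 1) = M by omega)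
    obtain ⟨b1, b2⟩ := slot_facts hH (show f0 + 1 + f1 + (f2 + 1) = M by omega)
    obtain ⟨e1, e2⟩ := slot_facts hH (show f0 + 1 + (f1 + 1) + f2 = M by omega)
    refine ⟨by simp [a1, b1, e1], by simp; omega, ?_⟩
    simp only [List.map_cons, List.map_nil, List.sum_cons, List.sum_nil, add_zero, a2, b2, e2,
      Nat.cast_sub l0.le, Nat.cast_sub l1.le, Nat.cast_sub l2.le]
    have hR' : (r0 : ℝ) + r1 + r2 = 2 * Z := by exact_mod_cast hR
    have q0 : (0 : ℝ) ≤ (Z : ℝ) - r0 := sub_nonneg.2 (by exact_mod_cast l0.le)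
    have q1 : (0 : ℝ) ≤ (Z : ℝ) - r1 := sub_nonneg.2 (by exact_mod_cast l1.le)
    have q2 : (0 : ℝ) ≤ (Z : ℝ) - r2 := sub_nonneg.2 (by exact_mod_cast l2.le)
    have ev : (M : ℝ) • vec o0 o1 o2 = ((Z : ℝ) - r0) • vec f0 (f1 + 1) (f2 + 1)
        + ((Z : ℝ) - r1) • vec (f0 + 1) f1 (f2 + 1) + ((Z : ℝ) - r2) • vec (f0 + 1) (f1 + 1) f2 := by
      funext i; fin_cases i <;> simp [vec]
      · linear_combination -c0 + ((f0 : ℝ) + 1) * hR'
      · linear_combination -c1 + ((f1 : ℝ) + 1) * hR'
      · linear_combination -c2 + ((f2 : ℝ) + 1) * hR'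
    rw [ev]
    linarith [hH.add3 q0 q1 q2 (vec_nonneg f0 (f1 + 1) (f2 + 1))
      (vec_nonneg (f0 + 1) f1 (f2 + 1)) (vec_nonneg (f0 + 1) (f1 + 1) f2)]

/-- All triangle entries of a pair of slots. -/
noncomputable def pairL (M : ℕ) (mA mB : Map) (s t : ℕ) : List (ℕ × ℕ) := (pairT M mA mB s t).flatten

/-- The image of a slot. -/
noncomputable def image (M : ℕ) (m : Map) (s : ℕ) : Fin 3 → ℝ :=
  fun i => (m.c0 : ℝ) * ((rep M s 0 + rep M s 1 + rep M s 2) - rep M s i) + (m.c1 : ℝ) * rep M s i

lemma coords_eq {α : Type} (m : Map) (s : ℕ) (k : ℕ → ℕ → ℕ → α) :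
    coords M m s k = k (m.c0 * (sb M s + (M - sa M s - sb M s)) + m.c1 * sa M s)
      (m.c0 * (sa M s + (M - sa M s - sb M s)) + m.c1 * sb M s)
      (m.c0 * (sa M s + sb M s) + m.c1 * (M - sa M s - sb M s)) := by
  simp only [coords, nk_eq, Nat.add_eq, Nat.mul_eq, Nat.sub_eq, div_op, mod_op, shift_op, Nat.succ_eq_add_one]

lemma image_eq (m : Map) (s : ℕ) :
    image M m s = vec (m.c0 * (sb M s + (M - sa M s - sb M s)) + m.c1 * sa M s)
      (m.c0 * (sa M s + (M - sa M s - sb M s)) + m.c1 * sb M s)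
      (m.c0 * (sa M s + sb M s) + m.c1 * (M - sa M s - sb M s)) := by
  funext i
  fin_cases i <;>
    simp only [image, rep, vec, Fin.zero_eta, Fin.mk_one, Fin.reduceFinMk, Matrix.cons_val_zero,
      Matrix.cons_val_one, Matrix.cons_val] <;>
    push_cast <;> ring

lemma pairL_facts (hM : 0 < M) (hH : Test H) {mA mB : Map} (hA : 2 * mA.c0 + mA.c1 = mA.den)
    (hB : 2 * mB.c0 + mB.c1 = mB.den) {s t : ℕ} (hs : valid M s = true) (ht : valid M t = true) :
    (∀ e ∈ pairL M mA mB s t, e.1 < slots M ∧ valid M e.1 = true) ∧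
    ((pairL M mA mB s t).map Prod.snd).sum = 2 * mA.den * mB.den * M * M ∧
    (M : ℝ) * ∑ σ : Equiv.Perm (Fin 3),
        H (fun i => image M mA s i * image M mB t (σ i)) ≤
      ((pairL M mA mB s t).map fun e => (e.2 : ℝ) * H (rep M e.1)).sum := by
  simp only [valid, decide_eq_true_eq] at hs ht
  have sa' : sa M s + sb M s + (M - sa M s - sb M s) = M := by omega
  have ta' : sa M t + sb M t + (M - sa M t - sb M t) = M := by omega
  rw [image_eq, image_eq]
  simp only [pairL, pairT, six, List.flatten_cons, List.flatten_nil, List.append_nil,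
    List.map_append, List.sum_append, List.mem_append]
  generalize sa M s = a at hs sa' ⊢
  generalize sb M s = b at hs sa' ⊢
  generalize M - a - b = cc at sa' ⊢
  generalize sa M t = x at ht ta' ⊢
  generalize sb M t = y at ht ta' ⊢
  generalize M - x - y = zz at ta' ⊢
  generalize eA0 : mA.c0 * (b + cc) + mA.c1 * a = A0
  generalize eA1 : mA.c0 * (a + cc) + mA.c1 * b = A1
  generalize eA2 : mA.c0 * (a + b) + mA.c1 * cc = A2
  generalize eB0 : mB.c0 * (y + zz) + mB.c1 * x = B0
  generalize eB1 : mB.c0 * (x + zz) + mB.c1 * y = B1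
  generalize eB2 : mB.c0 * (x + y) + mB.c1 * zz = B2
  have hAs : A0 + A1 + A2 = mA.den * M := by
    rw [← eA0, ← eA1, ← eA2, ← hA, ← sa']; ring
  have hBs : B0 + B1 + B2 = mB.den * M := by
    rw [← eB0, ← eB1, ← eB2, ← hB, ← ta']; ring
  obtain ⟨i1, n1, g1⟩ := cell_facts hM hH (A0 * B0) (A1 * B1) (A2 * B2)
  obtain ⟨i2, n2, g2⟩ := cell_facts hM hH (A0 * B0) (A1 * B2) (A2 * B1)
  obtain ⟨i3, n3, g3⟩ := cell_facts hM hH (A0 * B1) (A1 * B0) (A2 * B2)
  obtain ⟨i4, n4, g4⟩ := cell_facts hM hH (A0 * B1) (A1 * B2) (A2 * B0)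
  obtain ⟨i5, n5, g5⟩ := cell_facts hM hH (A0 * B2) (A1 * B0) (A2 * B1)
  obtain ⟨i6, n6, g6⟩ := cell_facts hM hH (A0 * B2) (A1 * B1) (A2 * B0)
  refine ⟨?_, ?_, ?_⟩
  · rintro e (h | h | h | h | h | h)
    exacts [i1 e h, i2 e h, i3 e h, i4 e h, i5 e h, i6 e h]
  · rw [n1, n2, n3, n4, n5, n6]
    calc _ = 2 * ((A0 + A1 + A2) * (B0 + B1 + B2)) := by ring
      _ = _ := by rw [hAs, hBs]; ring
  · have hp : ∑ σ : Equiv.Perm (Fin 3), H (fun i => vec A0 A1 A2 i * vec B0 B1 B2 (σ i)) =
        H (vec (A0 * B0) (A1 * B1) (A2 * B2)) + H (vec (A0 * B0) (A1 * B2) (A2 * B1))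
          + H (vec (A0 * B1) (A1 * B0) (A2 * B2)) + H (vec (A0 * B1) (A1 * B2) (A2 * B0))
          + H (vec (A0 * B2) (A1 * B0) (A2 * B1)) + H (vec (A0 * B2) (A1 * B1) (A2 * B0)) := by
      have hu : (Finset.univ : Finset (Equiv.Perm (Fin 3))) = {1, Equiv.swap 1 2, Equiv.swap 0 1,
          Equiv.swap 0 1 * Equiv.swap 1 2, Equiv.swap 0 2 * Equiv.swap 1 2, Equiv.swap 0 2} := by
        decide
      rw [hu, Finset.sum_insert (by decide), Finset.sum_insert (by decide),
        Finset.sum_insert (by decide), Finset.sum_insert (by decide), Finset.sum_insert (by decide),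
        Finset.sum_singleton]
      have fe : ∀ (σ : Equiv.Perm (Fin 3)) (p q r : ℕ), vec B0 B1 B2 (σ 0) = p →
          vec B0 B1 B2 (σ 1) = q → vec B0 B1 B2 (σ 2) = r →
          (fun i => vec A0 A1 A2 i * vec B0 B1 B2 (σ i)) = vec (A0 * p) (A1 * q) (A2 * r) := by
        intro σ p q r h0 h1 h2
        funext i; fin_cases i <;> simp [h0, h1, h2] <;> simp [vec]
      rw [fe 1 B0 B1 B2 rfl rfl rfl, fe (Equiv.swap 1 2) B0 B2 B1 (by simp [vec, Equiv.swap_apply_of_ne_of_ne])
          (by simp [vec]) (by simp [vec]),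
        fe (Equiv.swap 0 1) B1 B0 B2 (by simp [vec]) (by simp [vec])
          (by simp [vec, Equiv.swap_apply_of_ne_of_ne]),
        fe (Equiv.swap 0 1 * Equiv.swap 1 2) B1 B2 B0 (by simp [vec, Equiv.swap_apply_of_ne_of_ne])
          (by simp [vec, Equiv.swap_apply_of_ne_of_ne]) (by simp [vec]),
        fe (Equiv.swap 0 2 * Equiv.swap 1 2) B2 B0 B1 (by simp [vec, Equiv.swap_apply_of_ne_of_ne])
          (by simp [vec]) (by simp [vec, Equiv.swap_apply_of_ne_of_ne]),
        fe (Equiv.swap 0 2) B2 B1 B0 (by simp [vec]) (by simp [vec, Equiv.swap_apply_of_ne_of_ne])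
          (by simp [vec])]
      ring
    rw [hp]
    linarith


/-! ### Packing -/

/-- The weight of a slot at a level. -/
noncomputable def wgt (A : List (List ℕ)) (n s : ℕ) : ℕ := (A.getD s []).getD n 0

lemma valid_op {M s : ℕ} : ¬ valid M s = true → valid M s = false := by simp

lemma cidx_succ (M s : ℕ) : cidx M (s + 1) = bif valid M s then cidx M s + 1 else cidx M s := rfl

lemma cidx_mono (M : ℕ) : ∀ {a b : ℕ}, a ≤ b → cidx M a ≤ cidx M b := by
  intro a b h
  induction h with
  | refl => exact le_rfl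
  | step _ ih =>
    rw [cidx_succ]
    cases valid M _ <;> simp <;> omega

lemma cidx_lt {M a b : ℕ} (h : a < b) (hv : valid M a = true) : cidx M a < cidx M b := by
  have := cidx_mono M (show a + 1 ≤ b from h)
  rw [cidx_succ, hv] at this
  simpa using this

/-- The value of the digit of a slot. -/
noncomputable def phi (M w s : ℕ) : ℕ := (2 ^ w) ^ cidx M s

lemma cellG_eq (w o0 o1 o2 : ℕ) : cellG M w o0 o1 o2 =
    ((cell M o0 o1 o2).map fun e => e.2 * phi M w e.1).sum := by
  simp only [cellG, cellDiv, cellBy, cellUp, cellDn, place, phi, cell, nk_eq, Nat.add_eq, Nat.mul_eq,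
    Nat.sub_eq, div_op, mod_op, shift_op, Nat.shiftLeft_eq, Nat.succ_eq_add_one, ← pow_mul]
  cases Nat.beq (o0 + o1 + o2) 0
  · simp only [cond_false]
    cases Nat.beq (o0 * M / (o0 + o1 + o2) + o1 * M / (o0 + o1 + o2) + o2 * M / (o0 + o1 + o2) + 1) M
    · simp only [cond_false]
      cases Nat.beq (o0 * M / (o0 + o1 + o2) + o1 * M / (o0 + o1 + o2) + o2 * M / (o0 + o1 + o2)) M
      · simp only [cond_false, List.map_cons, List.map_nil, List.sum_cons, List.sum_nil, add_zero,
          add_assoc]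
      · simp only [cond_true, List.map_cons, List.map_nil, List.sum_cons, List.sum_nil, add_zero]
    · simp only [cond_true, List.map_cons, List.map_nil, List.sum_cons, List.sum_nil, add_zero,
        add_assoc]
  · simp

/-- The packed entries of a pair of slots. -/
noncomputable def packG (M w : ℕ) (mA mB : Map) (s t : ℕ) : ℕ :=
  ((pairL M mA mB s t).map fun e => e.2 * phi M w e.1).sum

lemma geo_eq (w : ℕ) (mA mB : Map) (s t : ℕ) :
    (coords M mA s fun a0 a1 a2 => geo M w mB a0 a1 a2 t) = packG M w mA mB s t := by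
  simp only [geo, coords_eq, sixG, cellG_eq, Nat.add_eq, Nat.mul_eq, packG, pairL, pairT, six,
    List.flatten_cons, List.flatten_nil, List.append_nil, List.map_append, List.sum_append]
  ring

lemma spread_eq (S : ℕ) : ∀ (bs : List ℕ) (L : ℕ), bs.length ≤ L →
    spread S bs = ∑ n ∈ Finset.range L, bs.getD n 0 * (2 ^ S) ^ n
  | [], L, _ => by simp [spread]
  | b :: bs, 0, h => by simp at h
  | b :: bs, L + 1, h => by
    show b + (spread S bs) <<< S = _
    rw [spread_eq S bs L (by simpa using h), Finset.sum_range_succ', Nat.shiftLeft_eq, Finset.sum_mul,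
      add_comm]
    simp only [List.getD_cons_succ, List.getD_cons_zero, pow_zero, mul_one]
    congr 1
    exact Finset.sum_congr rfl fun n _ => by ring

lemma term_eq (w S : ℕ) (mB : Map) (a0 a1 a2 t : ℕ) (x : List ℕ) :
    term M w S mB a0 a1 a2 t x = spread S x * geo M w mB a0 a1 a2 t := by
  cases x with
  | nil => simp [term, spread]
  | cons b bs => rfl

lemma innerQ_eq (w S : ℕ) (mB : Map) (a0 a1 a2 : ℕ) : ∀ (B : List (List ℕ)) (t : ℕ),
    innerQ M w S mB a0 a1 a2 B t =
      ∑ j ∈ Finset.range B.length, spread S (B.getD j []) * geo M w mB a0 a1 a2 (t + j)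
  | [], t => by simp [innerQ]
  | x :: B, t => by
    show term M w S mB a0 a1 a2 t x + nk (t + 1) (innerQ M w S mB a0 a1 a2 B) = _
    rw [nk_eq, innerQ_eq w S mB a0 a1 a2 B (t + 1), term_eq, List.length_cons,
      Finset.sum_range_succ', add_comm]
    simp only [List.getD_cons_succ, List.getD_cons_zero, add_zero, add_assoc, add_comm 1]

lemma scale_nil (S Q : ℕ) : scale S [] Q = 0 := rfl

lemma scale_eq (S : ℕ) : ∀ (as : List ℕ) (L : ℕ) (X : ℕ → ℕ), as.length ≤ L →
    (∀ n < L, X n < 2 ^ S) →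
    scale S as (∑ n ∈ Finset.range L, X n * (2 ^ S) ^ n) =
      ∑ n ∈ Finset.range L, as.getD n 0 * X n * (2 ^ S) ^ n
  | [], L, X, _, _ => by simp [scale_nil]
  | a :: as, 0, X, h, _ => by simp at h
  | a :: as, L + 1, X, h, hX => by
    show a * ((∑ n ∈ Finset.range (L + 1), X n * (2 ^ S) ^ n) % 2 ^ S) +
      (scale S as ((∑ n ∈ Finset.range (L + 1), X n * (2 ^ S) ^ n) >>> S)) <<< S = _
    have e : ∑ n ∈ Finset.range (L + 1), X n * (2 ^ S) ^ n =
        X 0 + 2 ^ S * ∑ n ∈ Finset.range L, X (n + 1) * (2 ^ S) ^ n := by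
      rw [Finset.sum_range_succ', pow_zero, mul_one, add_comm, Finset.mul_sum]
      congr 1
      exact Finset.sum_congr rfl fun n _ => by ring
    rw [e, Nat.shiftRight_eq_div_pow, Nat.add_mul_mod_self_left, Nat.mod_eq_of_lt (hX 0 (by omega)),
      Nat.add_mul_div_left _ _ (by positivity), Nat.div_eq_of_lt (hX 0 (by omega)), Nat.zero_add,
      scale_eq S as L _ (by simpa using h) (fun n hn => hX (n + 1) (by omega)), Nat.shiftLeft_eq,
      Finset.sum_range_succ', Finset.sum_mul, add_comm]
    simp only [List.getD_cons_succ, List.getD_cons_zero, pow_zero, mul_one]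
    congr 1
    exact Finset.sum_congr rfl fun n _ => by ring

lemma rowV_eq (w S : ℕ) (mA mB : Map) (B : List (List ℕ)) (s : ℕ) (x : List ℕ) :
    rowV M w S mA mB B s x = scale S x
      (∑ j ∈ Finset.range B.length, spread S (B.getD j []) * packG M w mA mB s j) := by
  cases x with
  | nil => rfl
  | cons a as =>
    simp only [rowV, nk_eq, ← geo_eq, coords_eq, innerQ_eq, Nat.zero_add]

lemma outerV_eq (w : ℕ) (mA mB : Map) (B : List (List ℕ)) : ∀ (A : List (List ℕ)) (s : ℕ),
    outerV M w mA mB B A s = ∑ i ∈ Finset.range A.length, scale (blockW M w) (A.getD i [])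
      (∑ j ∈ Finset.range B.length, spread (blockW M w) (B.getD j []) * packG M w mA mB (s + i) j)
  | [], s => by simp [outerV]
  | x :: A, s => by
    show rowV M w (blockW M w) mA mB B s x + nk (s + 1) (outerV M w mA mB B A) = _
    rw [nk_eq, outerV_eq w mA mB B A (s + 1), rowV_eq, List.length_cons, Finset.sum_range_succ',
      add_comm]
    simp only [List.getD_cons_succ, List.getD_cons_zero, add_zero, add_assoc, add_comm 1]

/-- How often an ordered pair is met in the loop over unordered pairs. -/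
noncomputable def mult (i j : ℕ) : ℕ := if j < i then 0 else if j = i then 1 else 2

lemma mult_le (i j : ℕ) : mult i j ≤ 2 := by unfold mult; split_ifs <;> omega

lemma mult_add (i j : ℕ) : mult i j + mult j i = 2 := by
  unfold mult; split_ifs <;> omega

lemma mult_succ (i j : ℕ) : mult (i + 1) (j + 1) = mult i j := by
  simp [mult]

lemma rowS_eq (w S : ℕ) (m : Map) (s : ℕ) (x : List ℕ) (rest : List (List ℕ)) :
    rowS M w S m s x rest = scale S x
      (∑ j ∈ Finset.range (rest.length + 1),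
        mult 0 j * spread S ((x :: rest).getD j []) * packG M w m m s (s + j)) := by
  cases x with
  | nil => rfl
  | cons a as =>
    simp only [rowS, nk_eq, ← geo_eq, coords_eq, innerQ_eq, term_eq, Nat.add_eq, Nat.mul_eq,
      Nat.succ_eq_add_one]
    congr 1
    rw [Finset.sum_range_succ', add_comm, Finset.mul_sum]
    simp only [mult, List.getD_cons_succ, List.getD_cons_zero, add_zero, add_assoc, add_comm 1,
      lt_irrefl, Nat.not_lt_zero, if_false, if_true, Nat.succ_ne_zero, one_mul, mul_assoc]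

lemma outerS_eq (w : ℕ) (m : Map) : ∀ (A : List (List ℕ)) (s : ℕ),
    outerS M w m A s = ∑ i ∈ Finset.range A.length, scale (blockW M w) (A.getD i [])
      (∑ j ∈ Finset.range A.length,
        mult i j * spread (blockW M w) (A.getD j []) * packG M w m m (s + i) (s + j))
  | [], s => by simp [outerS]
  | x :: A, s => by
    show rowS M w (blockW M w) m s x A + nk (s + 1) (outerS M w m A) = _
    rw [nk_eq, outerS_eq w m A (s + 1), rowS_eq]
    simp only [List.length_cons]
    conv_rhs => rw [Finset.sum_range_succ']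
    rw [add_comm]
    simp only [List.getD_cons_succ, List.getD_cons_zero, add_zero]
    congr 1
    refine Finset.sum_congr rfl fun i _ => ?_
    conv_rhs => rw [Finset.sum_range_succ']
    have h0 : mult (i + 1) 0 = 0 := by simp [mult]
    simp only [List.getD_cons_succ, mult_succ, h0, zero_mul, add_zero, add_assoc, add_comm 1]

lemma slot_swap01 (M x y z : ℕ) : slot M y x z = slot M x y z := by
  simp only [slot, Bool.cond_eq_ite, Nat.ble_eq]
  split_ifs <;> first | rfl | omega | (congr 1 <;> omega)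

lemma slot_swap12 (M x y z : ℕ) : slot M x z y = slot M x y z := by
  simp only [slot, Bool.cond_eq_ite, Nat.ble_eq]
  split_ifs <;> first | rfl | omega | (congr 1 <;> omega)

/-- The packed entries of one product. -/
noncomputable def cellSum (M st o0 o1 o2 : ℕ) : ℕ := ((cell M o0 o1 o2).map fun e => e.2 * phi M st e.1).sum

lemma cellSum_swap01 (st o0 o1 o2 : ℕ) : cellSum M st o1 o0 o2 = cellSum M st o0 o1 o2 := by
  simp only [cellSum, cell, show o1 + o0 + o2 = o0 + o1 + o2 by omega]
  generalize o0 * M / (o0 + o1 + o2) = f0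
  generalize o1 * M / (o0 + o1 + o2) = f1
  generalize o2 * M / (o0 + o1 + o2) = f2
  rw [show f1 + f0 + f2 = f0 + f1 + f2 by omega, slot_swap01 M f0 (f1 + 1) f2,
    slot_swap01 M (f0 + 1) f1 f2, slot_swap01 M f0 f1 (f2 + 1), slot_swap01 M f0 f1 f2,
    slot_swap01 M (f0 + 1) f1 (f2 + 1), slot_swap01 M f0 (f1 + 1) (f2 + 1),
    slot_swap01 M (f0 + 1) (f1 + 1) f2]
  cases Nat.beq (o0 + o1 + o2) 0 <;> cases Nat.beq (f0 + f1 + f2 + 1) M <;>
    cases Nat.beq (f0 + f1 + f2) M <;>
    simp <;> ring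

lemma cellSum_swap12 (st o0 o1 o2 : ℕ) : cellSum M st o0 o2 o1 = cellSum M st o0 o1 o2 := by
  simp only [cellSum, cell, show o0 + o2 + o1 = o0 + o1 + o2 by omega]
  generalize o0 * M / (o0 + o1 + o2) = f0
  generalize o1 * M / (o0 + o1 + o2) = f1
  generalize o2 * M / (o0 + o1 + o2) = f2
  rw [show f0 + f2 + f1 = f0 + f1 + f2 by omega, slot_swap12 M f0 (f1 + 1) f2,
    slot_swap12 M (f0 + 1) f1 f2, slot_swap12 M f0 f1 (f2 + 1), slot_swap12 M f0 f1 f2,
    slot_swap12 M (f0 + 1) f1 (f2 + 1), slot_swap12 M f0 (f1 + 1) (f2 + 1),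
    slot_swap12 M (f0 + 1) (f1 + 1) f2]
  cases Nat.beq (o0 + o1 + o2) 0 <;> cases Nat.beq (f0 + f1 + f2 + 1) M <;>
    cases Nat.beq (f0 + f1 + f2) M <;>
    simp <;> ring

lemma packG_comm (st : ℕ) (m : Map) (s t : ℕ) : packG M st m m s t = packG M st m m t s := by
  simp only [packG, pairL, pairT, six, List.flatten_cons, List.flatten_nil, List.append_nil,
    List.map_append, List.sum_append]
  generalize sa M s = a
  generalize sb M s = b
  generalize M - a - b = c
  generalize sa M t = x
  generalize sb M t = y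
  generalize M - x - y = z
  generalize m.c0 * (b + c) + m.c1 * a = A0
  generalize m.c0 * (a + c) + m.c1 * b = A1
  generalize m.c0 * (a + b) + m.c1 * c = A2
  generalize m.c0 * (y + z) + m.c1 * x = B0
  generalize m.c0 * (x + z) + m.c1 * y = B1
  generalize m.c0 * (x + y) + m.c1 * z = B2
  have hc : ∀ u v r, ((cell M u v r).map fun e => e.2 * phi M st e.1).sum = cellSum M st u v r :=
    fun _ _ _ => rfl
  simp only [hc]
  rw [Nat.mul_comm B0 A0, Nat.mul_comm B1 A1, Nat.mul_comm B2 A2, Nat.mul_comm B0 A1,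
    Nat.mul_comm B0 A2, Nat.mul_comm B1 A0, Nat.mul_comm B1 A2, Nat.mul_comm B2 A0,
    Nat.mul_comm B2 A1]
  rw [cellSum_swap12 st (A0 * B0) (A1 * B2) (A2 * B1),
    cellSum_swap01 st (A0 * B1) (A1 * B0) (A2 * B2)]
  rw [show cellSum M st (A1 * B0) (A2 * B1) (A0 * B2) = cellSum M st (A0 * B2) (A1 * B0) (A2 * B1) by
      rw [cellSum_swap12 st (A1 * B0) (A0 * B2) (A2 * B1), cellSum_swap01 st (A0 * B2) (A1 * B0)],
    show cellSum M st (A2 * B0) (A0 * B1) (A1 * B2) = cellSum M st (A0 * B1) (A1 * B2) (A2 * B0) by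
      rw [cellSum_swap01 st (A0 * B1) (A2 * B0), cellSum_swap12 st (A0 * B1) (A1 * B2)],
    show cellSum M st (A2 * B0) (A1 * B1) (A0 * B2) = cellSum M st (A0 * B2) (A1 * B1) (A2 * B0) by
      rw [cellSum_swap01 st (A1 * B1) (A2 * B0), cellSum_swap12 st (A1 * B1) (A0 * B2),
        cellSum_swap01 st (A0 * B2) (A1 * B1)]]
  ring

/-- The entries of a pair at one slot. -/
noncomputable def coef (M : ℕ) (mA mB : Map) (s t c : ℕ) : ℕ :=
  (((pairL M mA mB s t).filter fun e => e.1 == c).map Prod.snd).sum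

lemma group {R : Type} [CommSemiring R] (N : ℕ) (g : ℕ → R) : ∀ l : List (ℕ × ℕ),
    (∀ e ∈ l, e.1 < N) → (l.map fun e => (e.2 : R) * g e.1).sum =
      ∑ c ∈ Finset.range N, ((((l.filter fun e => e.1 == c).map Prod.snd).sum : ℕ) : R) * g c
  | [], _ => by simp
  | e :: l, h => by
    rw [List.map_cons, List.sum_cons, group N g l fun x hx => h x (List.mem_cons_of_mem _ hx)]
    have he := h e (List.mem_cons_self ..)
    rw [← Finset.add_sum_erase _ _ (Finset.mem_range.2 he),
      ← Finset.add_sum_erase _ (fun c => ((((e :: l).filter fun x => x.1 == c).map Prod.snd).sum : ℕ) * g c)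
        (Finset.mem_range.2 he)]
    simp only [List.filter_cons, beq_self_eq_true, if_true, List.map_cons, List.sum_cons,
      Nat.cast_add, add_mul, add_assoc]
    congr 1; congr 1
    refine Finset.sum_congr rfl fun c hc => ?_
    have : (e.1 == c) = false := by simpa using (Finset.ne_of_mem_erase hc).symm
    simp [this]

/-- The weighted entries at one level and slot. -/
noncomputable def tot (M : ℕ) (mA mB : Map) (A B : List (List ℕ)) (n c : ℕ) : ℕ :=
  ∑ s ∈ Finset.range A.length, ∑ t ∈ Finset.range B.length,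
    wgt A n s * wgt B n t * coef M mA mB s t c

lemma digit_eq (X : ℕ) : ∀ (N : ℕ) (f : ℕ → ℕ), (∀ i < N, f i < X) → ∀ j < N,
    (∑ i ∈ Finset.range N, f i * X ^ i) / X ^ j % X = f j
  | 0, _, _, j, hj => absurd hj (by omega)
  | N + 1, f, hf, j, hj => by
    have hX : 0 < X := lt_of_le_of_lt (Nat.zero_le _) (hf 0 (by omega))
    have e : ∑ i ∈ Finset.range (N + 1), f i * X ^ i =
        f 0 + X * ∑ i ∈ Finset.range N, f (i + 1) * X ^ i := by
      rw [Finset.sum_range_succ', pow_zero, mul_one, add_comm, Finset.mul_sum]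
      congr 1
      exact Finset.sum_congr rfl fun i _ => by ring
    rw [e]
    cases j with
    | zero => rw [pow_zero, Nat.div_one, Nat.add_mul_mod_self_left, Nat.mod_eq_of_lt (hf 0 (by omega))]
    | succ j =>
      rw [Nat.pow_succ', ← Nat.div_div_eq_div_mul, Nat.add_mul_div_left _ _ hX,
        Nat.div_eq_of_lt (hf 0 (by omega)), Nat.zero_add]
      exact digit_eq X N (fun i => f (i + 1)) (fun i hi => hf (i + 1) (by omega)) j (by omega)

lemma compact_lt (w : ℕ) (Y : ℕ → ℕ) : ∀ N, (∀ c < N, Y c < 2 ^ w) →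
    (∀ c < N, valid M c ≠ true → Y c = 0) →
    ∑ c ∈ Finset.range N, Y c * phi M w c < (2 ^ w) ^ cidx M N
  | 0, _, _ => by simp [cidx]
  | N + 1, hY, hv => by
    have ih := compact_lt w Y N (fun c hc => hY c (by omega)) (fun c hc => hv c (by omega))
    rw [Finset.sum_range_succ, cidx_succ]
    by_cases h : valid M N = true
    · rw [h, cond_true, phi, pow_succ]
      have := Nat.mul_le_mul_left ((2 ^ w) ^ cidx M N) (hY N (by omega))
      rw [Nat.mul_succ, Nat.mul_comm ((2 ^ w) ^ cidx M N) (Y N)] at this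
      omega
    · rw [valid_op h, cond_false, hv N (by omega) h]
      simpa using ih

lemma compact_digit (w : ℕ) (Y : ℕ → ℕ) : ∀ N, (∀ c < N, Y c < 2 ^ w) →
    (∀ c < N, valid M c ≠ true → Y c = 0) → ∀ c < N, valid M c = true →
    (∑ c ∈ Finset.range N, Y c * phi M w c) / phi M w c % 2 ^ w = Y c
  | 0, _, _, c, hc, _ => absurd hc (by omega)
  | N + 1, hY, hv, c, hc, hcv => by
    rw [Finset.sum_range_succ]
    rcases Nat.lt_succ_iff_lt_or_eq.1 hc with h | rfl
    · by_cases hN : valid M N = true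
      · obtain ⟨k, hk⟩ : ∃ k, cidx M N = cidx M c + 1 + k :=
          ⟨cidx M N - cidx M c - 1, by have := cidx_lt h hcv; omega⟩
        rw [show Y N * phi M w N = phi M w c * (2 ^ w * (Y N * (2 ^ w) ^ k)) by
          simp only [phi, hk, pow_add, pow_one]; ring]
        rw [Nat.add_mul_div_left _ _ (by simp [phi]), Nat.add_mul_mod_self_left]
        exact compact_digit w Y N (fun x hx => hY x (by omega)) (fun x hx => hv x (by omega)) c h hcv
      · rw [hv N (by omega) hN, zero_mul, add_zero]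
        exact compact_digit w Y N (fun x hx => hY x (by omega)) (fun x hx => hv x (by omega)) c h hcv
    · rw [Nat.add_mul_div_right _ _ (by simp [phi]),
        show (∑ x ∈ Finset.range c, Y x * phi M w x) / phi M w c = 0 from
          Nat.div_eq_of_lt (compact_lt w Y c (fun x hx => hY x (by omega)) (fun x hx => hv x (by omega))),
        Nat.zero_add, Nat.mod_eq_of_lt (hY c (by omega))]

lemma len_eq : ∀ x : List ℕ, len x = x.length
  | [] => rfl
  | _ :: x => congrArg Nat.succ (len_eq x)

lemma rows_eq : ∀ A : List (List ℕ), rows A = A.length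
  | [] => rfl
  | _ :: A => congrArg Nat.succ (rows_eq A)

lemma lensLe_sound (L : ℕ) : ∀ A : List (List ℕ), lensLe L A = true → ∀ x ∈ A, x.length ≤ L
  | [], _, x, hx => absurd hx (List.not_mem_nil)
  | y :: A, h, x, hx => by
    have h' : ((len y).ble L && lensLe L A) = true := h
    rw [Bool.and_eq_true, len_eq] at h'
    rcases List.mem_cons.1 hx with rfl | hx
    exacts [Nat.le_of_ble_eq_true h'.1, lensLe_sound L A h'.2 x hx]

lemma wgt_tails : ∀ (A : List (List ℕ)) (n s : ℕ), wgt (tails A) n s = wgt A (n + 1) s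
  | [], n, s => by simp [wgt, tails]
  | x :: A, n, 0 => by
    show (((x.tail :: tails A)).getD 0 []).getD n 0 = _
    cases x <;> simp [wgt]
  | x :: A, n, s + 1 => by
    show (((x.tail :: tails A)).getD (s + 1) []).getD n 0 = _
    simpa [wgt] using wgt_tails A n s

lemma length_tails : ∀ A : List (List ℕ), (tails A).length = A.length
  | [] => rfl
  | _ :: A => congrArg Nat.succ (length_tails A)

lemma wgt_head (x : List ℕ) (A : List (List ℕ)) : wgt (x :: A) 0 0 = x.headD 0 := by
  cases x <;> simp [wgt]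

lemma hsum_eq : ∀ A : List (List ℕ), hsum A = ∑ s ∈ Finset.range A.length, wgt A 0 s
  | [] => rfl
  | x :: A => by
    show x.headD 0 + hsum A = _
    rw [hsum_eq A, List.length_cons, Finset.sum_range_succ', wgt_head, add_comm]
    simp [wgt]

lemma levels_sound (K w X : ℕ) : ∀ (L : ℕ) (A B C : List (List ℕ)),
    levels M K w X L A B C = true → ∀ n < L,
      X * ((∑ s ∈ Finset.range A.length, wgt A n s) * ∑ t ∈ Finset.range B.length, wgt B n t) < 2 ^ w ∧
      X * (∑ t ∈ Finset.range B.length, wgt B n t) < 2 ^ w ∧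
      3 * K * ∑ c ∈ Finset.range C.length, wgt C n c =
        M * ((∑ s ∈ Finset.range A.length, wgt A n s) * ∑ t ∈ Finset.range B.length, wgt B n t)
  | 0, _, _, _, _, n, hn => absurd hn (by omega)
  | L + 1, A, B, C, h, n, hn => by
    replace h : ((Nat.succ (X * (hsum A * hsum B))).ble (2 ^ w) &&
        (Nat.succ (X * hsum B)).ble (2 ^ w) &&
        (3 * K * hsum C).beq (M * (hsum A * hsum B)) &&
        levels M K w X L (tails A) (tails B) (tails C)) = true := h
    simp only [Bool.and_eq_true] at h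
    cases n with
    | zero =>
      simp only [← hsum_eq]
      exact ⟨Nat.le_of_ble_eq_true h.1.1.1, Nat.le_of_ble_eq_true h.1.1.2, Nat.eq_of_beq_eq_true h.1.2⟩
    | succ n => simpa only [wgt_tails, length_tails] using levels_sound K w X L _ _ _ h.2 n (by omega)

lemma digits_sound (w f N : ℕ) : ∀ (C : List (List ℕ)) (s : ℕ),
    digits M w f C (N / phi M w s) s = true → ∀ c < C.length,
      (valid M (s + c) = true → s + c ≠ 0 → f * wgt C 0 c ≤ N / phi M w (s + c) % 2 ^ w) ∧
      (valid M (s + c) ≠ true → wgt C 0 c = 0)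
  | [], _, _, c, hc => absurd hc (by simp)
  | x :: C, s, h, c, hc => by
    replace h : (bif valid M s then
        (Nat.beq s 0 || (f * x.headD 0).ble (N / phi M w s % 2 ^ w)) &&
          nk (s + 1) fun s' => nk ((N / phi M w s) >>> w) fun num' => digits M w f C num' s'
      else (x.headD 0).beq 0 && nk (s + 1) fun s' => digits M w f C (N / phi M w s) s') = true := h
    simp only [nk_eq] at h
    have hrest : digits M w f C (N / phi M w (s + 1)) (s + 1) = true := by
      by_cases hv : valid M s = true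
      · simp only [hv, cond_true, Bool.and_eq_true] at h
        rw [Nat.shiftRight_eq_div_pow, Nat.div_div_eq_div_mul] at h
        simpa [phi, cidx_succ, hv, pow_succ] using h.2
      · simp only [valid_op hv, cond_false, Bool.and_eq_true] at h
        simpa [phi, cidx_succ, valid_op hv] using h.2
    cases c with
    | zero =>
      simp only [add_zero, wgt_head]
      refine ⟨fun hv h0 => ?_, fun hv => ?_⟩
      · simp only [hv, cond_true, Bool.and_eq_true, Bool.or_eq_true] at h
        exact Nat.le_of_ble_eq_true (h.1.resolve_left fun h' => h0 (Nat.eq_of_beq_eq_true h'))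
      · simp only [valid_op hv, cond_false, Bool.and_eq_true] at h
        exact Nat.eq_of_beq_eq_true h.1
    | succ c =>
      have := digits_sound w f N C (s + 1) hrest c (by simpa using hc)
      rw [show s + 1 + c = s + (c + 1) by omega] at this
      simpa [wgt] using this

lemma digitsAll_sound (w f S : ℕ) : ∀ (L : ℕ) (C : List (List ℕ)) (acc : ℕ),
    digitsAll M w f S L C acc = true → ∀ n < L, ∀ c < C.length,
      (valid M c = true → c ≠ 0 → f * wgt C n c ≤ acc / (2 ^ S) ^ n % 2 ^ S / phi M w c % 2 ^ w) ∧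
      (valid M c ≠ true → wgt C n c = 0)
  | 0, _, _, _, n, hn, _, _ => absurd hn (by omega)
  | L + 1, C, acc, h, n, hn, c, hc => by
    replace h : ((nk (acc % 2 ^ S) fun num => digits M w f C num 0) &&
        nk (acc >>> S) (digitsAll M w f S L (tails C))) = true := h
    simp only [nk_eq, Bool.and_eq_true] at h
    cases n with
    | zero =>
      have h0 : acc % 2 ^ S = acc % 2 ^ S / phi M w 0 := by simp [phi, cidx]
      rw [h0] at h
      simpa using digits_sound w f (acc % 2 ^ S) C 0 h.1 c hc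
    | succ n =>
      have := digitsAll_sound w f S L (tails C) _ h.2 n (by omega) c (by rwa [length_tails])
      rwa [wgt_tails, Nat.shiftRight_eq_div_pow, Nat.div_div_eq_div_mul, ← pow_succ'] at this

lemma supp_sound : ∀ (A : List (List ℕ)) (s : ℕ), supp M A s = true →
    ∀ n i, wgt A n i ≠ 0 → valid M (s + i) = true
  | [], s, _, n, i, h => absurd (by simp [wgt]) h
  | x :: A, s, hs, n, i, h => by
    cases i with
    | zero =>
      cases x with
      | nil => exact absurd (by simp [wgt]) h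
      | cons a x =>
        replace hs : (valid M s && nk (s + 1) (supp M A)) = true := hs
        simp only [Bool.and_eq_true] at hs; simpa using hs.1
    | succ i =>
      have h' : supp M A (s + 1) = true := by
        cases x with
        | nil =>
          replace hs : nk (s + 1) (supp M A) = true := hs
          rwa [nk_eq] at hs
        | cons a x =>
          replace hs : (valid M s && nk (s + 1) (supp M A)) = true := hs
          rw [Bool.and_eq_true, nk_eq] at hs; exact hs.2
      have := supp_sound A (s + 1) h' n i (by simpa [wgt] using h)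
      rwa [show s + 1 + i = s + (i + 1) by omega] at this

lemma rep_nonneg (M s : ℕ) : ∀ i, 0 ≤ rep M s i := vec_nonneg _ _ _

lemma H_rep_le (hM : 0 < M) (hH : Test H) {s : ℕ} (hs : valid M s = true) :
    H (rep M s) ≤ H (rep M 0) := by
  simp only [valid, decide_eq_true_eq] at hs
  have h0 : rep M 0 = vec 0 0 M := by simp [rep, sa_eq, sb_eq]
  have h1 : H (vec 0 M 0) = H (vec 0 0 M) := hH.swap12 0 0 M
  have h2 : H (vec M 0 0) = H (vec 0 0 M) := (hH.swap01 0 M 0).trans h1
  rw [h0, rep]
  generalize hc : M - sa M s - sb M s = cc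
  have hsum : sa M s + sb M s + cc = M := by omega
  generalize sa M s = a at hsum ⊢
  generalize sb M s = b at hsum ⊢
  have ev : (M : ℝ) • vec a b cc =
      (a : ℝ) • vec M 0 0 + (b : ℝ) • vec 0 M 0 + (cc : ℝ) • vec 0 0 M := by
    funext i; fin_cases i <;> simp [vec] <;> ring
  have := hH.add3 (Nat.cast_nonneg a) (Nat.cast_nonneg b) (Nat.cast_nonneg cc)
    (fun i => vec_nonneg M 0 0 i) (fun i => vec_nonneg 0 M 0 i) (fun i => vec_nonneg 0 0 M i)
  rw [← ev, hH.smul _ _ (Nat.cast_nonneg M) (fun i => vec_nonneg a b cc i), h1, h2, ← add_mul,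
    ← add_mul, show (a : ℝ) + b + cc = M by exact_mod_cast hsum] at this
  exact le_of_mul_le_mul_left this (by exact_mod_cast hM)

/-- Weighted value of a test function on a law at one level. -/
noncomputable def value (M : ℕ) (H : (Fin 3 → ℝ) → ℝ) (A : List (List ℕ)) (n : ℕ) : ℝ :=
  ∑ s ∈ Finset.range A.length, (wgt A n s : ℝ) * H (rep M s)

/-- What the side conditions of the check give. -/
structure Facts (M K w L : ℕ) (mA mB : Map) (A B C : List (List ℕ)) : Prop where
  hM : 0 < M
  hmA : 2 * mA.c0 + mA.c1 = mA.den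
  hmB : 2 * mB.c0 + mB.c1 = mB.den
  hAL : ∀ x ∈ A, x.length ≤ L
  hBL : ∀ x ∈ B, x.length ≤ L
  hCl : C.length = slots M
  hlev : levels M K w (6 * (mA.den * mB.den) * M * M) L A B C = true
  hA : ∀ {n s : ℕ}, wgt A n s ≠ 0 → valid M s = true
  hB : ∀ {n s : ℕ}, wgt B n s ≠ 0 → valid M s = true

lemma chkAcc_facts {K w L acc : ℕ} {mA mB : Map} {A B C : List (List ℕ)}
    (h : chkAcc M K w L mA mB A B C acc = true) : Facts M K w L mA mB A B C := by
  simp only [chkAcc, Bool.and_eq_true, decide_eq_true_eq] at h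
  obtain ⟨⟨⟨⟨⟨⟨⟨⟨⟨⟨⟨⟨⟨⟨hM, -⟩, -⟩, hmA⟩, hmB⟩, -⟩, -⟩, hCl⟩, -⟩, hAL⟩, hBL⟩, hlev⟩, hsA⟩, hsB⟩, -⟩ := h
  exact ⟨hM, hmA, hmB, lensLe_sound L A hAL, lensLe_sound L B hBL,
    (rows_eq C).symm.trans (Nat.eq_of_beq_eq_true hCl), hlev,
    fun h => by simpa using supp_sound A 0 hsA _ _ h, fun h => by simpa using supp_sound B 0 hsB _ _ h⟩

lemma Facts.hcoef {K w L : ℕ} {mA mB : Map} {A B C : List (List ℕ)} (hc : Facts M K w L mA mB A B C)
    (hH : Test H) {s t : ℕ} (hs : valid M s = true) (ht : valid M t = true) :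
      (∀ e ∈ pairL M mA mB s t, e.1 < slots M) ∧
      (∀ c, valid M c ≠ true → coef M mA mB s t c = 0) ∧
      ∑ c ∈ Finset.range (slots M), coef M mA mB s t c = 2 * mA.den * mB.den * M * M := by
  obtain ⟨i1, i2, -⟩ := pairL_facts hc.hM hH hc.hmA hc.hmB hs ht
  refine ⟨fun e he => (i1 e he).1, fun c hc => ?_, ?_⟩
  · have : ∀ e ∈ pairL M mA mB s t, ¬ (e.1 == c) = true := fun e he heq => by
      have he' : e.1 = c := by simpa using heq
      exact hc (he' ▸ (i1 e he).2)
    rw [coef, List.filter_eq_nil_iff.2 this]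
    rfl
  have := group (R := ℕ) (slots M) (fun _ => 1) _ fun e he => (i1 e he).1
  simp only [mul_one, Nat.cast_id] at this
  rw [← i2]; exact this.symm

lemma Facts.packG_sum {K w L : ℕ} {mA mB : Map} {A B C : List (List ℕ)} (hc : Facts M K w L mA mB A B C)
    (hH : Test H) {s t : ℕ} (hs : valid M s = true) (ht : valid M t = true) :
    packG M w mA mB s t = ∑ c ∈ Finset.range (slots M), coef M mA mB s t c * phi M w c := by
  have := group (R := ℕ) (slots M) (phi M w) _ (hc.hcoef hH hs ht).1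
  simp only [Nat.cast_id] at this
  exact this

lemma Facts.inner_lt {K w L : ℕ} {mA mB : Map} {A B C : List (List ℕ)} (hc : Facts M K w L mA mB A B C)
    (hH : Test H) {s n : ℕ} (hn : n < L) (hs : valid M s = true) (k : ℕ → ℕ) (hk : ∀ j, k j ≤ 2) :
    ∑ j ∈ Finset.range B.length, k j * wgt B n j * packG M w mA mB s j < 2 ^ blockW M w := by
  have e : ∑ j ∈ Finset.range B.length, k j * wgt B n j * packG M w mA mB s j =
      ∑ c ∈ Finset.range (slots M),
        (∑ j ∈ Finset.range B.length, k j * wgt B n j * coef M mA mB s j c) * phi M w c := by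
    simp only [Finset.sum_mul]
    rw [Finset.sum_comm (s := Finset.range (slots M))]
    refine Finset.sum_congr rfl fun j _ => ?_
    rcases eq_or_ne (wgt B n j) 0 with b | b
    · simp [b]
    rw [hc.packG_sum hH hs (hc.hB b), Finset.mul_sum]
    exact Finset.sum_congr rfl fun c _ => by ring
  rw [e, blockW, Nat.mul_eq, pow_mul]
  refine compact_lt w _ _ (fun c hc' => ?_) (fun c _ hv => ?_)
  · refine lt_of_le_of_lt ?_ (levels_sound K w _ L A B C hc.hlev n hn).2.1
    rw [Finset.mul_sum]
    refine Finset.sum_le_sum fun j _ => ?_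
    rcases eq_or_ne (wgt B n j) 0 with b | b
    · simp [b]
    have h1 : coef M mA mB s j c ≤ 2 * mA.den * mB.den * M * M :=
      (Finset.single_le_sum (fun x _ => Nat.zero_le (coef M mA mB s j x)) (Finset.mem_range.2 hc')).trans
        (hc.hcoef hH hs (hc.hB b)).2.2.le
    calc k j * wgt B n j * coef M mA mB s j c ≤ 2 * wgt B n j * (2 * mA.den * mB.den * M * M) :=
          Nat.mul_le_mul (Nat.mul_le_mul_right _ (hk j)) h1
      _ = 4 * (mA.den * mB.den * M * M * wgt B n j) := by ring
      _ ≤ 6 * (mA.den * mB.den * M * M * wgt B n j) := Nat.mul_le_mul_right _ (by omega)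
      _ = _ := by ring
  · refine Finset.sum_eq_zero fun j _ => ?_
    rcases eq_or_ne (wgt B n j) 0 with b | b
    · simp [b]
    rw [(hc.hcoef hH hs (hc.hB b)).2.1 c hv, mul_zero]

lemma Facts.scaled {K w L : ℕ} {mA mB : Map} {A B C : List (List ℕ)} (hc : Facts M K w L mA mB A B C)
    (hH : Test H) (k : ℕ → ℕ → ℕ) (hk : ∀ i j, k i j ≤ 2) :
    ∑ i ∈ Finset.range A.length, scale (blockW M w) (A.getD i [])
        (∑ j ∈ Finset.range B.length, k i j * spread (blockW M w) (B.getD j []) * packG M w mA mB i j) =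
      ∑ n ∈ Finset.range L, (∑ i ∈ Finset.range A.length, ∑ j ∈ Finset.range B.length,
        k i j * (wgt A n i * wgt B n j * packG M w mA mB i j)) * (2 ^ blockW M w) ^ n := by
  simp only [Finset.sum_mul]
  rw [Finset.sum_comm (s := Finset.range L)]
  refine Finset.sum_congr rfl fun i hi => ?_
  have hmem : ∀ {G : List (List ℕ)}, (∀ x ∈ G, x.length ≤ L) → ∀ j, (G.getD j []).length ≤ L := by
    intro G hG j
    rcases lt_or_ge j G.length with hj | hj
    · rw [List.getD_eq_getElem?_getD, List.getElem?_eq_getElem hj, Option.getD_some]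
      exact hG _ (List.getElem_mem hj)
    · simp [List.getD_eq_getElem?_getD, hj]
  by_cases hz : ∀ n, wgt A n i = 0
  · simp only [hz, zero_mul, mul_zero, Finset.sum_const_zero]
    have e : ∀ (x : List ℕ) (Q : ℕ), (∀ n, x.getD n 0 = 0) → scale (blockW M w) x Q = 0 := by
      intro x
      induction x with
      | nil => intro Q _; rfl
      | cons a x ih =>
        intro Q hx
        have h0 : a = 0 := hx 0
        show a * (Q % 2 ^ blockW M w) + (scale (blockW M w) x (Q >>> blockW M w)) <<< blockW M w = 0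
        rw [ih _ (fun n => hx (n + 1)), h0]; simp
    exact e _ _ hz
  obtain ⟨m, hm⟩ := not_forall.1 hz
  have hs := hc.hA hm
  have e : ∑ j ∈ Finset.range B.length, k i j * spread (blockW M w) (B.getD j []) * packG M w mA mB i j =
      ∑ n ∈ Finset.range L, (∑ j ∈ Finset.range B.length, k i j * wgt B n j * packG M w mA mB i j) *
        (2 ^ blockW M w) ^ n := by
    simp only [spread_eq _ _ L (hmem hc.hBL _), Finset.mul_sum, Finset.sum_mul]
    rw [Finset.sum_comm]
    exact Finset.sum_congr rfl fun n _ => Finset.sum_congr rfl fun j _ => by rw [wgt]; ring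
  rw [e, scale_eq _ _ L _ (hmem hc.hAL _) (fun n hn => hc.inner_lt hH hn hs _ (hk i))]
  refine Finset.sum_congr rfl fun n _ => ?_
  rw [Finset.mul_sum, Finset.sum_mul]
  exact Finset.sum_congr rfl fun j _ => by rw [wgt, wgt]; ring

lemma sym_sum (N : ℕ) (F : ℕ → ℕ → ℕ) (hF : ∀ i j, F i j = F j i) :
    ∑ i ∈ Finset.range N, ∑ j ∈ Finset.range N, mult i j * F i j =
      ∑ i ∈ Finset.range N, ∑ j ∈ Finset.range N, F i j := by
  refine Nat.eq_of_mul_eq_mul_left (show 0 < 2 by omega) ?_
  rw [two_mul]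
  conv_lhs => arg 2; rw [Finset.sum_comm]
  simp only [← Finset.sum_add_distrib, Finset.mul_sum]
  refine Finset.sum_congr rfl fun i _ => Finset.sum_congr rfl fun j _ => ?_
  rw [hF j i, ← add_mul, mult_add]

/-- Soundness of the check. -/
theorem chkAcc_sound {K w L acc : ℕ} {mA mB : Map} {A B C : List (List ℕ)}
    (h : chkAcc M K w L mA mB A B C acc = true)
    (hacc : acc = ∑ n ∈ Finset.range L, (∑ i ∈ Finset.range A.length, ∑ j ∈ Finset.range B.length,
      wgt A n i * wgt B n j * packG M w mA mB i j) * (2 ^ blockW M w) ^ n)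
    (hH : Test H) (hK : 0 < K) {n : ℕ} (hn : n < L) :
    ∑ s ∈ Finset.range A.length, ∑ t ∈ Finset.range B.length,
        (wgt A n s : ℝ) * wgt B n t *
          ∑ σ : Equiv.Perm (Fin 3), H (fun i => image M mA s i * image M mB t (σ i))
      ≤ 6 * ((mA.den : ℝ) * mB.den) * K * value M H C n := by
  have hc := chkAcc_facts h
  simp only [chkAcc, Bool.and_eq_true, nk_eq] at h
  have hdig := h.2
  have ⟨hM, hmA, hmB, _, _, hCl, hlev, hval, hvalB⟩ := hc
  set F := tot M mA mB A B with hF
  set D := 6 * (mA.den * mB.den) * M * K with hD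
  have hcoef : ∀ m s t, wgt A m s ≠ 0 → wgt B m t ≠ 0 →
      (∀ e ∈ pairL M mA mB s t, e.1 < slots M) ∧
      (∀ c, valid M c ≠ true → coef M mA mB s t c = 0) ∧
      ∑ c ∈ Finset.range (slots M), coef M mA mB s t c = 2 * mA.den * mB.den * M * M :=
    fun m s t a b => hc.hcoef hH (hval a) (hvalB b)
  have htot : ∀ m, ∑ c ∈ Finset.range (slots M), F m c = 2 * mA.den * mB.den * M * M *
      ((∑ s ∈ Finset.range A.length, wgt A m s) * ∑ t ∈ Finset.range B.length, wgt B m t) := fun m => by
    simp only [hF, tot]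
    rw [Finset.sum_mul_sum, Finset.sum_comm, Finset.mul_sum]
    refine Finset.sum_congr rfl fun s _ => ?_
    rw [Finset.sum_comm, Finset.mul_sum]
    refine Finset.sum_congr rfl fun t _ => ?_
    rw [← Finset.mul_sum]
    rcases eq_or_ne (wgt A m s) 0 with a | a
    · simp [a]
    rcases eq_or_ne (wgt B m t) 0 with b | b
    · simp [b]
    rw [(hcoef m s t a b).2.2]; ring
  have hlt : ∀ m < L, ∀ c < slots M, F m c < 2 ^ w := fun m hm c hc => by
    refine lt_of_le_of_lt ?_ (levels_sound K w _ L A B C hlev m hm).1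
    refine le_trans (le_trans (Finset.single_le_sum (f := F m) (fun x _ => Nat.zero_le _)
      (Finset.mem_range.2 hc)) (htot m).le) (Nat.mul_le_mul_right _ ?_)
    calc 2 * mA.den * mB.den * M * M = 2 * (mA.den * mB.den * M * M) := by ring
      _ ≤ 6 * (mA.den * mB.den * M * M) := Nat.mul_le_mul_right _ (by omega)
      _ = _ := by ring
  have hFv : ∀ m c, valid M c ≠ true → F m c = 0 := fun m c v => by
    simp only [hF, tot]
    refine Finset.sum_eq_zero fun s _ => Finset.sum_eq_zero fun t _ => ?_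
    rcases eq_or_ne (wgt A m s) 0 with a | a
    · simp [a]
    rcases eq_or_ne (wgt B m t) 0 with b | b
    · simp [b]
    rw [(hcoef m s t a b).2.1 c v, mul_zero]
  have hG : ∀ m < L, (∑ i ∈ Finset.range A.length, ∑ j ∈ Finset.range B.length,
      wgt A m i * wgt B m j * packG M w mA mB i j) = ∑ c ∈ Finset.range (slots M), F m c * phi M w c := by
    intro m _
    simp only [hF, tot, Finset.sum_mul]
    rw [Finset.sum_comm (s := Finset.range (slots M))]
    refine Finset.sum_congr rfl fun s _ => ?_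
    rw [Finset.sum_comm (s := Finset.range (slots M))]
    refine Finset.sum_congr rfl fun t _ => ?_
    rcases eq_or_ne (wgt A m s) 0 with a | a
    · simp [a]
    rcases eq_or_ne (wgt B m t) 0 with b | b
    · simp [b]
    rw [hc.packG_sum hH (hval a) (hvalB b), Finset.mul_sum]
    exact Finset.sum_congr rfl fun c _ => by ring
  have hdigit : ∀ c < slots M, valid M c = true →
      acc / (2 ^ blockW M w) ^ n % 2 ^ blockW M w / phi M w c % 2 ^ w = F n c := fun c hc' hv => by
    rw [hacc, digit_eq (2 ^ blockW M w) L _ (fun m hm => ?_) n hn, hG n hn]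
    · exact compact_digit w (F n) _ (hlt n hn) (fun c _ v => hFv n c v) c hc' hv
    · rw [hG m hm, blockW, Nat.mul_eq, pow_mul]
      exact compact_lt w (F m) _ (hlt m hm) (fun c _ v => hFv m c v)
  have hC1 : ∀ c, 1 ≤ c → c < slots M → D * wgt C n c ≤ F n c := fun c hc hc' => by
    obtain ⟨h1, h2⟩ := digitsAll_sound w D (blockW M w) L C acc hdig n hn c (hCl ▸ hc')
    by_cases hv : valid M c = true
    · exact (h1 hv (by omega)).trans (hdigit c hc' hv).le
    · rw [h2 hv]; simp
  have hC0 : ∑ c ∈ Finset.range (slots M), D * wgt C n c =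
      ∑ c ∈ Finset.range (slots M), F n c := by
    have := (levels_sound K w _ L A B C hlev n hn).2.2
    rw [hCl] at this
    rw [← Finset.mul_sum, htot]
    calc D * ∑ c ∈ Finset.range (slots M), wgt C n c
        = 2 * (mA.den * mB.den) * M * (3 * K * ∑ c ∈ Finset.range (slots M), wgt C n c) := by
          rw [hD]; ring
      _ = _ := by rw [this]; ring
  have hFvalid : ∀ c < slots M, F n c = 0 ∨ H (rep M c) ≤ H (rep M 0) := fun c _ => by
    by_cases v : valid M c = true
    · exact Or.inr (H_rep_le hM hH v)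
    · exact Or.inl (hFv n c v)
  have key : (∑ c ∈ Finset.range (slots M), (F n c : ℝ) * H (rep M c)) ≤ (D : ℝ) * value M H C n := by
    have hsR : ∑ c ∈ Finset.range (slots M), (D : ℝ) * wgt C n c =
        ∑ c ∈ Finset.range (slots M), (F n c : ℝ) := by exact_mod_cast hC0
    rw [value, hCl, Finset.mul_sum, ← sub_nonneg, ← Finset.sum_sub_distrib]
    have e : ∀ c ∈ Finset.range (slots M),
        ((D : ℝ) * wgt C n c - F n c) * H (rep M 0) ≤
          (D : ℝ) * (wgt C n c * H (rep M c)) - F n c * H (rep M c) := fun c hc => by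
      rcases Nat.eq_zero_or_pos c with rfl | h1
      · rw [sub_mul, mul_assoc]
      · have a1 : (D : ℝ) * wgt C n c ≤ F n c := by exact_mod_cast hC1 c h1 (Finset.mem_range.1 hc)
        rcases hFvalid c (Finset.mem_range.1 hc) with z | z
        · have : (D : ℝ) * wgt C n c = 0 := le_antisymm (by simpa [z] using a1) (by positivity)
          rw [← mul_assoc, this, z]; simp
        · have := mul_le_mul_of_nonpos_left z (sub_nonpos.2 a1)
          linarith
    refine le_trans ?_ (Finset.sum_le_sum e)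
    rw [← Finset.sum_mul, Finset.sum_sub_distrib, hsR, sub_self, zero_mul]
  have low : (M : ℝ) * (∑ s ∈ Finset.range A.length, ∑ t ∈ Finset.range B.length,
        (wgt A n s : ℝ) * wgt B n t *
          ∑ σ : Equiv.Perm (Fin 3), H (fun i => image M mA s i * image M mB t (σ i)))
      ≤ ∑ c ∈ Finset.range (slots M), (F n c : ℝ) * H (rep M c) := by
    simp only [hF, tot, Nat.cast_sum, Nat.cast_mul, Finset.sum_mul]
    rw [Finset.sum_comm (s := Finset.range (slots M)), Finset.mul_sum]
    refine Finset.sum_le_sum fun s _ => ?_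
    rw [Finset.mul_sum, Finset.sum_comm (s := Finset.range (slots M))]
    refine Finset.sum_le_sum fun t _ => ?_
    rcases eq_or_ne (wgt A n s) 0 with a | a
    · simp [a]
    rcases eq_or_ne (wgt B n t) 0 with b | b
    · simp [b]
    obtain ⟨i1, -, i3⟩ := pairL_facts hM hH hmA hmB (hval a) (hvalB b)
    rw [group (R := ℝ) (slots M) (fun c => H (rep M c)) _ fun e he => (i1 e he).1] at i3
    replace i3 : (M : ℝ) * ∑ σ : Equiv.Perm (Fin 3), H (fun i => image M mA s i * image M mB t (σ i))
        ≤ ∑ c ∈ Finset.range (slots M), (coef M mA mB s t c : ℝ) * H (rep M c) := i3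
    simp only [Finset.mul_sum] at i3
    calc _ = (wgt A n s : ℝ) * wgt B n t *
          ∑ σ : Equiv.Perm (Fin 3), (M : ℝ) * H (fun i => image M mA s i * image M mB t (σ i)) := by
          simp only [Finset.mul_sum]; exact Finset.sum_congr rfl fun σ _ => by ring
      _ ≤ (wgt A n s : ℝ) * wgt B n t *
          ∑ c ∈ Finset.range (slots M), (coef M mA mB s t c : ℝ) * H (rep M c) :=
          mul_le_mul_of_nonneg_left i3 (by positivity)
      _ = _ := by rw [Finset.mul_sum]; exact Finset.sum_congr rfl fun c _ => by ring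
  refine le_of_mul_le_mul_left (le_trans low (le_trans key (le_of_eq ?_)))
    (show (0 : ℝ) < M by exact_mod_cast hM)
  rw [hD]; push_cast; ring

theorem chk_sound {K w L : ℕ} {mA mB : Map} {A B C : List (List ℕ)}
    (h : chk M K w L mA mB A B C = true) (hH : Test H) (hK : 0 < K) {n : ℕ} (hn : n < L) :
    ∑ s ∈ Finset.range A.length, ∑ t ∈ Finset.range B.length,
        (wgt A n s : ℝ) * wgt B n t *
          ∑ σ : Equiv.Perm (Fin 3), H (fun i => image M mA s i * image M mB t (σ i))
      ≤ 6 * ((mA.den : ℝ) * mB.den) * K * value M H C n := by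
  refine chkAcc_sound h ?_ hH hK hn
  have := (chkAcc_facts h).scaled hH (fun _ _ => 1) (fun _ _ => by omega)
  simp only [one_mul] at this
  simpa only [outerV_eq, Nat.zero_add] using this

/-- Soundness of the check of a law joined with a copy of itself. -/
theorem chkS_sound {K w L : ℕ} {m : Map} {A C : List (List ℕ)}
    (h : chkS M K w L m A C = true) (hH : Test H) (hK : 0 < K) {n : ℕ} (hn : n < L) :
    ∑ s ∈ Finset.range A.length, ∑ t ∈ Finset.range A.length,
        (wgt A n s : ℝ) * wgt A n t *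
          ∑ σ : Equiv.Perm (Fin 3), H (fun i => image M m s i * image M m t (σ i))
      ≤ 6 * ((m.den : ℝ) * m.den) * K * value M H C n := by
  refine chkAcc_sound h ?_ hH hK hn
  simp only [outerS_eq, Nat.zero_add]
  rw [(chkAcc_facts h).scaled hH mult mult_le]
  refine Finset.sum_congr rfl fun k _ => congrArg (· * _) ?_
  exact sym_sum A.length _ fun i j => by rw [packG_comm w m i j]; ring

end Vale.Agent.P154.De
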