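import Vale.Agent.P154.Trees

/-!
From a potential to nonreconstruction, on regular and on Galton-Watson trees.
-/

open scoped BigOperators ENNReal
open Filter

namespace Vale.Agent.P154

/-- The probability of a truncated Galton-Watson tree with offspring law `p`. -/
noncomputable def treeWeight (p : ℕ → ℝ≥0∞) : (n : ℕ) → Tr n → ℝ≥0∞
  | 0, _ => 1
  | n + 1, T => p T.1 * ∏ j, treeWeight p n (T.2 j)

/-- The tree whose root subtrees are `ch`. -/
def node (n k : ℕ) (ch : Fin k → Tr n) : Tr (n + 1) := ⟨k, ch⟩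

/-- The averaged total variation distance on the Galton-Watson tree. -/
noncomputable def gwTV (p : ℕ → ℝ≥0∞) (l : ℝ) (n : ℕ) : ℝ≥0∞ :=
  ∑' T : Tr n, treeWeight p n T * ENNReal.ofReal (tv l n T)

lemma tsum_pi_prod {α : Type} : ∀ {k : ℕ} (F : Fin k → α → ℝ≥0∞),
    ∑' c : Fin k → α, ∏ j, F j (c j) = ∏ j, ∑' a, F j a := by
  intro k
  induction k with
  | zero => intro F; simp [tsum_fintype]
  | succ k ih =>
    intro F
    rw [← (Fin.consEquiv fun _ : Fin (k + 1) => α).tsum_eq (fun c => ∏ j, F j (c j)),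
      ENNReal.tsum_prod', Fin.prod_univ_succ, ← ih fun j => F j.succ, ← ENNReal.tsum_mul_right]
    refine tsum_congr fun a => ?_
    rw [← ENNReal.tsum_mul_left]
    exact tsum_congr fun c => by simp [Fin.prod_univ_succ]

lemma tsum_pi_one {α : Type} {k : ℕ} (w f : α → ℝ≥0∞) (hw : ∑' a, w a = 1) (j₀ : Fin k) :
    ∑' c : Fin k → α, (∏ j, w (c j)) * f (c j₀) = ∑' a, w a * f a := by
  classical
  have e : ∀ c : Fin k → α, (∏ j, w (c j)) * f (c j₀)
      = ∏ j, w (c j) * (if j = j₀ then f (c j) else 1) := fun c => by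
    rw [Finset.prod_mul_distrib, Finset.prod_ite_eq' Finset.univ j₀ fun j => f (c j)]; simp
  rw [tsum_congr e, tsum_pi_prod fun j a => w a * (if j = j₀ then f a else 1),
    Finset.prod_eq_single j₀]
  · simp
  · intro j _ hj; simp [hj, hw]
  · simp

lemma tsum_pi_two {α : Type} {k : ℕ} (w f : α → ℝ≥0∞) (hw : ∑' a, w a = 1) {i₀ j₀ : Fin k}
    (h : i₀ ≠ j₀) :
    ∑' c : Fin k → α, (∏ j, w (c j)) * (f (c i₀) * f (c j₀)) = (∑' a, w a * f a) ^ 2 := by
  classical
  have e : ∀ c : Fin k → α, (∏ j, w (c j)) * (f (c i₀) * f (c j₀))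
      = ∏ j, w (c j) * ((if j = i₀ then f (c j) else 1) * if j = j₀ then f (c j) else 1) :=
      fun c => by
    rw [Finset.prod_mul_distrib, Finset.prod_mul_distrib,
      Finset.prod_ite_eq' Finset.univ i₀ fun j => f (c j),
      Finset.prod_ite_eq' Finset.univ j₀ fun j => f (c j)]
    simp
  rw [tsum_congr e, tsum_pi_prod fun j a =>
      w a * ((if j = i₀ then f a else 1) * if j = j₀ then f a else 1),
    Finset.prod_eq_mul i₀ j₀ h]
  · simp [h, h.symm]; ring
  · intro j _ hj; simp [hj.1, hj.2, hw]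
  · simp
  · simp

lemma tsum_treeWeight (p : ℕ → ℝ≥0∞) (hp : ∑' k, p k = 1) :
    ∀ n, ∑' T : Tr n, treeWeight p n T = 1
  | 0 => by
    show ∑' _T : Unit, (1 : ℝ≥0∞) = 1
    simp [tsum_fintype]
  | n + 1 => by
    show ∑' T : (Σ k : ℕ, Fin k → Tr n), p T.1 * ∏ j, treeWeight p n (T.2 j) = 1
    rw [ENNReal.tsum_sigma']
    simp only [ENNReal.tsum_mul_left, tsum_pi_prod fun (_ : Fin _) => treeWeight p n,
      tsum_treeWeight p hp n, Finset.prod_const_one, mul_one, hp]

lemma seq_decay {x : ℕ → ℝ} {K : ℝ} (hK : 0 < K) (h0 : ∀ n, 0 ≤ x n)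
    (h : ∀ n, x (n + 1) + K * x n ^ 2 ≤ x n) : Tendsto x atTop (nhds 0) := by
  have hanti : Antitone x := antitone_nat_of_succ_le fun n => by
    nlinarith [h n, mul_nonneg hK.le (sq_nonneg (x n))]
  have hsum : ∀ n : ℕ, K * ∑ i ∈ Finset.range n, x i ^ 2 ≤ x 0 - x n := fun n => by
    induction n with
    | zero => simp
    | succ n ih => rw [Finset.sum_range_succ]; nlinarith [h n]
  have hb : ∀ n : ℕ, K * (n : ℝ) * x n ^ 2 ≤ x 0 := fun n => by
    have : (n : ℝ) * x n ^ 2 ≤ ∑ i ∈ Finset.range n, x i ^ 2 := by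
      calc (n : ℝ) * x n ^ 2 = ∑ _i ∈ Finset.range n, x n ^ 2 := by simp
        _ ≤ _ := Finset.sum_le_sum fun i hi =>
          pow_le_pow_left₀ (h0 n) (hanti (Finset.mem_range.mp hi).le) 2
    nlinarith [hsum n, h0 n, mul_le_mul_of_nonneg_left this hK.le]
  rw [Metric.tendsto_atTop]
  intro ε hε
  obtain ⟨N, hN⟩ := exists_nat_gt (x 0 / (K * ε ^ 2))
  refine ⟨N + 1, fun n hn => ?_⟩
  rw [Real.dist_eq, sub_zero, abs_of_nonneg (h0 n)]
  by_contra hge
  rw [not_lt] at hge
  have hn' : (N : ℝ) < n := by exact_mod_cast hn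
  have := lt_trans hN hn'
  rw [div_lt_iff₀ (by positivity)] at this
  nlinarith [hb n, mul_le_mul_of_nonneg_left (pow_le_pow_left₀ hε.le hge 2)
    (mul_nonneg hK.le (Nat.cast_nonneg n : (0 : ℝ) ≤ n))]

section main

variable {l c C dl : ℝ} {φ : (Spin → ℝ) → ℝ}

lemma expect_sq_nonneg {ι : Type} [Fintype ι] {f : ι → Spin → ℝ} (hf : Fam f) :
    0 ≤ expect sq f :=
  Finset.sum_nonneg fun k _ => mul_nonneg (wt_nonneg (hf.nonneg k))
    (div_nonneg (add_nonneg (add_nonneg (sq_nonneg _) (sq_nonneg _)) (sq_nonneg _)) (by norm_num))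

lemma expect_bounds (hP : Pot l c C dl φ) {ι : Type} [Fintype ι] {f : ι → Spin → ℝ}
    (hf : Fam f) : c * expect sq f ≤ expect φ f ∧ expect φ f ≤ C * expect sq f := by
  constructor
  · rw [expect, Finset.mul_sum]
    refine Finset.sum_le_sum fun k _ => ?_
    rw [mul_left_comm]
    exact mul_le_mul_of_nonneg_left (hP.low _ (post_inS (hf.nonneg k))) (wt_nonneg (hf.nonneg k))
  · rw [expect, expect, Finset.mul_sum]
    refine Finset.sum_le_sum fun k _ => ?_
    rw [mul_left_comm]
    exact mul_le_mul_of_nonneg_left (hP.high _ (post_inS (hf.nonneg k))) (wt_nonneg (hf.nonneg k))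

lemma tendsto_tv_regular (hl : -(1 / 2) ≤ l) (hu : l ≤ 1) (hc : 0 < c) (hC : 0 < C) (hd : 0 < dl)
    (hP : Pot l c C dl φ) {d : ℕ} (h2 : 2 ≤ d) (hdl : (d : ℝ) * l ^ 2 ≤ 1) :
    Tendsto (fun n => tv l n (regular d n)) atTop (nhds 0) := by
  obtain ⟨k, rfl⟩ : ∃ k, d = k + 2 := ⟨d - 2, by omega⟩
  set S : ℕ → ℝ := fun n => expect sq (lik l n (regular (k + 2) n)) with hS
  set X : ℕ → ℝ := fun n => expect φ (lik l n (regular (k + 2) n)) with hX
  have hS0 : ∀ n, 0 ≤ S n := fun n => expect_sq_nonneg (fam_lik hl hu n _)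
  have hX0 : ∀ n, 0 ≤ X n := fun n => le_trans (mul_nonneg hc.le (hS0 n))
    (expect_bounds hP (fam_lik hl hu n _)).1
  have hstep : ∀ n, X (n + 1) + dl * l ^ 4 / C ^ 2 * X n ^ 2 ≤ X n := fun n => by
    have h := @expect_kids_le_gain l c C dl φ hl hu hd.le hP k
      (fun _ => Cfg n (regular (k + 2) n)) (fun _ => cfgFintype n _)
      (fun _ => lik l n (regular (k + 2) n)) (fun _ => fam_lik hl hu n _)
    rw [Finset.sum_const, Finset.card_univ, Fintype.card_fin, nsmul_eq_mul] at h
    have h' : X (n + 1) + dl * l ^ 4 * (S n * S n) ≤ l ^ 2 * ((k + 2 : ℕ) : ℝ) * X n := by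
      rw [mul_assoc (l ^ 2)]; exact h
    have hX2 : X n ^ 2 / C ^ 2 ≤ S n * S n := by
      rw [div_le_iff₀ (by positivity)]
      nlinarith [(expect_bounds hP (fam_lik hl hu n (regular (k + 2) n))).2, hX0 n]
    have := mul_le_mul_of_nonneg_left hX2 (mul_nonneg hd.le (by positivity : 0 ≤ l ^ 4))
    rw [div_mul_eq_mul_div]
    calc X (n + 1) + dl * l ^ 4 * X n ^ 2 / C ^ 2
        ≤ X (n + 1) + dl * l ^ 4 * (S n * S n) := by
          rw [mul_div_assoc]; linarith
      _ ≤ l ^ 2 * ((k + 2 : ℕ) : ℝ) * X n := h'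
      _ ≤ 1 * X n := mul_le_mul_of_nonneg_right (by linarith) (hX0 n)
      _ = X n := one_mul _
  have hXlim : Tendsto X atTop (nhds 0) := by
    by_cases hl0 : l = 0
    · refine (Filter.tendsto_add_atTop_iff_nat 1).mp (tendsto_const_nhds.congr fun n => ?_)
      have h := @expect_kids_le l c C dl φ hl hu hd.le hP (k + 2)
        (fun _ => Cfg n (regular (k + 2) n)) (fun _ => cfgFintype n _)
        (fun _ => lik l n (regular (k + 2) n)) (fun _ => fam_lik hl hu n _)
      rw [hl0] at h; simp only [ne_eq, OfNat.ofNat_ne_zero, not_false_eq_true, zero_pow,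
        zero_mul] at h
      subst hl0
      exact (le_antisymm h (hX0 (n + 1))).symm
    · exact seq_decay (by positivity) hX0 hstep
  have hSlim : Tendsto S atTop (nhds 0) := by
    refine squeeze_zero hS0 (fun n => ?_) (by simpa using hXlim.div_const c)
    rw [le_div_iff₀' hc]; exact (expect_bounds hP (fam_lik hl hu n _)).1
  rw [Metric.tendsto_atTop] at hSlim ⊢
  intro ε hε
  obtain ⟨N, hN⟩ := hSlim (ε / 3 * (ε / 3)) (by positivity)
  refine ⟨N, fun n hn => ?_⟩
  have h1 := tv_le hl hu n (regular (k + 2) n) (by positivity : 0 < ε / 3)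
  have h2 := hN n hn
  rw [Real.dist_eq, sub_zero, abs_of_nonneg (hS0 n)] at h2
  have h3 : S n / (ε / 3) < ε / 3 := by rw [div_lt_iff₀ (by positivity)]; exact h2
  have h4 : 0 ≤ tv l n (regular (k + 2) n) := by
    refine Finset.sum_nonneg fun c _ => mul_nonneg ?_ (by positivity)
    exact Finset.sum_nonneg fun i _ => mul_nonneg (by norm_num) ((fam_lik hl hu n _).nonneg _ _)
  rw [Real.dist_eq, sub_zero, abs_of_nonneg h4]
  have : tv l n (regular (k + 2) n) ≤ ε / 3 + S n / (ε / 3) := h1
  linarith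

lemma tendsto_gwTV (hl : -(1 / 2) ≤ l) (hu : l ≤ 1) (hc : 0 < c) (hC : 0 < C) (hd : 0 < dl)
    (hl1 : l ^ 2 < 1) (hP : Pot l c C dl φ) (p : ℕ → ℝ≥0∞) (hp : ∑' k, p k = 1)
    (hdl : ENNReal.ofReal (l ^ 2) * ∑' k : ℕ, (k : ℝ≥0∞) * p k ≤ 1) :
    Tendsto (gwTV p l) atTop (nhds 0) := by
  classical
  let u : ℕ → ℝ≥0∞ := fun n =>
    ∑' T : Tr n, treeWeight p n T * ENNReal.ofReal (expect φ (lik l n T))
  let v : ℕ → ℝ≥0∞ := fun n =>
    ∑' T : Tr n, treeWeight p n T * ENNReal.ofReal (expect sq (lik l n T))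
  let D : ℝ≥0∞ := ENNReal.ofReal (l ^ 2) * ∑' k : ℕ, (k : ℝ≥0∞) * p k
  let q : ℝ≥0∞ := ∑' k, if 2 ≤ k then p k else 0
  let K : ℝ≥0∞ := ENNReal.ofReal (dl * l ^ 4)
  have hφ0 : ∀ n (T : Tr n), 0 ≤ expect φ (lik l n T) := fun n T =>
    le_trans (mul_nonneg hc.le (expect_sq_nonneg (fam_lik hl hu n T)))
      (expect_bounds hP (fam_lik hl hu n T)).1
  have hrec : ∀ n, u (n + 1) + K * q * v n ^ 2 ≤ D * u n := fun n => by
    have hW := tsum_treeWeight p hp n
    have hk : ∀ k : ℕ, (∑' ch : Fin k → Tr n, (p k * ∏ j, treeWeight p n (ch j)) *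
          ENNReal.ofReal (expect φ (lik l (n + 1) (node n k ch))))
        + K * (if 2 ≤ k then p k else 0) * v n ^ 2
        ≤ ENNReal.ofReal (l ^ 2) * ((k : ℝ≥0∞) * p k) * u n := fun k => by
      have hsum : ∀ ch : Fin k → Tr n,
          ENNReal.ofReal (l ^ 2 * ∑ j, expect φ (lik l n (ch j)))
            = ENNReal.ofReal (l ^ 2) * ∑ j, ENNReal.ofReal (expect φ (lik l n (ch j))) :=
          fun ch => by
        rw [ENNReal.ofReal_mul (sq_nonneg l), ENNReal.ofReal_sum_of_nonneg fun j _ => hφ0 n _]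
      have hR : ∑' ch : Fin k → Tr n, (p k * ∏ j, treeWeight p n (ch j)) *
            ENNReal.ofReal (l ^ 2 * ∑ j, expect φ (lik l n (ch j)))
          = ENNReal.ofReal (l ^ 2) * ((k : ℝ≥0∞) * p k) * u n := by
        simp only [hsum]; simp only [Finset.mul_sum]
        rw [Summable.tsum_finsetSum fun i _ => ENNReal.summable]
        have : ∀ i : Fin k, ∑' ch : Fin k → Tr n, (p k * ∏ j, treeWeight p n (ch j)) *
            (ENNReal.ofReal (l ^ 2) * ENNReal.ofReal (expect φ (lik l n (ch i))))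
            = ENNReal.ofReal (l ^ 2) * p k * u n := fun i => by
          have h1 := tsum_pi_one (treeWeight p n)
            (fun T => ENNReal.ofReal (expect φ (lik l n T))) hW i
          calc _ = ∑' ch : Fin k → Tr n, (ENNReal.ofReal (l ^ 2) * p k) *
                ((∏ j, treeWeight p n (ch j)) * ENNReal.ofReal (expect φ (lik l n (ch i)))) :=
                tsum_congr fun ch => by ring
            _ = _ := by rw [ENNReal.tsum_mul_left, h1]
        simp only [this, Finset.sum_const, Finset.card_univ, Fintype.card_fin, nsmul_eq_mul]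
        ring
      rw [← hR]
      by_cases h2 : 2 ≤ k
      · obtain ⟨m, rfl⟩ : ∃ m, k = m + 2 := ⟨k - 2, by omega⟩
        have hne : (Fin.last m).castSucc ≠ Fin.last (m + 1) := (Fin.castSucc_lt_last _).ne
        rw [if_pos h2, ← tsum_pi_two (treeWeight p n)
          (fun T => ENNReal.ofReal (expect sq (lik l n T))) hW hne, ← ENNReal.tsum_mul_left,
          ← ENNReal.tsum_add]
        refine ENNReal.tsum_le_tsum fun ch => ?_
        have h := @expect_kids_le_gain l c C dl φ hl hu hd.le hP m (fun j => Cfg n (ch j))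
          (fun j => cfgFintype n (ch j)) (fun j => lik l n (ch j)) (fun j => fam_lik hl hu n _)
        have hh : expect φ (lik l (n + 1) (node n (m + 2) ch)) + dl * l ^ 4 *
            (expect sq (lik l n (ch (Fin.last m).castSucc)) *
              expect sq (lik l n (ch (Fin.last (m + 1))))) ≤ l ^ 2 * ∑ j, expect φ (lik l n (ch j)) :=
          h
        have h' := ENNReal.ofReal_le_ofReal hh
        rw [ENNReal.ofReal_add (hφ0 (n + 1) (node n (m + 2) ch)) (mul_nonneg (by positivity)
          (mul_nonneg (expect_sq_nonneg (fam_lik hl hu n _))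
            (expect_sq_nonneg (fam_lik hl hu n _)))),
          ENNReal.ofReal_mul (by positivity), ENNReal.ofReal_mul
            (expect_sq_nonneg (fam_lik hl hu n _))] at h'
        refine le_trans (le_of_eq ?_) (mul_le_mul' (le_refl (p (m + 2) * ∏ j, treeWeight p n (ch j))) h')
        simp only [K]
        ring
      · rw [if_neg h2, mul_zero, zero_mul, add_zero]
        exact ENNReal.tsum_le_tsum fun ch => mul_le_mul' le_rfl (ENNReal.ofReal_le_ofReal
          (@expect_kids_le l c C dl φ hl hu hd.le hP k (fun j => Cfg n (ch j))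
            (fun j => cfgFintype n (ch j)) (fun j => lik l n (ch j))
            (fun j => fam_lik hl hu n _)))
    calc u (n + 1) + K * q * v n ^ 2
        = ∑' k : ℕ, ((∑' ch : Fin k → Tr n, (p k * ∏ j, treeWeight p n (ch j)) *
            ENNReal.ofReal (expect φ (lik l (n + 1) (node n k ch))))
          + K * (if 2 ≤ k then p k else 0) * v n ^ 2) := by
          rw [ENNReal.tsum_add, ENNReal.tsum_mul_right, ENNReal.tsum_mul_left]
          congr 1
          exact ENNReal.tsum_sigma fun k (ch : Fin k → Tr n) =>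
            (p k * ∏ j, treeWeight p n (ch j)) *
              ENNReal.ofReal (expect φ (lik l (n + 1) (node n k ch)))
      _ ≤ ∑' k : ℕ, ENNReal.ofReal (l ^ 2) * ((k : ℝ≥0∞) * p k) * u n := ENNReal.tsum_le_tsum hk
      _ = D * u n := by simp only [D, ENNReal.tsum_mul_right, ENNReal.tsum_mul_left]
  have hu0 : u 0 ≠ ⊤ := by
    show ∑' T : Unit, _ ≠ ⊤
    simp [tsum_fintype, treeWeight]
  have hufin : ∀ n, u n ≠ ⊤ := fun n => by
    induction n with
    | zero => exact hu0
    | succ n ih =>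
      exact ne_top_of_le_ne_top (ENNReal.mul_ne_top (ne_top_of_le_ne_top ENNReal.one_ne_top hdl) ih)
        (le_trans le_self_add (hrec n))
  have hvu : ∀ n, ENNReal.ofReal c * v n ≤ u n := fun n => by
    rw [← ENNReal.tsum_mul_left]
    refine ENNReal.tsum_le_tsum fun T => ?_
    rw [mul_left_comm, ← ENNReal.ofReal_mul hc.le]
    exact mul_le_mul' le_rfl (ENNReal.ofReal_le_ofReal (expect_bounds hP (fam_lik hl hu n T)).1)
  have huv : ∀ n, u n ≤ ENNReal.ofReal C * v n := fun n => by
    rw [← ENNReal.tsum_mul_left]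
    refine ENNReal.tsum_le_tsum fun T => ?_
    rw [mul_left_comm, ← ENNReal.ofReal_mul hC.le]
    exact mul_le_mul' le_rfl (ENNReal.ofReal_le_ofReal (expect_bounds hP (fam_lik hl hu n T)).2)
  have hulim : Tendsto u atTop (nhds 0) := by
    by_cases hq : K * q = 0
    · have hD : D < 1 := by
        by_cases hl0 : l = 0
        · simp [D, hl0]
        · have hK : K ≠ 0 := by
            simp only [K, ne_eq, ENNReal.ofReal_eq_zero, not_le]; positivity
          have hq0 : q = 0 := (mul_eq_zero.mp hq).resolve_left hK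
          have hmean : ∑' k : ℕ, (k : ℝ≥0∞) * p k ≤ 1 := by
            rw [← hp]
            refine ENNReal.tsum_le_tsum fun k => ?_
            by_cases h2 : 2 ≤ k
            · have := ENNReal.tsum_eq_zero.mp hq0 k
              rw [if_pos h2] at this; simp [this]
            · interval_cases k <;> simp
          calc D ≤ ENNReal.ofReal (l ^ 2) * 1 := mul_le_mul' le_rfl hmean
            _ < 1 := by rw [mul_one]; exact (ENNReal.ofReal_lt_one).mpr hl1
      have hb : ∀ n, u n ≤ D ^ n * u 0 := fun n => by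
        induction n with
        | zero => simp
        | succ n ih =>
          calc u (n + 1) ≤ D * u n := le_trans le_self_add (hrec n)
            _ ≤ D * (D ^ n * u 0) := mul_le_mul' le_rfl ih
            _ = _ := by ring
      have h0 := ENNReal.Tendsto.mul_const
        (ENNReal.tendsto_pow_atTop_nhds_zero_of_lt_one hD) (Or.inr hu0)
      rw [zero_mul] at h0
      exact tendsto_of_tendsto_of_tendsto_of_le_of_le tendsto_const_nhds h0 (fun _ => bot_le) hb
    · have hqfin : q ≠ ⊤ := ne_top_of_le_ne_top ENNReal.one_ne_top (hp ▸ ENNReal.tsum_le_tsum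
        fun k => by by_cases h : 2 ≤ k <;> simp [h])
      have hKq : 0 < (K * q).toReal :=
        ENNReal.toReal_pos hq (ENNReal.mul_ne_top ENNReal.ofReal_ne_top hqfin)
      have hvfin : ∀ n, v n ≠ ⊤ := fun n hv => hufin n (top_le_iff.mp (le_trans (by
        rw [hv, ENNReal.mul_top (ENNReal.ofReal_pos.mpr hc).ne']) (hvu n)))
      have hstep : ∀ n, (u (n + 1)).toReal + (K * q).toReal / C ^ 2 * (u n).toReal ^ 2
          ≤ (u n).toReal := fun n => by
        have h := le_trans (hrec n) (mul_le_of_le_one_left bot_le hdl)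
        have h' := ENNReal.toReal_mono (hufin n) h
        rw [ENNReal.toReal_add (hufin _) (ENNReal.mul_ne_top
          (ENNReal.mul_ne_top ENNReal.ofReal_ne_top hqfin) (ENNReal.pow_ne_top (hvfin n))),
          ENNReal.toReal_mul, ENNReal.toReal_pow] at h'
        have hc2 := ENNReal.toReal_mono (ENNReal.mul_ne_top ENNReal.ofReal_ne_top (hvfin n)) (huv n)
        rw [ENNReal.toReal_mul, ENNReal.toReal_ofReal hC.le] at hc2
        have h4 : (u n).toReal ^ 2 ≤ C ^ 2 * (v n).toReal ^ 2 := by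
          rw [← mul_pow]; exact pow_le_pow_left₀ ENNReal.toReal_nonneg hc2 2
        have h5 : (K * q).toReal / C ^ 2 * (u n).toReal ^ 2 ≤ (K * q).toReal * (v n).toReal ^ 2 := by
          rw [div_mul_eq_mul_div, div_le_iff₀ (by positivity)]
          calc _ ≤ (K * q).toReal * (C ^ 2 * (v n).toReal ^ 2) :=
                mul_le_mul_of_nonneg_left h4 hKq.le
            _ = _ := by ring
        linarith
      have := seq_decay (x := fun n => (u n).toReal) (by positivity)
        (fun n => ENNReal.toReal_nonneg) hstep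
      exact (ENNReal.tendsto_toReal_iff hufin ENNReal.zero_ne_top).mp (by simpa using this)
  rw [ENNReal.tendsto_nhds_zero]
  intro ε hε
  rcases eq_or_ne ε ⊤ with rfl | hε'
  · exact Eventually.of_forall fun _ => le_top
  have he : (0 : ℝ) < ε.toReal := ENNReal.toReal_pos hε.ne' hε'
  set e : ℝ := ε.toReal / 2 with hedef
  have he2 : 0 < e := by positivity
  rw [ENNReal.tendsto_nhds_zero] at hulim
  filter_upwards [hulim (ENNReal.ofReal (c * e * e)) (by simpa using by positivity)] with n hn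
  have hv : v n ≤ ENNReal.ofReal (e * e) := by
    have := le_trans (hvu n) hn
    rw [mul_assoc, ENNReal.ofReal_mul hc.le] at this
    exact (ENNReal.mul_le_mul_iff_right (ENNReal.ofReal_pos.mpr hc).ne' ENNReal.ofReal_ne_top).mp this
  calc gwTV p l n
      ≤ ∑' T : Tr n, (treeWeight p n T * ENNReal.ofReal e + treeWeight p n T *
          ENNReal.ofReal (expect sq (lik l n T)) * ENNReal.ofReal (1 / e)) := by
        refine ENNReal.tsum_le_tsum fun T => ?_
        rw [mul_assoc, ← mul_add, ← ENNReal.ofReal_mul (expect_sq_nonneg (fam_lik hl hu n T)),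
          mul_one_div, ← ENNReal.ofReal_add he2.le
            (div_nonneg (expect_sq_nonneg (fam_lik hl hu n T)) he2.le)]
        exact mul_le_mul' le_rfl (ENNReal.ofReal_le_ofReal (tv_le hl hu n T he2))
    _ = ENNReal.ofReal e + v n * ENNReal.ofReal (1 / e) := by
        rw [ENNReal.tsum_add, ENNReal.tsum_mul_right, ENNReal.tsum_mul_right,
          tsum_treeWeight p hp, one_mul]
    _ ≤ ENNReal.ofReal e + ENNReal.ofReal (e * e) * ENNReal.ofReal (1 / e) := by gcongr
    _ = ε := by
        rw [← ENNReal.ofReal_mul (by positivity), show e * e * (1 / e) = e by field_simp,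
          ← ENNReal.ofReal_add he2.le he2.le, show e + e = ε.toReal by rw [hedef]; ring,
          ENNReal.ofReal_toReal hε']

/-- The Poisson offspring law of mean `d`. -/
noncomputable def poissonLaw (d : ℝ) (k : ℕ) : ℝ≥0∞ :=
  ENNReal.ofReal (Real.exp (-d) * d ^ k / (k.factorial : ℝ))

lemma poissonLaw_sum {d : ℝ} (hd : 0 ≤ d) : ∑' k, poissonLaw d k = 1 := by
  have h : HasSum (fun k => d ^ k / (k.factorial : ℝ)) (Real.exp d) := by
    rw [Real.exp_eq_exp_ℝ]; exact NormedSpace.expSeries_div_hasSum_exp d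
  have h' := h.mul_left (Real.exp (-d))
  rw [← Real.exp_add, neg_add_cancel, Real.exp_zero] at h'
  simp only [poissonLaw, mul_div_assoc]
  rw [← ENNReal.ofReal_tsum_of_nonneg (fun k => by positivity) h'.summable, h'.tsum_eq,
    ENNReal.ofReal_one]

lemma poissonLaw_mean {d : ℝ} (hd : 0 ≤ d) :
    ∑' k : ℕ, (k : ℝ≥0∞) * poissonLaw d k = ENNReal.ofReal d := by
  have e : ∀ k : ℕ, ((k + 1 : ℕ) : ℝ≥0∞) * poissonLaw d (k + 1)
      = ENNReal.ofReal d * poissonLaw d k := fun k => by
    rw [poissonLaw, poissonLaw, ← ENNReal.ofReal_natCast, ← ENNReal.ofReal_mul (by positivity),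
      ← ENNReal.ofReal_mul hd, Nat.factorial_succ, Nat.cast_mul, Nat.cast_succ, pow_succ]
    apply congrArg ENNReal.ofReal
    field_simp
  rw [tsum_eq_zero_add' (ENNReal.summable), Nat.cast_zero, zero_mul, zero_add, tsum_congr e,
    ENNReal.tsum_mul_left, poissonLaw_sum hd, mul_one]

end main

end Vale.Agent.P154
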