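import Vale.Agent.P154.FourAllAData

/-!
Leaves of the certificate.
-/

namespace Vale.Agent.P154.Four.All

open Check

/-- Uses of the arithmetic-geometric mean. -/
def trisA1 : List Tri := []

theorem leafA1 :
    check formA (.leaf trisA1) (simpAA.sub 3 0) (simpBA.sub 0 3) = true :=
  leaf_check (by decide +kernel) (by decide +kernel)

end Vale.Agent.P154.Four.All
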