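import Vale.Agent.P154.FourAllALeaves0
import Vale.Agent.P154.FourAllALeaves1
import Vale.Agent.P154.FourAllALeaves2

/-!
The certificate is accepted.
-/

namespace Vale.Agent.P154.Four.All

open Check

/-- The certificate. -/
def certA : Cert :=
  (.node true 0 3 (.leaf trisA0) (.node false 0 3 (.leaf trisA1) (.leaf trisA2)))

theorem goodA : Good formA simpAA simpBA :=
  check_sound certA _ _ (nodeA (by decide) leafA0 (nodeB (by decide) leafA1 leafA2))

end Vale.Agent.P154.Four.All
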