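import Vale.Agent.P154.FourFast

/-!
Generated certificate data.
-/

namespace Vale.Agent.P154.Four.All

open Check

/-- The bilinear form. -/
def formA : Form where
  am := [(0, 0, 1, 6), (0, 0, 2, 2), (0, 1, 0, 7), (0, 1, 1, 3), (0, 2, 0, 4), (0, 2, 1, 0), (0, 3, 0, 1), (1, 0, 0, 8), (1, 0, 1, 4), (1, 0, 2, 0), (1, 1, 0, 5), (1, 1, 1, 1), (1, 2, 0, 2), (2, 0, 0, 6), (2, 0, 1, 2), (2, 1, 0, 3), (2, 2, 0, 0), (3, 0, 0, 4), (4, 0, 0, 2), (5, 0, 0, 0)]
  bm := [(0, 0, 1, 6), (0, 0, 2, 2), (0, 1, 0, 7), (0, 1, 1, 3), (0, 2, 0, 4), (0, 2, 1, 0), (0, 3, 0, 1), (1, 0, 0, 8), (1, 0, 1, 4), (1, 0, 2, 0), (1, 1, 0, 5), (1, 1, 1, 1), (1, 2, 0, 2), (2, 0, 0, 6), (2, 0, 1, 2), (2, 1, 0, 3), (2, 2, 0, 0), (3, 0, 0, 4), (4, 0, 0, 2), (5, 0, 0, 0)]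
  M := [[2181862125000, 0, -13500000000000, 0, 0, 0, 0, 2250000000000, -1102287375000, 0, 9000000000000, 0, 0, -5757351825000, 0, 0, 0, 2080217275000, 0, 0],
    [0, 0, 0, 0, 0, 0, 0, 416024640000, 0, 0, 0, 0, 0, -171956851200, 0, 0, 0, 17768874624, 0, 0],
    [-13500000000000, 0, -40500000000000, 0, 0, 0, 0, 0, 0, 0, 40500000000000, 0, 0, 24660000000000, 0, 0, 0, -1153200000000, 0, 0],
    [0, 0, 0, -34465305352500, 54113750460000, 0, 0, -9897495300000, 966316972500, 0, 0, 0, 0, 4090964724000, 0, 74406406882500, 0, -2677472623980, 0, 0],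
    [0, 0, 0, 54113750460000, 662671061010000, 0, 0, 42832463040000, -24680668477500, 0, -169311340800000, 0, 0, -17704084723200, 0, -85035893580000, 0, 39943472385564, 0, 0],
    [0, 0, 0, 0, 0, 0, 0, 2226873600000, 0, 0, 0, 0, 0, -920441088000, 0, 0, 0, 95112245760, 0, 0],
    [0, 0, 0, 0, 0, 0, 0, -47627066880000, 0, 0, 0, 0, 0, 19685854310400, 0, 0, 0, -2034204945408, 0, 0],
    [2250000000000, 416024640000, 0, -9897495300000, 42832463040000, 2226873600000, -47627066880000, 0, 2677028940000, 69589800000, -27000000000000, -8930075040000, 106502307840000, -2250000000000, 1664098560000, -19794990600000, 8907494400000, -1784685960000, -1664098560000, -55671840000],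
    [-1102287375000, 0, 0, 966316972500, -24680668477500, 0, 0, 2677028940000, 2633607725625, 0, -7054639200000, 0, 0, 877611979800, 0, 322105657500, 0, -4995784400121, 0, 0],
    [0, 0, 0, 0, 0, 0, 0, 69589800000, 0, 0, 0, 0, 0, -28763784000, 0, 0, 0, 2972257680, 0, 0],
    [9000000000000, 0, 40500000000000, 0, -169311340800000, 0, 0, -27000000000000, -7054639200000, 0, 25940105100000, 0, 0, 11160000000000, 0, 12884226300000, 0, 5901439200000, 0, 0],
    [0, 0, 0, 0, 0, 0, 0, -8930075040000, 0, 0, 0, 0, 0, 3691097683200, 0, 0, 0, -381413427264, 0, 0],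
    [0, 0, 0, 0, 0, 0, 0, 106502307840000, 0, 0, 0, 0, 0, -44020953907200, 0, 0, 0, 4548831903744, 0, 0],
    [-5757351825000, -171956851200, 24660000000000, 4090964724000, -17704084723200, -920441088000, 19685854310400, -2250000000000, 877611979800, -28763784000, 11160000000000, 3691097683200, -44020953907200, 10513820925000, -687827404800, 8181929448000, -3681764352000, -3891936778200, 687827404800, 23011027200],
    [0, 0, 0, 0, 0, 0, 0, 1664098560000, 0, 0, 0, 0, 0, -687827404800, 0, 0, 0, 71075498496, 0, 0],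
    [0, 0, 0, 74406406882500, -85035893580000, 0, 0, -19794990600000, 322105657500, 0, 12884226300000, 0, 0, 8181929448000, 0, -181345485172500, 0, 2697696189540, 0, 0],
    [0, 0, 0, 0, 0, 0, 0, 8907494400000, 0, 0, 0, 0, 0, -3681764352000, 0, 0, 0, 380448983040, 0, 0],
    [2080217275000, 17768874624, -1153200000000, -2677472623980, 39943472385564, 95112245760, -2034204945408, -1784685960000, -4995784400121, 2972257680, 5901439200000, -381413427264, 4548831903744, -3891936778200, 71075498496, 2697696189540, 380448983040, 10148321134953, -71075498496, -2377806144],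
    [0, 0, 0, 0, 0, 0, 0, -1664098560000, 0, 0, 0, 0, 0, 687827404800, 0, 0, 0, -71075498496, 0, 0],
    [0, 0, 0, 0, 0, 0, 0, -55671840000, 0, 0, 0, 0, 0, 23011027200, 0, 0, 0, -2377806144, 0, 0]]
  da := 10
  db := 10
  B := 133
  Ba := 49
  Bb := 49
  ta := (.node 269 (.node 126 (.node 38 (.node 17 (.node 8 (.node 4 (.node 2 (.node 1 .one .one) (.node 1 .one .one)) (.node 2 (.node 1 .one .one) (.node 1 .one .one))) (.node 4 (.node 2 (.node 1 .one .one) (.node 1 .one .one)) (.node 2 (.node 1 .one .one) (.node 1 .one (.node 1 .one .one))))) (.node 10 (.node 5 (.node 2 (.node 1 .one .one) (.node 1 .one .one)) (.node 2 (.node 1 .one .one) (.node 1 .one (.node 1 .one .one)))) (.node 6 (.node 2 (.node 1 .one .one) (.node 1 .one .one)) (.node 2 (.node 1 .one .one) (.node 1 .one (.node 1 .one .one)))))) (.node 30 (.node 12 (.node 7 (.node 2 (.node 1 .one .one) (.node 4 .one .one)) (.node 2 (.node 1 .one .one) (.node 1 .one (.node 1 .one .one)))) (.node 8 (.node 6 (.node 5 .one .one) (.node 1 .one .one)) (.node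 2 (.node 1 .one .one) (.node 6 .one (.node 1 .one .one))))) (.node 22 (.node 10 (.node 2 (.node 1 .one .one) (.node 7 .one .one)) (.node 2 (.node 1 .one .one) (.node 8 .one (.node 1 .one .one)))) (.node 31 (.node 10 (.node 9 .one .one) (.node 10 .one .one)) (.node 2 (.node 1 .one .one) (.node 1 .one (.node 1 .one .one))))))) (.node 51 (.node 21 (.node 10 (.node 4 (.node 2 (.node 1 .one .one) (.node 1 .one .one)) (.node 3 (.node 2 .one .one) (.node 1 .one (.node 1 .one .one)))) (.node 4 (.node 2 (.node 1 .one .one) (.node 1 .one .one)) (.node 4 (.node 3 .one .one) (.node 1 .one (.node 1 .one .one))))) (.node 12 (.node 7 (.node 2 (.node 1 .one .one) (.node 1 .one .one)) (.node 2 (.node 1 .one .one) (.node 1 .one (.node 1 .one .one)))) (.node 8 (.node 6 (.node 1 .one .one) (.node 1 .one .one)) (.node 2 (.node 1 .one .one) (.node 1 .one (.node 6 .one .one)))))) (.node 69 (.node 22 (.node 10 (.node 2 (.node 1 .one .one) (.node 1 .one .one)) (.node 2 (.node 1 .one .one) (.node 1 .one (.node 8 .one .one)))) (.node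 21 (.node 10 (.node 1 .one .one) (.node 1 .one .one)) (.node 23 (.node 22 .one .one) (.node 1 .one (.node 1 .one .one))))) (.node 11 (.node 4 (.node 2 (.node 1 .one .one) (.node 1 .one .one)) (.node 4 (.node 3 .one .one) (.node 1 .one (.node 1 .one .one)))) (.node 7 (.node 2 (.node 1 .one .one) (.node 1 .one .one)) (.node 2 (.node 1 .one .one) (.node 1 .one (.node 1 .one .one)))))))) (.node 231 (.node 109 (.node 39 (.node 17 (.node 8 (.node 6 (.node 1 .one .one) (.node 1 .one .one)) (.node 2 (.node 1 .one .one) (.node 1 .one .one))) (.node 4 (.node 2 (.node 1 .one .one) (.node 1 .one .one)) (.node 8 (.node 7 .one .one) (.node 1 .one (.node 1 .one .one))))) (.node 58 (.node 12 (.node 2 (.node 1 .one .one) (.node 9 .one .one)) (.node 43 (.node 10 .one .one) (.node 1 .one (.node 1 .one .one)))) (.node 4 (.node 2 (.node 1 .one .one) (.node 1 .one .one)) (.node 5 (.node 4 .one .one) (.node 1 .one (.node 1 .one .one)))))) (.node 40 (.node 18 (.node 8 (.node 2 (.node 1 .one .one) (.node 5 .one .one)) (.node 2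 (.node 1 .one .one) (.node 1 .one (.node 1 .one .one)))) (.node 4 (.node 2 (.node 1 .one .one) (.node 1 .one .one)) (.node 8 (.node 7 .one .one) (.node 1 .one (.node 1 .one .one))))) (.node 69 (.node 12 (.node 2 (.node 1 .one .one) (.node 9 .one .one)) (.node 54 (.node 10 .one .one) (.node 1 .one (.node 1 .one .one)))) (.node 8 (.node 2 (.node 1 .one .one) (.node 1 .one .one)) (.node 2 (.node 1 .one .one) (.node 1 .one (.node 1 .one .one))))))) (.node 160 (.node 107 (.node 20 (.node 9 (.node 7 (.node 6 .one .one) (.node 1 .one .one)) (.node 8 (.node 1 .one .one) (.node 1 .one (.node 1 .one .one)))) (.node 19 (.node 9 (.node 8 .one .one) (.node 1 .one .one)) (.node 11 (.node 1 .one .one) (.node 55 .one (.node 1 .one .one))))) (.node 20 (.node 9 (.node 2 (.node 1 .one .one) (.node 1 .one .one)) (.node 2 (.node 1 .one .one) (.node 1 .one (.node 1 .one .one)))) (.node 11 (.node 2 (.node 1 .one .one) (.node 1 .one .one)) (.node 2 (.node 1 .one .one) (.node 9 .one (.node 1 .one .one)))))) (.node 189 (.node 80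 (.node 69 (.node 67 (.node 66 .one .one) (.node 1 .one .one)) (.node 8 (.node 1 .one .one) (.node 1 .one (.node 1 .one .one)))) (.node 19 (.node 9 (.node 8 .one .one) (.node 1 .one .one)) (.node 11 (.node 1 .one .one) (.node 77 .one (.node 1 .one .one))))) (.node 120 (.node 11 (.node 9 (.node 1 .one .one) (.node 1 .one .one)) (.node 10 (.node 9 .one .one) (.node 10 .one (.node 88 .one .one)))) (.node 21 (.node 10 (.node 1 .one .one) (.node 1 .one .one)) (.node 100 (.node 99 .one .one) (.node 10 .one (.node 110 .one .one)))))))))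
  tb := (.node 269 (.node 126 (.node 38 (.node 17 (.node 8 (.node 4 (.node 2 (.node 1 .one .one) (.node 1 .one .one)) (.node 2 (.node 1 .one .one) (.node 1 .one .one))) (.node 4 (.node 2 (.node 1 .one .one) (.node 1 .one .one)) (.node 2 (.node 1 .one .one) (.node 1 .one (.node 1 .one .one))))) (.node 10 (.node 5 (.node 2 (.node 1 .one .one) (.node 1 .one .one)) (.node 2 (.node 1 .one .one) (.node 1 .one (.node 1 .one .one)))) (.node 6 (.node 2 (.node 1 .one .one) (.node 1 .one .one)) (.node 2 (.node 1 .one .one) (.node 1 .one (.node 1 .one .one)))))) (.node 30 (.node 12 (.node 7 (.node 2 (.node 1 .one .one) (.node 4 .one .one)) (.node 2 (.node 1 .one .one) (.node 1 .one (.node 1 .one .one)))) (.node 8 (.node 6 (.node 5 .one .one) (.node 1 .one .one)) (.node 2 (.node 1 .one .one) (.node 6 .one (.node 1 .one .one))))) (.node 22 (.node 10 (.node 2 (.node 1 .one .one) (.node 7 .one .one)) (.node 2 (.node 1 .one .one) (.node 8 .one (.node 1 .one .one)))) (.node 31 (.node 10 (.node 9 .one .one) (.node 10 .one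 .one)) (.node 2 (.node 1 .one .one) (.node 1 .one (.node 1 .one .one))))))) (.node 51 (.node 21 (.node 10 (.node 4 (.node 2 (.node 1 .one .one) (.node 1 .one .one)) (.node 3 (.node 2 .one .one) (.node 1 .one (.node 1 .one .one)))) (.node 4 (.node 2 (.node 1 .one .one) (.node 1 .one .one)) (.node 4 (.node 3 .one .one) (.node 1 .one (.node 1 .one .one))))) (.node 12 (.node 7 (.node 2 (.node 1 .one .one) (.node 1 .one .one)) (.node 2 (.node 1 .one .one) (.node 1 .one (.node 1 .one .one)))) (.node 8 (.node 6 (.node 1 .one .one) (.node 1 .one .one)) (.node 2 (.node 1 .one .one) (.node 1 .one (.node 6 .one .one)))))) (.node 69 (.node 22 (.node 10 (.node 2 (.node 1 .one .one) (.node 1 .one .one)) (.node 2 (.node 1 .one .one) (.node 1 .one (.node 8 .one .one)))) (.node 21 (.node 10 (.node 1 .one .one) (.node 1 .one .one)) (.node 23 (.node 22 .one .one) (.node 1 .one (.node 1 .one .one))))) (.node 11 (.node 4 (.node 2 (.node 1 .one .one) (.node 1 .one .one)) (.node 4 (.node 3 .one .one) (.node 1 .one (.node 1 .one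 .one)))) (.node 7 (.node 2 (.node 1 .one .one) (.node 1 .one .one)) (.node 2 (.node 1 .one .one) (.node 1 .one (.node 1 .one .one)))))))) (.node 231 (.node 109 (.node 39 (.node 17 (.node 8 (.node 6 (.node 1 .one .one) (.node 1 .one .one)) (.node 2 (.node 1 .one .one) (.node 1 .one .one))) (.node 4 (.node 2 (.node 1 .one .one) (.node 1 .one .one)) (.node 8 (.node 7 .one .one) (.node 1 .one (.node 1 .one .one))))) (.node 58 (.node 12 (.node 2 (.node 1 .one .one) (.node 9 .one .one)) (.node 43 (.node 10 .one .one) (.node 1 .one (.node 1 .one .one)))) (.node 4 (.node 2 (.node 1 .one .one) (.node 1 .one .one)) (.node 5 (.node 4 .one .one) (.node 1 .one (.node 1 .one .one)))))) (.node 40 (.node 18 (.node 8 (.node 2 (.node 1 .one .one) (.node 5 .one .one)) (.node 2 (.node 1 .one .one) (.node 1 .one (.node 1 .one .one)))) (.node 4 (.node 2 (.node 1 .one .one) (.node 1 .one .one)) (.node 8 (.node 7 .one .one) (.node 1 .one (.node 1 .one .one))))) (.node 69 (.node 12 (.node 2 (.node 1 .one .one) (.node 9 .one .one))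 (.node 54 (.node 10 .one .one) (.node 1 .one (.node 1 .one .one)))) (.node 8 (.node 2 (.node 1 .one .one) (.node 1 .one .one)) (.node 2 (.node 1 .one .one) (.node 1 .one (.node 1 .one .one))))))) (.node 160 (.node 107 (.node 20 (.node 9 (.node 7 (.node 6 .one .one) (.node 1 .one .one)) (.node 8 (.node 1 .one .one) (.node 1 .one (.node 1 .one .one)))) (.node 19 (.node 9 (.node 8 .one .one) (.node 1 .one .one)) (.node 11 (.node 1 .one .one) (.node 55 .one (.node 1 .one .one))))) (.node 20 (.node 9 (.node 2 (.node 1 .one .one) (.node 1 .one .one)) (.node 2 (.node 1 .one .one) (.node 1 .one (.node 1 .one .one)))) (.node 11 (.node 2 (.node 1 .one .one) (.node 1 .one .one)) (.node 2 (.node 1 .one .one) (.node 9 .one (.node 1 .one .one)))))) (.node 189 (.node 80 (.node 69 (.node 67 (.node 66 .one .one) (.node 1 .one .one)) (.node 8 (.node 1 .one .one) (.node 1 .one (.node 1 .one .one)))) (.node 19 (.node 9 (.node 8 .one .one) (.node 1 .one .one)) (.node 11 (.node 1 .one .one) (.node 77 .one (.node 1 .one .one)))))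 (.node 120 (.node 11 (.node 9 (.node 1 .one .one) (.node 1 .one .one)) (.node 10 (.node 9 .one .one) (.node 10 .one (.node 88 .one .one)))) (.node 21 (.node 10 (.node 1 .one .one) (.node 1 .one .one)) (.node 100 (.node 99 .one .one) (.node 10 .one (.node 110 .one .one)))))))))

/-- The sorted simplex. -/
def simpAA : Simp := ⟨(3, 3, 1, 0), (3, 0, 1, 0), (3, 0, -1, 0), 3⟩

/-- The second sorted simplex. -/
def simpBA : Simp := ⟨(3, 3, 1, 0), (3, 0, 1, 0), (3, 0, -1, 0), 3⟩

end Vale.Agent.P154.Four.All
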