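import Vale.Agent.P154.FourAllBLeaves0
import Vale.Agent.P154.FourAllBLeaves1
import Vale.Agent.P154.FourAllBLeaves2
import Vale.Agent.P154.FourAllBLeaves3

/-!
The certificate is accepted.
-/

namespace Vale.Agent.P154.Four.All

open Check

/-- The certificate. -/
def certB : Cert :=
  (.node true 0 3 (.node false 0 3 (.leaf trisB0) (.leaf trisB1)) (.node false 0 3 (.leaf trisB2) (.leaf trisB3)))

theorem goodB : Good formB simpAB simpBB :=
  check_sound certB _ _ (nodeA (by decide) (nodeB (by decide) leafB0 leafB1) (nodeB (by decide) leafB2 leafB3))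

end Vale.Agent.P154.Four.All
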