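import Vale.Agent.P154.FourFast

/-!
Generated certificate data.
-/

namespace Vale.Agent.P154.Four.All

open Check

/-- The bilinear form. -/
def formB : Form where
  am := [(0, 0, 1, 7), (0, 0, 2, 3), (0, 1, 0, 8), (0, 1, 1, 4), (0, 1, 2, 0), (0, 2, 0, 5), (0, 2, 1, 1), (0, 3, 0, 2), (1, 0, 0, 9), (1, 0, 1, 5), (1, 0, 2, 1), (1, 1, 0, 6), (1, 1, 1, 2), (1, 2, 0, 3), (1, 3, 0, 0), (2, 0, 0, 7), (2, 0, 1, 3), (2, 1, 0, 4), (2, 1, 1, 0), (2, 2, 0, 1), (3, 0, 0, 5), (3, 0, 1, 1), (3, 1, 0, 2), (4, 0, 0, 3), (4, 1, 0, 0), (5, 0, 0, 1)]
  bm := [(0, 0, 1, 7), (0, 0, 2, 3), (0, 1, 0, 8), (0, 1, 1, 4), (0, 1, 2, 0), (0, 2, 0, 5), (0, 2, 1, 1), (0, 3, 0, 2), (1, 0, 0, 9), (1, 0, 1, 5), (1, 0, 2, 1), (1, 1, 0, 6), (1, 1, 1, 2), (1, 2, 0, 3), (1, 3, 0, 0), (2, 0, 0, 7), (2, 0, 1, 3), (2, 1, 0, 4), (2, 1, 1, 0), (2, 2, 0, 1), (3, 0, 0, 5), (3, 0, 1, 1), (3, 1, 0, 2), (4, 0, 0, 3), (4, 1, 0, 0), (5, 0, 0, 1)]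
  M := [[-1483848820800000, 0, 6912000000000000, 0, 0, 0, 0, 0, -559377429811200, 699229674400000, 0, -4608000000000000, 0, 0, 0, 3309379108033536, 0, 0, 0, 0, -1277409277907712, 0, 0, 0, 0, 0],
    [0, -144865050280000, 0, 1046159489760000, 0, 0, 0, 2204326781280000, -431926853529600, 0, 20701135000000, 0, -353257497000000, 1349676872240000, 0, 137174531839488, 493169818100000, -2187424387680000, 0, -264974528000000, -14513346372096, -64332758000000, 692384694120000, -413537235660000, 0, 48727287000000],
    [6912000000000000, 0, 13824000000000000, 0, 0, 0, 0, 0, -7234560000000000, 0, 0, -20736000000000000, 0, 0, 0, -9004723200000000, 0, 0, 0, 0, 221414400000000, 0, 0, 0, 0, 0],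
    [0, 1046159489760000, 0, 15752291698520000, 0, -65741002467840000, 0, 0, 6343693029273600, -1173946472640000, 0, 0, -3922179627520000, 12173492244480000, 0, -2014677055415808, -3233583877440000, -35123224840760000, 0, 0, 2952365394241536, 0, 8200921039360000, 2187424387680000, 0, 0],
    [0, 0, 0, 0, -12614832540000, 0, -118272084480000, 0, 86248521216000, 0, -2095060320000, 0, 0, 0, 147049516800000, -27391444692480, 0, 0, 40764735000000, 295363975680000, 2898070940160, 6403769280000, 0, 0, -32656258620000, -4941180000000],
    [0, 0, 0, -65741002467840000, 0, -465101852402880000, 0, 0, -11670491816755200, 15936462259920000, 0, 103413775472640000, 0, 191937477029760000, 0, 3706401299705856, -4362215387040000, 103307289592320000, 0, 0, -24648235463809152, 0, 0, 6024011724960000, 0, 0],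
    [0, 0, 0, 0, -118272084480000, 0, 1757088854400000, 31659079795200000, -7184650936320000, 0, 7378503000000, 0, 608828457600000, 0, -779204321280000, 2281754701209600, 0, 0, 431345249280000, -3467373835200000, -241414319923200, -35355816000000, -1937181456000000, 0, -363670848000000, 36867604200000],
    [0, 2204326781280000, 0, 0, 0, 0, 31659079795200000, 102598838241120000, 76917071845785600, 0, -719524540800000, 0, -10950308774280000, -247562853897600000, -26837011169280000, -24427893831303168, -1865199584160000, 0, 1183985786880000, -45828178444800000, 2584521190342656, 1881833414400000, 20743676984520000, -1695635985600000, -1912592424960000, -1162308873600000],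
    [-559377429811200, -431926853529600, -7234560000000000, 6343693029273600, 86248521216000, -11670491816755200, -7184650936320000, 76917071845785600, 1144320000000000, -729405738547200, -224520341760000, 5195964533760000, 14421950971084800, -110573274503577600, 11039810715648000, 1152000000000000, -1727707414118400, 12687386058547200, 689988169728000, -28738603745280000, 486270492364800, 0, 0, 1727707414118400, -344994084864000, 179616273408000],
    [699229674400000, 0, 0, -1173946472640000, 0, 15936462259920000, 0, 0, -729405738547200, -1753141839570000, 0, 4308907311360000, 0, -4362215387040000, 0, -1026963332688384, 571242491160000, -391315490880000, 0, 0, 3316659694406928, 0, 0, -986691575640000, 0, 0],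
    [0, 20701135000000, 0, 0, -2095060320000, 0, 7378503000000, -719524540800000, -224520341760000, 0, 2982329934375, 0, 115308420000000, -264974528000000, 103725250560000, 71304834412800, -64332758000000, 0, -1818354240000, -96974839200000, -7544197497600, -6322270443750, -226004503200000, 48727287000000, 10870596000000, 2130416259375],
    [-4608000000000000, 0, -20736000000000000, 0, 0, 103413775472640000, 0, 0, 5195964533760000, 4308907311360000, 0, 13801576806400000, 0, 0, 0, -1650172932172800, 0, -18648969139200000, 0, 0, -4134315635942400, 0, 0, 0, 0, 0],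
    [0, -353257497000000, 0, -3922179627520000, 0, 0, 608828457600000, -10950308774280000, 14421950971084800, 0, 115308420000000, 0, 999133002450000, -3786920367840000, 1183985786880000, -4580230093369344, 664124094360000, 8200921039360000, -189741312000000, -1199207568000000, 484597723189248, -341312923200000, -2206496413170000, 28260599760000, 371892971520000, 226004503200000],
    [0, 1349676872240000, 0, 12173492244480000, 0, 191937477029760000, 0, -247562853897600000, -110573274503577600, -4362215387040000, -264974528000000, 0, -3786920367840000, -73754900917360000, 0, 35116680150908928, -1398490918540000, 24346984488960000, 0, 29758677760000000, 2308595053703424, 224209216000000, 5143429156320000, -1317773822660000, 0, 203826560000000],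
    [0, 0, 0, 0, 147049516800000, 0, -779204321280000, -26837011169280000, 11039810715648000, 0, 103725250560000, 0, 1183985786880000, 0, -17613685992960000, -3506104920637440, 0, 0, 104832074880000, -4756182220800000, 370953080340480, -204920616960000, -1912592424960000, 0, -498545297280000, 80956293120000],
    [3309379108033536, 137174531839488, -9004723200000000, -2014677055415808, -27391444692480, 3706401299705856, 2281754701209600, -24427893831303168, 1152000000000000, -1026963332688384, 71304834412800, -1650172932172800, -4580230093369344, 35116680150908928, -3506104920637440, -6923365047360000, 548698127357952, -4029354110831616, -219131557539840, 9127018804838400, 2782331244992256, 0, 0, -548698127357952, 109565778769920, -57043867530240],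
    [0, 493169818100000, 0, -3233583877440000, 0, -4362215387040000, 0, -1865199584160000, -1727707414118400, 571242491160000, -64332758000000, 0, 664124094360000, -1398490918540000, 0, 548698127357952, -1943700747115000, 7798643469120000, 0, 224209216000000, -1044744961128384, 250961452000000, -1681505685720000, 1922642831935000, 0, -237585334000000],
    [0, -2187424387680000, 0, -35123224840760000, 0, 103307289592320000, 0, 0, 12687386058547200, -391315490880000, 0, -18648969139200000, 8200921039360000, 24346984488960000, 0, -4029354110831616, 7798643469120000, 81209642176280000, 0, 0, -3878156483516928, 0, -21037145274880000, -5611219081440000, 0, 0],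
    [0, 0, 0, 0, 40764735000000, 0, 431345249280000, 1183985786880000, 689988169728000, 0, -1818354240000, 0, -189741312000000, 0, 104832074880000, -219131557539840, 0, 0, -197390258640000, -995509416960000, 23184567521280, -1423059840000, 371892971520000, 0, 227304162360000, 9566124480000],
    [0, -264974528000000, 0, 0, 295363975680000, 0, -3467373835200000, -45828178444800000, -28738603745280000, 0, -96974839200000, 0, -1199207568000000, 29758677760000000, -4756182220800000, 9127018804838400, 224209216000000, 0, -995509416960000, 15275597138400000, -965657279692800, 205805788200000, 6069835228800000, 203826560000000, 770982197760000, -120864851400000],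
    [-1277409277907712, -14513346372096, 221414400000000, 2952365394241536, 2898070940160, -24648235463809152, -241414319923200, 2584521190342656, 486270492364800, 3316659694406928, -7544197497600, -4134315635942400, 484597723189248, 2308595053703424, 370953080340480, 2782331244992256, -1044744961128384, -3878156483516928, 23184567521280, -965657279692800, -6685966007405904, 0, 0, 2014126158248384, -11592283760640, 6035357998080],
    [0, -64332758000000, 0, 0, 6403769280000, 0, -35355816000000, 1881833414400000, 0, 0, -6322270443750, 0, -341312923200000, 224209216000000, -204920616960000, 0, 250961452000000, 0, -1423059840000, 205805788200000, 0, 15545437087500, 710299867200000, -237585334000000, -23954840640000, -6018215343750],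
    [0, 692384694120000, 0, 8200921039360000, 0, 0, -1937181456000000, 20743676984520000, 0, 0, -226004503200000, 0, -2206496413170000, 5143429156320000, -1912592424960000, 0, -1681505685720000, -21037145274880000, 371892971520000, 6069835228800000, 0, 710299867200000, 4196358610290000, 197824198320000, -796913510400000, -484295364000000],
    [0, -413537235660000, 0, 2187424387680000, 0, 6024011724960000, 0, -1695635985600000, 1727707414118400, -986691575640000, 48727287000000, 0, 28260599760000, -1317773822660000, 0, -548698127357952, 1922642831935000, -5611219081440000, 0, 203826560000000, 2014126158248384, -237585334000000, 197824198320000, -2197561073435000, 0, 275484335000000],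
    [0, 0, 0, 0, -32656258620000, 0, -363670848000000, -1912592424960000, -344994084864000, 0, 10870596000000, 0, 371892971520000, 0, -498545297280000, 109565778769920, 0, 0, 227304162360000, 770982197760000, -11592283760640, -23954840640000, -796913510400000, 0, -331024471740000, 2332236960000],
    [0, 48727287000000, 0, 0, -4941180000000, 0, 36867604200000, -1162308873600000, 179616273408000, 0, 2130416259375, 0, 226004503200000, 203826560000000, 80956293120000, -57043867530240, -237585334000000, 0, 9566124480000, -120864851400000, 6035357998080, -6018215343750, -484295364000000, 275484335000000, 2332236960000, 2884527474375]]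
  da := 11
  db := 11
  B := 155
  Ba := 54
  Bb := 54
  ta := (.node 340 (.node 158 (.node 51 (.node 22 (.node 11 (.node 5 (.node 2 (.node 1 .one .one) (.node 1 .one (.node 1 .one .one))) (.node 3 (.node 1 .one (.node 1 .one .one)) (.node 1 .one (.node 1 .one .one)))) (.node 5 (.node 2 (.node 1 .one .one) (.node 1 .one (.node 1 .one .one))) (.node 3 (.node 1 .one (.node 1 .one .one)) (.node 1 .one (.node 1 .one .one))))) (.node 14 (.node 6 (.node 3 (.node 2 .one .one) (.node 1 .one (.node 1 .one .one))) (.node 3 (.node 1 .one (.node 1 .one .one)) (.node 1 .one (.node 1 .one .one)))) (.node 6 (.node 3 (.node 1 .one (.node 1 .one .one)) (.node 1 .one (.node 1 .one .one))) (.node 6 (.node 1 .one (.node 1 .one .one)) (.node 1 .one (.node 1 .one .one)))))) (.node 45 (.node 15 (.node 9 (.node 2 (.node 1 .one .one) (.node 1 .one (.node 1 .one .one))) (.node 3 (.node 1 .one (.node 1 .one .one)) (.node 1 .one (.node 1 .one .one)))) (.node 11 (.node 8 (.node 6 .one (.node 1 .one .one)) (.node 1 .one (.node 1 .one .one))) (.node 9 (.node 7 .one (.node 1 .one .one)) (.node 1 .one (.node 1 .one .one)))))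 (.node 49 (.node 13 (.node 2 (.node 1 .one .one) (.node 1 .one (.node 9 .one .one))) (.node 12 (.node 1 .one (.node 10 .one .one)) (.node 11 .one (.node 12 .one .one)))) (.node 6 (.node 3 (.node 1 .one (.node 1 .one .one)) (.node 1 .one (.node 1 .one .one))) (.node 3 (.node 1 .one (.node 1 .one .one)) (.node 2 .one (.node 1 .one .one))))))) (.node 72 (.node 27 (.node 13 (.node 5 (.node 2 (.node 1 .one .one) (.node 1 .one (.node 1 .one .one))) (.node 5 (.node 1 .one (.node 1 .one .one)) (.node 1 .one (.node 1 .one .one)))) (.node 5 (.node 2 (.node 1 .one .one) (.node 1 .one (.node 1 .one .one))) (.node 6 (.node 4 .one (.node 1 .one .one)) (.node 1 .one (.node 1 .one .one))))) (.node 20 (.node 9 (.node 2 (.node 1 .one .one) (.node 5 .one (.node 1 .one .one))) (.node 3 (.node 1 .one (.node 1 .one .one)) (.node 1 .one (.node 6 .one .one)))) (.node 12 (.node 3 (.node 1 .one (.node 1 .one .one)) (.node 1 .one (.node 7 .one .one))) (.node 3 (.node 1 .one (.node 1 .one .one)) (.node 8 .one (.node 1 .one .one)))))) (.node 75 (.node 61 (.node 22 (.node 10 (.node 1 .one .one) (.node 1 .one (.node 1 .one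 .one))) (.node 36 (.node 1 .one (.node 11 .one .one)) (.node 1 .one (.node 1 .one .one)))) (.node 6 (.node 3 (.node 1 .one (.node 1 .one .one)) (.node 1 .one (.node 1 .one .one))) (.node 5 (.node 3 .one (.node 1 .one .one)) (.node 1 .one (.node 1 .one .one))))) (.node 14 (.node 8 (.node 2 (.node 1 .one .one) (.node 1 .one (.node 4 .one .one))) (.node 3 (.node 1 .one (.node 1 .one .one)) (.node 1 .one (.node 1 .one .one)))) (.node 10 (.node 7 (.node 5 .one (.node 1 .one .one)) (.node 1 .one (.node 1 .one .one))) (.node 8 (.node 1 .one (.node 6 .one .one)) (.node 1 .one (.node 1 .one .one)))))))) (.node 287 (.node 132 (.node 97 (.node 32 (.node 11 (.node 8 (.node 1 .one .one) (.node 1 .one (.node 1 .one .one))) (.node 10 (.node 1 .one (.node 8 .one .one)) (.node 1 .one (.node 1 .one .one)))) (.node 24 (.node 2 (.node 1 .one .one) (.node 10 .one (.node 1 .one .one))) (.node 38 (.node 36 .one (.node 1 .one .one)) (.node 1 .one (.node 1 .one .one))))) (.node 14 (.node 8 (.node 2 (.node 1 .one .one) (.node 1 .one (.node 4 .one .one))) (.node 3 (.node 1 .one (.node 1 .one .one)) (.node 1 .one (.node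 1 .one .one)))) (.node 10 (.node 7 (.node 5 .one (.node 1 .one .one)) (.node 1 .one (.node 1 .one .one))) (.node 8 (.node 1 .one (.node 6 .one .one)) (.node 1 .one (.node 1 .one .one)))))) (.node 110 (.node 32 (.node 11 (.node 8 (.node 1 .one .one) (.node 1 .one (.node 1 .one .one))) (.node 10 (.node 1 .one (.node 8 .one .one)) (.node 1 .one (.node 1 .one .one)))) (.node 72 (.node 12 (.node 1 .one (.node 1 .one .one)) (.node 1 .one (.node 11 .one .one))) (.node 3 (.node 1 .one (.node 1 .one .one)) (.node 1 .one (.node 1 .one .one))))) (.node 20 (.node 9 (.node 6 (.node 1 .one .one) (.node 1 .one (.node 1 .one .one))) (.node 3 (.node 1 .one (.node 1 .one .one)) (.node 6 .one (.node 1 .one .one)))) (.node 12 (.node 3 (.node 1 .one (.node 1 .one .one)) (.node 7 .one (.node 1 .one .one))) (.node 10 (.node 1 .one (.node 1 .one .one)) (.node 1 .one (.node 1 .one .one))))))) (.node 253 (.node 119 (.node 97 (.node 22 (.node 10 (.node 9 .one .one) (.node 1 .one (.node 10 .one .one))) (.node 72 (.node 11 .one (.node 60 .one .one)) (.node 1 .one (.node 1 .one .one)))) (.node 10 (.node 2 (.node 1 .one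 .one) (.node 6 .one (.node 1 .one .one))) (.node 3 (.node 1 .one (.node 1 .one .one)) (.node 7 .one (.node 1 .one .one))))) (.node 35 (.node 12 (.node 2 (.node 1 .one .one) (.node 8 .one (.node 1 .one .one))) (.node 11 (.node 1 .one (.node 9 .one .one)) (.node 1 .one (.node 10 .one .one)))) (.node 87 (.node 84 (.node 11 .one (.node 72 .one .one)) (.node 1 .one (.node 1 .one .one))) (.node 9 (.node 1 .one (.node 7 .one .one)) (.node 1 .one (.node 1 .one .one)))))) (.node 164 (.node 128 (.node 20 (.node 9 (.node 8 .one .one) (.node 1 .one (.node 1 .one .one))) (.node 12 (.node 1 .one (.node 1 .one .one)) (.node 1 .one (.node 11 .one .one)))) (.node 13 (.node 3 (.node 1 .one (.node 1 .one .one)) (.node 1 .one (.node 8 .one .one))) (.node 11 (.node 1 .one (.node 1 .one .one)) (.node 1 .one (.node 1 .one .one))))) (.node 133 (.node 110 (.node 12 (.node 1 .one .one) (.node 96 .one (.node 1 .one .one))) (.node 11 (.node 1 .one (.node 9 .one .one)) (.node 1 .one (.node 10 .one .one)))) (.node 132 (.node 120 (.node 11 .one (.node 108 .one .one)) (.node 1 .one (.node 10 .one .one))) (.node 132 (.node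 11 .one (.node 120 .one .one)) (.node 11 .one (.node 132 .one .one)))))))))
  tb := (.node 340 (.node 158 (.node 51 (.node 22 (.node 11 (.node 5 (.node 2 (.node 1 .one .one) (.node 1 .one (.node 1 .one .one))) (.node 3 (.node 1 .one (.node 1 .one .one)) (.node 1 .one (.node 1 .one .one)))) (.node 5 (.node 2 (.node 1 .one .one) (.node 1 .one (.node 1 .one .one))) (.node 3 (.node 1 .one (.node 1 .one .one)) (.node 1 .one (.node 1 .one .one))))) (.node 14 (.node 6 (.node 3 (.node 2 .one .one) (.node 1 .one (.node 1 .one .one))) (.node 3 (.node 1 .one (.node 1 .one .one)) (.node 1 .one (.node 1 .one .one)))) (.node 6 (.node 3 (.node 1 .one (.node 1 .one .one)) (.node 1 .one (.node 1 .one .one))) (.node 6 (.node 1 .one (.node 1 .one .one)) (.node 1 .one (.node 1 .one .one)))))) (.node 45 (.node 15 (.node 9 (.node 2 (.node 1 .one .one) (.node 1 .one (.node 1 .one .one))) (.node 3 (.node 1 .one (.node 1 .one .one)) (.node 1 .one (.node 1 .one .one)))) (.node 11 (.node 8 (.node 6 .one (.node 1 .one .one)) (.node 1 .one (.node 1 .one .one))) (.node 9 (.node 7 .one (.node 1 .one .one)) (.node 1 .one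 (.node 1 .one .one))))) (.node 49 (.node 13 (.node 2 (.node 1 .one .one) (.node 1 .one (.node 9 .one .one))) (.node 12 (.node 1 .one (.node 10 .one .one)) (.node 11 .one (.node 12 .one .one)))) (.node 6 (.node 3 (.node 1 .one (.node 1 .one .one)) (.node 1 .one (.node 1 .one .one))) (.node 3 (.node 1 .one (.node 1 .one .one)) (.node 2 .one (.node 1 .one .one))))))) (.node 72 (.node 27 (.node 13 (.node 5 (.node 2 (.node 1 .one .one) (.node 1 .one (.node 1 .one .one))) (.node 5 (.node 1 .one (.node 1 .one .one)) (.node 1 .one (.node 1 .one .one)))) (.node 5 (.node 2 (.node 1 .one .one) (.node 1 .one (.node 1 .one .one))) (.node 6 (.node 4 .one (.node 1 .one .one)) (.node 1 .one (.node 1 .one .one))))) (.node 20 (.node 9 (.node 2 (.node 1 .one .one) (.node 5 .one (.node 1 .one .one))) (.node 3 (.node 1 .one (.node 1 .one .one)) (.node 1 .one (.node 6 .one .one)))) (.node 12 (.node 3 (.node 1 .one (.node 1 .one .one)) (.node 1 .one (.node 7 .one .one))) (.node 3 (.node 1 .one (.node 1 .one .one)) (.node 8 .one (.node 1 .one .one)))))) (.node 75 (.node 61 (.node 22 (.node 10 (.node 1 .one .one)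 (.node 1 .one (.node 1 .one .one))) (.node 36 (.node 1 .one (.node 11 .one .one)) (.node 1 .one (.node 1 .one .one)))) (.node 6 (.node 3 (.node 1 .one (.node 1 .one .one)) (.node 1 .one (.node 1 .one .one))) (.node 5 (.node 3 .one (.node 1 .one .one)) (.node 1 .one (.node 1 .one .one))))) (.node 14 (.node 8 (.node 2 (.node 1 .one .one) (.node 1 .one (.node 4 .one .one))) (.node 3 (.node 1 .one (.node 1 .one .one)) (.node 1 .one (.node 1 .one .one)))) (.node 10 (.node 7 (.node 5 .one (.node 1 .one .one)) (.node 1 .one (.node 1 .one .one))) (.node 8 (.node 1 .one (.node 6 .one .one)) (.node 1 .one (.node 1 .one .one)))))))) (.node 287 (.node 132 (.node 97 (.node 32 (.node 11 (.node 8 (.node 1 .one .one) (.node 1 .one (.node 1 .one .one))) (.node 10 (.node 1 .one (.node 8 .one .one)) (.node 1 .one (.node 1 .one .one)))) (.node 24 (.node 2 (.node 1 .one .one) (.node 10 .one (.node 1 .one .one))) (.node 38 (.node 36 .one (.node 1 .one .one)) (.node 1 .one (.node 1 .one .one))))) (.node 14 (.node 8 (.node 2 (.node 1 .one .one) (.node 1 .one (.node 4 .one .one))) (.node 3 (.node 1 .one (.node 1 .one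 .one)) (.node 1 .one (.node 1 .one .one)))) (.node 10 (.node 7 (.node 5 .one (.node 1 .one .one)) (.node 1 .one (.node 1 .one .one))) (.node 8 (.node 1 .one (.node 6 .one .one)) (.node 1 .one (.node 1 .one .one)))))) (.node 110 (.node 32 (.node 11 (.node 8 (.node 1 .one .one) (.node 1 .one (.node 1 .one .one))) (.node 10 (.node 1 .one (.node 8 .one .one)) (.node 1 .one (.node 1 .one .one)))) (.node 72 (.node 12 (.node 1 .one (.node 1 .one .one)) (.node 1 .one (.node 11 .one .one))) (.node 3 (.node 1 .one (.node 1 .one .one)) (.node 1 .one (.node 1 .one .one))))) (.node 20 (.node 9 (.node 6 (.node 1 .one .one) (.node 1 .one (.node 1 .one .one))) (.node 3 (.node 1 .one (.node 1 .one .one)) (.node 6 .one (.node 1 .one .one)))) (.node 12 (.node 3 (.node 1 .one (.node 1 .one .one)) (.node 7 .one (.node 1 .one .one))) (.node 10 (.node 1 .one (.node 1 .one .one)) (.node 1 .one (.node 1 .one .one))))))) (.node 253 (.node 119 (.node 97 (.node 22 (.node 10 (.node 9 .one .one) (.node 1 .one (.node 10 .one .one))) (.node 72 (.node 11 .one (.node 60 .one .one)) (.node 1 .one (.node 1 .one .one)))) (.node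 10 (.node 2 (.node 1 .one .one) (.node 6 .one (.node 1 .one .one))) (.node 3 (.node 1 .one (.node 1 .one .one)) (.node 7 .one (.node 1 .one .one))))) (.node 35 (.node 12 (.node 2 (.node 1 .one .one) (.node 8 .one (.node 1 .one .one))) (.node 11 (.node 1 .one (.node 9 .one .one)) (.node 1 .one (.node 10 .one .one)))) (.node 87 (.node 84 (.node 11 .one (.node 72 .one .one)) (.node 1 .one (.node 1 .one .one))) (.node 9 (.node 1 .one (.node 7 .one .one)) (.node 1 .one (.node 1 .one .one)))))) (.node 164 (.node 128 (.node 20 (.node 9 (.node 8 .one .one) (.node 1 .one (.node 1 .one .one))) (.node 12 (.node 1 .one (.node 1 .one .one)) (.node 1 .one (.node 11 .one .one)))) (.node 13 (.node 3 (.node 1 .one (.node 1 .one .one)) (.node 1 .one (.node 8 .one .one))) (.node 11 (.node 1 .one (.node 1 .one .one)) (.node 1 .one (.node 1 .one .one))))) (.node 133 (.node 110 (.node 12 (.node 1 .one .one) (.node 96 .one (.node 1 .one .one))) (.node 11 (.node 1 .one (.node 9 .one .one)) (.node 1 .one (.node 10 .one .one)))) (.node 132 (.node 120 (.node 11 .one (.node 108 .one .one)) (.node 1 .one (.node 10 .one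 .one))) (.node 132 (.node 11 .one (.node 120 .one .one)) (.node 11 .one (.node 132 .one .one)))))))))

/-- The sorted simplex. -/
def simpAB : Simp := ⟨(3, 3, 1, 0), (3, 0, 1, 0), (3, 0, -1, 0), 3⟩

/-- The second sorted simplex. -/
def simpBB : Simp := ⟨(3, 3, 1, 0), (3, 0, 1, 0), (3, 0, -1, 0), 3⟩

end Vale.Agent.P154.Four.All
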