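import Vale.Agent.P154.FourAllBoundsQ
import Vale.Agent.P154.FourAllBoundsG

/-!
Comparisons of the logarithmic remainder with polynomials (generated).
-/

namespace Vale.Agent.P154.Four.All

/-- A polynomial bound for the reciprocal. -/
noncomputable def puA (w : ℝ) : ℝ := (1 : ℝ) * w ^ 0 + (-1 : ℝ) * w ^ 1 + (979811 / 1250000 : ℝ) * w ^ 2 + (-14315807 / 50000000 : ℝ) * w ^ 3

lemma puA_le {w : ℝ} (h0 : (-1 : ℝ) ≤ w) (h1 : w ≤ (3 : ℝ)) : 0 ≤ 1 - (1 + w) * puA w := by
  have e : 1 - (1 + w) * puA w = w ^ 2 * ((270189 / 1250000 : ℝ) * w ^ 0 + (-24876633 / 50000000 : ℝ) * w ^ 1 + (14315807 / 50000000 : ℝ) * w ^ 2) := by simp only [puA]; ring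
  rw [e]
  refine mul_nonneg (sq_nonneg w) ?_
  rcases le_total w (0 : ℝ) with h | h
  · have e : ((270189 / 1250000 : ℝ) * w ^ 0 + (-24876633 / 50000000 : ℝ) * w ^ 1 + (14315807 / 50000000 : ℝ) * w ^ 2) = bev [(1 : ℝ), (46491753 / 50000000 : ℝ), (270189 / 1250000 : ℝ)] (w - (-1 : ℝ)) ((0 : ℝ) - w) := by
      simp only [bev, List.length_cons, List.length_nil]; ring
    rw [e]
    refine bev_nonneg (by linarith) (by linarith) ?_
    norm_num
  rcases le_total w (1 / 2 : ℝ) with h | h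
  · have e : ((270189 / 1250000 : ℝ) * w ^ 0 + (-24876633 / 50000000 : ℝ) * w ^ 1 + (14315807 / 50000000 : ℝ) * w ^ 2) = bev [(270189 / 312500 : ℝ), (18353607 / 25000000 : ℝ), (7792781 / 50000000 : ℝ)] (w - (0 : ℝ)) ((1 / 2 : ℝ) - w) := by
      simp only [bev, List.length_cons, List.length_nil]; ring
    rw [e]
    refine bev_nonneg (by linarith) (by linarith) ?_
    norm_num
  rcases le_total w (3 / 4 : ℝ) with h | h
  · have e : ((270189 / 1250000 : ℝ) * w ^ 0 + (-24876633 / 50000000 : ℝ) * w ^ 1 + (14315807 / 50000000 : ℝ) * w ^ 2) = bev [(7792781 / 12500000 : ℝ), (157023 / 390625 : ℝ), (3243627 / 50000000 : ℝ)] (w - (1 / 2 : ℝ)) ((3 / 4 : ℝ) - w) := by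
      simp only [bev, List.length_cons, List.length_nil]; ring
    rw [e]
    refine bev_nonneg (by linarith) (by linarith) ?_
    norm_num
  rcases le_total w (13 / 16 : ℝ) with h | h
  · have e : ((270189 / 1250000 : ℝ) * w ^ 0 + (-24876633 / 50000000 : ℝ) * w ^ 1 + (14315807 / 50000000 : ℝ) * w ^ 2) = bev [(3243627 / 3125000 : ℝ), (6168663 / 6250000 : ℝ), (11767079 / 50000000 : ℝ)] (w - (3 / 4 : ℝ)) ((13 / 16 : ℝ) - w) := by
      simp only [bev, List.length_cons, List.length_nil]; ring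
    rw [e]
    refine bev_nonneg (by linarith) (by linarith) ?_
    norm_num
  rcases le_total w (27 / 32 : ℝ) with h | h
  · have e : ((270189 / 1250000 : ℝ) * w ^ 0 + (-24876633 / 50000000 : ℝ) * w ^ 1 + (14315807 / 50000000 : ℝ) * w ^ 2) = bev [(11767079 / 12500000 : ℝ), (2125317 / 2500000 : ℝ), (9753831 / 50000000 : ℝ)] (w - (13 / 16 : ℝ)) ((27 / 32 : ℝ) - w) := by
      simp only [bev, List.length_cons, List.length_nil]; ring
    rw [e]
    refine bev_nonneg (by linarith) (by linarith) ?_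
    norm_num
  rcases le_total w (55 / 64 : ℝ) with h | h
  · have e : ((270189 / 1250000 : ℝ) * w ^ 0 + (-24876633 / 50000000 : ℝ) * w ^ 1 + (14315807 / 50000000 : ℝ) * w ^ 2) = bev [(9753831 / 12500000 : ℝ), (8008323 / 12500000 : ℝ), (293351 / 2000000 : ℝ)] (w - (27 / 32 : ℝ)) ((55 / 64 : ℝ) - w) := by
      simp only [bev, List.length_cons, List.length_nil]; ring
    rw [e]
    refine bev_nonneg (by linarith) (by linarith) ?_
    norm_num
  rcases le_total w (216797 / 250000 : ℝ) with h | h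
  · have e : ((270189 / 1250000 : ℝ) * w ^ 0 + (-24876633 / 50000000 : ℝ) * w ^ 1 + (14315807 / 50000000 : ℝ) * w ^ 2) = bev [(4583609375 / 7813500032 : ℝ), (11687740813 / 24417187600 : ℝ), (34023409526663 / 190759278125000 : ℝ)] (w - (55 / 64 : ℝ)) ((216797 / 250000 : ℝ) - w) := by
      simp only [bev, List.length_cons, List.length_nil]; ring
    rw [e]
    refine bev_nonneg (by linarith) (by linarith) ?_
    norm_num
  rcases le_total w (7 / 8 : ℝ) with h | h
  · have e : ((270189 / 1250000 : ℝ) * w ^ 0 + (-24876633 / 50000000 : ℝ) * w ^ 1 + (14315807 / 50000000 : ℝ) * w ^ 2) = bev [(34023409526663 / 190710450000000 : ℝ), (716578249 / 3051367200 : ℝ), (41834375 / 122054688 : ℝ)] (w - (216797 / 250000 : ℝ)) ((7 / 8 : ℝ) - w) := by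
      simp only [bev, List.length_cons, List.length_nil]; ring
    rw [e]
    refine bev_nonneg (by linarith) (by linarith) ?_
    norm_num
  rcases le_total w (1 : ℝ) with h | h
  · have e : ((270189 / 1250000 : ℝ) * w ^ 0 + (-24876633 / 50000000 : ℝ) * w ^ 1 + (14315807 / 50000000 : ℝ) * w ^ 2) = bev [(13387 / 10000000 : ℝ), (192763 / 6250000 : ℝ), (123367 / 390625 : ℝ)] (w - (7 / 8 : ℝ)) ((1 : ℝ) - w) := by
      simp only [bev, List.length_cons, List.length_nil]; ring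
    rw [e]
    refine bev_nonneg (by linarith) (by linarith) ?_
    norm_num
  have e : ((270189 / 1250000 : ℝ) * w ^ 0 + (-24876633 / 50000000 : ℝ) * w ^ 1 + (14315807 / 50000000 : ℝ) * w ^ 2) = bev [(123367 / 100000000 : ℝ), (800343 / 20000000 : ℝ), (16254981 / 50000000 : ℝ)] (w - (1 : ℝ)) ((3 : ℝ) - w) := by
    simp only [bev, List.length_cons, List.length_nil]; ring
  rw [e]
  refine bev_nonneg (by linarith) (by linarith) ?_
  norm_num

/-- A polynomial bound for the reciprocal. -/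
noncomputable def plA (w : ℝ) : ℝ := (1 : ℝ) * w ^ 0 + (-1 : ℝ) * w ^ 1 + (74037093 / 100000000 : ℝ) * w ^ 2 + (-6465397 / 20000000 : ℝ) * w ^ 3 + (7303151 / 100000000 : ℝ) * w ^ 4 + (-82353 / 12500000 : ℝ) * w ^ 5

lemma plA_le {w : ℝ} (h0 : (-1 : ℝ) ≤ w) (h1 : w ≤ (3 : ℝ)) : 0 ≤ 1 - (1 + w) * plA w := by
  have e : 1 - (1 + w) * plA w = w ^ 2 * ((25962907 / 100000000 : ℝ) * w ^ 0 + (-10427527 / 25000000 : ℝ) * w ^ 1 + (12511917 / 50000000 : ℝ) * w ^ 2 + (-6644327 / 100000000 : ℝ) * w ^ 3 + (82353 / 12500000 : ℝ) * w ^ 4) := by simp only [plA]; ring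
  rw [e]
  refine mul_nonneg (sq_nonneg w) ?_
  rcases le_total w (1 : ℝ) with h | h
  · have e : ((25962907 / 100000000 : ℝ) * w ^ 0 + (-10427527 / 25000000 : ℝ) * w ^ 1 + (12511917 / 50000000 : ℝ) * w ^ 2 + (-6644327 / 100000000 : ℝ) * w ^ 3 + (82353 / 12500000 : ℝ) * w ^ 4) = bev [(1 / 16 : ℝ), (85673947 / 800000000 : ℝ), (54841359 / 800000000 : ℝ), (3108477 / 160000000 : ℝ), (329113 / 160000000 : ℝ)] (w - (-1 : ℝ)) ((1 : ℝ) - w) := by
      simp only [bev, List.length_cons, List.length_nil]; ring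
    rw [e]
    refine bev_nonneg (by linarith) (by linarith) ?_
    norm_num
  rcases le_total w (2 : ℝ) with h | h
  · have e : ((25962907 / 100000000 : ℝ) * w ^ 0 + (-10427527 / 25000000 : ℝ) * w ^ 1 + (12511917 / 50000000 : ℝ) * w ^ 2 + (-6644327 / 100000000 : ℝ) * w ^ 3 + (82353 / 12500000 : ℝ) * w ^ 4) = bev [(329113 / 10000000 : ℝ), (840879 / 20000000 : ℝ), (955101 / 50000000 : ℝ), (90677 / 25000000 : ℝ), (4919 / 20000000 : ℝ)] (w - (1 : ℝ)) ((2 : ℝ) - w) := by
      simp only [bev, List.length_cons, List.length_nil]; ring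
    rw [e]
    refine bev_nonneg (by linarith) (by linarith) ?_
    norm_num
  rcases le_total w (17 / 8 : ℝ) with h | h
  · have e : ((25962907 / 100000000 : ℝ) * w ^ 0 + (-10427527 / 25000000 : ℝ) * w ^ 1 + (12511917 / 50000000 : ℝ) * w ^ 2 + (-6644327 / 100000000 : ℝ) * w ^ 3 + (82353 / 12500000 : ℝ) * w ^ 4) = bev [(78704 / 78125 : ℝ), (1045424 / 390625 : ℝ), (1017564 / 390625 : ℝ), (13760217 / 12500000 : ℝ), (42829 / 250000 : ℝ)] (w - (2 : ℝ)) ((17 / 8 : ℝ) - w) := by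
      simp only [bev, List.length_cons, List.length_nil]; ring
    rw [e]
    refine bev_nonneg (by linarith) (by linarith) ?_
    norm_num
  rcases le_total w (9 / 4 : ℝ) with h | h
  · have e : ((25962907 / 100000000 : ℝ) * w ^ 0 + (-10427527 / 25000000 : ℝ) * w ^ 1 + (12511917 / 50000000 : ℝ) * w ^ 2 + (-6644327 / 100000000 : ℝ) * w ^ 3 + (82353 / 12500000 : ℝ) * w ^ 4) = bev [(42829 / 250000 : ℝ), (3371383 / 12500000 : ℝ), (697773 / 6250000 : ℝ), (9921 / 625000 : ℝ), (2879 / 312500 : ℝ)] (w - (17 / 8 : ℝ)) ((9 / 4 : ℝ) - w) := by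
      simp only [bev, List.length_cons, List.length_nil]; ring
    rw [e]
    refine bev_nonneg (by linarith) (by linarith) ?_
    norm_num
  rcases le_total w (5 / 2 : ℝ) with h | h
  · have e : ((25962907 / 100000000 : ℝ) * w ^ 0 + (-10427527 / 25000000 : ℝ) * w ^ 1 + (12511917 / 50000000 : ℝ) * w ^ 2 + (-6644327 / 100000000 : ℝ) * w ^ 3 + (82353 / 12500000 : ℝ) * w ^ 4) = bev [(2879 / 5000000 : ℝ), (24627 / 5000000 : ℝ), (514329 / 12500000 : ℝ), (51529 / 1250000 : ℝ), (34421 / 3125000 : ℝ)] (w - (9 / 4 : ℝ)) ((5 / 2 : ℝ) - w) := by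
      simp only [bev, List.length_cons, List.length_nil]; ring
    rw [e]
    refine bev_nonneg (by linarith) (by linarith) ?_
    norm_num
  rcases le_total w (11 / 4 : ℝ) with h | h
  · have e : ((25962907 / 100000000 : ℝ) * w ^ 0 + (-10427527 / 25000000 : ℝ) * w ^ 1 + (12511917 / 50000000 : ℝ) * w ^ 2 + (-6644327 / 100000000 : ℝ) * w ^ 3 + (82353 / 12500000 : ℝ) * w ^ 4) = bev [(34421 / 3125000 : ℝ), (293091 / 6250000 : ℝ), (145401 / 2500000 : ℝ), (436313 / 25000000 : ℝ), (8801 / 5000000 : ℝ)] (w - (5 / 2 : ℝ)) ((11 / 4 : ℝ) - w) := by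
      simp only [bev, List.length_cons, List.length_nil]; ring
    rw [e]
    refine bev_nonneg (by linarith) (by linarith) ?_
    norm_num
  rcases le_total w (45 / 16 : ℝ) with h | h
  · have e : ((25962907 / 100000000 : ℝ) * w ^ 0 + (-10427527 / 25000000 : ℝ) * w ^ 1 + (12511917 / 50000000 : ℝ) * w ^ 2 + (-6644327 / 100000000 : ℝ) * w ^ 3 + (82353 / 12500000 : ℝ) * w ^ 4) = bev [(35204 / 78125 : ℝ), (443787 / 390625 : ℝ), (302013 / 312500 : ℝ), (2646761 / 6250000 : ℝ), (1863899 / 12500000 : ℝ)] (w - (11 / 4 : ℝ)) ((45 / 16 : ℝ) - w) := by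
      simp only [bev, List.length_cons, List.length_nil]; ring
    rw [e]
    refine bev_nonneg (by linarith) (by linarith) ?_
    norm_num
  rcases le_total w (23 / 8 : ℝ) with h | h
  · have e : ((25962907 / 100000000 : ℝ) * w ^ 0 + (-10427527 / 25000000 : ℝ) * w ^ 1 + (12511917 / 50000000 : ℝ) * w ^ 2 + (-6644327 / 100000000 : ℝ) * w ^ 3 + (82353 / 12500000 : ℝ) * w ^ 4) = bev [(1863899 / 12500000 : ℝ), (961767 / 1250000 : ℝ), (6263241 / 3125000 : ℝ), (151217 / 62500 : ℝ), (81416 / 78125 : ℝ)] (w - (45 / 16 : ℝ)) ((23 / 8 : ℝ) - w) := by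
      simp only [bev, List.length_cons, List.length_nil]; ring
    rw [e]
    refine bev_nonneg (by linarith) (by linarith) ?_
    norm_num
  have e : ((25962907 / 100000000 : ℝ) * w ^ 0 + (-10427527 / 25000000 : ℝ) * w ^ 1 + (12511917 / 50000000 : ℝ) * w ^ 2 + (-6644327 / 100000000 : ℝ) * w ^ 3 + (82353 / 12500000 : ℝ) * w ^ 4) = bev [(10177 / 156250 : ℝ), (1197899 / 2500000 : ℝ), (2025507 / 1562500 : ℝ), (582138 / 390625 : ℝ), (240064 / 390625 : ℝ)] (w - (23 / 8 : ℝ)) ((3 : ℝ) - w) := by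
    simp only [bev, List.length_cons, List.length_nil]; ring
  rw [e]
  refine bev_nonneg (by linarith) (by linarith) ?_
  norm_num

end Vale.Agent.P154.Four.All
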