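import Vale.Agent.P154.FourShape

/-!
Comparisons of the logarithmic remainder with polynomials, first two families (generated).
-/

namespace Vale.Agent.P154.Four.All

/-- Coefficients. -/
noncomputable def l_aq : List ℝ := [(0 : ℝ), (0 : ℝ), (0 : ℝ), (0 : ℝ), (-1 / 12 : ℝ), (1 / 20 : ℝ), (-1652487 / 50000000 : ℝ), (523677 / 20000000 : ℝ), (-48151 / 3125000 : ℝ), (229683 / 50000000 : ℝ), (-12887 / 25000000 : ℝ)]

lemma aq_0 {x : ℝ} (hx : (-1 : ℝ) ≤ x) (hx' : x ≤ (-221 / 1250 : ℝ)) : 0 ≤ psi (1 : ℝ) l_aq x := by
  have hdd : ∀ x, (-1 : ℝ) < x → x < (-221 / 1250 : ℝ) → 0 ≤ (1 : ℝ) * x ^ 2 + (ddev l_aq x + (0 : ℝ)) * (1 + x) := by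
    intro x h1 h2
    have e : ((1 : ℝ) * x ^ 2 + (ddev l_aq x + (0 : ℝ)) * (1 + x)) = bev [(7450580596923828125000000000 / 1293416428401445235986624869 : ℝ), (7363514463782310485839843750 / 431138809467148411995541623 : ℝ), (8761970126427745819091796875 / 431138809467148411995541623 : ℝ), (257056566876180419921875000 / 20530419498435638666454363 : ℝ), (535154348195212967529296875 / 123182516990613831998726178 : ℝ), (431892736367349270072265625 / 492730067962455327994904712 : ℝ), (99784095389406470221635625 / 985460135924910655989809424 : ℝ), (42341192169848011942390213 / 6898220951474374591928665968 : ℝ), (640011088420018718956761143 / 4311388094671484119955416230000 : ℝ), (56733433903039663083051023 / 3233541071003613089966562172500000 : ℝ)] (x - (-1 : ℝ)) ((-221 / 1250 : ℝ) - x) := by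
      simp only [l_aq, ddev, dev, pev, bev, List.length_cons, List.length_nil]; ring
    rw [e]
    refine bev_nonneg (by linarith) (by linarith) ?_
    norm_num
  obtain ⟨lo_0, hi_0⟩ : (-21307565311492727 / 100000000000000000 : ℝ) ≤ Real.log ((161619 / 200000 : ℝ)) ∧ Real.log ((161619 / 200000 : ℝ)) ≤ (-266344566393659 / 1250000000000000 : ℝ) :=
    log_bounds' 8 (z := (38381 / 361619 : ℝ)) (by norm_num) (by norm_num) (by norm_num)
      (by norm_num [Finset.sum_range_succ]) (by norm_num [Finset.sum_range_succ])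
  exact psi_nonneg_convex (x0 := (-38381 / 200000 : ℝ)) (a := (633 / 12500000000000 : ℝ)) (b1 := (11 / 25000000000000 : ℝ)) (b2 := (9 / 20000000000000 : ℝ))
    (by norm_num) (by norm_num) (by norm_num) hdd (by norm_num) (by norm_num)
    (by norm_num [psi, hfun, l_aq, pev]; linarith) (by norm_num [psi1, l_aq, dev, pev]; linarith)
    (by norm_num [psi1, l_aq, dev, pev]; linarith) (by norm_num) (by norm_num) hx hx'

lemma aq_1 {x : ℝ} (hx : (-221 / 1250 : ℝ) ≤ x) (hx' : x ≤ (-1767 / 10000 : ℝ)) : 0 ≤ psi (1 : ℝ) l_aq x := by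
  have hdd : ∀ x, (-221 / 1250 : ℝ) < x → x < (-1767 / 10000 : ℝ) → 0 ≤ (1 : ℝ) * x ^ 2 + (ddev l_aq x + (1 / 1000000 : ℝ)) * (1 + x) := by
    intro x h1 h2
    have e : ((1 : ℝ) * x ^ 2 + (ddev l_aq x + (1 / 1000000 : ℝ)) * (1 + x)) = bev [(64550457268753254871027893237972992 / 78125 : ℝ), (580717618007975777154252598510354432 / 78125 : ℝ), (2321925473276531765419599646225989632 / 78125 : ℝ), (5415623417769494437047185642289201152 / 78125 : ℝ), (8120134560394683523407228561455685632 / 78125 : ℝ), (8116837455414218106124576051598910208 / 78125 : ℝ), (5409029206292684253246625941723763168 / 78125 : ℝ), (2317215320056125290206438757682016568 / 78125 : ℝ), (2316276252975695263503388674736542217 / 312500 : ℝ), (2058078375320416073212037159905951801 / 2500000 : ℝ)] (x - (-221 / 1250 : ℝ)) ((-1767 / 10000 : ℝ) - x) := by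
      simp only [l_aq, ddev, dev, pev, bev, List.length_cons, List.length_nil]; ring
    rw [e]
    refine bev_nonneg (by linarith) (by linarith) ?_
    norm_num
  obtain ⟨lo_0, hi_0⟩ : (-972476788628317 / 5000000000000000 : ℝ) ≤ Real.log ((3293 / 4000 : ℝ)) ∧ Real.log ((3293 / 4000 : ℝ)) ≤ (-9724767886283169 / 50000000000000000 : ℝ) :=
    log_bounds' 8 (z := (707 / 7293 : ℝ)) (by norm_num) (by norm_num) (by norm_num)
      (by norm_num [Finset.sum_range_succ]) (by norm_num [Finset.sum_range_succ])
  exact psi_nonneg_convex (x0 := (-707 / 4000 : ℝ)) (a := (2403 / 20000000000000 : ℝ)) (b1 := (658097 / 100000000000000 : ℝ)) (b2 := (329049 / 50000000000000 : ℝ))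
    (by norm_num) (by norm_num) (by norm_num) hdd (by norm_num) (by norm_num)
    (by norm_num [psi, hfun, l_aq, pev]; linarith) (by norm_num [psi1, l_aq, dev, pev]; linarith)
    (by norm_num [psi1, l_aq, dev, pev]; linarith) (by norm_num) (by norm_num) hx hx'

lemma aq_2 {x : ℝ} (hx : (-1767 / 10000 : ℝ) ≤ x) (hx' : x ≤ (-73 / 625 : ℝ)) : 0 ≤ psi (1 : ℝ) l_aq x := by
  have hdd : ∀ x, (-1767 / 10000 : ℝ) < x → x < (-73 / 625 : ℝ) → 0 ≤ -((1 : ℝ) * x ^ 2 + ddev l_aq x * (1 + x)) := by
    intro x h1 h2
    have e : (-((1 : ℝ) * x ^ 2 + ddev l_aq x * (1 + x))) = bev [(171624679583926787962840094048199 / 24818836050693621327613497500000 : ℝ), (145205547790153355101183307667830577 / 775588626584175666487921796875 : ℝ), (807551453435504000296943650839559632 / 775588626584175666487921796875 : ℝ), (1912857090032892687830707463883793632 / 775588626584175666487921796875 : ℝ), (2501569444124492216052995223179464192 / 775588626584175666487921796875 : ℝ), (1950843107474734511178294233145786368 / 775588626584175666487921796875 : ℝ),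 (907374478081530813704503858290229248 / 775588626584175666487921796875 : ℝ), (233134325985402054529190397810311168 / 775588626584175666487921796875 : ℝ), (25544268951316466852198754725920768 / 775588626584175666487921796875 : ℝ), (4972562936156824368453787844608 / 775588626584175666487921796875 : ℝ)] (x - (-1767 / 10000 : ℝ)) ((-73 / 625 : ℝ) - x) := by
      simp only [l_aq, ddev, dev, pev, bev, List.length_cons, List.length_nil]; ring
    rw [e]
    refine bev_nonneg (by linarith) (by linarith) ?_
    norm_num
  obtain ⟨lo_c, hi_c⟩ : (-19443462467775673 / 100000000000000000 : ℝ) ≤ Real.log ((8233 / 10000 : ℝ)) ∧ Real.log ((8233 / 10000 : ℝ)) ≤ (-19443462467775671 / 100000000000000000 : ℝ) :=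
    log_bounds' 8 (z := (1767 / 18233 : ℝ)) (by norm_num) (by norm_num) (by norm_num)
      (by norm_num [Finset.sum_range_succ]) (by norm_num [Finset.sum_range_succ])
  obtain ⟨lo_d, hi_d⟩ : (-12420360345930619 / 100000000000000000 : ℝ) ≤ Real.log ((552 / 625 : ℝ)) ∧ Real.log ((552 / 625 : ℝ)) ≤ (-6210180172965309 / 50000000000000000 : ℝ) :=
    log_bounds' 7 (z := (73 / 1177 : ℝ)) (by norm_num) (by norm_num) (by norm_num)
      (by norm_num [Finset.sum_range_succ]) (by norm_num [Finset.sum_range_succ])
  exact psi_nonneg_concave (by norm_num) (by norm_num) hdd (by norm_num [psi, hfun, l_aq, pev]; linarith) (by norm_num [psi, hfun, l_aq, pev]; linarith) hx hx'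

lemma aq_3 {x : ℝ} (hx : (-73 / 625 : ℝ) ≤ x) (hx' : x ≤ (-1167 / 10000 : ℝ)) : 0 ≤ psi (1 : ℝ) l_aq x := by
  have hdd : ∀ x, (-73 / 625 : ℝ) < x → x < (-1167 / 10000 : ℝ) → 0 ≤ (1 : ℝ) * x ^ 2 + (ddev l_aq x + (1 / 1000000 : ℝ)) * (1 + x) := by
    intro x h1 h2
    have e : ((1 : ℝ) * x ^ 2 + (ddev l_aq x + (1 / 1000000 : ℝ)) * (1 + x)) = bev [(68995027437063843175631546212155392 / 78125 : ℝ), (621005629576955041093927459599941632 / 78125 : ℝ), (2484223968170344400364048215422533632 / 78125 : ℝ), (5796992453705695204782045999092989952 / 78125 : ℝ), (8696193189896589992526384091396063232 / 78125 : ℝ), (8696897416542767082302234731083063808 / 78125 : ℝ), (5798400906953137961412682803665351968 / 78125 : ℝ), (2485230006140072855295563859807163568 / 78125 : ℝ), (621357742832676359244772023720798223 / 78125 : ℝ), (2209450538378315943991892186679675601 / 2500000 : ℝ)] (x - (-73 / 625 : ℝ)) ((-1167 / 10000 : ℝ) - x) := by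
      simp only [l_aq, ddev, dev, pev, bev, List.length_cons, List.length_nil]; ring
    rw [e]
    refine bev_nonneg (by linarith) (by linarith) ?_
    norm_num
  obtain ⟨lo_0, hi_0⟩ : (-6207349637144123 / 50000000000000000 : ℝ) ≤ Real.log ((3533 / 4000 : ℝ)) ∧ Real.log ((3533 / 4000 : ℝ)) ≤ (-2482939854857649 / 20000000000000000 : ℝ) :=
    log_bounds' 7 (z := (467 / 7533 : ℝ)) (by norm_num) (by norm_num) (by norm_num)
      (by norm_num [Finset.sum_range_succ]) (by norm_num [Finset.sum_range_succ])
  exact psi_nonneg_convex (x0 := (-467 / 4000 : ℝ)) (a := (14371 / 100000000000000 : ℝ)) (b1 := (-7957 / 2000000000000 : ℝ)) (b2 := (-397849 / 100000000000000 : ℝ))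
    (by norm_num) (by norm_num) (by norm_num) hdd (by norm_num) (by norm_num)
    (by norm_num [psi, hfun, l_aq, pev]; linarith) (by norm_num [psi1, l_aq, dev, pev]; linarith)
    (by norm_num [psi1, l_aq, dev, pev]; linarith) (by norm_num) (by norm_num) hx hx'

lemma aq_4 {x : ℝ} (hx : (-1167 / 10000 : ℝ) ≤ x) (hx' : x ≤ (7283 / 5000 : ℝ)) : 0 ≤ psi (1 : ℝ) l_aq x := by
  have hdd : ∀ x, (-1167 / 10000 : ℝ) < x → x < (7283 / 5000 : ℝ) → 0 ≤ (1 : ℝ) * x ^ 2 + (ddev l_aq x + (0 : ℝ)) * (1 + x) := by
    intro x h1 h2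
    rcases le_total x (0 : ℝ) with h | h
    · have e : ((1 : ℝ) * x ^ 2 + (ddev l_aq x + (0 : ℝ)) * (1 + x)) = bev [(647280649249844689681 / 5411208758976517500000 : ℝ), (429847221804360347659 / 2705604379488258750 : ℝ), (1981855768868287120 / 2164483503590607 : ℝ), (3778218221368420000 / 2164483503590607 : ℝ), (2990861735000000000 / 2164483503590607 : ℝ), (850780000000000000 / 2164483503590607 : ℝ), (0 : ℝ), (0 : ℝ), (0 : ℝ), (0 : ℝ)] (x - (-1167 / 10000 : ℝ)) ((0 : ℝ) - x) := by
        simp only [l_aq, ddev, dev, pev, bev, List.length_cons, List.length_nil]; ring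
      rw [e]
      refine bev_nonneg (by linarith) (by linarith) ?_
      norm_num
    have e : ((1 : ℝ) * x ^ 2 + (ddev l_aq x + (0 : ℝ)) * (1 + x)) = bev [(0 : ℝ), (0 : ℝ), (0 : ℝ), (0 : ℝ), (26586875000000000 / 20490452525539396643 : ℝ), (625581530312500000 / 20490452525539396643 : ℝ), (3806873041615552500 / 20490452525539396643 : ℝ), (2793952993349945280 / 20490452525539396643 : ℝ), (1341811055102816290059 / 51226131313848491607500 : ℝ), (80382215948499213931 / 51226131313848491607500000 : ℝ)] (x - (0 : ℝ)) ((7283 / 5000 : ℝ) - x) := by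
      simp only [l_aq, ddev, dev, pev, bev, List.length_cons, List.length_nil]; ring
    rw [e]
    refine bev_nonneg (by linarith) (by linarith) ?_
    norm_num
  exact psi_nonneg_zero (by norm_num) (by norm_num) (by norm_num) hdd
    (by norm_num [l_aq, pev]) (by norm_num [l_aq, dev, pev]) hx hx'

lemma aq_5 {x : ℝ} (hx : (7283 / 5000 : ℝ) ≤ x) (hx' : x ≤ (14567 / 10000 : ℝ)) : 0 ≤ psi (1 : ℝ) l_aq x := by
  have hdd : ∀ x, (7283 / 5000 : ℝ) < x → x < (14567 / 10000 : ℝ) → 0 ≤ (1 : ℝ) * x ^ 2 + (ddev l_aq x + (1 / 250000 : ℝ)) * (1 + x) := by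
    intro x h1 h2
    have e : ((1 : ℝ) * x ^ 2 + (ddev l_aq x + (1 / 250000 : ℝ)) * (1 + x)) = bev [(4386126011141845691044889551355255216 / 78125 : ℝ), (35330608809751207530428802347616487928 / 78125 : ℝ), (124743539143135829827807529067131111344 / 78125 : ℝ), (252382312291240737926311489615624515032 / 78125 : ℝ), (320541767683803077905693547168112570026 / 78125 : ℝ), (262507284781446395616239958187832079337 / 78125 : ℝ), (136313346512968101617206291920536196271 / 78125 : ℝ), (83674270107141403452019833304156440791 / 156250 : ℝ), (101013878371743349186171223929987824659 / 1250000 : ℝ), (7705786024760690140729356787458098599 / 2500000 : ℝ)] (x - (7283 / 5000 : ℝ)) ((14567 / 10000 : ℝ) - x) := by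
      simp only [l_aq, ddev, dev, pev, bev, List.length_cons, List.length_nil]; ring
    rw [e]
    refine bev_nonneg (by linarith) (by linarith) ?_
    norm_num
  obtain ⟨lo_0, hi_0⟩ : (89879863324960673 / 100000000000000000 : ℝ) ≤ Real.log ((49133 / 20000 : ℝ)) ∧ Real.log ((49133 / 20000 : ℝ)) ≤ (22469965831240173 / 25000000000000000 : ℝ) :=
    log_bounds 21 (z := (29133 / 69133 : ℝ)) (by norm_num) (by norm_num) (by norm_num)
      (by norm_num [Finset.sum_range_succ]) (by norm_num [Finset.sum_range_succ])
  exact psi_nonneg_convex (x0 := (29133 / 20000 : ℝ)) (a := (809485944237 / 100000000000000 : ℝ)) (b1 := (966641407781 / 50000000000000 : ℝ)) (b2 := (1933282815563 / 100000000000000 : ℝ))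
    (by norm_num) (by norm_num) (by norm_num) hdd (by norm_num) (by norm_num)
    (by norm_num [psi, hfun, l_aq, pev]; linarith) (by norm_num [psi1, l_aq, dev, pev]; linarith)
    (by norm_num [psi1, l_aq, dev, pev]; linarith) (by norm_num) (by norm_num) hx hx'

lemma aq_6 {x : ℝ} (hx : (14567 / 10000 : ℝ) ≤ x) (hx' : x ≤ (5571 / 2500 : ℝ)) : 0 ≤ psi (1 : ℝ) l_aq x := by
  have hdd : ∀ x, (14567 / 10000 : ℝ) < x → x < (5571 / 2500 : ℝ) → 0 ≤ -((1 : ℝ) * x ^ 2 + ddev l_aq x * (1 + x)) := by
    intro x h1 h2
    have e : (-((1 : ℝ) * x ^ 2 + ddev l_aq x * (1 + x))) = bev [(16861213975239309859270643212541901401 / 242647885396443276352079943111644492500000 : ℝ), (256004427484389948196006022241254410225817 / 60661971349110819088019985777911123125000 : ℝ), (303320701281052938245063495014657870010642 / 7582746418638852386002498222238890390625 : ℝ), (1215107759527631528045143598900865611745096 / 7582746418638852386002498222238890390625 : ℝ), (2656071372231613876625644123984055320639088 / 7582746418638852386002498222238890390625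 : ℝ), (3400780599317427759261655621167621370595776 / 7582746418638852386002498222238890390625 : ℝ), (2525942869070280139465173328508373804231168 / 7582746418638852386002498222238890390625 : ℝ), (990688724308847277397286510964094460012544 / 7582746418638852386002498222238890390625 : ℝ), (152898149959227169300153562857491782633472 / 7582746418638852386002498222238890390625 : ℝ), (7770736804737642395419859964899106816 / 7582746418638852386002498222238890390625 : ℝ)] (x - (14567 / 10000 : ℝ)) ((5571 / 2500 : ℝ) - x) := by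
      simp only [l_aq, ddev, dev, pev, bev, List.length_cons, List.length_nil]; ring
    rw [e]
    refine bev_nonneg (by linarith) (by linarith) ?_
    norm_num
  obtain ⟨lo_c, hi_c⟩ : (89881898596211519 / 100000000000000000 : ℝ) ≤ Real.log ((24567 / 10000 : ℝ)) ∧ Real.log ((24567 / 10000 : ℝ)) ≤ (44940949298105769 / 50000000000000000 : ℝ) :=
    log_bounds 21 (z := (14567 / 34567 : ℝ)) (by norm_num) (by norm_num) (by norm_num)
      (by norm_num [Finset.sum_range_succ]) (by norm_num [Finset.sum_range_succ])
  obtain ⟨lo_d, hi_d⟩ : (117198665846808021 / 100000000000000000 : ℝ) ≤ Real.log ((8071 / 2500 : ℝ)) ∧ Real.log ((8071 / 2500 : ℝ)) ≤ (3662458307712751 / 3125000000000000 : ℝ) :=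
    log_bounds 29 (z := (5571 / 10571 : ℝ)) (by norm_num) (by norm_num) (by norm_num)
      (by norm_num [Finset.sum_range_succ]) (by norm_num [Finset.sum_range_succ])
  exact psi_nonneg_concave (by norm_num) (by norm_num) hdd (by norm_num [psi, hfun, l_aq, pev]; linarith) (by norm_num [psi, hfun, l_aq, pev]; linarith) hx hx'

lemma aq_7 {x : ℝ} (hx : (5571 / 2500 : ℝ) ≤ x) (hx' : x ≤ (4457 / 2000 : ℝ)) : 0 ≤ psi (1 : ℝ) l_aq x := by
  have hdd : ∀ x, (5571 / 2500 : ℝ) < x → x < (4457 / 2000 : ℝ) → 0 ≤ (1 : ℝ) * x ^ 2 + (ddev l_aq x + (37 / 1000000 : ℝ)) * (1 + x) := by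
    intro x h1 h2
    have e : ((1 : ℝ) * x ^ 2 + (ddev l_aq x + (37 / 1000000 : ℝ)) * (1 + x)) = bev [(1561356945262357604580140035100893184 / 78125 : ℝ), (6771319630493807262653861603619801088 / 15625 : ℝ), (8585913383150847466430972287991044096 / 3125 : ℝ), (5485632615239562419422773203747441152 / 625 : ℝ), (2089373530736877106845218534536455744 / 125 : ℝ), (506615822293048785953336334911840112 / 25 : ℝ), (79381507362289306676567033008339384 / 5 : ℝ), (7818413197548232602541367233272178 : ℝ), (17665494191168874415615813646845315 / 8 : ℝ), (8753005240048937026002035521544225 / 32 : ℝ)] (x - (5571 / 2500 : ℝ)) ((4457 / 2000 : ℝ) - x) := by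
      simp only [l_aq, ddev, dev, pev, bev, List.length_cons, List.length_nil]; ring
    rw [e]
    refine bev_nonneg (by linarith) (by linarith) ?_
    norm_num
  obtain ⟨lo_0, hi_0⟩ : (117200214589616077 / 100000000000000000 : ℝ) ≤ Real.log ((64569 / 20000 : ℝ)) ∧ Real.log ((64569 / 20000 : ℝ)) ≤ (117200214589616089 / 100000000000000000 : ℝ) :=
    log_bounds 29 (z := (44569 / 84569 : ℝ)) (by norm_num) (by norm_num) (by norm_num)
      (by norm_num [Finset.sum_range_succ]) (by norm_num [Finset.sum_range_succ])
  exact psi_nonneg_convex (x0 := (44569 / 20000 : ℝ)) (a := (288559047823 / 50000000000000 : ℝ)) (b1 := (-49419476137 / 1562500000000 : ℝ)) (b2 := (-3162846472767 / 100000000000000 : ℝ))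
    (by norm_num) (by norm_num) (by norm_num) hdd (by norm_num) (by norm_num)
    (by norm_num [psi, hfun, l_aq, pev]; linarith) (by norm_num [psi1, l_aq, dev, pev]; linarith)
    (by norm_num [psi1, l_aq, dev, pev]; linarith) (by norm_num) (by norm_num) hx hx'

lemma aq_8 {x : ℝ} (hx : (4457 / 2000 : ℝ) ≤ x) (hx' : x ≤ (219 / 80 : ℝ)) : 0 ≤ psi (1 : ℝ) l_aq x := by
  have hdd : ∀ x, (4457 / 2000 : ℝ) < x → x < (219 / 80 : ℝ) → 0 ≤ (1 : ℝ) * x ^ 2 + (ddev l_aq x + (0 : ℝ)) * (1 + x) := by
    intro x h1 h2
    have e : ((1 : ℝ) * x ^ 2 + (ddev l_aq x + (0 : ℝ)) * (1 + x)) = bev [(197218449601957481040081420861769 / 2935418389851835287891185920000000 : ℝ), (66159167695366339987918879538982771 / 117416735594073411515647436800000 : ℝ), (1190366672527801552757401889663109 / 234833471188146823031294873600 : ℝ), (916119410532995944096657133912559 / 46966694237629364606258974720 : ℝ), (781801855993556661945648375358915 / 18786677695051745842503589888 : ℝ), (998853300749125790885833134358625 / 18786677695051745842503589888 : ℝ), (382171618917645105613299875165625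 / 9393338847525872921251794944 : ℝ), (162203973968852985852920499609375 / 9393338847525872921251794944 : ℝ), (117839761481161376466236595703125 / 37573355390103491685007179776 : ℝ), (438528689482901556005859375 / 37573355390103491685007179776 : ℝ)] (x - (4457 / 2000 : ℝ)) ((219 / 80 : ℝ) - x) := by
      simp only [l_aq, ddev, dev, pev, bev, List.length_cons, List.length_nil]; ring
    rw [e]
    refine bev_nonneg (by linarith) (by linarith) ?_
    norm_num
  obtain ⟨lo_0, hi_0⟩ : (125022031010611827 / 100000000000000000 : ℝ) ≤ Real.log ((436389 / 125000 : ℝ)) ∧ Real.log ((436389 / 125000 : ℝ)) ≤ (62511015505305917 / 50000000000000000 : ℝ) :=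
    log_bounds 32 (z := (311389 / 561389 : ℝ)) (by norm_num) (by norm_num) (by norm_num)
      (by norm_num [Finset.sum_range_succ]) (by norm_num [Finset.sum_range_succ])
  exact psi_nonneg_convex (x0 := (311389 / 125000 : ℝ)) (a := (19271757533 / 100000000000000 : ℝ)) (b1 := (4451019 / 100000000000000 : ℝ)) (b2 := (222551 / 5000000000000 : ℝ))
    (by norm_num) (by norm_num) (by norm_num) hdd (by norm_num) (by norm_num)
    (by norm_num [psi, hfun, l_aq, pev]; linarith) (by norm_num [psi1, l_aq, dev, pev]; linarith)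
    (by norm_num [psi1, l_aq, dev, pev]; linarith) (by norm_num) (by norm_num) hx hx'

lemma aq_9 {x : ℝ} (hx : (219 / 80 : ℝ) ≤ x) (hx' : x ≤ (1711 / 625 : ℝ)) : 0 ≤ psi (1 : ℝ) l_aq x := by
  have hdd : ∀ x, (219 / 80 : ℝ) < x → x < (1711 / 625 : ℝ) → 0 ≤ (1 : ℝ) * x ^ 2 + (ddev l_aq x + (223 / 500000 : ℝ)) * (1 + x) := by
    intro x h1 h2
    have e : ((1 : ℝ) * x ^ 2 + (ddev l_aq x + (223 / 500000 : ℝ)) * (1 + x)) = bev [(54198101346646292101573944091796875 / 32 : ℝ), (13830268980274393077059173583984375 : ℝ), (49668595479925540928855957031250000 : ℝ), (102702652814162270476731626562500000 : ℝ), (134265450649470020108951461400000000 : ℝ), (114474498265522234846005140531200000 : ℝ), (63120747913659710867831859989708800 : ℝ), (21395806075842299428593876070301696 : ℝ), (2459245368368760258912002717859708928 / 625 : ℝ), (21878997166155243725222794876321529856 / 78125 : ℝ)] (x - (219 / 80 : ℝ)) ((1711 / 625 : ℝ) - x) := by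
      simp only [l_aq, ddev, dev, pev, bev, List.length_cons, List.length_nil]; ring
    rw [e]
    refine bev_nonneg (by linarith) (by linarith) ?_
    norm_num
  obtain ⟨lo_0, hi_0⟩ : (26368606331074851 / 20000000000000000 : ℝ) ≤ Real.log ((74751 / 20000 : ℝ)) ∧ Real.log ((74751 / 20000 : ℝ)) ≤ (131843031655374267 / 100000000000000000 : ℝ) :=
    log_bounds 34 (z := (54751 / 94751 : ℝ)) (by norm_num) (by norm_num) (by norm_num)
      (by norm_num [Finset.sum_range_succ]) (by norm_num [Finset.sum_range_succ])
  exact psi_nonneg_convex (x0 := (54751 / 20000 : ℝ)) (a := (189220281263 / 25000000000000 : ℝ)) (b1 := (2562632883883 / 50000000000000 : ℝ)) (b2 := (5125265767767 / 100000000000000 : ℝ))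
    (by norm_num) (by norm_num) (by norm_num) hdd (by norm_num) (by norm_num)
    (by norm_num [psi, hfun, l_aq, pev]; linarith) (by norm_num [psi1, l_aq, dev, pev]; linarith)
    (by norm_num [psi1, l_aq, dev, pev]; linarith) (by norm_num) (by norm_num) hx hx'

lemma aq_10 {x : ℝ} (hx : (1711 / 625 : ℝ) ≤ x) (hx' : x ≤ (3 : ℝ)) : 0 ≤ psi (1 : ℝ) l_aq x := by
  have hdd : ∀ x, (1711 / 625 : ℝ) < x → x < (3 : ℝ) → 0 ≤ -((1 : ℝ) * x ^ 2 + ddev l_aq x * (1 + x)) := by
    intro x h1 h2
    have e : (-((1 : ℝ) * x ^ 2 + ddev l_aq x * (1 + x))) = bev [(6306974847908408629869646691 / 26819128065553285120000000 : ℝ), (1083770408386497690956102171931 / 1716424196195410247680000 : ℝ), (4017531832375836623575316181 / 686569678478164099072 : ℝ), (8138513018733327936253666875 / 343284839239082049536 : ℝ), (37624522823362215409562890625 / 686569678478164099072 : ℝ), (108534788775620038924560546875 / 1373139356956328198144 : ℝ), (50015299918240333099365234375 / 686569678478164099072 : ℝ), (3595898941717243194580078125 / 85821209809770512384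 : ℝ), (9441494571983814239501953125 / 686569678478164099072 : ℝ), (5415562056005001068115234375 / 2746278713912656396288 : ℝ)] (x - (1711 / 625 : ℝ)) ((3 : ℝ) - x) := by
      simp only [l_aq, ddev, dev, pev, bev, List.length_cons, List.length_nil]; ring
    rw [e]
    refine bev_nonneg (by linarith) (by linarith) ?_
    norm_num
  obtain ⟨lo_c, hi_c⟩ : (131844369421171617 / 100000000000000000 : ℝ) ≤ Real.log ((2336 / 625 : ℝ)) ∧ Real.log ((2336 / 625 : ℝ)) ≤ (131844369421171629 / 100000000000000000 : ℝ) :=
    log_bounds 34 (z := (1711 / 2961 : ℝ)) (by norm_num) (by norm_num) (by norm_num)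
      (by norm_num [Finset.sum_range_succ]) (by norm_num [Finset.sum_range_succ])
  obtain ⟨lo_d, hi_d⟩ : (138629436111989061 / 100000000000000000 : ℝ) ≤ Real.log ((4 : ℝ)) ∧ Real.log ((4 : ℝ)) ≤ (69314718055994541 / 50000000000000000 : ℝ) :=
    log_bounds 36 (z := (3 / 5 : ℝ)) (by norm_num) (by norm_num) (by norm_num)
      (by norm_num [Finset.sum_range_succ]) (by norm_num [Finset.sum_range_succ])
  exact psi_nonneg_concave (by norm_num) (by norm_num) hdd (by norm_num [psi, hfun, l_aq, pev]; linarith) (by norm_num [psi, hfun, l_aq, pev]; linarith) hx hx'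

lemma aq_nonneg {x : ℝ} (hx : (-1 : ℝ) ≤ x) (hx' : x ≤ (3 : ℝ)) : 0 ≤ psi (1 : ℝ) l_aq x := by
  rcases le_total x (-221 / 1250 : ℝ) with h0 | h0
  · exact aq_0 hx h0
  rcases le_total x (-1767 / 10000 : ℝ) with h1 | h1
  · exact aq_1 h0 h1
  rcases le_total x (-73 / 625 : ℝ) with h2 | h2
  · exact aq_2 h1 h2
  rcases le_total x (-1167 / 10000 : ℝ) with h3 | h3
  · exact aq_3 h2 h3
  rcases le_total x (7283 / 5000 : ℝ) with h4 | h4
  · exact aq_4 h3 h4
  rcases le_total x (14567 / 10000 : ℝ) with h5 | h5
  · exact aq_5 h4 h5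
  rcases le_total x (5571 / 2500 : ℝ) with h6 | h6
  · exact aq_6 h5 h6
  rcases le_total x (4457 / 2000 : ℝ) with h7 | h7
  · exact aq_7 h6 h7
  rcases le_total x (219 / 80 : ℝ) with h8 | h8
  · exact aq_8 h7 h8
  rcases le_total x (1711 / 625 : ℝ) with h9 | h9
  · exact aq_9 h8 h9
  exact aq_10 h9 hx'

/-- Coefficients. -/
noncomputable def l_az : List ℝ := [(0 : ℝ), (0 : ℝ), (0 : ℝ), (0 : ℝ), (-6954943 / 100000000 : ℝ), (1081947 / 50000000 : ℝ), (-2042993 / 50000000 : ℝ), (1459571 / 20000000 : ℝ), (-154499 / 3125000 : ℝ), (44497 / 3125000 : ℝ), (-74413 / 50000000 : ℝ)]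

lemma az_0 {x : ℝ} (hx : (-1 : ℝ) ≤ x) (hx' : x ≤ (-2011 / 2500 : ℝ)) : 0 ≤ psi (1 : ℝ) l_az x := by
  have hdd : ∀ x, (-1 : ℝ) < x → x < (-2011 / 2500 : ℝ) → 0 ≤ (1 : ℝ) * x ^ 2 + (ddev l_az x + (0 : ℝ)) * (1 + x) := by
    intro x h1 h2
    have e : ((1 : ℝ) * x ^ 2 + (ddev l_az x + (0 : ℝ)) * (1 + x)) = bev [(3814697265625000000000000000000 / 1598746961587843218016809 : ℝ), (8587303093170166015625000000000 / 532915653862614406005603 : ℝ), (25308595146559338378906250000000 / 532915653862614406005603 : ℝ), (14169836049712314980468750000000 / 177638551287538135335201 : ℝ), (44499034047674605094980468750000 / 532915653862614406005603 : ℝ), (29721824277977337161193441406250 / 532915653862614406005603 : ℝ), (24734415575280649534709896125625 / 1065831307725228812011206 : ℝ), (5861167652110881155922755746201 / 1065831307725228812011206 : ℝ), (189307932983295129241311465034369 / 333072283664134003753501875 : ℝ), (1140182031757403899841722191582947 / 7993734807939216090084045000000 : ℝ)] (x - (-1 : ℝ)) ((-2011 / 2500 : ℝ) - x) :=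 by
      simp only [l_az, ddev, dev, pev, bev, List.length_cons, List.length_nil]; ring
    rw [e]
    refine bev_nonneg (by linarith) (by linarith) ?_
    norm_num
  obtain ⟨lo_0, hi_0⟩ : (-49520512131127681 / 25000000000000000 : ℝ) ≤ Real.log ((34489 / 250000 : ℝ)) ∧ Real.log ((34489 / 250000 : ℝ)) ≤ (-198082048524510709 / 100000000000000000 : ℝ) :=
    log_bounds' 68 (z := (215511 / 284489 : ℝ)) (by norm_num) (by norm_num) (by norm_num)
      (by norm_num [Finset.sum_range_succ]) (by norm_num [Finset.sum_range_succ])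
  exact psi_nonneg_convex (x0 := (-215511 / 250000 : ℝ)) (a := (51976717 / 50000000000000 : ℝ)) (b1 := (17026527 / 100000000000000 : ℝ)) (b2 := (532079 / 3125000000000 : ℝ))
    (by norm_num) (by norm_num) (by norm_num) hdd (by norm_num) (by norm_num)
    (by norm_num [psi, hfun, l_az, pev]; linarith) (by norm_num [psi1, l_az, dev, pev]; linarith)
    (by norm_num [psi1, l_az, dev, pev]; linarith) (by norm_num) (by norm_num) hx hx'

lemma az_1 {x : ℝ} (hx : (-2011 / 2500 : ℝ) ≤ x) (hx' : x ≤ (-8043 / 10000 : ℝ)) : 0 ≤ psi (1 : ℝ) l_az x := by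
  have hdd : ∀ x, (-2011 / 2500 : ℝ) < x → x < (-8043 / 10000 : ℝ) → 0 ≤ (1 : ℝ) * x ^ 2 + (ddev l_az x + (189 / 500000 : ℝ)) * (1 + x) := by
    intro x h1 h2
    have e : ((1 : ℝ) * x ^ 2 + (ddev l_az x + (189 / 500000 : ℝ)) * (1 + x)) = bev [(10446498102078326373751694096723750912 / 78125 : ℝ), (84528749247400673842510585821501438976 / 78125 : ℝ), (300164255170288939806948765024002649088 / 78125 : ℝ), (611850645148699183415825112784718678784 / 78125 : ℝ), (785005709309151073420651133017548064672 / 78125 : ℝ), (652264113819202419221360941034805213384 / 78125 : ℝ), (346367451479028037540187569747058415932 / 78125 : ℝ), (110533398706561198072220268616492993991 / 78125 : ℝ), (290527159484249096459115012584582900283 / 1250000 : ℝ), (61757094812702151572284282518462481431 / 5000000 : ℝ)] (x - (-2011 / 2500 : ℝ)) ((-8043 / 10000 : ℝ) - x) := by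
      simp only [l_az, ddev, dev, pev, bev, List.length_cons, List.length_nil]; ring
    rw [e]
    refine bev_nonneg (by linarith) (by linarith) ?_
    norm_num
  obtain ⟨lo_0, hi_0⟩ : (-6525711721302863 / 4000000000000000 : ℝ) ≤ Real.log ((3913 / 20000 : ℝ)) ∧ Real.log ((3913 / 20000 : ℝ)) ≤ (-163142793032571557 / 100000000000000000 : ℝ) :=
    log_bounds' 47 (z := (16087 / 23913 : ℝ)) (by norm_num) (by norm_num) (by norm_num)
      (by norm_num [Finset.sum_range_succ]) (by norm_num [Finset.sum_range_succ])
  exact psi_nonneg_convex (x0 := (-16087 / 20000 : ℝ)) (a := (18526815373 / 25000000000000 : ℝ)) (b1 := (1806604609161 / 100000000000000 : ℝ)) (b2 := (903302304581 / 50000000000000 : ℝ))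
    (by norm_num) (by norm_num) (by norm_num) hdd (by norm_num) (by norm_num)
    (by norm_num [psi, hfun, l_az, pev]; linarith) (by norm_num [psi1, l_az, dev, pev]; linarith)
    (by norm_num [psi1, l_az, dev, pev]; linarith) (by norm_num) (by norm_num) hx hx'

lemma az_2 {x : ℝ} (hx : (-8043 / 10000 : ℝ) ≤ x) (hx' : x ≤ (-2647 / 5000 : ℝ)) : 0 ≤ psi (1 : ℝ) l_az x := by
  have hdd : ∀ x, (-8043 / 10000 : ℝ) < x → x < (-2647 / 5000 : ℝ) → 0 ≤ -((1 : ℝ) * x ^ 2 + ddev l_az x * (1 + x)) := by
    intro x h1 h2
    have e : (-((1 : ℝ) * x ^ 2 + ddev l_az x * (1 + x))) = bev [(308115905187297848427715717481537518569 / 44827308394923725823850513873745000000 : ℝ), (834998483537212406625196343024063578047309 / 22413654197461862911925256936872500000 : ℝ), (586895158942444494573119423963311897535161 / 2801706774682732863990657117109062500 : ℝ), (705412488346058682047447502136722766095761 / 1400853387341366431995328558554531250 : ℝ), (939402798557410001545231447491069674249607 / 1400853387341366431995328558554531250 : ℝ), (374199356405688956408291254875357285192203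 / 700426693670683215997664279277265625 : ℝ), (178336001136968243491723036148727692677716 / 700426693670683215997664279277265625 : ℝ), (47079645522416653132704961059875599951912 / 700426693670683215997664279277265625 : ℝ), (5314204533050830423653224856801674611524 / 700426693670683215997664279277265625 : ℝ), (1354101213712598186444738427197762088 / 700426693670683215997664279277265625 : ℝ)] (x - (-8043 / 10000 : ℝ)) ((-2647 / 5000 : ℝ) - x) := by
      simp only [l_az, ddev, dev, pev, bev, List.length_cons, List.length_nil]; ring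
    rw [e]
    refine bev_nonneg (by linarith) (by linarith) ?_
    norm_num
  obtain ⟨lo_c, hi_c⟩ : (-163117240458010667 / 100000000000000000 : ℝ) ≤ Real.log ((1957 / 10000 : ℝ)) ∧ Real.log ((1957 / 10000 : ℝ)) ≤ (-3262344809160213 / 2000000000000000 : ℝ) :=
    log_bounds' 47 (z := (8043 / 11957 : ℝ)) (by norm_num) (by norm_num) (by norm_num)
      (by norm_num [Finset.sum_range_succ]) (by norm_num [Finset.sum_range_succ])
  obtain ⟨lo_d, hi_d⟩ : (-75374680268887503 / 100000000000000000 : ℝ) ≤ Real.log ((2353 / 5000 : ℝ)) ∧ Real.log ((2353 / 5000 : ℝ)) ≤ (-37687340134443747 / 50000000000000000 : ℝ) :=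
    log_bounds' 18 (z := (2647 / 7353 : ℝ)) (by norm_num) (by norm_num) (by norm_num)
      (by norm_num [Finset.sum_range_succ]) (by norm_num [Finset.sum_range_succ])
  exact psi_nonneg_concave (by norm_num) (by norm_num) hdd (by norm_num [psi, hfun, l_az, pev]; linarith) (by norm_num [psi, hfun, l_az, pev]; linarith) hx hx'

lemma az_3 {x : ℝ} (hx : (-2647 / 5000 : ℝ) ≤ x) (hx' : x ≤ (-5293 / 10000 : ℝ)) : 0 ≤ psi (1 : ℝ) l_az x := by
  have hdd : ∀ x, (-2647 / 5000 : ℝ) < x → x < (-5293 / 10000 : ℝ) → 0 ≤ (1 : ℝ) * x ^ 2 + (ddev l_az x + (9 / 200000 : ℝ)) * (1 + x) := by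
    intro x h1 h2
    have e : ((1 : ℝ) * x ^ 2 + (ddev l_az x + (9 / 200000 : ℝ)) * (1 + x)) = bev [(300351911287401813555261572802237912 / 78125 : ℝ), (4632226520407975739958511743782125476 / 78125 : ℝ), (26244532697093198268421322834810560088 / 78125 : ℝ), (79238946734222403880830209870744471284 / 78125 : ℝ), (145858838087091277312961678280391763797 / 78125 : ℝ), (345714236428073160643439971911936424143 / 156250 : ℝ), (266471013732249150958720976036322462239 / 156250 : ℝ), (259254016182445070523695986876853797089 / 312500 : ℝ), (580203724828734993585306271452220488691 / 2500000 : ℝ), (142643228685836406426039513557722535681 / 5000000 : ℝ)] (x - (-2647 / 5000 : ℝ)) ((-5293 / 10000 : ℝ) - x) := by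
      simp only [l_az, ddev, dev, pev, bev, List.length_cons, List.length_nil]; ring
    rw [e]
    refine bev_nonneg (by linarith) (by linarith) ?_
    norm_num
  obtain ⟨lo_0, hi_0⟩ : (-7536405609889079 / 10000000000000000 : ℝ) ≤ Real.log ((9413 / 20000 : ℝ)) ∧ Real.log ((9413 / 20000 : ℝ)) ≤ (-75364056098890781 / 100000000000000000 : ℝ) :=
    log_bounds' 18 (z := (10587 / 29413 : ℝ)) (by norm_num) (by norm_num) (by norm_num)
      (by norm_num [Finset.sum_range_succ]) (by norm_num [Finset.sum_range_succ])
  exact psi_nonneg_convex (x0 := (-10587 / 20000 : ℝ)) (a := (33965280529 / 25000000000000 : ℝ)) (b1 := (-755010897117 / 100000000000000 : ℝ)) (b2 := (-188752724279 / 25000000000000 : ℝ))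
    (by norm_num) (by norm_num) (by norm_num) hdd (by norm_num) (by norm_num)
    (by norm_num [psi, hfun, l_az, pev]; linarith) (by norm_num [psi1, l_az, dev, pev]; linarith)
    (by norm_num [psi1, l_az, dev, pev]; linarith) (by norm_num) (by norm_num) hx hx'

lemma az_4 {x : ℝ} (hx : (-5293 / 10000 : ℝ) ≤ x) (hx' : x ≤ (1801 / 5000 : ℝ)) : 0 ≤ psi (1 : ℝ) l_az x := by
  have hdd : ∀ x, (-5293 / 10000 : ℝ) < x → x < (1801 / 5000 : ℝ) → 0 ≤ (1 : ℝ) * x ^ 2 + (ddev l_az x + (0 : ℝ)) * (1 + x) := by
    intro x h1 h2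
    rcases le_total x (0 : ℝ) with h | h
    · have e : ((1 : ℝ) * x ^ 2 + (ddev l_az x + (0 : ℝ)) * (1 + x)) = bev [(1311248096955277222761998522969 / 581946770299902491388621785000000 : ℝ), (11658943174065022596335140037663 / 290973385149951245694310892500 : ℝ), (29478047065082464643855536160 / 116389354059980498277724357 : ℝ), (67534262692088219087893020000 / 116389354059980498277724357 : ℝ), (75958458817575670019000000000 / 116389354059980498277724357 : ℝ), (45274552392236700000000000000 / 116389354059980498277724357 : ℝ), (13705282207480000000000000000 / 116389354059980498277724357 : ℝ), (1654068400000000000000000000 / 116389354059980498277724357 : ℝ), (0 : ℝ), (0 : ℝ)] (x - (-5293 / 10000 : ℝ)) ((0 : ℝ) - x) := by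
        simp only [l_az, ddev, dev, pev, bev, List.length_cons, List.length_nil]; ring
      rw [e]
      refine bev_nonneg (by linarith) (by linarith) ?_
      norm_num
    have e : ((1 : ℝ) * x ^ 2 + (ddev l_az x + (0 : ℝ)) * (1 + x)) = bev [(0 : ℝ), (0 : ℝ), (12922409375000000000000000 / 61460485944900188052601 : ℝ), (79149558400625000000000000 / 61460485944900188052601 : ℝ), (195488532484321875000000000 / 61460485944900188052601 : ℝ), (249199055042080077062500000 / 61460485944900188052601 : ℝ), (173007637605941903227627500 / 61460485944900188052601 : ℝ), (62015264523115872324777220 / 61460485944900188052601 : ℝ), (44768673175604782913692401287 / 307302429724500940263005000 : ℝ), (1019540553366396201777503083 / 307302429724500940263005000000 : ℝ)] (x - (0 : ℝ)) ((1801 / 5000 : ℝ) - x) := by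
      simp only [l_az, ddev, dev, pev, bev, List.length_cons, List.length_nil]; ring
    rw [e]
    refine bev_nonneg (by linarith) (by linarith) ?_
    norm_num
  exact psi_nonneg_zero (by norm_num) (by norm_num) (by norm_num) hdd
    (by norm_num [l_az, pev]) (by norm_num [l_az, dev, pev]) hx hx'

lemma az_5 {x : ℝ} (hx : (1801 / 5000 : ℝ) ≤ x) (hx' : x ≤ (3603 / 10000 : ℝ)) : 0 ≤ psi (1 : ℝ) l_az x := by
  have hdd : ∀ x, (1801 / 5000 : ℝ) < x → x < (3603 / 10000 : ℝ) → 0 ≤ (1 : ℝ) * x ^ 2 + (ddev l_az x + (1 / 250000 : ℝ)) * (1 + x) := by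
    intro x h1 h2
    have e : ((1 : ℝ) * x ^ 2 + (ddev l_az x + (1 / 250000 : ℝ)) * (1 + x)) = bev [(451518362067518368691853686220175064 / 78125 : ℝ), (3741249089981926525780581563299916964 / 78125 : ℝ), (13675235612706092257915075024232663384 / 78125 : ℝ), (28899217212025777852051886590323827444 / 78125 : ℝ), (38833990823816619291674990196311239349 / 78125 : ℝ), (68637639410364230363971775157043320847 / 156250 : ℝ), (39737750007361876597384451383017643647 / 156250 : ℝ), (28899964877977219629599922834648168289 / 312500 : ℝ), (47477234369629676262900716109350875667 / 2500000 : ℝ), (8256393576830152510173154296490055489 / 5000000 : ℝ)] (x - (1801 / 5000 : ℝ)) ((3603 / 10000 : ℝ) - x) := by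
      simp only [l_az, ddev, dev, pev, bev, List.length_cons, List.length_nil]; ring
    rw [e]
    refine bev_nonneg (by linarith) (by linarith) ?_
    norm_num
  obtain ⟨lo_0, hi_0⟩ : (15383425319194883 / 50000000000000000 : ℝ) ≤ Real.log ((5441 / 4000 : ℝ)) ∧ Real.log ((5441 / 4000 : ℝ)) ≤ (30766850638389769 / 100000000000000000 : ℝ) :=
    log_bounds 10 (z := (1441 / 9441 : ℝ)) (by norm_num) (by norm_num) (by norm_num)
      (by norm_num [Finset.sum_range_succ]) (by norm_num [Finset.sum_range_succ])
  exact psi_nonneg_convex (x0 := (1441 / 4000 : ℝ)) (a := (736801051 / 10000000000000 : ℝ)) (b1 := (47668578037 / 100000000000000 : ℝ)) (b2 := (23834289019 / 50000000000000 : ℝ))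
    (by norm_num) (by norm_num) (by norm_num) hdd (by norm_num) (by norm_num)
    (by norm_num [psi, hfun, l_az, pev]; linarith) (by norm_num [psi1, l_az, dev, pev]; linarith)
    (by norm_num [psi1, l_az, dev, pev]; linarith) (by norm_num) (by norm_num) hx hx'

lemma az_6 {x : ℝ} (hx : (3603 / 10000 : ℝ) ≤ x) (hx' : x ≤ (1763 / 2500 : ℝ)) : 0 ≤ psi (1 : ℝ) l_az x := by
  have hdd : ∀ x, (3603 / 10000 : ℝ) < x → x < (1763 / 2500 : ℝ) → 0 ≤ -((1 : ℝ) * x ^ 2 + ddev l_az x * (1 + x)) := by
    intro x h1 h2
    have e : (-((1 : ℝ) * x ^ 2 + ddev l_az x * (1 + x))) = bev [(18949606423169847489826845703509944511 / 345309680499769795366665017705245000000 : ℝ), (17847173530282317855153174704071529354379 / 86327420124942448841666254426311250000 : ℝ), (10054738128576116306091016942239869629759 / 5395463757808903052604140901644453125 : ℝ), (37988021285996117576744587282863542701564 / 5395463757808903052604140901644453125 : ℝ), (77887917586847155608009481736613969225864 / 5395463757808903052604140901644453125 : ℝ), (93575859908963202805832401383991401231776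 / 5395463757808903052604140901644453125 : ℝ), (65891518665461324219126247574306407334656 / 5395463757808903052604140901644453125 : ℝ), (25196805631801241904933113949103335074816 / 5395463757808903052604140901644453125 : ℝ), (4041641762012447031054340407395991182336 / 5395463757808903052604140901644453125 : ℝ), (699744854495740716075347544050446336 / 5395463757808903052604140901644453125 : ℝ)] (x - (3603 / 10000 : ℝ)) ((1763 / 2500 : ℝ) - x) := by
      simp only [l_az, ddev, dev, pev, bev, List.length_cons, List.length_nil]; ring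
    rw [e]
    refine bev_nonneg (by linarith) (by linarith) ?_
    norm_num
  obtain ⟨lo_c, hi_c⟩ : (30770526365724727 / 100000000000000000 : ℝ) ≤ Real.log ((13603 / 10000 : ℝ)) ∧ Real.log ((13603 / 10000 : ℝ)) ≤ (30770526365724729 / 100000000000000000 : ℝ) :=
    log_bounds 10 (z := (3603 / 23603 : ℝ)) (by norm_num) (by norm_num) (by norm_num)
      (by norm_num [Finset.sum_range_succ]) (by norm_num [Finset.sum_range_succ])
  obtain ⟨lo_d, hi_d⟩ : (53368240590891821 / 100000000000000000 : ℝ) ≤ Real.log ((4263 / 2500 : ℝ)) ∧ Real.log ((4263 / 2500 : ℝ)) ≤ (3335515036930739 / 6250000000000000 : ℝ) :=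
    log_bounds 14 (z := (1763 / 6763 : ℝ)) (by norm_num) (by norm_num) (by norm_num)
      (by norm_num [Finset.sum_range_succ]) (by norm_num [Finset.sum_range_succ])
  exact psi_nonneg_concave (by norm_num) (by norm_num) hdd (by norm_num [psi, hfun, l_az, pev]; linarith) (by norm_num [psi, hfun, l_az, pev]; linarith) hx hx'

lemma az_7 {x : ℝ} (hx : (1763 / 2500 : ℝ) ≤ x) (hx' : x ≤ (7053 / 10000 : ℝ)) : 0 ≤ psi (1 : ℝ) l_az x := by
  have hdd : ∀ x, (1763 / 2500 : ℝ) < x → x < (7053 / 10000 : ℝ) → 0 ≤ (1 : ℝ) * x ^ 2 + (ddev l_az x + (7 / 1000000 : ℝ)) * (1 + x) := by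
    intro x h1 h2
    have e : ((1 : ℝ) * x ^ 2 + (ddev l_az x + (7 / 1000000 : ℝ)) * (1 + x)) = bev [(232786395504259283924652455949553664 / 78125 : ℝ), (3265136323095737256281472648486411264 / 78125 : ℝ), (17741378142188385217700996610428048384 / 78125 : ℝ), (52319887234880853690813910530681062144 / 78125 : ℝ), (94866930683145763260770681458351958624 / 78125 : ℝ), (111256123085944554002598862071624256136 / 78125 : ℝ), (85098272104347681101535735929793976836 / 78125 : ℝ), (41154510283049327151639381986365097791 / 78125 : ℝ), (183355721924784013137919890776847848821 / 1250000 : ℝ), (89820353184935525357979673018860176639 / 5000000 : ℝ)] (x - (1763 / 2500 : ℝ)) ((7053 / 10000 : ℝ) - x) := by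
      simp only [l_az, ddev, dev, pev, bev, List.length_cons, List.length_nil]; ring
    rw [e]
    refine bev_nonneg (by linarith) (by linarith) ?_
    norm_num
  obtain ⟨lo_0, hi_0⟩ : (26685586377634583 / 50000000000000000 : ℝ) ≤ Real.log ((6821 / 4000 : ℝ)) ∧ Real.log ((6821 / 4000 : ℝ)) ≤ (53371172755269169 / 100000000000000000 : ℝ) :=
    log_bounds 14 (z := (2821 / 10821 : ℝ)) (by norm_num) (by norm_num) (by norm_num)
      (by norm_num [Finset.sum_range_succ]) (by norm_num [Finset.sum_range_succ])
  exact psi_nonneg_convex (x0 := (2821 / 4000 : ℝ)) (a := (5446321107 / 100000000000000 : ℝ)) (b1 := (-3527997023 / 5000000000000 : ℝ)) (b2 := (-70559940459 / 100000000000000 : ℝ))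
    (by norm_num) (by norm_num) (by norm_num) hdd (by norm_num) (by norm_num)
    (by norm_num [psi, hfun, l_az, pev]; linarith) (by norm_num [psi1, l_az, dev, pev]; linarith)
    (by norm_num [psi1, l_az, dev, pev]; linarith) (by norm_num) (by norm_num) hx hx'

lemma az_8 {x : ℝ} (hx : (7053 / 10000 : ℝ) ≤ x) (hx' : x ≤ (16587 / 10000 : ℝ)) : 0 ≤ psi (1 : ℝ) l_az x := by
  have hdd : ∀ x, (7053 / 10000 : ℝ) < x → x < (16587 / 10000 : ℝ) → 0 ≤ (1 : ℝ) * x ^ 2 + (ddev l_az x + (0 : ℝ)) * (1 + x) := by
    intro x h1 h2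
    have e : ((1 : ℝ) * x ^ 2 + (ddev l_az x + (0 : ℝ)) * (1 + x)) = bev [(478331002935484529491740841569209153 / 51654217061831169421602605215664640000000 : ℝ), (11347766011772682278846233102343118978383 / 51654217061831169421602605215664640000000 : ℝ), (12165252130985417654457119235172888783219 / 4304518088485930785133550434638720000000 : ℝ), (3879584367974820912837318537352457184643 / 263541923784852905212258189875840000000 : ℝ), (147565291887259205115755770078436342316137 / 3689586932987940672971614658261760000000 : ℝ), (24819189807933192666470939957246147997047 / 409954103665326741441290517584640000000 : ℝ), (92607402825186518886429200645239597289939 / 1844793466493970336485807329130880000000 : ℝ), (266798692572808234747498457927222364618143 / 12913554265457792355400651303916160000000 : ℝ), (56060008836003400455492329849286725472899 / 17218072353943723140534201738554880000000 : ℝ), (796250493008436276876904313471017823 / 5739357451314574380178067246184960000000 : ℝ)] (x - (7053 / 10000 : ℝ)) ((16587 / 10000 : ℝ) - x)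 := by
      simp only [l_az, ddev, dev, pev, bev, List.length_cons, List.length_nil]; ring
    rw [e]
    refine bev_nonneg (by linarith) (by linarith) ?_
    norm_num
  obtain ⟨lo_0, hi_0⟩ : (14897439281937623 / 25000000000000000 : ℝ) ≤ Real.log ((1814659 / 1000000 : ℝ)) ∧ Real.log ((1814659 / 1000000 : ℝ)) ≤ (59589757127750497 / 100000000000000000 : ℝ) :=
    log_bounds 15 (z := (814659 / 2814659 : ℝ)) (by norm_num) (by norm_num) (by norm_num)
      (by norm_num [Finset.sum_range_succ]) (by norm_num [Finset.sum_range_succ])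
  exact psi_nonneg_convex (x0 := (814659 / 1000000 : ℝ)) (a := (33273153 / 25000000000000 : ℝ)) (b1 := (-313871 / 100000000000000 : ℝ)) (b2 := (-31387 / 10000000000000 : ℝ))
    (by norm_num) (by norm_num) (by norm_num) hdd (by norm_num) (by norm_num)
    (by norm_num [psi, hfun, l_az, pev]; linarith) (by norm_num [psi1, l_az, dev, pev]; linarith)
    (by norm_num [psi1, l_az, dev, pev]; linarith) (by norm_num) (by norm_num) hx hx'

lemma az_9 {x : ℝ} (hx : (16587 / 10000 : ℝ) ≤ x) (hx' : x ≤ (4147 / 2500 : ℝ)) : 0 ≤ psi (1 : ℝ) l_az x := by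
  have hdd : ∀ x, (16587 / 10000 : ℝ) < x → x < (4147 / 2500 : ℝ) → 0 ≤ (1 : ℝ) * x ^ 2 + (ddev l_az x + (3 / 50000 : ℝ)) * (1 + x) := by
    intro x h1 h2
    have e : ((1 : ℝ) * x ^ 2 + (ddev l_az x + (3 / 50000 : ℝ)) * (1 + x)) = bev [(1249084029535783368989204745738067105641 / 5000000 : ℝ), (2532722672923447847800518012219347533989 / 1250000 : ℝ), (563748559369689525703927843120212570809 / 78125 : ℝ), (1153398026929379625767846632628454572804 / 78125 : ℝ), (1487063586896358760849847079769127365944 / 78125 : ℝ), (1244019597588721994128126185944756162656 / 78125 : ℝ), (667310048506111279236768268891084682496 / 78125 : ℝ), (216542860770219546110324828018343842816 / 78125 : ℝ), (36773172691904889089351176965453136896 / 78125 : ℝ), (2156653079524413526520670542771245056 / 78125 : ℝ)] (x - (16587 / 10000 : ℝ)) ((4147 / 2500 : ℝ) - x) := by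
      simp only [l_az, ddev, dev, pev, bev, List.length_cons, List.length_nil]; ring
    rw [e]
    refine bev_nonneg (by linarith) (by linarith) ?_
    norm_num
  obtain ⟨lo_0, hi_0⟩ : (97785608753230989 / 100000000000000000 : ℝ) ≤ Real.log ((2127 / 800 : ℝ)) ∧ Real.log ((2127 / 800 : ℝ)) ≤ (97785608753231007 / 100000000000000000 : ℝ) :=
    log_bounds 23 (z := (1327 / 2927 : ℝ)) (by norm_num) (by norm_num) (by norm_num)
      (by norm_num [Finset.sum_range_succ]) (by norm_num [Finset.sum_range_succ])
  exact psi_nonneg_convex (x0 := (1327 / 800 : ℝ)) (a := (1357744387673 / 50000000000000 : ℝ)) (b1 := (3532109918279 / 50000000000000 : ℝ)) (b2 := (7064219836559 / 100000000000000 : ℝ))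
    (by norm_num) (by norm_num) (by norm_num) hdd (by norm_num) (by norm_num)
    (by norm_num [psi, hfun, l_az, pev]; linarith) (by norm_num [psi1, l_az, dev, pev]; linarith)
    (by norm_num [psi1, l_az, dev, pev]; linarith) (by norm_num) (by norm_num) hx hx'

lemma az_10 {x : ℝ} (hx : (4147 / 2500 : ℝ) ≤ x) (hx' : x ≤ (24239 / 10000 : ℝ)) : 0 ≤ psi (1 : ℝ) l_az x := by
  have hdd : ∀ x, (4147 / 2500 : ℝ) < x → x < (24239 / 10000 : ℝ) → 0 ≤ -((1 : ℝ) * x ^ 2 + ddev l_az x * (1 + x)) := by
    intro x h1 h2
    have e : (-((1 : ℝ) * x ^ 2 + ddev l_az x * (1 + x))) = bev [(10306471920475586473479329457228754944 / 7018654235796355488353884127178035234375 : ℝ), (132942914516326995678200316023111845874688 / 7018654235796355488353884127178035234375 : ℝ), (1239365335682058185568613636140295770950656 / 7018654235796355488353884127178035234375 : ℝ), (695423928390922616959982271648488821965056 / 1002664890828050784050554875311147890625 : ℝ), (1484957087229282896451560511455343301427552 / 1002664890828050784050554875311147890625 :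 ℝ), (1849070676300232199474651177465599096972056 / 1002664890828050784050554875311147890625 : ℝ), (1327680953830155232811923286298209307505412 / 1002664890828050784050554875311147890625 : ℝ), (3490634305319517150044294214190548500477283 / 7018654235796355488353884127178035234375 : ℝ), (8101049409832874482276557977789225285002171 / 112298467772741687813662146034848563750000 : ℝ), (3722715036116860067115455191828613237803 / 449193871090966751254648584139394255000000 : ℝ)] (x - (4147 / 2500 : ℝ)) ((24239 / 10000 : ℝ) - x) := by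
      simp only [l_az, ddev, dev, pev, bev, List.length_cons, List.length_nil]; ring
    rw [e]
    refine bev_nonneg (by linarith) (by linarith) ?_
    norm_num
  obtain ⟨lo_c, hi_c⟩ : (97787489318528973 / 100000000000000000 : ℝ) ≤ Real.log ((6647 / 2500 : ℝ)) ∧ Real.log ((6647 / 2500 : ℝ)) ≤ (97787489318528991 / 100000000000000000 : ℝ) :=
    log_bounds 23 (z := (4147 / 9147 : ℝ)) (by norm_num) (by norm_num) (by norm_num)
      (by norm_num [Finset.sum_range_succ]) (by norm_num [Finset.sum_range_succ])
  obtain ⟨lo_d, hi_d⟩ : (123078025224552697 / 100000000000000000 : ℝ) ≤ Real.log ((34239 / 10000 : ℝ)) ∧ Real.log ((34239 / 10000 : ℝ)) ≤ (30769506306138177 / 25000000000000000 : ℝ) :=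
    log_bounds 31 (z := (24239 / 44239 : ℝ)) (by norm_num) (by norm_num) (by norm_num)
      (by norm_num [Finset.sum_range_succ]) (by norm_num [Finset.sum_range_succ])
  exact psi_nonneg_concave (by norm_num) (by norm_num) hdd (by norm_num [psi, hfun, l_az, pev]; linarith) (by norm_num [psi, hfun, l_az, pev]; linarith) hx hx'

lemma az_11 {x : ℝ} (hx : (24239 / 10000 : ℝ) ≤ x) (hx' : x ≤ (303 / 125 : ℝ)) : 0 ≤ psi (1 : ℝ) l_az x := by
  have hdd : ∀ x, (24239 / 10000 : ℝ) < x → x < (303 / 125 : ℝ) → 0 ≤ (1 : ℝ) * x ^ 2 + (ddev l_az x + (261 / 1000000 : ℝ)) * (1 + x) := by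
    intro x h1 h2
    have e : ((1 : ℝ) * x ^ 2 + (ddev l_az x + (261 / 1000000 : ℝ)) * (1 + x)) = bev [(745474463883139932884544808171386762197 / 5000000 : ℝ), (34188471183519956062524124199575204499 / 15625 : ℝ), (37928759609200312250511298407442376272 / 3125 : ℝ), (22636657580807513407774696699842958176 / 625 : ℝ), (8272021554224805100684393616354626048 / 125 : ℝ), (1950619836008527544692754577230708736 / 25 : ℝ), (299579470573378512973681047888723968 / 5 : ℝ), (29063804453501527902267714782101504 : ℝ), (8112372617464146042103739354972160 : ℝ), (995424954779089018636665775718400 : ℝ)] (x - (24239 / 10000 : ℝ)) ((303 / 125 : ℝ) - x) := by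
      simp only [l_az, ddev, dev, pev, bev, List.length_cons, List.length_nil]; ring
    rw [e]
    refine bev_nonneg (by linarith) (by linarith) ?_
    norm_num
  obtain ⟨lo_0, hi_0⟩ : (123079485536913537 / 100000000000000000 : ℝ) ≤ Real.log ((68479 / 20000 : ℝ)) ∧ Real.log ((68479 / 20000 : ℝ)) ≤ (30769871384228387 / 25000000000000000 : ℝ) :=
    log_bounds 31 (z := (48479 / 88479 : ℝ)) (by norm_num) (by norm_num) (by norm_num)
      (by norm_num [Finset.sum_range_succ]) (by norm_num [Finset.sum_range_succ])
  exact psi_nonneg_convex (x0 := (48479 / 20000 : ℝ)) (a := (1032748824567 / 50000000000000 : ℝ)) (b1 := (-10615868723379 / 100000000000000 : ℝ)) (b2 := (-5307934361689 / 50000000000000 : ℝ))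
    (by norm_num) (by norm_num) (by norm_num) hdd (by norm_num) (by norm_num)
    (by norm_num [psi, hfun, l_az, pev]; linarith) (by norm_num [psi1, l_az, dev, pev]; linarith)
    (by norm_num [psi1, l_az, dev, pev]; linarith) (by norm_num) (by norm_num) hx hx'

lemma az_12 {x : ℝ} (hx : (303 / 125 : ℝ) ≤ x) (hx' : x ≤ (5679 / 2000 : ℝ)) : 0 ≤ psi (1 : ℝ) l_az x := by
  have hdd : ∀ x, (303 / 125 : ℝ) < x → x < (5679 / 2000 : ℝ) → 0 ≤ (1 : ℝ) * x ^ 2 + (ddev l_az x + (0 : ℝ)) * (1 + x) := by
    intro x h1 h2
    have e : ((1 : ℝ) * x ^ 2 + (ddev l_az x + (0 : ℝ)) * (1 + x)) = bev [(452270910129284527274070114304 / 1640426343467924707093540546875 : ℝ), (15634734939971194880643598466940928 / 1640426343467924707093540546875 : ℝ), (44804592014671065432445893100961792 / 546808781155974902364513515625 : ℝ), (494325218522506751059470361545408512 / 1640426343467924707093540546875 : ℝ), (1008166428635749940518781961472753664 / 1640426343467924707093540546875 : ℝ), (45615421492866456571458325150567936 / 60756531239552766929390390625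 : ℝ), (901349468671788638467738346430865504 / 1640426343467924707093540546875 : ℝ), (365947576690400965497420960900869968 / 1640426343467924707093540546875 : ℝ), (21200265134512461830783759382913897 / 546808781155974902364513515625 : ℝ), (48290428047342451204461040838917 / 11665253997994131250442955000000 : ℝ)] (x - (303 / 125 : ℝ)) ((5679 / 2000 : ℝ) - x) := by
      simp only [l_az, ddev, dev, pev, bev, List.length_cons, List.length_nil]; ring
    rw [e]
    refine bev_nonneg (by linarith) (by linarith) ?_
    norm_num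
  obtain ⟨lo_0, hi_0⟩ : (16434284655973049 / 12500000000000000 : ℝ) ≤ Real.log ((3723793 / 1000000 : ℝ)) ∧ Real.log ((3723793 / 1000000 : ℝ)) ≤ (65737138623892201 / 50000000000000000 : ℝ) :=
    log_bounds 34 (z := (2723793 / 4723793 : ℝ)) (by norm_num) (by norm_num) (by norm_num)
      (by norm_num [Finset.sum_range_succ]) (by norm_num [Finset.sum_range_succ])
  exact psi_nonneg_convex (x0 := (2723793 / 1000000 : ℝ)) (a := (966531939 / 6250000000000 : ℝ)) (b1 := (-17730699 / 100000000000000 : ℝ)) (b2 := (-17730697 / 100000000000000 : ℝ))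
    (by norm_num) (by norm_num) (by norm_num) hdd (by norm_num) (by norm_num)
    (by norm_num [psi, hfun, l_az, pev]; linarith) (by norm_num [psi1, l_az, dev, pev]; linarith)
    (by norm_num [psi1, l_az, dev, pev]; linarith) (by norm_num) (by norm_num) hx hx'

lemma az_13 {x : ℝ} (hx : (5679 / 2000 : ℝ) ≤ x) (hx' : x ≤ (7099 / 2500 : ℝ)) : 0 ≤ psi (1 : ℝ) l_az x := by
  have hdd : ∀ x, (5679 / 2000 : ℝ) < x → x < (7099 / 2500 : ℝ) → 0 ≤ (1 : ℝ) * x ^ 2 + (ddev l_az x + (599 / 1000000 : ℝ)) * (1 + x) := by
    intro x h1 h2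
    have e : ((1 : ℝ) * x ^ 2 + (ddev l_az x + (599 / 1000000 : ℝ)) * (1 + x)) = bev [(244979188795868463689033607698806925 / 64 : ℝ), (496151704745470858287289690555011665 / 16 : ℝ), (110273199999509809846573943277463373 : ℝ), (1125910508051353107098961372963296388 / 5 : ℝ), (7239589958479003819088026215838874968 / 25 : ℝ), (30173442150626977200511041090871099232 / 125 : ℝ), (80493736853500919975291798681714067712 / 625 : ℝ), (129442760272061663111169629389200970752 / 3125 : ℝ), (107991412733578767790727182586080064512 / 15625 : ℝ), (30095616813892233742114783101816492032 / 78125 : ℝ)] (x - (5679 / 2000 : ℝ)) ((7099 / 2500 : ℝ) - x) := by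
      simp only [l_az, ddev, dev, pev, bev, List.length_cons, List.length_nil]; ring
    rw [e]
    refine bev_nonneg (by linarith) (by linarith) ?_
    norm_num
  obtain ⟨lo_0, hi_0⟩ : (16816939652908049 / 12500000000000000 : ℝ) ≤ Real.log ((76791 / 20000 : ℝ)) ∧ Real.log ((76791 / 20000 : ℝ)) ≤ (33633879305816101 / 25000000000000000 : ℝ) :=
    log_bounds 35 (z := (56791 / 96791 : ℝ)) (by norm_num) (by norm_num) (by norm_num)
      (by norm_num [Finset.sum_range_succ]) (by norm_num [Finset.sum_range_succ])
  exact psi_nonneg_convex (x0 := (56791 / 20000 : ℝ)) (a := (2381453773 / 781250000000 : ℝ)) (b1 := (497250609141 / 12500000000000 : ℝ)) (b2 := (3978004873129 / 100000000000000 : ℝ))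
    (by norm_num) (by norm_num) (by norm_num) hdd (by norm_num) (by norm_num)
    (by norm_num [psi, hfun, l_az, pev]; linarith) (by norm_num [psi1, l_az, dev, pev]; linarith)
    (by norm_num [psi1, l_az, dev, pev]; linarith) (by norm_num) (by norm_num) hx hx'

lemma az_14 {x : ℝ} (hx : (7099 / 2500 : ℝ) ≤ x) (hx' : x ≤ (3 : ℝ)) : 0 ≤ psi (1 : ℝ) l_az x := by
  have hdd : ∀ x, (7099 / 2500 : ℝ) < x → x < (3 : ℝ) → 0 ≤ -((1 : ℝ) * x ^ 2 + ddev l_az x * (1 + x)) := by
    intro x h1 h2
    have e : (-((1 : ℝ) * x ^ 2 + ddev l_az x * (1 + x))) = bev [(36519937606471622621554008031783083 / 1340507838787354908818005000000 : ℝ), (52854563354080615390232417289382677 / 670253919393677454409002500 : ℝ), (374249477315563255601120754906409 / 536203135514941963527202 : ℝ), (1448884006981666010198867256013125 / 536203135514941963527202 : ℝ), (1601053030639667276558992274218750 / 268101567757470981763601 : ℝ), (2209091828847303541865566406250000 / 268101567757470981763601 : ℝ), (1948645805562948669160156250000000 / 268101567757470981763601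 : ℝ), (1073198255784840539550781250000000 / 268101567757470981763601 : ℝ), (337408978489471435546875000000000 / 268101567757470981763601 : ℝ), (46365943908691406250000000000000 / 268101567757470981763601 : ℝ)] (x - (7099 / 2500 : ℝ)) ((3 : ℝ) - x) := by
      simp only [l_az, ddev, dev, pev, bev, List.length_cons, List.length_nil]; ring
    rw [e]
    refine bev_nonneg (by linarith) (by linarith) ?_
    norm_num
  obtain ⟨lo_c, hi_c⟩ : (210213780391757 / 156250000000000 : ℝ) ≤ Real.log ((9599 / 2500 : ℝ)) ∧ Real.log ((9599 / 2500 : ℝ)) ≤ (33634204862681123 / 25000000000000000 : ℝ) :=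
    log_bounds 35 (z := (7099 / 12099 : ℝ)) (by norm_num) (by norm_num) (by norm_num)
      (by norm_num [Finset.sum_range_succ]) (by norm_num [Finset.sum_range_succ])
  obtain ⟨lo_d, hi_d⟩ : (138629436111989061 / 100000000000000000 : ℝ) ≤ Real.log ((4 : ℝ)) ∧ Real.log ((4 : ℝ)) ≤ (69314718055994541 / 50000000000000000 : ℝ) :=
    log_bounds 36 (z := (3 / 5 : ℝ)) (by norm_num) (by norm_num) (by norm_num)
      (by norm_num [Finset.sum_range_succ]) (by norm_num [Finset.sum_range_succ])
  exact psi_nonneg_concave (by norm_num) (by norm_num) hdd (by norm_num [psi, hfun, l_az, pev]; linarith) (by norm_num [psi, hfun, l_az, pev]; linarith) hx hx'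

lemma az_nonneg {x : ℝ} (hx : (-1 : ℝ) ≤ x) (hx' : x ≤ (3 : ℝ)) : 0 ≤ psi (1 : ℝ) l_az x := by
  rcases le_total x (-2011 / 2500 : ℝ) with h0 | h0
  · exact az_0 hx h0
  rcases le_total x (-8043 / 10000 : ℝ) with h1 | h1
  · exact az_1 h0 h1
  rcases le_total x (-2647 / 5000 : ℝ) with h2 | h2
  · exact az_2 h1 h2
  rcases le_total x (-5293 / 10000 : ℝ) with h3 | h3
  · exact az_3 h2 h3
  rcases le_total x (1801 / 5000 : ℝ) with h4 | h4
  · exact az_4 h3 h4
  rcases le_total x (3603 / 10000 : ℝ) with h5 | h5
  · exact az_5 h4 h5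
  rcases le_total x (1763 / 2500 : ℝ) with h6 | h6
  · exact az_6 h5 h6
  rcases le_total x (7053 / 10000 : ℝ) with h7 | h7
  · exact az_7 h6 h7
  rcases le_total x (16587 / 10000 : ℝ) with h8 | h8
  · exact az_8 h7 h8
  rcases le_total x (4147 / 2500 : ℝ) with h9 | h9
  · exact az_9 h8 h9
  rcases le_total x (24239 / 10000 : ℝ) with h10 | h10
  · exact az_10 h9 h10
  rcases le_total x (303 / 125 : ℝ) with h11 | h11
  · exact az_11 h10 h11
  rcases le_total x (5679 / 2000 : ℝ) with h12 | h12
  · exact az_12 h11 h12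
  rcases le_total x (7099 / 2500 : ℝ) with h13 | h13
  · exact az_13 h12 h13
  exact az_14 h13 hx'

end Vale.Agent.P154.Four.All
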