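import Vale.Agent.P154.FourTrees

/-!
From the pointwise inequalities to nonreconstruction on Galton-Watson and regular trees.
-/

open scoped BigOperators ENNReal
open Filter

namespace Vale.Agent.P154.Four

open Vale.Agent.P154 (Tr treeWeight node regular poissonLaw tsum_treeWeight tsum_pi_one
  tsum_pi_prod)

/-- The averaged total variation distance on the Galton-Watson tree. -/
noncomputable def gwTV (p : ℕ → ℝ≥0∞) (l : ℝ) (n : ℕ) : ℝ≥0∞ :=
  ∑' T : Tr n, treeWeight p n T * ENNReal.ofReal (tv l n T)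

lemma tsum_pi_pair {α : Type} {k : ℕ} (w f g : α → ℝ≥0∞) (hw : ∑' a, w a = 1) {i₀ j₀ : Fin k}
    (h : i₀ ≠ j₀) :
    ∑' c : Fin k → α, (∏ j, w (c j)) * (f (c i₀) * g (c j₀))
      = (∑' a, w a * f a) * ∑' a, w a * g a := by
  classical
  have e : ∀ c : Fin k → α, (∏ j, w (c j)) * (f (c i₀) * g (c j₀))
      = ∏ j, w (c j) * ((if j = i₀ then f (c j) else 1) * if j = j₀ then g (c j) else 1) :=
      fun c => by
    rw [Finset.prod_mul_distrib, Finset.prod_mul_distrib,
      Finset.prod_ite_eq' Finset.univ i₀ fun j => f (c j),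
      Finset.prod_ite_eq' Finset.univ j₀ fun j => g (c j)]
    simp
  rw [tsum_congr e, tsum_pi_prod fun j a =>
      w a * ((if j = i₀ then f a else 1) * if j = j₀ then g a else 1),
    Finset.prod_eq_mul i₀ j₀ h]
  · simp [h, h.symm]
  · intro j _ hj; simp [hj.1, hj.2, hw]
  · simp
  · simp

lemma seq_decay_cube {x : ℕ → ℝ} {K : ℝ} (hK : 0 < K) (h0 : ∀ n, 0 ≤ x n)
    (h : ∀ n, x (n + 1) + K * x n ^ 3 ≤ x n) : Tendsto x atTop (nhds 0) := by
  have hanti : Antitone x := antitone_nat_of_succ_le fun n => by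
    have := h n
    have : 0 ≤ K * x n ^ 3 := mul_nonneg hK.le (pow_nonneg (h0 n) 3)
    linarith
  have hb : BddBelow (Set.range x) := ⟨0, by rintro _ ⟨n, rfl⟩; exact h0 n⟩
  have ht := tendsto_atTop_ciInf hanti hb
  set L := ⨅ n, x n with hL
  have hL0 : 0 ≤ L := le_ciInf h0
  have h1 : L + K * L ^ 3 ≤ L :=
    le_of_tendsto_of_tendsto (((tendsto_add_atTop_iff_nat 1).mpr ht).add ((ht.pow 3).const_mul K))
      ht (Eventually.of_forall h)
  have h3 : L ^ 3 = 0 := le_antisymm (by nlinarith) (pow_nonneg hL0 3)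
  rwa [eq_zero_of_pow_eq_zero h3] at ht

variable {l : ℝ} {qf wf : (Spin → ℝ) → ℝ}

/-- The averaged second invariant. -/
noncomputable def avX (p : ℕ → ℝ≥0∞) (l : ℝ) (n : ℕ) : ℝ≥0∞ :=
  ∑' T : Tr n, treeWeight p n T * ENNReal.ofReal (expect sI (lik l n T))

/-- The averaged potential. -/
noncomputable def avG (p : ℕ → ℝ≥0∞) (l : ℝ) (n : ℕ) : ℝ≥0∞ :=
  ∑' T : Tr n, treeWeight p n T * ENNReal.ofReal (expect pot (lik l n T))

lemma avX_succ (p : ℕ → ℝ≥0∞) (l : ℝ) (n : ℕ) (φ : (Spin → ℝ) → ℝ) :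
    ∑' T : Tr (n + 1), treeWeight p (n + 1) T * ENNReal.ofReal (expect φ (lik l (n + 1) T))
      = ∑' k : ℕ, ∑' ch : Fin k → Tr n, (p k * ∏ j, treeWeight p n (ch j)) *
          ENNReal.ofReal (expect φ (lik l (n + 1) (node n k ch))) :=
  ENNReal.tsum_sigma fun k (ch : Fin k → Tr n) =>
    (p k * ∏ j, treeWeight p n (ch j)) *
      ENNReal.ofReal (expect φ (lik l (n + 1) (node n k ch)))

lemma expect_sI_nonneg (h : Ineq l qf wf) (n : ℕ) (T : Tr n) : 0 ≤ expect sI (lik l n T) :=
  expect_nonneg (fam_lik h n T).fam fun a _ => sI_nonneg a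

lemma gain_nonneg (h : Ineq l qf wf) (m : ℕ) : 0 ≤ gainA l m ∧ 0 ≤ gainB l m := by
  have h1 : (0 : ℝ) ≤ 1 - 1999 / 1000 * l ^ 2 := by linarith [h.kap]
  have h2 : (0 : ℝ) ≤ 1 - l ^ 2 := by linarith [h.kap, sq_nonneg l]
  exact ⟨mul_nonneg (pow_nonneg h.l0 5) (pow_nonneg h1 m),
    mul_nonneg (by positivity) (pow_nonneg h1 m)⟩

/-- Weights of all children tuples of one node, times the sum of a statistic of the children. -/
lemma sum_children {p : ℕ → ℝ≥0∞} (hp : ∑' k, p k = 1) (n k : ℕ) (c : ℝ≥0∞)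
    (f : Tr n → ℝ≥0∞) :
    ∑' ch : Fin k → Tr n, (p k * ∏ j, treeWeight p n (ch j)) * (c * ∑ j, f (ch j))
      = c * ((k : ℝ≥0∞) * p k) * ∑' T, treeWeight p n T * f T := by
  simp only [Finset.mul_sum]
  rw [Summable.tsum_finsetSum fun i _ => ENNReal.summable]
  have : ∀ i : Fin k, ∑' ch : Fin k → Tr n, (p k * ∏ j, treeWeight p n (ch j)) * (c * f (ch i))
      = c * p k * ∑' T, treeWeight p n T * f T := fun i => by
    calc _ = ∑' ch : Fin k → Tr n, (c * p k) * ((∏ j, treeWeight p n (ch j)) * f (ch i)) :=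
          tsum_congr fun ch => by ring
      _ = _ := by rw [ENNReal.tsum_mul_left, tsum_pi_one _ _ (tsum_treeWeight p hp n) i]
  simp only [this, Finset.sum_const, Finset.card_univ, Fintype.card_fin, nsmul_eq_mul]
  ring

lemma avX_step (h : Ineq l qf wf) {p : ℕ → ℝ≥0∞} (hp : ∑' k, p k = 1) (m n : ℕ) :
    avX p l (n + 1) + ENNReal.ofReal (gainA l m) * p (m + 2) * (avX p l n * avG p l n)
      ≤ (ENNReal.ofReal (l ^ 2) * ∑' k : ℕ, (k : ℝ≥0∞) * p k) * avX p l n := by
  classical
  set G : ℕ → ℝ≥0∞ := fun k =>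
    if k = m + 2 then ENNReal.ofReal (gainA l m) * p (m + 2) * (avX p l n * avG p l n) else 0
    with hG
  have hk : ∀ k : ℕ, (∑' ch : Fin k → Tr n, (p k * ∏ j, treeWeight p n (ch j)) *
        ENNReal.ofReal (expect sI (lik l (n + 1) (node n k ch)))) + G k
      ≤ ENNReal.ofReal (l ^ 2) * ((k : ℝ≥0∞) * p k) * avX p l n := fun k => by
    rw [avX, ← sum_children hp n k _ fun T => ENNReal.ofReal (expect sI (lik l n T))]
    by_cases h2 : k = m + 2
    · subst h2
      have hne : (0 : Fin (m + 2)) ≠ Fin.last (m + 1) := by simp [Fin.ext_iff]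
      rw [hG]
      simp only [if_true, avX, avG]
      rw [← tsum_pi_pair (treeWeight p n)
        (fun T => ENNReal.ofReal (expect sI (lik l n T)))
        (fun T => ENNReal.ofReal (expect pot (lik l n T))) (tsum_treeWeight p hp n) hne,
        ← ENNReal.tsum_mul_left, ← ENNReal.tsum_add]
      refine ENNReal.tsum_le_tsum fun ch => ?_
      have hh : expect sI (lik l (n + 1) (node n (m + 2) ch)) + gainA l m *
          (expect sI (lik l n (ch 0)) * expect pot (lik l n (ch (Fin.last (m + 1)))))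
            ≤ l ^ 2 * ∑ j, expect sI (lik l n (ch j)) :=
        @kids_sI_gain l qf wf h m (fun j => Cfg n (ch j)) (fun j => cfgFintype n (ch j))
          (fun j => lik l n (ch j)) (fun j => fam_lik h n _)
      have h' := ENNReal.ofReal_le_ofReal hh
      rw [ENNReal.ofReal_add (expect_sI_nonneg h _ _) (mul_nonneg (gain_nonneg h m).1
        (mul_nonneg (expect_sI_nonneg h _ _) (fam_lik h n _).pos)),
        ENNReal.ofReal_mul (gain_nonneg h m).1, ENNReal.ofReal_mul (expect_sI_nonneg h _ _),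
        ENNReal.ofReal_mul (sq_nonneg l),
        ENNReal.ofReal_sum_of_nonneg fun j _ => expect_sI_nonneg h n _] at h'
      refine le_trans (le_of_eq ?_)
        (mul_le_mul' (le_refl (p (m + 2) * ∏ j, treeWeight p n (ch j))) h')
      ring
    · rw [hG]
      simp only [if_neg h2, add_zero]
      refine ENNReal.tsum_le_tsum fun ch => mul_le_mul' le_rfl ?_
      rw [← ENNReal.ofReal_sum_of_nonneg fun j _ => expect_sI_nonneg h n _,
        ← ENNReal.ofReal_mul (sq_nonneg l)]
      exact ENNReal.ofReal_le_ofReal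
        (@kids_sI_le l qf wf h k (fun j => Cfg n (ch j))
          (fun j => cfgFintype n (ch j)) (fun j => lik l n (ch j)) (fun j => fam_lik h n _))
  have hsum : ∑' k, G k = ENNReal.ofReal (gainA l m) * p (m + 2) * (avX p l n * avG p l n) :=
    tsum_ite_eq _ _
  calc _ = ∑' k : ℕ, ((∑' ch : Fin k → Tr n, (p k * ∏ j, treeWeight p n (ch j)) *
        ENNReal.ofReal (expect sI (lik l (n + 1) (node n k ch)))) + G k) := by
        rw [ENNReal.tsum_add, hsum, ← avX_succ p l n sI]; rfl
    _ ≤ ∑' k : ℕ, ENNReal.ofReal (l ^ 2) * ((k : ℝ≥0∞) * p k) * avX p l n :=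
        ENNReal.tsum_le_tsum hk
    _ = _ := by simp only [ENNReal.tsum_mul_right, ENNReal.tsum_mul_left]

lemma avG_step (h : Ineq l qf wf) {p : ℕ → ℝ≥0∞} (hp : ∑' k, p k = 1) (m n : ℕ) :
    ENNReal.ofReal (gainB l m) * p (m + 2) * (avX p l n * avX p l n) ≤ avG p l (n + 1) := by
  rw [avG, avX_succ p l n pot]
  refine le_trans ?_ (ENNReal.le_tsum (m + 2))
  rw [avX, ← tsum_pi_pair (treeWeight p n)
    (fun T => ENNReal.ofReal (expect sI (lik l n T)))
    (fun T => ENNReal.ofReal (expect sI (lik l n T))) (tsum_treeWeight p hp n)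
    (Fin.castSucc_lt_last (Fin.last m)).ne, ← ENNReal.tsum_mul_left]
  refine ENNReal.tsum_le_tsum fun ch => ?_
  have hh : gainB l m * (expect sI (lik l n (ch (Fin.last m).castSucc)) *
      expect sI (lik l n (ch (Fin.last (m + 1)))))
      ≤ expect pot (lik l (n + 1) (node n (m + 2) ch)) :=
    @kids_pot_gain l qf wf h m (fun j => Cfg n (ch j)) (fun j => cfgFintype n (ch j))
      (fun j => lik l n (ch j)) (fun j => fam_lik h n _)
  have h' := ENNReal.ofReal_le_ofReal hh
  rw [ENNReal.ofReal_mul (gain_nonneg h m).2, ENNReal.ofReal_mul (expect_sI_nonneg h _ _)] at h'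
  refine le_trans (le_of_eq ?_)
    (mul_le_mul' (le_refl (p (m + 2) * ∏ j, treeWeight p n (ch j))) h')
  ring

lemma avX_le_one (h : Ineq l qf wf) {p : ℕ → ℝ≥0∞} (hp : ∑' k, p k = 1) (n : ℕ) :
    avX p l n ≤ 1 := by
  rw [← tsum_treeWeight p hp n]
  refine ENNReal.tsum_le_tsum fun T => mul_le_of_le_one_right bot_le ?_
  rw [ENNReal.ofReal_le_one]
  exact (expect_mono (fam_lik h n T).fam fun a ha => sI_le_one ha).trans
    (expect_const (fam_lik h n T).fam 1).le

lemma avX_tendsto (h : Ineq l qf wf) {p : ℕ → ℝ≥0∞} (hp : ∑' k, p k = 1)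
    (hdl : ENNReal.ofReal (l ^ 2) * ∑' k : ℕ, (k : ℝ≥0∞) * p k ≤ 1) :
    Tendsto (avX p l) atTop (nhds 0) := by
  have hfin : ∀ n, avX p l n ≠ ⊤ := fun n =>
    ne_top_of_le_ne_top ENNReal.one_ne_top (avX_le_one h hp n)
  have hl1 : l ^ 2 < 1 := by linarith [h.kap, sq_nonneg l]
  by_cases hgain : l ≠ 0 ∧ ∃ m, p (m + 2) ≠ 0
  · obtain ⟨hl0, m, hm⟩ := hgain
    have hlp : 0 < l := lt_of_le_of_ne h.l0 (Ne.symm hl0)
    have hA : 0 < gainA l m := mul_pos (pow_pos hlp 5) (pow_pos (by linarith [h.kap]) m)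
    have hB : 0 < gainB l m := mul_pos (div_pos (mul_pos (pow_pos hlp 4) (by linarith)) (by norm_num))
      (pow_pos (by linarith [h.kap]) m)
    have hpf : p (m + 2) ≠ ⊤ :=
      ne_top_of_le_ne_top ENNReal.one_ne_top (hp ▸ ENNReal.le_tsum (m + 2))
    have hpp : 0 < (p (m + 2)).toReal := ENNReal.toReal_pos hm hpf
    set x : ℕ → ℝ := fun n => (avX p l n).toReal with hx
    have hstep : ∀ n, avX p l (n + 1) + ENNReal.ofReal (gainA l m) * p (m + 2) *
        (avX p l n * avG p l n) ≤ avX p l n := fun n =>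
      le_trans (avX_step h hp m n) (mul_le_of_le_one_left bot_le hdl)
    have hanti : ∀ n, avX p l (n + 1) ≤ avX p l n := fun n => le_trans le_self_add (hstep n)
    have hrec : ∀ n, x (n + 1 + 1) +
        gainA l m * gainB l m * (p (m + 2)).toReal ^ 2 * x (n + 1) ^ 3 ≤ x (n + 1) := fun n => by
      have h1 : avX p l (n + 1 + 1) + ENNReal.ofReal (gainA l m) * ENNReal.ofReal (gainB l m) *
          p (m + 2) ^ 2 * avX p l (n + 1) ^ 3 ≤ avX p l (n + 1) := by
        refine le_trans (add_le_add le_rfl ?_) (hstep (n + 1))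
        calc ENNReal.ofReal (gainA l m) * ENNReal.ofReal (gainB l m) * p (m + 2) ^ 2 *
            avX p l (n + 1) ^ 3
            = ENNReal.ofReal (gainA l m) * p (m + 2) * (avX p l (n + 1) *
              (ENNReal.ofReal (gainB l m) * p (m + 2) * (avX p l (n + 1) * avX p l (n + 1)))) := by
              ring
          _ ≤ ENNReal.ofReal (gainA l m) * p (m + 2) * (avX p l (n + 1) *
              (ENNReal.ofReal (gainB l m) * p (m + 2) * (avX p l n * avX p l n))) := by
              gcongr <;> exact hanti n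
          _ ≤ _ := by gcongr; exact avG_step h hp m n
      have h2 := ENNReal.toReal_mono (hfin _) h1
      rw [ENNReal.toReal_add (hfin _) (ENNReal.mul_ne_top (ENNReal.mul_ne_top (ENNReal.mul_ne_top
        ENNReal.ofReal_ne_top ENNReal.ofReal_ne_top) (ENNReal.pow_ne_top hpf))
        (ENNReal.pow_ne_top (hfin _)))] at h2
      simpa [hx, ENNReal.toReal_mul, ENNReal.toReal_pow, ENNReal.toReal_ofReal hA.le,
        ENNReal.toReal_ofReal hB.le] using h2
    have := seq_decay_cube (x := fun n => x (n + 1)) (by positivity)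
      (fun n => ENNReal.toReal_nonneg) hrec
    have h0 := (tendsto_add_atTop_iff_nat 1).mp this
    exact (ENNReal.tendsto_toReal_iff hfin ENNReal.zero_ne_top).mp (by simpa [hx] using h0)
  · have hD : ENNReal.ofReal (l ^ 2) * ∑' k : ℕ, (k : ℝ≥0∞) * p k < 1 := by
      by_cases hl0 : l = 0
      · simp [hl0]
      · have hmean : ∑' k : ℕ, (k : ℝ≥0∞) * p k ≤ 1 := by
          rw [← hp]
          refine ENNReal.tsum_le_tsum fun k => ?_
          rcases k with _ | _ | k
          · simp
          · simp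
          · have : p (k + 2) = 0 := by
              by_contra hne
              exact hgain ⟨hl0, k, hne⟩
            simp [this]
        calc _ ≤ ENNReal.ofReal (l ^ 2) * 1 := mul_le_mul' le_rfl hmean
          _ < 1 := by rw [mul_one]; exact ENNReal.ofReal_lt_one.mpr hl1
    have hb : ∀ n, avX p l n ≤ (ENNReal.ofReal (l ^ 2) * ∑' k : ℕ, (k : ℝ≥0∞) * p k) ^ n := by
      intro n
      induction n with
      | zero => simpa using avX_le_one h hp 0
      | succ n ih =>
        rw [pow_succ']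
        exact le_trans (le_trans le_self_add (avX_step h hp 0 n)) (mul_le_mul' le_rfl ih)
    exact tendsto_of_tendsto_of_tendsto_of_le_of_le tendsto_const_nhds
      (ENNReal.tendsto_pow_atTop_nhds_zero_of_lt_one hD) (fun _ => bot_le) hb

/-- Nonreconstruction on Galton-Watson trees, given the pointwise inequalities. -/
theorem tendsto_gwTV (h : Ineq l qf wf) {p : ℕ → ℝ≥0∞} (hp : ∑' k, p k = 1)
    (hdl : ENNReal.ofReal (l ^ 2) * ∑' k : ℕ, (k : ℝ≥0∞) * p k ≤ 1) :
    Tendsto (gwTV p l) atTop (nhds 0) := by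
  have hlim := avX_tendsto h hp hdl
  rw [ENNReal.tendsto_nhds_zero] at hlim ⊢
  intro ε hε
  rcases eq_or_ne ε ⊤ with rfl | hε'
  · exact Eventually.of_forall fun _ => le_top
  have he : (0 : ℝ) < ε.toReal := ENNReal.toReal_pos hε.ne' hε'
  set e : ℝ := ε.toReal / 2 with hedef
  have he2 : 0 < e := by positivity
  filter_upwards [hlim (ENNReal.ofReal (e * e)) (by simpa using by positivity)] with n hn
  calc gwTV p l n
      ≤ ∑' T : Tr n, (treeWeight p n T * ENNReal.ofReal e + treeWeight p n T *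
          ENNReal.ofReal (expect sI (lik l n T)) * ENNReal.ofReal (1 / e)) := by
        refine ENNReal.tsum_le_tsum fun T => ?_
        rw [mul_assoc, ← mul_add, ← ENNReal.ofReal_mul (expect_sI_nonneg h n T),
          mul_one_div, ← ENNReal.ofReal_add he2.le
            (div_nonneg (expect_sI_nonneg h n T) he2.le)]
        exact mul_le_mul' le_rfl (ENNReal.ofReal_le_ofReal (tv_le h n T he2))
    _ = ENNReal.ofReal e + avX p l n * ENNReal.ofReal (1 / e) := by
        rw [ENNReal.tsum_add, ENNReal.tsum_mul_right, ENNReal.tsum_mul_right,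
          tsum_treeWeight p hp, one_mul, avX]
    _ ≤ ENNReal.ofReal e + ENNReal.ofReal (e * e) * ENNReal.ofReal (1 / e) := by gcongr
    _ = ε := by
        rw [← ENNReal.ofReal_mul (by positivity), show e * e * (1 / e) = e by field_simp,
          ← ENNReal.ofReal_add he2.le he2.le, show e + e = ε.toReal by rw [hedef]; ring,
          ENNReal.ofReal_toReal hε']

/-- The offspring law concentrated at `d`. -/
noncomputable def pointLaw (d : ℕ) (k : ℕ) : ℝ≥0∞ := if k = d then 1 else 0

lemma treeWeight_point (d : ℕ) : ∀ (n : ℕ),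
    treeWeight (pointLaw d) n (regular d n) = 1 ∧
      ∀ T : Tr n, T ≠ regular d n → treeWeight (pointLaw d) n T = 0
  | 0 => ⟨rfl, fun T hT => (hT rfl).elim⟩
  | n + 1 => by
    obtain ⟨h1, h2⟩ := treeWeight_point d n
    refine ⟨?_, fun T hT => ?_⟩
    · show pointLaw d d * ∏ _j : Fin d, treeWeight (pointLaw d) n (regular d n) = 1
      simp [pointLaw, h1]
    · obtain ⟨k, ch⟩ := T
      show pointLaw d k * ∏ j : Fin k, treeWeight (pointLaw d) n (ch j) = 0
      by_cases hk : k = d
      · subst hk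
        obtain ⟨j, hj⟩ : ∃ j, ch j ≠ regular k n := by
          by_contra hall
          push Not at hall
          exact hT (congrArg (Sigma.mk k) (funext hall))
        rw [Finset.prod_eq_zero (Finset.mem_univ j) (h2 _ hj), mul_zero]
      · simp [pointLaw, hk]

/-- Nonreconstruction on regular trees, given the pointwise inequalities. -/
theorem tendsto_tv_regular (h : Ineq l qf wf) {d : ℕ} (hdl : (d : ℝ) * l ^ 2 ≤ 1) :
    Tendsto (fun n => tv l n (regular d n)) atTop (nhds 0) := by
  classical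
  have hp : ∑' k, pointLaw d k = 1 := tsum_ite_eq _ _
  have hmean : ∑' k : ℕ, (k : ℝ≥0∞) * pointLaw d k = d := by
    simp [pointLaw, mul_ite]
  have hd' : ENNReal.ofReal (l ^ 2) * ∑' k : ℕ, (k : ℝ≥0∞) * pointLaw d k ≤ 1 := by
    rw [hmean, ← ENNReal.ofReal_natCast, ← ENNReal.ofReal_mul (sq_nonneg l), ENNReal.ofReal_le_one]
    linarith
  have e : ∀ n, gwTV (pointLaw d) l n = ENNReal.ofReal (tv l n (regular d n)) := fun n => by
    rw [gwTV, tsum_eq_single (regular d n) fun T hT => by simp [(treeWeight_point d n).2 T hT]]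
    simp [(treeWeight_point d n).1]
  have ht := tendsto_gwTV h hp hd'
  rw [show gwTV (pointLaw d) l = fun n => ENNReal.ofReal (tv l n (regular d n)) from funext e,
    ← ENNReal.ofReal_zero] at ht
  have := (ENNReal.tendsto_toReal ENNReal.ofReal_ne_top).comp ht
  simp only [Function.comp_def, ENNReal.toReal_ofReal (tv_nonneg h _ _), ENNReal.ofReal_zero,
    ENNReal.toReal_zero] at this
  exact this

end Vale.Agent.P154.Four
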