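import Vale.Agent.P154.FourAllTrees
import Vale.Agent.P154.FourDecay

/-!
Nonreconstruction for the ferromagnetic four-state Potts channel up to the Kesten-Stigum bound,
for every edge parameter.
-/

open scoped BigOperators ENNReal
open Filter

namespace Vale.Agent.P154.Four.All

open Vale.Agent.P154 (Tr treeWeight node regular poissonLaw tsum_treeWeight tsum_pi_one
  tsum_pi_prod)

variable {l : ℝ}

lemma expect_sI_nonneg (hl : 0 ≤ l) (hu : l ≤ 1) (n : ℕ) (T : Tr n) :
    0 ≤ expect sI (lik l n T) :=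
  expect_nonneg (fam_lik hl hu n T).fam fun a _ => sI_nonneg a

lemma gain_nonneg (hl : 0 ≤ l) : 0 ≤ gA l ∧ 0 ≤ gB l :=
  ⟨mul_nonneg (by norm_num) (pow_nonneg hl 5), div_nonneg (pow_nonneg hl 4) (by norm_num)⟩

lemma avX_step (hl : 0 ≤ l) (hu : l ≤ 1) {p : ℕ → ℝ≥0∞} (hp : ∑' k, p k = 1) (m n : ℕ) :
    avX p l (n + 1) + ENNReal.ofReal (gA l) * p (m + 2) * (avX p l n * avG p l n)
      ≤ (ENNReal.ofReal (l ^ 2) * ∑' k : ℕ, (k : ℝ≥0∞) * p k) * avX p l n := by
  classical
  set G : ℕ → ℝ≥0∞ := fun k =>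
    if k = m + 2 then ENNReal.ofReal (gA l) * p (m + 2) * (avX p l n * avG p l n) else 0
    with hG
  have hk : ∀ k : ℕ, (∑' ch : Fin k → Tr n, (p k * ∏ j, treeWeight p n (ch j)) *
        ENNReal.ofReal (expect sI (lik l (n + 1) (node n k ch)))) + G k
      ≤ ENNReal.ofReal (l ^ 2) * ((k : ℝ≥0∞) * p k) * avX p l n := fun k => by
    rw [avX, ← sum_children hp n k _ fun T => ENNReal.ofReal (expect sI (lik l n T))]
    by_cases h2 : k = m + 2
    · subst h2
      have hne : (Fin.last m).castSucc ≠ Fin.last (m + 1) := (Fin.castSucc_lt_last _).ne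
      rw [hG]
      simp only [if_true, avX, avG]
      rw [← tsum_pi_pair (treeWeight p n)
        (fun T => ENNReal.ofReal (expect sI (lik l n T)))
        (fun T => ENNReal.ofReal (expect pot (lik l n T))) (tsum_treeWeight p hp n) hne,
        ← ENNReal.tsum_mul_left, ← ENNReal.tsum_add]
      refine ENNReal.tsum_le_tsum fun ch => ?_
      have hh : expect sI (lik l (n + 1) (node n (m + 2) ch)) + gA l *
          (expect sI (lik l n (ch (Fin.last m).castSucc)) * expect pot (lik l n (ch (Fin.last (m + 1)))))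
            ≤ l ^ 2 * ∑ j, expect sI (lik l n (ch j)) :=
        @kids_sI_gain l hl hu m (fun j => Cfg n (ch j)) (fun j => cfgFintype n (ch j))
          (fun j => lik l n (ch j)) (fun j => fam_lik hl hu n _)
      have h' := ENNReal.ofReal_le_ofReal hh
      rw [ENNReal.ofReal_add (expect_sI_nonneg hl hu _ _) (mul_nonneg (gain_nonneg hl).1
        (mul_nonneg (expect_sI_nonneg hl hu _ _) (fam_lik hl hu n _).pos)),
        ENNReal.ofReal_mul (gain_nonneg hl).1, ENNReal.ofReal_mul (expect_sI_nonneg hl hu _ _),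
        ENNReal.ofReal_mul (sq_nonneg l),
        ENNReal.ofReal_sum_of_nonneg fun j _ => expect_sI_nonneg hl hu n _] at h'
      refine le_trans (le_of_eq ?_)
        (mul_le_mul' (le_refl (p (m + 2) * ∏ j, treeWeight p n (ch j))) h')
      ring
    · rw [hG]
      simp only [if_neg h2, add_zero]
      refine ENNReal.tsum_le_tsum fun ch => mul_le_mul' le_rfl ?_
      rw [← ENNReal.ofReal_sum_of_nonneg fun j _ => expect_sI_nonneg hl hu n _,
        ← ENNReal.ofReal_mul (sq_nonneg l)]
      exact ENNReal.ofReal_le_ofReal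
        (@kids_sI_le l hl hu k (fun j => Cfg n (ch j))
          (fun j => cfgFintype n (ch j)) (fun j => lik l n (ch j)) (fun j => fam_lik hl hu n _))
  have hsum : ∑' k, G k = ENNReal.ofReal (gA l) * p (m + 2) * (avX p l n * avG p l n) :=
    tsum_ite_eq _ _
  calc _ = ∑' k : ℕ, ((∑' ch : Fin k → Tr n, (p k * ∏ j, treeWeight p n (ch j)) *
        ENNReal.ofReal (expect sI (lik l (n + 1) (node n k ch)))) + G k) := by
        rw [ENNReal.tsum_add, hsum, ← avX_succ p l n sI]; rfl
    _ ≤ ∑' k : ℕ, ENNReal.ofReal (l ^ 2) * ((k : ℝ≥0∞) * p k) * avX p l n :=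
        ENNReal.tsum_le_tsum hk
    _ = _ := by simp only [ENNReal.tsum_mul_right, ENNReal.tsum_mul_left]

lemma avG_step (hl : 0 ≤ l) (hu : l ≤ 1) {p : ℕ → ℝ≥0∞} (hp : ∑' k, p k = 1) (m n : ℕ) :
    ENNReal.ofReal (gB l) * p (m + 2) * (avX p l n * avX p l n) ≤ avG p l (n + 1) := by
  rw [avG, avX_succ p l n pot]
  refine le_trans ?_ (ENNReal.le_tsum (m + 2))
  rw [avX, ← tsum_pi_pair (treeWeight p n)
    (fun T => ENNReal.ofReal (expect sI (lik l n T)))
    (fun T => ENNReal.ofReal (expect sI (lik l n T))) (tsum_treeWeight p hp n)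
    (show (0 : Fin (m + 2)) ≠ Fin.last (m + 1) by simp [Fin.ext_iff]), ← ENNReal.tsum_mul_left]
  refine ENNReal.tsum_le_tsum fun ch => ?_
  have hh : gB l * (expect sI (lik l n (ch 0)) *
      expect sI (lik l n (ch (Fin.last (m + 1)))))
      ≤ expect pot (lik l (n + 1) (node n (m + 2) ch)) :=
    @kids_pot_gain l hl hu m (fun j => Cfg n (ch j)) (fun j => cfgFintype n (ch j))
      (fun j => lik l n (ch j)) (fun j => fam_lik hl hu n _)
  have h' := ENNReal.ofReal_le_ofReal hh
  rw [ENNReal.ofReal_mul (gain_nonneg hl).2, ENNReal.ofReal_mul (expect_sI_nonneg hl hu _ _)] at h'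
  refine le_trans (le_of_eq ?_)
    (mul_le_mul' (le_refl (p (m + 2) * ∏ j, treeWeight p n (ch j))) h')
  ring

lemma avX_le_one (hl : 0 ≤ l) (hu : l ≤ 1) {p : ℕ → ℝ≥0∞} (hp : ∑' k, p k = 1) (n : ℕ) :
    avX p l n ≤ 1 := by
  rw [← tsum_treeWeight p hp n]
  refine ENNReal.tsum_le_tsum fun T => mul_le_of_le_one_right bot_le ?_
  rw [ENNReal.ofReal_le_one]
  exact (expect_mono (fam_lik hl hu n T).fam fun a ha => sI_le_one ha).trans
    (expect_const (fam_lik hl hu n T).fam 1).le

lemma avX_tendsto (hl : 0 ≤ l) (hu : l ≤ 1) {p : ℕ → ℝ≥0∞} (hp : ∑' k, p k = 1)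
    (hdl : ENNReal.ofReal (l ^ 2) * ∑' k : ℕ, (k : ℝ≥0∞) * p k ≤ 1)
    (hns : l < 1 ∨ ∃ k, 2 ≤ k ∧ p k ≠ 0) :
    Tendsto (avX p l) atTop (nhds 0) := by
  have hfin : ∀ n, avX p l n ≠ ⊤ := fun n =>
    ne_top_of_le_ne_top ENNReal.one_ne_top (avX_le_one hl hu hp n)
  by_cases hgain : l ≠ 0 ∧ ∃ m, p (m + 2) ≠ 0
  · obtain ⟨hl0, m, hm⟩ := hgain
    have hlp : 0 < l := lt_of_le_of_ne hl (Ne.symm hl0)
    have hA : 0 < gA l := mul_pos (by norm_num) (pow_pos hlp 5)
    have hB : 0 < gB l := div_pos (pow_pos hlp 4) (by norm_num)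
    have hpf : p (m + 2) ≠ ⊤ :=
      ne_top_of_le_ne_top ENNReal.one_ne_top (hp ▸ ENNReal.le_tsum (m + 2))
    have hpp : 0 < (p (m + 2)).toReal := ENNReal.toReal_pos hm hpf
    set x : ℕ → ℝ := fun n => (avX p l n).toReal with hx
    have hstep : ∀ n, avX p l (n + 1) + ENNReal.ofReal (gA l) * p (m + 2) *
        (avX p l n * avG p l n) ≤ avX p l n := fun n =>
      le_trans (avX_step hl hu hp m n) (mul_le_of_le_one_left bot_le hdl)
    have hanti : ∀ n, avX p l (n + 1) ≤ avX p l n := fun n => le_trans le_self_add (hstep n)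
    have hrec : ∀ n, x (n + 1 + 1) +
        gA l * gB l * (p (m + 2)).toReal ^ 2 * x (n + 1) ^ 3 ≤ x (n + 1) := fun n => by
      have h1 : avX p l (n + 1 + 1) + ENNReal.ofReal (gA l) * ENNReal.ofReal (gB l) *
          p (m + 2) ^ 2 * avX p l (n + 1) ^ 3 ≤ avX p l (n + 1) := by
        refine le_trans (add_le_add le_rfl ?_) (hstep (n + 1))
        calc ENNReal.ofReal (gA l) * ENNReal.ofReal (gB l) * p (m + 2) ^ 2 *
            avX p l (n + 1) ^ 3
            = ENNReal.ofReal (gA l) * p (m + 2) * (avX p l (n + 1) *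
              (ENNReal.ofReal (gB l) * p (m + 2) * (avX p l (n + 1) * avX p l (n + 1)))) := by
              ring
          _ ≤ ENNReal.ofReal (gA l) * p (m + 2) * (avX p l (n + 1) *
              (ENNReal.ofReal (gB l) * p (m + 2) * (avX p l n * avX p l n))) := by
              gcongr <;> exact hanti n
          _ ≤ _ := by gcongr; exact avG_step hl hu hp m n
      have h2 := ENNReal.toReal_mono (hfin _) h1
      rw [ENNReal.toReal_add (hfin _) (ENNReal.mul_ne_top (ENNReal.mul_ne_top (ENNReal.mul_ne_top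
        ENNReal.ofReal_ne_top ENNReal.ofReal_ne_top) (ENNReal.pow_ne_top hpf))
        (ENNReal.pow_ne_top (hfin _)))] at h2
      simpa [hx, ENNReal.toReal_mul, ENNReal.toReal_pow, ENNReal.toReal_ofReal hA.le,
        ENNReal.toReal_ofReal hB.le] using h2
    have := seq_decay_cube (x := fun n => x (n + 1)) (by positivity)
      (fun n => ENNReal.toReal_nonneg) hrec
    have h0 := (tendsto_add_atTop_iff_nat 1).mp this
    exact (ENNReal.tendsto_toReal_iff hfin ENNReal.zero_ne_top).mp (by simpa [hx] using h0)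
  · have hD : ENNReal.ofReal (l ^ 2) * ∑' k : ℕ, (k : ℝ≥0∞) * p k < 1 := by
      by_cases hl0 : l = 0
      · simp [hl0]
      · have hmean : ∑' k : ℕ, (k : ℝ≥0∞) * p k ≤ 1 := by
          rw [← hp]
          refine ENNReal.tsum_le_tsum fun k => ?_
          rcases k with _ | _ | k
          · simp
          · simp
          · have : p (k + 2) = 0 := by
              by_contra hne
              exact hgain ⟨hl0, k, hne⟩
            simp [this]
        have hlt : l < 1 := by
          rcases hns with h1 | ⟨k, hk, hpk⟩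
          · exact h1
          · obtain ⟨m, rfl⟩ : ∃ m, k = m + 2 := ⟨k - 2, by omega⟩
            exact absurd ⟨hl0, m, hpk⟩ hgain
        have hl1 : l ^ 2 < 1 := by nlinarith
        calc _ ≤ ENNReal.ofReal (l ^ 2) * 1 := mul_le_mul' le_rfl hmean
          _ < 1 := by rw [mul_one]; exact ENNReal.ofReal_lt_one.mpr hl1
    have hb : ∀ n, avX p l n ≤ (ENNReal.ofReal (l ^ 2) * ∑' k : ℕ, (k : ℝ≥0∞) * p k) ^ n := by
      intro n
      induction n with
      | zero => simpa using avX_le_one hl hu hp 0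
      | succ n ih =>
        rw [pow_succ']
        exact le_trans (le_trans le_self_add (avX_step hl hu hp 0 n)) (mul_le_mul' le_rfl ih)
    exact tendsto_of_tendsto_of_tendsto_of_le_of_le tendsto_const_nhds
      (ENNReal.tendsto_pow_atTop_nhds_zero_of_lt_one hD) (fun _ => bot_le) hb

/-- Nonreconstruction on Galton-Watson trees, given the pointwise inequalities. -/
theorem gw_nonreconstruction (hl : 0 ≤ l) (hu : l ≤ 1) {p : ℕ → ℝ≥0∞} (hp : ∑' k, p k = 1)
    (hdl : ENNReal.ofReal (l ^ 2) * ∑' k : ℕ, (k : ℝ≥0∞) * p k ≤ 1)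
    (hns : l < 1 ∨ ∃ k, 2 ≤ k ∧ p k ≠ 0) :
    Tendsto (gwTV p l) atTop (nhds 0) := by
  have hlim := avX_tendsto hl hu hp hdl hns
  rw [ENNReal.tendsto_nhds_zero] at hlim ⊢
  intro ε hε
  rcases eq_or_ne ε ⊤ with rfl | hε'
  · exact Eventually.of_forall fun _ => le_top
  have he : (0 : ℝ) < ε.toReal := ENNReal.toReal_pos hε.ne' hε'
  set e : ℝ := ε.toReal / 2 with hedef
  have he2 : 0 < e := by positivity
  filter_upwards [hlim (ENNReal.ofReal (e * e)) (by simpa using by positivity)] with n hn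
  calc gwTV p l n
      ≤ ∑' T : Tr n, (treeWeight p n T * ENNReal.ofReal e + treeWeight p n T *
          ENNReal.ofReal (expect sI (lik l n T)) * ENNReal.ofReal (1 / e)) := by
        refine ENNReal.tsum_le_tsum fun T => ?_
        rw [mul_assoc, ← mul_add, ← ENNReal.ofReal_mul (expect_sI_nonneg hl hu n T),
          mul_one_div, ← ENNReal.ofReal_add he2.le
            (div_nonneg (expect_sI_nonneg hl hu n T) he2.le)]
        exact mul_le_mul' le_rfl (ENNReal.ofReal_le_ofReal (tv_le hl hu n T he2))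
    _ = ENNReal.ofReal e + avX p l n * ENNReal.ofReal (1 / e) := by
        rw [ENNReal.tsum_add, ENNReal.tsum_mul_right, ENNReal.tsum_mul_right,
          tsum_treeWeight p hp, one_mul, avX]
    _ ≤ ENNReal.ofReal e + ENNReal.ofReal (e * e) * ENNReal.ofReal (1 / e) := by gcongr
    _ = ε := by
        rw [← ENNReal.ofReal_mul (by positivity), show e * e * (1 / e) = e by field_simp,
          ← ENNReal.ofReal_add he2.le he2.le, show e + e = ε.toReal by rw [hedef]; ring,
          ENNReal.ofReal_toReal hε']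

/-- Nonreconstruction on regular trees. -/
theorem regular_nonreconstruction {d : ℕ} (h2 : 2 ≤ d) (hl : 0 ≤ l)
    (hdl : (d : ℝ) * l ^ 2 ≤ 1) :
    Tendsto (fun n => tv l n (regular d n)) atTop (nhds 0) := by
  classical
  have hu : l ≤ 1 := by
    have : (2 : ℝ) ≤ d := by exact_mod_cast h2
    nlinarith [mul_le_mul_of_nonneg_right this (sq_nonneg l)]
  have hp : ∑' k, pointLaw d k = 1 := tsum_ite_eq _ _
  have hmean : ∑' k : ℕ, (k : ℝ≥0∞) * pointLaw d k = d := by
    simp [pointLaw, mul_ite]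
  have hd' : ENNReal.ofReal (l ^ 2) * ∑' k : ℕ, (k : ℝ≥0∞) * pointLaw d k ≤ 1 := by
    rw [hmean, ← ENNReal.ofReal_natCast, ← ENNReal.ofReal_mul (sq_nonneg l), ENNReal.ofReal_le_one]
    linarith
  have e : ∀ n, gwTV (pointLaw d) l n = ENNReal.ofReal (tv l n (regular d n)) := fun n => by
    rw [gwTV, tsum_eq_single (regular d n) fun T hT => by simp [(treeWeight_point d n).2 T hT]]
    simp [(treeWeight_point d n).1]
  have ht := gw_nonreconstruction hl hu hp hd' (Or.inr ⟨d, h2, by simp [pointLaw]⟩)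
  rw [show gwTV (pointLaw d) l = fun n => ENNReal.ofReal (tv l n (regular d n)) from funext e,
    ← ENNReal.ofReal_zero] at ht
  have := (ENNReal.tendsto_toReal ENNReal.ofReal_ne_top).comp ht
  simp only [Function.comp_def, ENNReal.toReal_ofReal (tv_nonneg hl hu _ _), ENNReal.ofReal_zero,
    ENNReal.toReal_zero] at this
  exact this

end Vale.Agent.P154.Four.All
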