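import Vale.Agent.P154.FourAllTerms

/-!
The polynomial bounds for a join of two arbitrary posterior ratio vectors.
-/

open scoped BigOperators

namespace Vale.Agent.P154.Four.All

open Check (invS invT invF)

/-- First coordinate. -/
noncomputable def cp (a : Spin → ℝ) : ℝ := (a 0 + a 1 - 2) / 2
/-- Second coordinate. -/
noncomputable def cq (a : Spin → ℝ) : ℝ := (a 0 + a 2 - 2) / 2
/-- Third coordinate. -/
noncomputable def cr (a : Spin → ℝ) : ℝ := (a 0 + a 3 - 2) / 2

lemma vec_coord {a : Spin → ℝ} (h : InS a) : vec (cp a) (cq a) (cr a) = a := by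
  funext i
  have := h.2
  fin_cases i <;> simp [vec, cp, cq, cr] <;> linarith

lemma coord_vec (p q r : ℝ) :
    cp (vec p q r) = p ∧ cq (vec p q r) = q ∧ cr (vec p q r) = r := by
  refine ⟨?_, ?_, ?_⟩ <;> simp [cp, cq, cr, vec] <;> ring

lemma sum_apply (f : Spin → ℝ) (i : Spin) :
    ∑ σ : Equiv.Perm Spin, f (σ i) = 6 * ∑ j, f j := by
  have hu : (Finset.univ : Finset (Equiv.Perm Spin)) = permList.toFinset := by decide
  rw [hu, List.sum_toFinset _ (by decide)]
  fin_cases i <;> simp [permList, Fin.sum_univ_four] <;> ring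

lemma zw_vec (p q r x y z : ℝ) : zw (vec p q r) (vec x y z) = 1 + wd p q r x y z := by
  simp [zw, vec, wd, Fin.sum_univ_four]; ring

lemma sI_vec (p q r : ℝ) : sI (vec p q r) = invS p q r / 3 := by
  simp [sI, vec, invS, Fin.sum_univ_four]; ring

lemma mul_log_mul (x y : ℝ) :
    x * y * Real.log (x * y) = x * y * Real.log x + x * y * Real.log y := by
  rcases eq_or_ne x 0 with rfl | hx
  · simp
  rcases eq_or_ne y 0 with rfl | hy
  · simp
  rw [Real.log_mul hx hy]; ring

lemma ent_comb {a b : Spin → ℝ} (hZ : zw a b ≠ 0) :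
    zw a b * ent (comb a b) = (∑ i, a i * b i * Real.log (a i)) / 4
      + (∑ i, a i * b i * Real.log (b i)) / 4 - zw a b * Real.log (zw a b) := by
  have key : ∀ i, zw a b * (comb a b i * Real.log (comb a b i))
      = a i * b i * Real.log (a i) + a i * b i * Real.log (b i)
        - a i * b i * Real.log (zw a b) := fun i => by
    simp only [comb]
    rw [← mul_assoc, mul_div_cancel₀ _ hZ]
    rcases eq_or_ne (a i * b i) 0 with h0 | h0
    · rw [h0]; simp
    · rw [Real.log_div h0 hZ, mul_sub, mul_log_mul]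
  simp only [ent]
  rw [← mul_div_assoc, Finset.mul_sum, Finset.sum_congr rfl fun i _ => key i,
    Finset.sum_sub_distrib, Finset.sum_add_distrib, ← Finset.sum_mul]
  have : ∑ i, a i * b i = 4 * zw a b := by simp only [zw]; ring
  rw [this]; ring

lemma sum_perm_coord {b : Spin → ℝ} (hb : InS b) (G : (Spin → ℝ) → ℝ) :
    (∑ σ : Equiv.Perm Spin, G fun i => b (σ i))
      = sym (fun x y z => G (vec x y z)) (cp b) (cq b) (cr b) := by
  have := sum_perm G (cp b) (cq b) (cr b)
  rwa [vec_coord hb] at this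

lemma zw_sI {a b : Spin → ℝ} (h : zw a b ≠ 0) :
    3 * (zw a b * sI (comb a b)) = (∑ i, (a i * b i) ^ 2) / 4 / zw a b - zw a b := by
  set Z := zw a b with hZ
  have hc : a 0 * b 0 + a 1 * b 1 + a 2 * b 2 + a 3 * b 3 = 4 * Z := by
    simp [hZ, zw, Fin.sum_univ_four]; ring
  simp only [sI, comb, ← hZ, Fin.sum_univ_four]
  field_simp
  linear_combination (-24 * Z) * hc

lemma wd_range {p q r x y z : ℝ} (ha : InS (vec p q r)) (hb : InS (vec x y z)) :
    -1 ≤ wd p q r x y z ∧ wd p q r x y z ≤ 3 := by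
  have e := zw_vec p q r x y z
  simp only [zw, Fin.sum_univ_four] at e
  have k := fun i => mul_nonneg (ha.1 i) (hb.1 i)
  have hb4 : ∀ i, vec x y z i ≤ 4 := fun i => by
    have := hb.2
    fin_cases i <;> simp only [Fin.zero_eta, Fin.mk_one, Fin.reduceFinMk] <;> linarith [hb.1 0, hb.1 1, hb.1 2, hb.1 3]
  have k' := fun i => mul_le_mul_of_nonneg_left (hb4 i) (ha.1 i)
  constructor
  · linarith [k 0, k 1, k 2, k 3]
  · linarith [k' 0, k' 1, k' 2, k' 3, ha.2]

lemma e2_le {p q r x y z : ℝ} (ha : InS (vec p q r)) (hb : InS (vec x y z)) :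
    e2 p q r x y z ≤ 4 * (1 + wd p q r x y z) ^ 2 := by
  rw [e2_eq, ← zw_vec]
  simp only [zw, Fin.sum_univ_four]
  have k := fun i => mul_nonneg (ha.1 i) (hb.1 i)
  nlinarith [mul_nonneg (k 0) (k 1), mul_nonneg (k 0) (k 2), mul_nonneg (k 0) (k 3),
    mul_nonneg (k 1) (k 2), mul_nonneg (k 1) (k 3), mul_nonneg (k 2) (k 3)]

lemma le_e2_div {p q r x y z : ℝ} (h : 0 < 1 + wd p q r x y z) :
    2 * gc p q r x y z - (1 + wd p q r x y z) * gg p q r x y z
      ≤ e2 p q r x y z / (1 + wd p q r x y z) := by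
  rw [le_div_iff₀ h, e2_eq, gc_eq, gg_eq]
  set Z := 1 + wd p q r x y z
  have k := fun i => sq_nonneg (vec p q r i * vec x y z i
    - Z * gv (vec p q r i - 1) (vec x y z i - 1))
  simp only [Fin.sum_univ_four]
  linarith [k 0, k 1, k 2, k 3]

lemma prod_eq_zero {a b : Spin → ℝ} (ha : InS a) (hb : InS b) (h : zw a b = 0) (i : Spin) :
    a i * b i = 0 := by
  have k := fun j => mul_nonneg (ha.1 j) (hb.1 j)
  have h' : a 0 * b 0 + a 1 * b 1 + a 2 * b 2 + a 3 * b 3 = 0 := by
    simp only [zw, Fin.sum_univ_four] at h; linarith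
  fin_cases i <;> simp only [Fin.zero_eta, Fin.mk_one, Fin.reduceFinMk] <;>
    linarith [k 0, k 1, k 2, k 3]

lemma degenerate {p q r x y z : ℝ} (ha : InS (vec p q r)) (hb : InS (vec x y z))
    (h : 1 + wd p q r x y z = 0) : e2 p q r x y z = 0 ∧ gc p q r x y z = 0 := by
  have k := prod_eq_zero ha hb (by rw [zw_vec]; exact h)
  rw [e2_eq, gc_eq]
  simp [k]

lemma sI_comb_le {p q r x y z : ℝ} (ha : InS (vec p q r)) (hb : InS (vec x y z)) :
    zw (vec p q r) (vec x y z) * sI (comb (vec p q r) (vec x y z))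
      ≤ lc upL p q r x y z / 3 := by
  obtain ⟨h0, h1⟩ := wd_range ha hb
  have ez := zw_vec p q r x y z
  rw [upL_eq]
  by_cases hz : 1 + wd p q r x y z = 0
  · rw [ez, hz, (degenerate ha hb hz).1]; simp
  · have hp : 0 < 1 + wd p q r x y z := lt_of_le_of_ne (by linarith) (Ne.symm hz)
    have e := zw_sI (a := vec p q r) (b := vec x y z) (by rw [ez]; exact hz)
    rw [ez, ← e2_eq] at e
    rw [ez]
    set w := wd p q r x y z
    set E := e2 p q r x y z
    have hE : E / (1 + w) ≤ 4 * (1 + w) := by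
      rw [div_le_iff₀ hp]
      linarith [e2_le ha hb]
    have hm := mul_nonneg (mul_nonneg (sq_nonneg w) (puA_le h0 h1)) (sub_nonneg.mpr hE)
    have hid : E / (1 + w) = E * (1 - w) + w ^ 2 * (E / (1 + w)) := by field_simp; ring
    have hid2 : E / (1 + w) * (1 + w) = E := div_mul_cancel₀ _ hz
    linear_combination (1 / 3) * hm + (1 / 3) * e + (1 / 3) * hid
      + (w ^ 2 * puA w / 3) * hid2

lemma sI_comb_ge {p q r x y z : ℝ} (ha : InS (vec p q r)) (hb : InS (vec x y z)) :
    lc loL p q r x y z / 3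
      ≤ zw (vec p q r) (vec x y z) * sI (comb (vec p q r) (vec x y z)) := by
  obtain ⟨h0, h1⟩ := wd_range ha hb
  have ez := zw_vec p q r x y z
  rw [loL_eq]
  by_cases hz : 1 + wd p q r x y z = 0
  · rw [ez, hz, (degenerate ha hb hz).1, (degenerate ha hb hz).2]; simp
  · have hp : 0 < 1 + wd p q r x y z := lt_of_le_of_ne (by linarith) (Ne.symm hz)
    have e := zw_sI (a := vec p q r) (b := vec x y z) (by rw [ez]; exact hz)
    rw [ez, ← e2_eq] at e
    rw [ez]
    have hE := le_e2_div hp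
    set w := wd p q r x y z
    set E := e2 p q r x y z
    have hm := mul_nonneg (mul_nonneg (sq_nonneg w) (plA_le h0 h1)) (sub_nonneg.mpr hE)
    have hid : E / (1 + w) = E * (1 - w) + w ^ 2 * (E / (1 + w)) := by field_simp; ring
    have hid2 : E / (1 + w) * (1 + w) = E := div_mul_cancel₀ _ hz
    linear_combination (1 / 3) * hm - (1 / 3) * e - (1 / 3) * hid
      - (w ^ 2 * plA w / 3) * hid2

lemma sum_perm_lc {a b : Spin → ℝ} (hb : InS b) (l : List (ℝ × ℕ × Kind)) :
    ∑ σ : Equiv.Perm Spin, lc l (cp a) (cq a) (cr a) (cp fun i => b (σ i))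
        (cq fun i => b (σ i)) (cr fun i => b (σ i))
      = lcAvg l (cp a) (cq a) (cr a) (cp b) (cq b) (cr b) := by
  rw [sum_perm_coord hb (fun v => lc l (cp a) (cq a) (cr a) (cp v) (cq v) (cr v)), ← sym_lc]
  simp only [coord_vec]

lemma InS.perm {b : Spin → ℝ} (hb : InS b) (σ : Equiv.Perm Spin) : InS fun i => b (σ i) := by
  refine ⟨fun i => hb.1 _, ?_⟩
  have := Equiv.sum_comp σ b
  simp only [Fin.sum_univ_four] at this
  rw [this]; exact hb.2

lemma avc_sI_le {a b : Spin → ℝ} (ha : InS a) (hb : InS b) :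
    avc sI a b ≤ 1 / 72 * lcAvg upL (cp a) (cq a) (cr a) (cp b) (cq b) (cr b) := by
  have h1 : ∑ σ : Equiv.Perm Spin, zw a (fun i => b (σ i)) * sI (comb a fun i => b (σ i))
      ≤ ∑ σ : Equiv.Perm Spin, lc upL (cp a) (cq a) (cr a) (cp fun i => b (σ i))
        (cq fun i => b (σ i)) (cr fun i => b (σ i)) / 3 := by
    refine Finset.sum_le_sum fun σ _ => ?_
    have hσ := InS.perm hb σ
    have := sI_comb_le (p := cp a) (q := cq a) (r := cr a) (by rw [vec_coord ha]; exact ha)
      (x := cp fun i => b (σ i)) (y := cq fun i => b (σ i)) (z := cr fun i => b (σ i))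
      (by rw [vec_coord hσ]; exact hσ)
    rwa [vec_coord ha, vec_coord hσ] at this
  rw [← Finset.sum_div, sum_perm_lc hb] at h1
  rw [avc]
  refine le_trans (mul_le_mul_of_nonneg_left h1 (by norm_num)) (le_of_eq ?_)
  ring

lemma avc_pot_ge {a b : Spin → ℝ} (ha : InS a) (hb : InS b)
    (hh : ∀ p q r x y z : ℝ, -1 ≤ wd p q r x y z → wd p q r x y z ≤ 3 →
      lc zlL p q r x y z ≤ (1 + wd p q r x y z) * Real.log (1 + wd p q r x y z)) :
    1 / 12 * lcAvg loL (cp a) (cq a) (cr a) (cp b) (cq b) (cr b)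
      + 1 / 6 * lcAvg zlL (cp a) (cq a) (cr a) (cp b) (cq b) (cr b) - 4 * ent a - 4 * ent b
      ≤ avc pot a b := by
  have hz : ∀ σ : Equiv.Perm Spin,
      2 * lc loL (cp a) (cq a) (cr a) (cp fun i => b (σ i)) (cq fun i => b (σ i))
          (cr fun i => b (σ i))
        + 4 * lc zlL (cp a) (cq a) (cr a) (cp fun i => b (σ i)) (cq fun i => b (σ i))
          (cr fun i => b (σ i))
        - (∑ i, a i * b (σ i) * Real.log (a i)) - (∑ i, a i * b (σ i) * Real.log (b (σ i)))
        ≤ zw a (fun i => b (σ i)) * pot (comb a fun i => b (σ i)) := fun σ => by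
    have hσ := InS.perm hb σ
    set v : Spin → ℝ := fun i => b (σ i) with hv
    have ha' : InS (vec (cp a) (cq a) (cr a)) := by rw [vec_coord ha]; exact ha
    have hv' : InS (vec (cp v) (cq v) (cr v)) := by rw [vec_coord hσ]; exact hσ
    have h1 := sI_comb_ge ha' hv'
    have h2 := wd_range ha' hv'
    have h3 := hh _ _ _ _ _ _ h2.1 h2.2
    have e := zw_vec (cp a) (cq a) (cr a) (cp v) (cq v) (cr v)
    rw [vec_coord ha, vec_coord hσ] at h1 e
    rw [← e] at h3
    by_cases hz : zw a v = 0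
    · have k := prod_eq_zero ha hσ hz
      simp only [hz, zero_mul] at h1 h3 ⊢
      simp only [hv] at k
      simp only [k, zero_mul, Finset.sum_const_zero]
      linarith
    · have h5 := ent_comb (a := a) (b := v) hz
      simp only [pot, mul_sub, mul_left_comm (zw a v)]
      rw [h5]
      simp only [hv] at *
      linarith
  have h6 := Finset.sum_le_sum (s := Finset.univ) fun σ (_ : σ ∈ Finset.univ) => hz σ
  simp only [Finset.sum_sub_distrib, Finset.sum_add_distrib, ← Finset.mul_sum] at h6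
  rw [sum_perm_lc hb loL, sum_perm_lc hb zlL] at h6
  have ea : ∑ σ : Equiv.Perm Spin, ∑ i, a i * b (σ i) * Real.log (a i) = 96 * ent a := by
    rw [Finset.sum_comm]
    simp only [← Finset.sum_mul, ← Finset.mul_sum, sum_apply b]
    simp only [Fin.sum_univ_four, ent, hb.2]; ring
  have eb : ∑ σ : Equiv.Perm Spin, ∑ i, a i * b (σ i) * Real.log (b (σ i)) = 96 * ent b := by
    rw [Finset.sum_comm]
    simp only [mul_assoc, ← Finset.mul_sum, sum_apply fun j => b j * Real.log (b j)]
    simp only [Fin.sum_univ_four, ent]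
    linear_combination (6 * (b 0 * Real.log (b 0) + b 1 * Real.log (b 1) + b 2 * Real.log (b 2)
      + b 3 * Real.log (b 3))) * ha.2
  rw [ea, eb] at h6
  rw [avc]
  linarith

end Vale.Agent.P154.Four.All
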