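import Vale.Agent.P154.KS

/-!
The Kesten-Stigum converse averaged over Galton-Watson trees with finite second moment,
its Poisson case, and the transfer to the three-state definitions.
-/

open scoped BigOperators ENNReal
open Filter

namespace Vale.Agent.P154.KS

lemma tsum_tree_succ (p : ℕ → ℝ≥0∞) (n : ℕ) (G : Tr (n + 1) → ℝ≥0∞) :
    ∑' T : Tr (n + 1), treeWeight p (n + 1) T * G T
      = ∑' k : ℕ, p k * ∑' ch : Fin k → Tr n, (∏ j, treeWeight p n (ch j)) * G (node n k ch) := by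
  show ∑' T : (Σ k : ℕ, Fin k → Tr n), (p T.1 * ∏ j, treeWeight p n (T.2 j)) * G T = _
  refine (ENNReal.tsum_sigma' _).trans (tsum_congr fun k => ?_)
  rw [← ENNReal.tsum_mul_left]
  exact tsum_congr fun ch => mul_assoc _ _ _

lemma tsum_children_sum {α : Type} {k : ℕ} (w f : α → ℝ≥0∞) (hw : ∑' a, w a = 1) :
    ∑' c : Fin k → α, (∏ j, w (c j)) * ∑ j, f (c j) = (k : ℝ≥0∞) * ∑' a, w a * f a := by
  simp only [Finset.mul_sum]
  rw [Summable.tsum_finsetSum fun i _ => ENNReal.summable,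
    Finset.sum_congr rfl fun i _ => tsum_pi_one w f hw i]
  simp

lemma tsum_children_sq {α : Type} {k : ℕ} (w f : α → ℝ≥0∞) (hw : ∑' a, w a = 1) :
    ∑' c : Fin k → α, (∏ j, w (c j)) * (∑ j, f (c j)) ^ 2
      = (k : ℝ≥0∞) * ∑' a, w a * f a ^ 2
        + ((k * (k - 1) : ℕ) : ℝ≥0∞) * (∑' a, w a * f a) ^ 2 := by
  classical
  have e : ∀ a b : Fin k, ∑' c : Fin k → α, (∏ j, w (c j)) * (f (c a) * f (c b))
      = if b = a then ∑' x, w x * f x ^ 2 else (∑' x, w x * f x) ^ 2 := fun a b => by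
    by_cases h : b = a
    · subst h
      rw [if_pos rfl]
      simp only [← pow_two]
      exact tsum_pi_one w (fun x => f x ^ 2) hw b
    · rw [if_neg h]
      exact tsum_pi_two w f hw (Ne.symm h)
  have e0 : ∀ c : Fin k → α, (∏ j, w (c j)) * (∑ j, f (c j)) ^ 2
      = ∑ a, ∑ b, (∏ j, w (c j)) * (f (c a) * f (c b)) := fun c => by
    rw [pow_two, Finset.sum_mul_sum]
    simp only [Finset.mul_sum]
  rw [tsum_congr e0,
    Summable.tsum_finsetSum fun i _ => ENNReal.summable]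
  simp only [Summable.tsum_finsetSum fun i _ => ENNReal.summable, e]
  have r : ∀ a : Fin k, (∑ b, if b = a then ∑' x, w x * f x ^ 2 else (∑' x, w x * f x) ^ 2)
      = (∑' x, w x * f x ^ 2) + ((k - 1 : ℕ) : ℝ≥0∞) * (∑' x, w x * f x) ^ 2 := fun a => by
    rw [← Finset.add_sum_erase _ _ (Finset.mem_univ a), if_pos rfl,
      Finset.sum_congr rfl fun b hb => if_neg (Finset.ne_of_mem_erase hb), Finset.sum_const,
      Finset.card_erase_of_mem (Finset.mem_univ a), Finset.card_univ, Fintype.card_fin,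
      nsmul_eq_mul]
  rw [Finset.sum_congr rfl fun a _ => r a, Finset.sum_const, Finset.card_univ, Fintype.card_fin,
    nsmul_eq_mul, Nat.cast_mul]
  ring

lemma spread_nonneg (l : ℝ) : ∀ (n : ℕ) (T : Tr n), 0 ≤ spread l n T
  | 0, _ => zero_le_one
  | n + 1, T => add_nonneg (Finset.sum_nonneg fun j _ => spread_nonneg l n (T.2 j))
      (by positivity)

variable {p : ℕ → ℝ≥0∞} {d F l : ℝ}

lemma tsum_leaves (hp : ∑' k, p k = 1)
    (hm : ∑' k : ℕ, (k : ℝ≥0∞) * p k = ENNReal.ofReal d) :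
    ∀ n, ∑' T : Tr n, treeWeight p n T * (leaves n T : ℝ≥0∞) = ENNReal.ofReal d ^ n
  | 0 => by
    show ∑' _T : Unit, (1 : ℝ≥0∞) * ((1 : ℕ) : ℝ≥0∞) = _
    simp [tsum_fintype]
  | n + 1 => by
    rw [tsum_tree_succ]
    have e : ∀ (k : ℕ) (ch : Fin k → Tr n),
        (leaves (n + 1) (node n k ch) : ℝ≥0∞) = ∑ j, (leaves n (ch j) : ℝ≥0∞) := fun k ch =>
      Nat.cast_sum Finset.univ fun j : Fin k => leaves n (ch j)
    simp only [e, tsum_children_sum (treeWeight p n) (fun T => (leaves n T : ℝ≥0∞))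
      (tsum_treeWeight p hp n), tsum_leaves hp hm n]
    rw [tsum_congr fun k => (mul_left_comm (p k) (k : ℝ≥0∞) _).trans (mul_assoc _ _ _).symm,
      ENNReal.tsum_mul_right, hm, pow_succ']

lemma tsum_leaves_sq (hp : ∑' k, p k = 1)
    (hm : ∑' k : ℕ, (k : ℝ≥0∞) * p k = ENNReal.ofReal d) (hd : 1 < d) (hF0 : 0 ≤ F)
    (hF : ∑' k : ℕ, ((k * (k - 1) : ℕ) : ℝ≥0∞) * p k ≤ ENNReal.ofReal F) :
    ∀ n, ∑' T : Tr n, treeWeight p n T * (leaves n T : ℝ≥0∞) ^ 2
      ≤ ENNReal.ofReal ((1 + F / (d * (d - 1))) * (d ^ 2) ^ n)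
  | 0 => by
    show ∑' _T : Unit, (1 : ℝ≥0∞) * ((1 : ℕ) : ℝ≥0∞) ^ 2 ≤ _
    simp only [tsum_fintype, Nat.cast_one, one_pow, mul_one, pow_zero, Finset.univ_unique,
      Finset.sum_singleton]
    exact ENNReal.one_le_ofReal.2 (le_add_of_nonneg_right
      (div_nonneg hF0 (mul_nonneg (by linarith) (by linarith))))
  | n + 1 => by
    rw [tsum_tree_succ]
    have hd1 : (0 : ℝ) < d - 1 := by linarith
    have hd0 : (0 : ℝ) < d := by linarith
    have e : ∀ (k : ℕ) (ch : Fin k → Tr n),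
        (leaves (n + 1) (node n k ch) : ℝ≥0∞) = ∑ j, (leaves n (ch j) : ℝ≥0∞) := fun k ch =>
      Nat.cast_sum Finset.univ fun j : Fin k => leaves n (ch j)
    simp only [e, tsum_children_sq (treeWeight p n) (fun T => (leaves n T : ℝ≥0∞))
      (tsum_treeWeight p hp n), tsum_leaves hp hm n]
    rw [tsum_congr fun k => (by ring :
      p k * ((k : ℝ≥0∞) * (∑' T : Tr n, treeWeight p n T * (leaves n T : ℝ≥0∞) ^ 2)
        + ((k * (k - 1) : ℕ) : ℝ≥0∞) * (ENNReal.ofReal d ^ n) ^ 2)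
      = (k : ℝ≥0∞) * p k * (∑' T : Tr n, treeWeight p n T * (leaves n T : ℝ≥0∞) ^ 2)
        + ((k * (k - 1) : ℕ) : ℝ≥0∞) * p k * (ENNReal.ofReal d ^ n) ^ 2),
      ENNReal.tsum_add, ENNReal.tsum_mul_right, ENNReal.tsum_mul_right, hm]
    refine (add_le_add (mul_le_mul' le_rfl (tsum_leaves_sq hp hm hd hF0 hF n))
      (mul_le_mul' hF le_rfl)).trans ?_
    rw [← ENNReal.ofReal_pow hd0.le, ← ENNReal.ofReal_pow (by positivity),
      ← ENNReal.ofReal_mul hd0.le, ← ENNReal.ofReal_mul hF0,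
      ← ENNReal.ofReal_add (by positivity) (by positivity)]
    refine ENNReal.ofReal_le_ofReal (sub_nonneg.1 ?_)
    have e3 : (1 + F / (d * (d - 1))) * (d ^ 2) ^ (n + 1)
        - (d * ((1 + F / (d * (d - 1))) * (d ^ 2) ^ n) + F * (d ^ n) ^ 2)
        = (d ^ 2) ^ n * (d * (d - 1)) := by
      field_simp
      ring
    rw [e3]
    positivity

lemma tsum_spread (hp : ∑' k, p k = 1)
    (hm : ∑' k : ℕ, (k : ℝ≥0∞) * p k = ENNReal.ofReal d) (hd : 1 < d) (hF0 : 0 ≤ F)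
    (hF : ∑' k : ℕ, ((k * (k - 1) : ℕ) : ℝ≥0∞) * p k ≤ ENNReal.ofReal F) (h : 1 < d * l ^ 2) :
    ∀ n, ∑' T : Tr n, treeWeight p n T * ENNReal.ofReal (spread l n T)
      ≤ ENNReal.ofReal ((1 + F / (d * (d - 1))) * (d * l ^ 2 / (d * l ^ 2 - 1))
          * ((d * l) ^ 2) ^ n)
  | 0 => by
    show ∑' _T : Unit, (1 : ℝ≥0∞) * ENNReal.ofReal 1 ≤ _
    simp only [tsum_fintype, ENNReal.ofReal_one, mul_one, pow_zero, Finset.univ_unique,
      Finset.sum_singleton]
    refine ENNReal.one_le_ofReal.2 (one_le_mul_of_one_le_of_one_le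
      (le_add_of_nonneg_right (div_nonneg hF0 (mul_nonneg (by linarith) (by linarith)))) ?_)
    rw [le_div_iff₀ (by linarith)]
    linarith
  | n + 1 => by
    rw [tsum_tree_succ]
    have hd0 : (0 : ℝ) < d := by linarith
    have hd1 : (0 : ℝ) < d - 1 := by linarith
    have hr : (0 : ℝ) < d * l ^ 2 - 1 := by linarith
    have e : ∀ (k : ℕ) (ch : Fin k → Tr n), ENNReal.ofReal (spread l (n + 1) (node n k ch))
        = ∑ j, ENNReal.ofReal (spread l n (ch j))
          + ENNReal.ofReal ((l ^ 2) ^ (n + 1)) * (leaves (n + 1) (node n k ch) : ℝ≥0∞) ^ 2 :=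
        fun k ch => by
      show ENNReal.ofReal (∑ j, spread l n (ch j)
        + (l ^ 2) ^ (n + 1) * (leaves (n + 1) (node n k ch) : ℝ) ^ 2) = _
      rw [ENNReal.ofReal_add (Finset.sum_nonneg fun j _ => spread_nonneg l n _) (by positivity),
        ENNReal.ofReal_sum_of_nonneg fun j _ => spread_nonneg l n _,
        ENNReal.ofReal_mul (by positivity), ENNReal.ofReal_pow (Nat.cast_nonneg _),
        ENNReal.ofReal_natCast]
    simp only [e, mul_add, ENNReal.tsum_add, tsum_children_sum (treeWeight p n)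
      (fun T => ENNReal.ofReal (spread l n T)) (tsum_treeWeight p hp n)]
    have hS := tsum_leaves_sq hp hm hd hF0 hF (n + 1)
    rw [tsum_tree_succ] at hS
    have e2 : ∀ k : ℕ, p k * ∑' ch : Fin k → Tr n, (∏ j, treeWeight p n (ch j)) *
        (ENNReal.ofReal ((l ^ 2) ^ (n + 1)) * (leaves (n + 1) (node n k ch) : ℝ≥0∞) ^ 2)
        = ENNReal.ofReal ((l ^ 2) ^ (n + 1)) * (p k * ∑' ch : Fin k → Tr n,
            (∏ j, treeWeight p n (ch j)) * (leaves (n + 1) (node n k ch) : ℝ≥0∞) ^ 2) :=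
        fun k => by
      rw [tsum_congr fun ch => mul_left_comm _ _ _, ENNReal.tsum_mul_left, mul_left_comm]
    rw [tsum_congr e2, ENNReal.tsum_mul_left,
      tsum_congr fun k => (mul_left_comm (p k) (k : ℝ≥0∞) _).trans (mul_assoc _ _ _).symm,
      ENNReal.tsum_mul_right, hm]
    refine (add_le_add (mul_le_mul' le_rfl (tsum_spread hp hm hd hF0 hF h n))
      (mul_le_mul' le_rfl hS)).trans (le_of_eq ?_)
    rw [← ENNReal.ofReal_mul hd0.le, ← ENNReal.ofReal_mul (by positivity),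
      ← ENNReal.ofReal_add (by positivity) (by positivity)]
    congr 1
    field_simp
    ring

/-- Reconstruction above the Kesten-Stigum threshold on Galton-Watson trees whose offspring
law has mean `d` and finite second moment. -/
theorem gwTVQ_ge {q : ℕ} (hq : 2 ≤ q) (hl : -(1 / ((q : ℝ) - 1)) ≤ l) (hu : l ≤ 1)
    (hp : ∑' k, p k = 1) (hm : ∑' k : ℕ, (k : ℝ≥0∞) * p k = ENNReal.ofReal d) (hF0 : 0 ≤ F)
    (hF : ∑' k : ℕ, ((k * (k - 1) : ℕ) : ℝ≥0∞) * p k ≤ ENNReal.ofReal F) (h : 1 < d * l ^ 2) :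
    ∃ c : ℝ, 0 < c ∧ ∀ n, ENNReal.ofReal c ≤ gwTVQ q p l n := by
  have : NeZero q := ⟨by omega⟩
  have hqR : (2 : ℝ) ≤ q := by exact_mod_cast hq
  have hl1 : -1 ≤ l := le_trans (by
    rw [neg_le_neg_iff, div_le_one (by linarith)]; linarith) hl
  have hd : 1 < d := by
    have h2 : l ^ 2 ≤ 1 := by nlinarith
    rcases le_or_gt d 1 with h3 | h3
    · nlinarith [mul_le_mul_of_nonneg_right h3 (sq_nonneg l)]
    · exact h3
  have hd0 : (0 : ℝ) < d := by linarith
  have hd1 : (0 : ℝ) < d - 1 := by linarith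
  have hr : (0 : ℝ) < d * l ^ 2 - 1 := by linarith
  set C : ℝ := (1 + F / (d * (d - 1))) * (d * l ^ 2 / (d * l ^ 2 - 1)) with hC
  have hC0 : 0 < C := mul_pos (by positivity) (div_pos (by linarith) hr)
  set a : ℝ := 1 - 1 / (q : ℝ) with ha
  have ha0 : 0 < a := by rw [ha, sub_pos, div_lt_one (by linarith)]; linarith
  refine ⟨a ^ 2 / (2 * (q : ℝ) ^ 2 * C), by positivity, fun n => ?_⟩
  have hl0 : l ≠ 0 := fun e => by rw [e] at h; norm_num at h
  set Y : ℝ := d ^ n * |l ^ n| with hY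
  have hY0 : 0 < Y := mul_pos (by positivity) (abs_pos.2 (pow_ne_zero n hl0))
  set τ : ℝ := a / ((q : ℝ) * C * Y) with hτ
  have hτ0 : 0 < τ := by positivity
  obtain ⟨t, ht1, ht2⟩ : ∃ t, t * l ^ n = τ * |l ^ n| ∧ t ^ 2 = τ ^ 2 := by
    rcases abs_choice (l ^ n) with e | e <;> rw [e]
    · exact ⟨τ, rfl, rfl⟩
    · exact ⟨-τ, by ring, by ring⟩
  have hpt : ∀ T : Tr n, ENNReal.ofReal (τ * a * |l ^ n|) * (leaves n T : ℝ≥0∞)
      ≤ ENNReal.ofReal q * ENNReal.ofReal (tvQ q l n T)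
        + ENNReal.ofReal (τ ^ 2 * q / 2) * ENNReal.ofReal (spread l n T) := fun T => by
    have h1 := census_test hq hl hu n T t
    rw [← ha, ht2] at h1
    have e : τ * a * |l ^ n| * (leaves n T : ℝ) = t * a * (l ^ n * (leaves n T : ℝ)) := by
      linear_combination (-(a * (leaves n T : ℝ))) * ht1
    rw [← ENNReal.ofReal_natCast, ← ENNReal.ofReal_mul (by positivity),
      ← ENNReal.ofReal_mul (by positivity), ← ENNReal.ofReal_mul (by positivity),
      ← ENNReal.ofReal_add (mul_nonneg (by positivity) (tvQ_nonneg hq hl hu n T))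
        (mul_nonneg (by positivity) (spread_nonneg l n T)), e]
    exact ENNReal.ofReal_le_ofReal h1
  have hsum := ENNReal.tsum_le_tsum fun T : Tr n =>
    mul_le_mul' (le_refl (treeWeight p n T)) (hpt T)
  simp only [mul_add, ENNReal.tsum_add, mul_left_comm (treeWeight p n _),
    ENNReal.tsum_mul_left, tsum_leaves hp hm n] at hsum
  have hS := tsum_spread hp hm hd hF0 hF h n
  rw [← hC] at hS
  have hsum' := hsum.trans (add_le_add le_rfl (mul_le_mul' le_rfl hS))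
  rw [← ENNReal.ofReal_pow hd0.le, ← ENNReal.ofReal_mul (by positivity),
    ← ENNReal.ofReal_mul (by positivity)] at hsum'
  have e1 : τ * a * |l ^ n| * d ^ n = a ^ 2 / ((q : ℝ) * C) := by
    rw [hτ, hY]; field_simp
  have e2 : τ ^ 2 * (q : ℝ) / 2 * (C * ((d * l) ^ 2) ^ n) = a ^ 2 / ((q : ℝ) * C) / 2 := by
    have e : ((d * l) ^ 2) ^ n = Y ^ 2 := by
      rw [hY, mul_pow (d ^ n), sq_abs]; ring
    rw [e, hτ]; field_simp
  rw [e1, e2] at hsum'
  show _ ≤ gwTVQ q p l n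
  rcases eq_or_ne (gwTVQ q p l n) ⊤ with hG | hG
  · rw [hG]; exact le_top
  have h3 := ENNReal.toReal_mono
    (ENNReal.add_ne_top.2 ⟨ENNReal.mul_ne_top ENNReal.ofReal_ne_top hG, ENNReal.ofReal_ne_top⟩)
    hsum'
  rw [ENNReal.toReal_add (ENNReal.mul_ne_top ENNReal.ofReal_ne_top hG) ENNReal.ofReal_ne_top,
    ENNReal.toReal_mul, ENNReal.toReal_ofReal (Nat.cast_nonneg q),
    ENNReal.toReal_ofReal (by positivity), ENNReal.toReal_ofReal (by positivity)] at h3
  refine ENNReal.ofReal_le_of_le_toReal (le_of_mul_le_mul_left ?_ (by linarith : (0 : ℝ) < q))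
  have e3 : (q : ℝ) * (a ^ 2 / (2 * (q : ℝ) ^ 2 * C)) = a ^ 2 / ((q : ℝ) * C) / 2 := by field_simp
  rw [e3]
  simp only [gwTVQ] at h3 ⊢
  linarith

lemma poissonLaw_moment (hd : 0 ≤ d) :
    ∑' k : ℕ, ((k * (k - 1) : ℕ) : ℝ≥0∞) * poissonLaw d k = ENNReal.ofReal (d ^ 2) := by
  have e : ∀ j : ℕ, (((j + 2) * (j + 2 - 1) : ℕ) : ℝ≥0∞) * poissonLaw d (j + 2)
      = ENNReal.ofReal (d ^ 2) * poissonLaw d j := fun j => by
    rw [poissonLaw, poissonLaw, ← ENNReal.ofReal_natCast, ← ENNReal.ofReal_mul (Nat.cast_nonneg _),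
      ← ENNReal.ofReal_mul (by positivity), show j + 2 - 1 = j + 1 from rfl,
      Nat.factorial_succ, Nat.factorial_succ]
    apply congrArg ENNReal.ofReal
    push_cast
    field_simp
    ring
  rw [tsum_eq_zero_add' ENNReal.summable, tsum_eq_zero_add' ENNReal.summable, tsum_congr e,
    ENNReal.tsum_mul_left, poissonLaw_sum hd, mul_one]
  simp

/-- Reconstruction above the Kesten-Stigum threshold on the Poisson Galton-Watson tree. -/
theorem gwTVQ_poisson_ge {q : ℕ} (hq : 2 ≤ q) (hl : -(1 / ((q : ℝ) - 1)) ≤ l) (hu : l ≤ 1)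
    (hd : 0 ≤ d) (h : 1 < d * l ^ 2) :
    ∃ c : ℝ, 0 < c ∧ ∀ n, ENNReal.ofReal c ≤ gwTVQ q (poissonLaw d) l n :=
  gwTVQ_ge hq hl hu (poissonLaw_sum hd) (poissonLaw_mean hd) (sq_nonneg d)
    (poissonLaw_moment hd).le h

/-- Configurations with three states, in both notations. -/
noncomputable def cfgEquiv : (n : ℕ) → (T : Tr n) → CfgQ 3 n T ≃ Cfg n T
  | 0, _ => Equiv.refl (Fin 3)
  | n + 1, T => Equiv.piCongrRight fun j => cfgEquiv n (T.2 j)

lemma chanQ_three (l : ℝ) (i j : Fin 3) : chanQ 3 l i j = chan l i j := by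
  simp [chanQ, chan]

lemma likQ_three (l : ℝ) : ∀ (n : ℕ) (T : Tr n) (c : CfgQ 3 n T) (i : Fin 3),
    likQ 3 l n T c i = lik l n T (cfgEquiv n T c) i
  | 0, _, _, _ => rfl
  | n + 1, T, c, i => by
    show ∏ j, ∑ s, chanQ 3 l i s * likQ 3 l n (T.2 j) (c j) s
      = ∏ j, ∑ s, chan l i s * lik l n (T.2 j) (cfgEquiv n (T.2 j) (c j)) s
    simp only [chanQ_three, likQ_three l n]

lemma tvQ_three (l : ℝ) (n : ℕ) (T : Tr n) : tvQ 3 l n T = tv l n T := by
  refine Fintype.sum_equiv (cfgEquiv n T) _ _ fun c => ?_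
  simp only [probQ, prob, likQ_three, Nat.cast_ofNat]

lemma gwTVQ_three (p : ℕ → ℝ≥0∞) (l : ℝ) (n : ℕ) : gwTVQ 3 p l n = gwTV p l n := by
  simp only [gwTVQ, gwTV, tvQ_three]

lemma not_tendsto_of_ge {f : ℕ → ℝ} {c : ℝ} (hc : 0 < c) (h : ∀ n, c ≤ f n) :
    ¬ Tendsto f atTop (nhds 0) := fun ht =>
  not_le.2 hc (ge_of_tendsto ht (Eventually.of_forall h))

lemma not_tendsto_of_ge' {f : ℕ → ℝ≥0∞} {c : ℝ} (hc : 0 < c)
    (h : ∀ n, ENNReal.ofReal c ≤ f n) : ¬ Tendsto f atTop (nhds 0) := fun ht =>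
  not_le.2 (ENNReal.ofReal_pos.2 hc) (ge_of_tendsto ht (Eventually.of_forall h))

/-- Three states, regular tree, in the notation of the nonreconstruction theorems. -/
theorem not_tendsto_tv_regular {d : ℕ} {l : ℝ} (hl : -(1 / 2) ≤ l) (hu : l ≤ 1)
    (h : 1 < (d : ℝ) * l ^ 2) : ¬ Tendsto (fun n => tv l n (regular d n)) atTop (nhds 0) := by
  obtain ⟨c, hc, hn⟩ := tvQ_regular_ge (q := 3) (by norm_num) (by norm_num; linarith) hu h
  exact not_tendsto_of_ge hc fun n => tvQ_three l n (regular d n) ▸ hn n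

/-- Three states, Poisson tree, in the notation of the nonreconstruction theorems. -/
theorem not_tendsto_gwTV_poisson {d l : ℝ} (hl : -(1 / 2) ≤ l) (hu : l ≤ 1) (hd : 0 ≤ d)
    (h : 1 < d * l ^ 2) : ¬ Tendsto (gwTV (poissonLaw d) l) atTop (nhds 0) := by
  obtain ⟨c, hc, hn⟩ := gwTVQ_poisson_ge (q := 3) (by norm_num) (by norm_num; linarith) hu hd h
  exact not_tendsto_of_ge' hc fun n => gwTVQ_three (poissonLaw d) l n ▸ hn n

end Vale.Agent.P154.KS
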