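import Vale.Agent.P154.FourAllDecay
import Vale.Agent.P154.KSGW

/-!
The exact reconstruction threshold for the ferromagnetic four-state Potts channel on regular and
on Poisson Galton-Watson trees.
-/

open scoped BigOperators ENNReal
open Filter

namespace Vale.Agent.P154.Four.All

open Vale.Agent.P154 (Tr regular poissonLaw poissonLaw_sum poissonLaw_mean)

/-- Configurations with four states, in both notations. -/
noncomputable def cfgEquiv : (n : ℕ) → (T : Tr n) → KS.CfgQ 4 n T ≃ Cfg n T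
  | 0, _ => Equiv.refl (Fin 4)
  | n + 1, T => Equiv.piCongrRight fun j => cfgEquiv n (T.2 j)

lemma likQ_four (l : ℝ) : ∀ (n : ℕ) (T : Tr n) (c : KS.CfgQ 4 n T) (i : Fin 4),
    KS.likQ 4 l n T c i = lik l n T (cfgEquiv n T c) i
  | 0, _, _, _ => rfl
  | n + 1, T, c, i => by
    show ∏ j, ∑ s, KS.chanQ 4 l i s * KS.likQ 4 l n (T.2 j) (c j) s
      = ∏ j, ∑ s, chan l i s * lik l n (T.2 j) (cfgEquiv n (T.2 j) (c j)) s
    simp only [likQ_four l n, KS.chanQ, chan, Nat.cast_ofNat]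

lemma tvQ_four (l : ℝ) (n : ℕ) (T : Tr n) : KS.tvQ 4 l n T = tv l n T := by
  refine Fintype.sum_equiv (cfgEquiv n T) _ _ fun c => ?_
  simp only [KS.probQ, prob, likQ_four, Nat.cast_ofNat]

lemma gwTVQ_four (p : ℕ → ℝ≥0∞) (l : ℝ) (n : ℕ) : KS.gwTVQ 4 p l n = gwTV p l n := by
  simp only [KS.gwTVQ, gwTV, tvQ_four]

lemma four_lower {l : ℝ} (hl : 0 ≤ l) : -(1 / (((4 : ℕ) : ℝ) - 1)) ≤ l := by
  norm_num; linarith

/-- Regular trees: nonreconstruction exactly up to the Kesten-Stigum bound. -/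
theorem regular_iff {d : ℕ} {l : ℝ} (h2 : 2 ≤ d) (hl : 0 ≤ l) (hu : l ≤ 1) :
    Tendsto (fun n => tv l n (regular d n)) atTop (nhds 0) ↔ (d : ℝ) * l ^ 2 ≤ 1 := by
  refine ⟨fun h => ?_, fun h => regular_nonreconstruction h2 hl h⟩
  by_contra hc
  obtain ⟨c, hc0, hn⟩ := KS.tvQ_regular_ge (q := 4) (by norm_num) (four_lower hl) hu (not_le.1 hc)
  exact KS.not_tendsto_of_ge hc0 (fun n => tvQ_four l n (regular d n) ▸ hn n) h

/-- Poisson trees: nonreconstruction exactly up to the Kesten-Stigum bound. -/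
theorem poisson_iff {d l : ℝ} (hd : 0 < d) (hl : 0 ≤ l) (hu : l ≤ 1) :
    Tendsto (gwTV (poissonLaw d) l) atTop (nhds 0) ↔ d * l ^ 2 ≤ 1 := by
  refine ⟨fun h => ?_, fun h => ?_⟩
  · by_contra hc
    obtain ⟨c, hc0, hn⟩ :=
      KS.gwTVQ_poisson_ge (q := 4) (by norm_num) (four_lower hl) hu hd.le (not_le.1 hc)
    exact KS.not_tendsto_of_ge' hc0 (fun n => gwTVQ_four (poissonLaw d) l n ▸ hn n) h
  · refine gw_nonreconstruction hl hu (poissonLaw_sum hd.le) ?_ (Or.inr ⟨2, le_rfl, ?_⟩)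
    · rw [poissonLaw_mean hd.le, ← ENNReal.ofReal_mul (sq_nonneg l), ENNReal.ofReal_le_one]
      linarith
    · simp only [poissonLaw, ne_eq, ENNReal.ofReal_eq_zero, not_le]
      positivity

end Vale.Agent.P154.Four.All
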