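import Vale.Agent.P154.FourAllACert
import Vale.Agent.P154.FourAllBCert
import Vale.Agent.P154.FourAllJoin

/-!
The pointwise inequalities on the whole simplex.
-/

open scoped BigOperators

namespace Vale.Agent.P154.Four.All

open Check (invS invT invF Form Simp dotR dotW imono co linv)

/-- The weight of the gain. -/
noncomputable def gfun (a : Spin → ℝ) : ℝ := 4 * sI a * (1 - 31 / 50 * sI a) ^ 2

/-- The weight of the potential in the lower bound. -/
noncomputable def wfun (a : Spin → ℝ) : ℝ := (1 - sI a) * (1 - 93 / 100 * sI a) ^ 2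

/-- Upper bound for the potential. -/
noncomputable def gau (a : Spin → ℝ) : ℝ :=
  4 * tI a - 4 * ((1 / 12 : ℝ) * mm 4 a
    + (-1 / 20 : ℝ) * mm 5 a
    + (1652487 / 50000000 : ℝ) * mm 6 a
    + (-523677 / 20000000 : ℝ) * mm 7 a
    + (48151 / 3125000 : ℝ) * mm 8 a
    + (-229683 / 50000000 : ℝ) * mm 9 a
    + (12887 / 25000000 : ℝ) * mm 10 a)

/-- Lower bound for the potential. -/
noncomputable def gbl (a : Spin → ℝ) : ℝ :=
  4 * tI a - 4 * ((4244499 / 50000000 : ℝ) * mm 4 a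
    + (-788529 / 20000000 : ℝ) * mm 5 a
    + (3689771 / 100000000 : ℝ) * mm 6 a
    + (-6876471 / 100000000 : ℝ) * mm 7 a
    + (3277417 / 50000000 : ℝ) * mm 8 a
    + (-1519893 / 50000000 : ℝ) * mm 9 a
    + (136291 / 20000000 : ℝ) * mm 10 a
    + (-11899 / 20000000 : ℝ) * mm 11 a)

lemma pot_eq {a : Spin → ℝ} (h : InS a) :
    pot a = 4 * tI a - (hfun (a 0 - 1) + hfun (a 1 - 1) + hfun (a 2 - 1) + hfun (a 3 - 1)) := by
  simp only [pot, ent, sI, tI, hfun, Fin.sum_univ_four, add_sub_cancel]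
  linear_combination (-1 : ℝ) * h.2

lemma range {a : Spin → ℝ} (h : InS a) (i : Spin) : -1 ≤ a i - 1 ∧ a i - 1 ≤ 3 := by
  have h0 := h.1 0; have h1 := h.1 1; have h2 := h.1 2; have h3 := h.1 3
  have := h.2
  constructor
  · linarith [h.1 i]
  · fin_cases i <;> simp <;> linarith

lemma pot_le_gau {a : Spin → ℝ} (h : InS a) : pot a ≤ gau a := by
  have k := fun i => aq_nonneg (x := a i - 1) (by linarith [(range h i).1]) (range h i).2
  have h0 := k 0; have h1 := k 1; have h2 := k 2; have h3 := k 3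
  simp only [psi, l_aq, pev] at h0 h1 h2 h3
  rw [pot_eq h]
  simp only [gau, mm, Fin.sum_univ_four]
  linarith

lemma gbl_le {a : Spin → ℝ} (h : InS a) : gbl a ≤ pot a := by
  have k := fun i => ag_nonneg (x := a i - 1) (by linarith [(range h i).1]) (range h i).2
  have h0 := k 0; have h1 := k 1; have h2 := k 2; have h3 := k 3
  simp only [psi, l_ag, pev] at h0 h1 h2 h3
  rw [pot_eq h]
  simp only [gbl, mm, Fin.sum_univ_four]
  linarith

lemma hfun_low {w : ℝ} (h0 : -1 ≤ w) (h1 : w ≤ 3) : w ^ 4 * ((6954943 / 100000000 : ℝ) * w ^ 0 + (-1081947 / 50000000 : ℝ) * w ^ 1 + (2042993 / 50000000 : ℝ) * w ^ 2 + (-1459571 / 20000000 : ℝ) * w ^ 3 + (154499 / 3125000 : ℝ) * w ^ 4 + (-44497 / 3125000 : ℝ) * w ^ 5 + (74413 / 50000000 : ℝ) * w ^ 6) ≤ hfun w := by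
  have := az_nonneg (x := w) (by linarith) (by linarith)
  simp only [psi, l_az, pev] at this
  linarith

/-- The value of a form at given invariants. -/
noncomputable def fval (F : Form) (S T U S' T' U' : ℝ) : ℝ :=
  dotR (F.am.map fun m => S ^ m.1 * T ^ m.2.1 * U ^ m.2.2.1)
    (F.M.map fun mi => dotW mi (F.bm.map fun m => S' ^ m.1 * T' ^ m.2.1 * U' ^ m.2.2.1))

/-- What the first certificate shows nonnegative. -/
noncomputable def exprA (a b : Spin → ℝ) : ℝ :=
  sI a + sI b - gau a * gfun b / 4 - gfun a * gau b / 4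
    - 1 / 72 * lcAvg upL (cp a) (cq a) (cr a) (cp b) (cq b) (cr b)

/-- What the second certificate shows nonnegative. -/
noncomputable def exprB (a b : Spin → ℝ) : ℝ :=
  1 / 12 * lcAvg loL (cp a) (cq a) (cr a) (cp b) (cq b) (cr b)
    + 1 / 6 * lcAvg zlL (cp a) (cq a) (cr a) (cp b) (cq b) (cr b)
    - 6 * sI a - 6 * sI b + gbl a * (1 - wfun b) + (1 - wfun a) * gbl b - 1 / 25 * (sI a * sI b)

lemma tI_vec (p q r : ℝ) : tI (vec p q r) = invT p q r := by
  simp [tI, vec, invT, Fin.sum_univ_four]; ring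

lemma fI_vec (p q r : ℝ) : fI (vec p q r) = invF p q r / 21 := by
  simp [fI, vec, invF, Fin.sum_univ_four]; ring

lemma exprA_vec (p q r x y z : ℝ) :
    fval formA (invS p q r) (invT p q r) (invF p q r) (invS x y z) (invT x y z) (invF x y z)
      = 20250000000000 * exprA (vec p q r) (vec x y z) := by
  simp only [exprA, gau, gfun, upL, lcAvg, kavg, coord_vec, sI_vec, tI_vec, mm4, mm5, mm6, mm7,
    mm8, mm9, mm10, Nat.reduceAdd, sym_wd0, sym_wd1, sym_wd2, sym_wd3, sym_wd4, sym_wd5, sym_wd6,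
    sym_wd7, sym_cd0, sym_cd1, sym_cd2, sym_cd3, sym_cd4, sym_cd5, sym_ed0, sym_ed1, sym_ed2,
    sym_ed3, sym_ed4, sym_ed5, sym_md0, sym_md1, sym_md2, sym_md3, sym_md4, sym_md5]
  generalize invS p q r = S
  generalize invT p q r = T
  generalize invF p q r = U
  generalize invS x y z = S'
  generalize invT x y z = T'
  generalize invF x y z = U'
  simp only [fval, formA, List.map_cons, List.map_nil, dotR, dotW]
  push_cast
  ring

lemma exprB_vec (p q r x y z : ℝ) :
    fval formB (invS p q r) (invT p q r) (invF p q r) (invS x y z) (invT x y z) (invF x y z)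
      = 1728000000000000 * exprB (vec p q r) (vec x y z) := by
  simp only [exprB, gbl, wfun, loL, zlL, lcAvg, kavg, coord_vec, sI_vec, tI_vec, mm4, mm5, mm6,
    mm7, mm8, mm9, mm10, mm11, Nat.reduceAdd, sym_wd0, sym_wd1, sym_wd2, sym_wd3, sym_wd4,
    sym_wd5, sym_wd6, sym_wd7, sym_wd8, sym_wd9, sym_wd10, sym_cd0, sym_cd1, sym_cd2, sym_cd3,
    sym_cd4, sym_cd5, sym_cd6, sym_cd7, sym_cd8, sym_cd9, sym_ed0, sym_ed1, sym_ed2, sym_ed3,
    sym_ed4, sym_ed5, sym_ed6, sym_ed7, sym_ed8, sym_ed9, sym_md0, sym_md1, sym_md2, sym_md3,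
    sym_md4, sym_md5, sym_md6, sym_md7, sym_md8, sym_md9]
  generalize invS p q r = S
  generalize invT p q r = T
  generalize invF p q r = U
  generalize invS x y z = S'
  generalize invT x y z = T'
  generalize invF x y z = U'
  simp only [fval, formB, List.map_cons, List.map_nil, dotR, dotW]
  push_cast
  ring

lemma inv_coord {a : Spin → ℝ} (h : InS a) :
    invS (cp a) (cq a) (cr a) = 3 * sI a ∧ invT (cp a) (cq a) (cr a) = tI a ∧
      invF (cp a) (cq a) (cr a) = 21 * fI a := by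
  have e := vec_coord h
  have h1 := sI_vec (cp a) (cq a) (cr a)
  have h2 := tI_vec (cp a) (cq a) (cr a)
  have h3 := fI_vec (cp a) (cq a) (cr a)
  rw [e] at h1 h2 h3
  exact ⟨by linarith, h2.symm, by linarith⟩

lemma exists_sorted {a : Spin → ℝ} (h : InS a) :
    ∃ c : Spin → ℝ, InS c ∧ c 1 ≤ c 0 ∧ c 2 ≤ c 1 ∧ c 3 ≤ c 2 ∧
      sI c = sI a ∧ tI c = tI a ∧ fI c = fI a := by
  set σ := Tuple.sort (fun i => -a i) with hσ
  have hm := Tuple.monotone_sort (fun i => -a i)
  have o1 := hm (show (0 : Spin) ≤ 1 by decide)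
  have o2 := hm (show (1 : Spin) ≤ 2 by decide)
  have o3 := hm (show (2 : Spin) ≤ 3 by decide)
  simp only [Function.comp_apply, ← hσ, neg_le_neg_iff] at o1 o2 o3
  refine ⟨fun i => a (σ i), InS.perm h σ, o1, o2, o3, ?_, ?_, ?_⟩
  · simp only [sI]; rw [Equiv.sum_comp σ fun j => (a j - 1) ^ 2]
  · simp only [tI]; rw [Equiv.sum_comp σ fun j => (a j - 1) ^ 3]
  · simp only [fI]; rw [Equiv.sum_comp σ fun j => (a j - 1) ^ 4]

/-- Barycentric coordinates in the sorted simplex. -/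
noncomputable def bary (c : Spin → ℝ) : Fin 4 → ℝ :=
  ![(c 0 - c 1) / 4, (c 1 - c 2) / 2, 3 * (c 2 - c 3) / 4, c 3]

lemma bary_spec {c : Spin → ℝ} {s : Simp} (hs : s = ⟨(3, 3, 1, 0), (3, 0, 1, 0), (3, 0, -1, 0), 3⟩)
    (h : InS c) (h1 : c 1 ≤ c 0) (h2 : c 2 ≤ c 1) (h3 : c 3 ≤ c 2) :
    (∀ k, 0 ≤ bary c k) ∧ bary c 0 + bary c 1 + bary c 2 + bary c 3 = 1 ∧
      co s s.P (bary c) = cp c ∧ co s s.Q (bary c) = cq c ∧ co s s.R (bary c) = cr c := by
  have hc := h.2
  refine ⟨fun k => ?_, ?_, ?_, ?_, ?_⟩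
  · have := h.1 3
    fin_cases k <;> simp [bary] <;> linarith
  · simp [bary]; linarith
  · simp [hs, co, linv, bary, cp]; linarith
  · simp [hs, co, linv, bary, cq]; linarith
  · simp [hs, co, linv, bary, cr]; linarith

lemma fval_nonneg {F : Form} {sa sb : Simp} (hF : Check.Good F sa sb)
    (hsa : sa = ⟨(3, 3, 1, 0), (3, 0, 1, 0), (3, 0, -1, 0), 3⟩)
    (hsb : sb = ⟨(3, 3, 1, 0), (3, 0, 1, 0), (3, 0, -1, 0), 3⟩)
    {a b : Spin → ℝ} (ha : InS a) (hb : InS b) :
    0 ≤ fval F (3 * sI a) (tI a) (21 * fI a) (3 * sI b) (tI b) (21 * fI b) := by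
  obtain ⟨c, hc, c1, c2, c3, e1, e2, e3⟩ := exists_sorted ha
  obtain ⟨d, hd, d1, d2, d3, f1, f2, f3⟩ := exists_sorted hb
  obtain ⟨g1, g2, g3⟩ := inv_coord hc
  obtain ⟨k1, k2, k3⟩ := inv_coord hd
  rw [e1] at g1; rw [e2] at g2; rw [e3] at g3
  rw [f1] at k1; rw [f2] at k2; rw [f3] at k3
  obtain ⟨n0, s0, p1, p2, p3⟩ := bary_spec hsa hc c1 c2 c3
  obtain ⟨n1, s1, q1, q2, q3⟩ := bary_spec hsb hd d1 d2 d3
  have key := hF (by rw [hsa]; norm_num) (by rw [hsb]; norm_num) (bary c) (bary d) n0 s0 n1 s1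
  rw [p1, p2, p3, q1, q2, q3] at key
  rw [← g1, ← g2, ← g3, ← k1, ← k2, ← k3]
  exact key

lemma exprA_nonneg {a b : Spin → ℝ} (ha : InS a) (hb : InS b) : 0 ≤ exprA a b := by
  have h := fval_nonneg goodA rfl rfl ha hb
  obtain ⟨g1, g2, g3⟩ := inv_coord ha
  obtain ⟨k1, k2, k3⟩ := inv_coord hb
  rw [← g1, ← g2, ← g3, ← k1, ← k2, ← k3, exprA_vec, vec_coord ha, vec_coord hb] at h
  exact nonneg_of_mul_nonneg_right h (by norm_num)

lemma exprB_nonneg {a b : Spin → ℝ} (ha : InS a) (hb : InS b) : 0 ≤ exprB a b := by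
  have h := fval_nonneg goodB rfl rfl ha hb
  obtain ⟨g1, g2, g3⟩ := inv_coord ha
  obtain ⟨k1, k2, k3⟩ := inv_coord hb
  rw [← g1, ← g2, ← g3, ← k1, ← k2, ← k3, exprB_vec, vec_coord ha, vec_coord hb] at h
  exact nonneg_of_mul_nonneg_right h (by norm_num)

lemma gfun_ge {a : Spin → ℝ} (ha : InS a) : 361 / 625 * sI a ≤ gfun a := by
  have h0 := sI_nonneg a
  have h1 : (19 / 50 : ℝ) ^ 2 ≤ (1 - 31 / 50 * sI a) ^ 2 :=
    pow_le_pow_left₀ (by norm_num) (by linarith [sI_le_one ha]) 2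
  simp only [gfun]
  nlinarith [mul_le_mul_of_nonneg_left h1 h0]

lemma wfun_nonneg {a : Spin → ℝ} (ha : InS a) : 0 ≤ wfun a :=
  mul_nonneg (by linarith [sI_le_one ha]) (sq_nonneg _)

lemma wfun_le_one {a : Spin → ℝ} (ha : InS a) : wfun a ≤ 1 := by
  have h0 := sI_nonneg a
  have h1 := sI_le_one ha
  have h2 : (1 - 93 / 100 * sI a) ^ 2 ≤ 1 := by
    rw [sq_le_one_iff_abs_le_one, abs_le]; constructor <;> linarith
  simp only [wfun]
  exact mul_le_one₀ (by linarith) (sq_nonneg _) h2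

/-- The second invariant is subadditive under joining, with a gain. -/
theorem addS {a b : Spin → ℝ} (ha : InS a) (hb : InS b) :
    avc sI a b ≤ sI a + sI b - 1 / 4 * (pot a * gfun b) - 1 / 4 * (gfun a * pot b) := by
  have h1 := avc_sI_le ha hb
  have h2 := exprA_nonneg ha hb
  have hga : 0 ≤ gfun a := le_trans (by linarith [sI_nonneg a]) (gfun_ge ha)
  have hgb : 0 ≤ gfun b := le_trans (by linarith [sI_nonneg b]) (gfun_ge hb)
  have h3 := mul_le_mul_of_nonneg_right (pot_le_gau ha) hgb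
  have h4 := mul_le_mul_of_nonneg_left (pot_le_gau hb) hga
  simp only [exprA] at *
  linarith

/-- The potential propagates under joining, with a gain. -/
theorem addG {a b : Spin → ℝ} (ha : InS a) (hb : InS b) :
    pot a * wfun b + wfun a * pot b + 1 / 25 * (sI a * sI b) ≤ avc pot a b := by
  have h1 := avc_pot_ge ha hb fun p q r x y z h0 h1 => by
    have := hfun_low h0 h1
    rw [zlL_eq]
    simp only [hfun] at this
    linarith
  have h2 := exprB_nonneg ha hb
  have h3 := mul_le_mul_of_nonneg_right (gbl_le ha) (sub_nonneg.mpr (wfun_le_one hb))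
  have h4 := mul_le_mul_of_nonneg_left (gbl_le hb) (sub_nonneg.mpr (wfun_le_one ha))
  have ea : 4 * ent a = 6 * sI a - pot a := by simp only [pot]; ring
  have eb : 4 * ent b = 6 * sI b - pot b := by simp only [pot]; ring
  simp only [exprB] at *
  linarith

end Vale.Agent.P154.Four.All
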