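import Vale.Agent.P154.FourSymLem

/-!
Further averages over the signed permutations, and averages of lists of such terms (generated).
-/

namespace Vale.Agent.P154.Four.All

open Check (invS invT invF)

variable (p q r p' q' r' : ℝ)

lemma mm11 : mm 11 (vec p q r) = (22 : ℝ) * (invT p q r) * (invF p q r) ^ 2
    + (2816 : ℝ) * (invS p q r) * (invT p q r) ^ 3
    + (176 : ℝ) * (invS p q r) ^ 2 * (invT p q r) * (invF p q r)
    + (-88 : ℝ) * (invS p q r) ^ 4 * (invT p q r) := by
  simp [mm, vec, Fin.sum_univ_four, invS, invT, invF]; ring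

/-- The kinds of factors of a term. -/
inductive Kind
  | one | sa | sb | sab | cc | mc | ec

/-- The value of a factor. -/
def kval : Kind → ℝ → ℝ → ℝ → ℝ → ℝ → ℝ → ℝ
  | .one, _, _, _, _, _, _ => 1
  | .sa, p, q, r, _, _, _ => invS p q r
  | .sb, _, _, _, x, y, z => invS x y z
  | .sab, p, q, r, x, y, z => invS p q r * invS x y z
  | .cc, p, q, r, x, y, z => cd p q r x y z
  | .mc, p, q, r, x, y, z => md p q r x y z
  | .ec, p, q, r, x, y, z => ed p q r x y z

/-- The average of a power of the inner product times a factor. -/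
def kavg : Kind → ℕ → ℝ → ℝ → ℝ → ℝ → ℝ → ℝ → ℝ
  | .one, k, p, q, r, x', y', z' => sym (fun x y z => wd p q r x y z ^ k) x' y' z'
  | .sa, k, p, q, r, x', y', z' => invS p q r * sym (fun x y z => wd p q r x y z ^ k) x' y' z'
  | .sb, k, p, q, r, x', y', z' => invS x' y' z' * sym (fun x y z => wd p q r x y z ^ k) x' y' z'
  | .sab, k, p, q, r, x', y', z' =>
      invS p q r * invS x' y' z' * sym (fun x y z => wd p q r x y z ^ k) x' y' z'
  | .cc, k, p, q, r, x', y', z' =>
      sym (fun x y z => wd p q r x y z ^ k * cd p q r x y z) x' y' z'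
  | .mc, k, p, q, r, x', y', z' =>
      sym (fun x y z => wd p q r x y z ^ k * md p q r x y z) x' y' z'
  | .ec, k, p, q, r, x', y', z' =>
      sym (fun x y z => wd p q r x y z ^ k * ed p q r x y z) x' y' z'

/-- A combination of terms. -/
def lc : List (ℝ × ℕ × Kind) → ℝ → ℝ → ℝ → ℝ → ℝ → ℝ → ℝ
  | [], _, _, _, _, _, _ => 0
  | (c, k, s) :: l, p, q, r, x, y, z =>
      c * (wd p q r x y z ^ k * kval s p q r x y z) + lc l p q r x y z

/-- The average of a combination of terms. -/
def lcAvg : List (ℝ × ℕ × Kind) → ℝ → ℝ → ℝ → ℝ → ℝ → ℝ → ℝ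
  | [], _, _, _, _, _, _ => 0
  | (c, k, s) :: l, p, q, r, x, y, z =>
      c * kavg s k p q r x y z + lcAvg l p q r x y z

lemma sym_term (k : ℕ) (s : Kind) :
    sym (fun x y z => wd p q r x y z ^ k * kval s p q r x y z) p' q' r'
      = kavg s k p q r p' q' r' := by
  cases s <;> simp only [sym, kval, kavg, invS] <;> ring

lemma sym_lc : ∀ l : List (ℝ × ℕ × Kind),
    sym (lc l p q r) p' q' r' = lcAvg l p q r p' q' r'
  | [] => by simp [sym, lc, lcAvg]
  | (c, k, s) :: l => by
    rw [lcAvg, ← sym_lc l, ← sym_term p q r p' q' r' k s]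
    simp only [sym, lc]; ring

end Vale.Agent.P154.Four.All
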