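import Vale.Agent.P154.FourAllSym
import Vale.Agent.P154.FourAllBounds

/-!
The polynomial bounds for one join, expanded in terms (generated).
-/

namespace Vale.Agent.P154.Four.All

open Check (invS invT invF)

variable (p q r x y z : ℝ)

/-- The multiplier in the lower bound. -/
noncomputable def gv (u v : ℝ) : ℝ := 1 + 2 / 3 * (u + v) + 1 / 4 * (u * v)

/-- The mean of the squared products. -/
def e2 : ℝ :=
  (1 : ℝ)
    + (1 : ℝ) * invS x y z
    + (4 : ℝ) * wd p q r x y z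
    + (2 : ℝ) * cd p q r x y z
    + (1 : ℝ) * invS p q r
    + (2 : ℝ) * md p q r x y z
    + (1 : ℝ) * (invS p q r * invS x y z + 4 * ed p q r x y z)

/-- The mean of the products with the multiplier. -/
noncomputable def gc : ℝ :=
  (1 : ℝ)
    + ((2 : ℝ) / 3) * invS x y z
    + ((31 : ℝ) / 12) * wd p q r x y z
    + ((11 : ℝ) / 12) * cd p q r x y z
    + ((2 : ℝ) / 3) * invS p q r
    + ((11 : ℝ) / 12) * md p q r x y z
    + ((1 : ℝ) / 4) * (invS p q r * invS x y z + 4 * ed p q r x y z)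

/-- The mean of the squared multiplier. -/
noncomputable def gg : ℝ :=
  (1 : ℝ)
    + ((4 : ℝ) / 9) * invS x y z
    + ((25 : ℝ) / 18) * wd p q r x y z
    + ((1 : ℝ) / 3) * cd p q r x y z
    + ((4 : ℝ) / 9) * invS p q r
    + ((1 : ℝ) / 3) * md p q r x y z
    + ((1 : ℝ) / 16) * (invS p q r * invS x y z + 4 * ed p q r x y z)

lemma e2_eq : e2 p q r x y z = (∑ i, (vec p q r i * vec x y z i) ^ 2) / 4 := by
  simp [e2, vec, wd, md, cd, ed, invS, Fin.sum_univ_four]; ring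

lemma gc_eq : gc p q r x y z
    = (∑ i, gv (vec p q r i - 1) (vec x y z i - 1) * (vec p q r i * vec x y z i)) / 4 := by
  simp [gc, gv, vec, wd, md, cd, ed, invS, Fin.sum_univ_four]; ring

lemma gg_eq : gg p q r x y z = (∑ i, gv (vec p q r i - 1) (vec x y z i - 1) ^ 2) / 4 := by
  simp [gg, gv, vec, wd, md, cd, ed, invS, Fin.sum_univ_four]; ring

/-- The terms of the bound above for three times the weighted second invariant. -/
noncomputable def upL : List (ℝ × ℕ × Kind) :=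
  [ ((1 : ℝ), 0, .sa),
    ((1 : ℝ), 0, .sab),
    ((1 : ℝ), 0, .sb),
    ((2 : ℝ), 0, .cc),
    ((4 : ℝ), 0, .ec),
    ((2 : ℝ), 0, .mc),
    ((2 : ℝ), 1, .one),
    ((-1 : ℝ), 1, .sa),
    ((-1 : ℝ), 1, .sab),
    ((-1 : ℝ), 1, .sb),
    ((-2 : ℝ), 1, .cc),
    ((-4 : ℝ), 1, .ec),
    ((-2 : ℝ), 1, .mc),
    ((-3 : ℝ), 2, .one),
    ((1 : ℝ), 2, .sa),
    ((1 : ℝ), 2, .sab),
    ((1 : ℝ), 2, .sb),
    ((2 : ℝ), 2, .cc),
    ((4 : ℝ), 2, .ec),
    ((2 : ℝ), 2, .mc),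
    ((3 : ℝ), 3, .one),
    ((-1 : ℝ), 3, .sa),
    ((-1 : ℝ), 3, .sab),
    ((-1 : ℝ), 3, .sb),
    ((-2 : ℝ), 3, .cc),
    ((-4 : ℝ), 3, .ec),
    ((-2 : ℝ), 3, .mc),
    (((-2939433 : ℝ) / 1250000), 4, .one),
    (((979811 : ℝ) / 1250000), 4, .sa),
    (((979811 : ℝ) / 1250000), 4, .sab),
    (((979811 : ℝ) / 1250000), 4, .sb),
    (((979811 : ℝ) / 625000), 4, .cc),
    (((979811 : ℝ) / 312500), 4, .ec),
    (((979811 : ℝ) / 625000), 4, .mc),
    (((86177661 : ℝ) / 50000000), 5, .one),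
    (((-14315807 : ℝ) / 50000000), 5, .sa),
    (((-14315807 : ℝ) / 50000000), 5, .sab),
    (((-14315807 : ℝ) / 50000000), 5, .sb),
    (((-14315807 : ℝ) / 25000000), 5, .cc),
    (((-14315807 : ℝ) / 12500000), 5, .ec),
    (((-14315807 : ℝ) / 25000000), 5, .mc),
    (((-24876633 : ℝ) / 12500000), 6, .one),
    (((14315807 : ℝ) / 12500000), 7, .one)]

lemma upL_eq : lc upL p q r x y z
    = e2 p q r x y z * (1 - wd p q r x y z) - (1 + wd p q r x y z)
      + wd p q r x y z ^ 2 * (e2 p q r x y z * puA (wd p q r x y z)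
        + 4 * (1 + wd p q r x y z) * (1 - (1 + wd p q r x y z) * puA (wd p q r x y z))) := by
  simp only [upL, lc, kval, e2, puA]
  ring

/-- The terms of the bound below for three times the weighted second invariant. -/
noncomputable def loL : List (ℝ × ℕ × Kind) :=
  [ ((1 : ℝ), 0, .sa),
    ((1 : ℝ), 0, .sab),
    ((1 : ℝ), 0, .sb),
    ((2 : ℝ), 0, .cc),
    ((4 : ℝ), 0, .ec),
    ((2 : ℝ), 0, .mc),
    ((2 : ℝ), 1, .one),
    ((-1 : ℝ), 1, .sa),
    ((-1 : ℝ), 1, .sab),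
    ((-1 : ℝ), 1, .sb),
    ((-2 : ℝ), 1, .cc),
    ((-4 : ℝ), 1, .ec),
    ((-2 : ℝ), 1, .mc),
    ((-3 : ℝ), 2, .one),
    ((1 : ℝ), 2, .sa),
    ((1 : ℝ), 2, .sab),
    ((1 : ℝ), 2, .sb),
    ((2 : ℝ), 2, .cc),
    ((4 : ℝ), 2, .ec),
    ((2 : ℝ), 2, .mc),
    ((3 : ℝ), 3, .one),
    ((-1 : ℝ), 3, .sa),
    ((-1 : ℝ), 3, .sab),
    ((-1 : ℝ), 3, .sb),
    ((-2 : ℝ), 3, .cc),
    ((-4 : ℝ), 3, .ec),
    ((-2 : ℝ), 3, .mc),
    ((-3 : ℝ), 4, .one),
    (((874037093 : ℝ) / 900000000), 4, .sa),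
    (((1366333837 : ℝ) / 1600000000), 4, .sab),
    (((874037093 : ℝ) / 900000000), 4, .sb),
    (((374037093 : ℝ) / 200000000), 4, .cc),
    (((1366333837 : ℝ) / 400000000), 4, .ec),
    (((374037093 : ℝ) / 200000000), 4, .mc),
    (((1324037093 : ℝ) / 450000000), 5, .one),
    (((-242825119 : ℝ) / 300000000), 5, .sa),
    (((-835165423 : ℝ) / 1600000000), 5, .sab),
    (((-242825119 : ℝ) / 300000000), 5, .sb),
    (((-407620303 : ℝ) / 300000000), 5, .cc),
    (((-835165423 : ℝ) / 400000000), 5, .ec),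
    (((-407620303 : ℝ) / 300000000), 5, .mc),
    (((-298682351 : ℝ) / 120000000), 6, .one),
    (((432759463 : ℝ) / 900000000), 6, .sa),
    (((166863681 : ℝ) / 800000000), 6, .sab),
    (((432759463 : ℝ) / 900000000), 6, .sb),
    (((198136267 : ℝ) / 300000000), 6, .cc),
    (((166863681 : ℝ) / 200000000), 6, .ec),
    (((198136267 : ℝ) / 300000000), 6, .mc),
    (((1344157277 : ℝ) / 900000000), 7, .one),
    (((-19897421 : ℝ) / 112500000), 7, .sa),
    (((-82075307 : ℝ) / 1600000000), 7, .sab),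
    (((-19897421 : ℝ) / 112500000), 7, .sb),
    (((-39250833 : ℝ) / 200000000), 7, .cc),
    (((-82075307 : ℝ) / 400000000), 7, .ec),
    (((-39250833 : ℝ) / 200000000), 7, .mc),
    (((-124173587 : ℝ) / 225000000), 8, .one),
    (((318479 : ℝ) / 9000000), 8, .sa),
    (((2251219 : ℝ) / 320000000), 8, .sab),
    (((318479 : ℝ) / 9000000), 8, .sb),
    (((1921807 : ℝ) / 60000000), 8, .cc),
    (((2251219 : ℝ) / 80000000), 8, .ec),
    (((1921807 : ℝ) / 60000000), 8, .mc),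
    (((318479 : ℝ) / 2880000), 9, .one),
    (((-27451 : ℝ) / 9375000), 9, .sa),
    (((-82353 : ℝ) / 200000000), 9, .sab),
    (((-27451 : ℝ) / 9375000), 9, .sb),
    (((-27451 : ℝ) / 12500000), 9, .cc),
    (((-82353 : ℝ) / 50000000), 9, .ec),
    (((-27451 : ℝ) / 12500000), 9, .mc),
    (((-27451 : ℝ) / 3000000), 10, .one)]

lemma loL_eq : lc loL p q r x y z
    = e2 p q r x y z * (1 - wd p q r x y z) - (1 + wd p q r x y z)
      + wd p q r x y z ^ 2 * (e2 p q r x y z * plA (wd p q r x y z)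
        + (1 - (1 + wd p q r x y z) * plA (wd p q r x y z))
          * (2 * gc p q r x y z - (1 + wd p q r x y z) * gg p q r x y z)) := by
  simp only [loL, lc, kval, e2, gc, gg, plA]
  ring

/-- The terms of the bound below for the weight times its logarithm. -/
noncomputable def zlL : List (ℝ × ℕ × Kind) :=
  [ ((1 : ℝ), 1, .one),
    (((1 : ℝ) / 2), 2, .one),
    (((-1 : ℝ) / 6), 3, .one),
    (((6954943 : ℝ) / 100000000), 4, .one),
    (((-1081947 : ℝ) / 50000000), 5, .one),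
    (((2042993 : ℝ) / 50000000), 6, .one),
    (((-1459571 : ℝ) / 20000000), 7, .one),
    (((154499 : ℝ) / 3125000), 8, .one),
    (((-44497 : ℝ) / 3125000), 9, .one),
    (((74413 : ℝ) / 50000000), 10, .one)]

lemma zlL_eq : lc zlL p q r x y z
    = wd p q r x y z + wd p q r x y z ^ 2 / 2 - wd p q r x y z ^ 3 / 6
      + wd p q r x y z ^ 4 * (((6954943 : ℝ) / 100000000) * wd p q r x y z ^ 0 + ((-1081947 : ℝ) / 50000000) * wd p q r x y z ^ 1 + ((2042993 : ℝ) / 50000000) * wd p q r x y z ^ 2 + ((-1459571 : ℝ) / 20000000) * wd p q r x y z ^ 3 + ((154499 : ℝ) / 3125000) * wd p q r x y z ^ 4 + ((-44497 : ℝ) / 3125000) * wd p q r x y z ^ 5 + ((74413 : ℝ) / 50000000) * wd p q r x y z ^ 6) := by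
  simp only [zlL, lc, kval]
  ring

end Vale.Agent.P154.Four.All
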