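import Vale.Agent.P154.FourBasic
import Vale.Agent.P154.Decay

/-!
Broadcasting of four states on finite rooted trees, and the two recursive bounds coming from the
pointwise inequalities for a join.
-/

open scoped BigOperators

namespace Vale.Agent.P154.Four

open Vale.Agent.P154 (Tr)

/-- Spin configurations on the vertices at distance `n` from the root. -/
def Cfg : (n : ℕ) → Tr n → Type
  | 0, _ => Spin
  | n + 1, T => (j : Fin T.1) → Cfg n (T.2 j)

noncomputable instance cfgFintype : ∀ (n : ℕ) (T : Tr n), Fintype (Cfg n T)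
  | 0, _ => inferInstanceAs (Fintype Spin)
  | n + 1, T =>
    haveI : ∀ j, Fintype (Cfg n (T.2 j)) := fun j => cfgFintype n (T.2 j)
    inferInstanceAs (Fintype ((j : Fin T.1) → Cfg n (T.2 j)))

/-- The probability of a leaf configuration given the root spin. -/
noncomputable def lik (l : ℝ) : (n : ℕ) → (T : Tr n) → Cfg n T → Spin → ℝ
  | 0, _, c => fun i => let c' : Spin := c; if i = c' then 1 else 0
  | n + 1, T, c => fun i => ∏ j, ∑ s, chan l i s * lik l n (T.2 j) (c j) s

/-- Probability of a leaf configuration, the root spin being uniform. -/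
noncomputable def prob (l : ℝ) (n : ℕ) (T : Tr n) (c : Cfg n T) : ℝ :=
  ∑ i, (1 / 4 : ℝ) * lik l n T c i

/-- Expected total variation distance between the root posterior and the uniform law. -/
noncomputable def tv (l : ℝ) (n : ℕ) (T : Tr n) : ℝ :=
  ∑ c, prob l n T c *
    ((1 / 2 : ℝ) * ∑ i, |(1 / 4 : ℝ) * lik l n T c i / prob l n T c - 1 / 4|)

/-- The pointwise inequalities at edge parameter `l`. -/
structure Ineq (l : ℝ) (qf wf : (Spin → ℝ) → ℝ) : Prop where
  l0 : 0 ≤ l
  kap : 1999 / 1000 * l ^ 2 < 1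
  qf0 : ∀ a, InS a → 0 ≤ qf a
  wf0 : ∀ a, InS a → 0 ≤ wf a
  imgG : ∀ y, InS y → l ^ 3 * pot y ≤ pot (img l y)
  addS : ∀ a y, InS a → InS y → avc sI a (img l y)
    ≤ sI a + l ^ 2 * sI y - l ^ 2 * (pot a * sI y) - qf a * pot (img l y) / 4
  addG : ∀ a y, InS a → InS y → pot a - 1999 / 1000 * l ^ 2 * (pot a * sI y)
    + wf a * pot (img l y) + l ^ 2 / 50 * ((sI a - sI a ^ 2) * sI y) ≤ avc pot a (img l y)

lemma Ineq.le_one {l : ℝ} {qf wf : (Spin → ℝ) → ℝ} (h : Ineq l qf wf) : l ≤ 1 := by
  nlinarith [h.kap, h.l0, sq_nonneg (l - 1)]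

/-- A symmetric family with nonnegative expected potential. -/
structure Fam' {ι : Type} [Fintype ι] (f : ι → Spin → ℝ) : Prop where
  fam : Fam f
  pos : 0 ≤ expect pot f

section fold

variable {l : ℝ} {qf wf : (Spin → ℝ) → ℝ}

/-- The family of all children together. -/
noncomputable def kids (l : ℝ) {k : ℕ} {ι : Fin k → Type} (g : ∀ j, ι j → Spin → ℝ) :
    (∀ j, ι j) → Spin → ℝ := fun c i => ∏ j, push l (g j (c j)) i

lemma expect_reindex {ι κ : Type} [Fintype ι] [Fintype κ] (e : ι ≃ κ) (f : κ → Spin → ℝ)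
    (φ : (Spin → ℝ) → ℝ) : expect φ (fun k => f (e k)) = expect φ f :=
  e.sum_comp fun k => wt (f k) * φ (post (f k))

lemma Fam.reindex {ι κ : Type} [Fintype ι] [Fintype κ] (e : ι ≃ κ) {f : κ → Spin → ℝ}
    (h : Fam fun k => f (e k)) : Fam f := by
  refine ⟨fun k i => by simpa using h.nonneg (e.symm k) i, fun i => ?_, fun σ => ?_⟩
  · rw [← e.sum_comp fun k => f k i]; exact h.mass i
  · obtain ⟨e', he⟩ := h.equiv σ
    exact ⟨(e.symm.trans e').trans e, fun k i => by simpa using he (e.symm k) i⟩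

/-- Splitting off the first child. -/
def splitFirst {k : ℕ} (ι : Fin (k + 1) → Type) :
    (∀ j : Fin k, ι j.succ) × ι 0 ≃ ∀ j, ι j :=
  (Equiv.prodComm _ _).trans (Fin.consEquiv ι)

lemma kids_split {k : ℕ} {ι : Fin (k + 1) → Type} (g : ∀ j, ι j → Spin → ℝ) :
    (fun p => kids l g (splitFirst ι p))
      = join l (kids l fun j => g j.succ) (g 0) := by
  funext p i
  simp [kids, join, splitFirst, Fin.prod_univ_succ, mul_comm]

lemma kids_nil {ι : Fin 0 → Type} (g : ∀ j, ι j → Spin → ℝ) (c : ∀ j, ι j) :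
    kids l g c = fun _ => 1 := by
  funext i; simp [kids]

lemma post_one : post (fun _ : Spin => (1 : ℝ)) = fun _ => 1 := by
  funext i; simp [post, wt]

lemma pot_one : pot (fun _ : Spin => (1 : ℝ)) = 0 := by simp [pot, sI, ent]

lemma sI_one : sI (fun _ : Spin => (1 : ℝ)) = 0 := by simp [sI]

lemma Fam.kids (hl : 0 ≤ l) (hu : l ≤ 1) : ∀ {k : ℕ} {ι : Fin k → Type}
    [∀ j, Fintype (ι j)] {g : ∀ j, ι j → Spin → ℝ}, (∀ j, Fam (g j)) → Fam (Four.kids l g) := by
  intro k
  induction k with
  | zero =>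
    intro ι _ g _
    refine ⟨fun c i => by rw [kids_nil]; exact zero_le_one, fun i => ?_,
      fun σ => ⟨Equiv.refl _, fun c i => by simp [kids_nil]⟩⟩
    simp [kids_nil]
  | succ k ih =>
    intro ι _ g hg
    refine Fam.reindex (splitFirst ι) ?_
    rw [kids_split]
    exact Fam.join hl hu (ih fun j => hg j.succ) (hg 0)

variable {ι κ : Type} [Fintype ι] [Fintype κ] {f : ι → Spin → ℝ} {g : κ → Spin → ℝ}

lemma double (_hf : Fam f) (_hg : Fam g) (φ ψ : (Spin → ℝ) → ℝ) :
    ∑ j, ∑ k, wt (f j) * wt (g k) * (φ (post (f j)) * ψ (post (g k)))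
      = expect φ f * expect ψ g := by
  rw [expect, expect, Finset.sum_mul_sum]
  exact Finset.sum_congr rfl fun j _ => Finset.sum_congr rfl fun k _ => by ring

lemma img_pot_ge (h : Ineq l qf wf) (hg : Fam g) :
    l ^ 3 * expect pot g ≤ expect (fun y => pot (img l y)) g := by
  rw [← expect_smul]
  exact expect_mono hg h.imgG

lemma join_sI_le (h : Ineq l qf wf) (hf : Fam f) (hg : Fam' g) :
    expect sI (join l f g) + l ^ 2 * (expect pot f * expect sI g)
      ≤ expect sI f + l ^ 2 * expect sI g := by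
  have hb : expect sI (join l f g) ≤ ∑ j, ∑ k, wt (f j) * wt (g k) *
      ((sI (post (f j)) * 1) + l ^ 2 * (1 * sI (post (g k)))
        - l ^ 2 * (pot (post (f j)) * sI (post (g k)))
        - 1 / 4 * (qf (post (f j)) * pot (img l (post (g k))))) := by
    rw [expect_join l sI hf hg.fam]
    refine Finset.sum_le_sum fun j _ => Finset.sum_le_sum fun k _ =>
      mul_le_mul_of_nonneg_left ?_
        (mul_nonneg (wt_nonneg (hf.nonneg j)) (wt_nonneg (hg.fam.nonneg k)))
    have := h.addS _ _ (post_inS (hf.nonneg j)) (post_inS (hg.fam.nonneg k))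
    linarith
  have hq : 0 ≤ expect qf f * expect (fun y => pot (img l y)) g :=
    mul_nonneg (expect_nonneg hf h.qf0)
      (le_trans (mul_nonneg (pow_nonneg h.l0 3) hg.pos) (img_pot_ge h hg.fam))
  have e : ∀ j k, wt (f j) * wt (g k) *
      ((sI (post (f j)) * 1) + l ^ 2 * (1 * sI (post (g k)))
        - l ^ 2 * (pot (post (f j)) * sI (post (g k)))
        - 1 / 4 * (qf (post (f j)) * pot (img l (post (g k)))))
      = wt (f j) * wt (g k) * (sI (post (f j)) * 1)
        + l ^ 2 * (wt (f j) * wt (g k) * (1 * sI (post (g k))))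
        - l ^ 2 * (wt (f j) * wt (g k) * (pot (post (f j)) * sI (post (g k))))
        - 1 / 4 * (wt (f j) * wt (g k) * (qf (post (f j)) * pot (img l (post (g k))))) :=
    fun j k => by ring
  simp only [e, Finset.sum_sub_distrib, Finset.sum_add_distrib, ← Finset.mul_sum] at hb
  rw [double hf hg.fam sI (fun _ => 1), double hf hg.fam (fun _ => 1) sI,
    double hf hg.fam pot sI, double hf hg.fam qf (fun y => pot (img l y)),
    expect_const hf, expect_const hg.fam] at hb
  linarith

lemma join_pot_ge (h : Ineq l qf wf) (hf : Fam' f) (hg : Fam' g) :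
    (1 - 1999 / 1000 * l ^ 2) * expect pot f
      + l ^ 2 / 50 * (expect (fun a => sI a - sI a ^ 2) f * expect sI g)
      ≤ expect pot (join l f g) := by
  have hb : ∑ j, ∑ k, wt (f j) * wt (g k) *
      ((pot (post (f j)) * 1) - 1999 / 1000 * l ^ 2 * (pot (post (f j)) * sI (post (g k)))
        + wf (post (f j)) * pot (img l (post (g k)))
        + l ^ 2 / 50 * ((sI (post (f j)) - sI (post (f j)) ^ 2) * sI (post (g k))))
      ≤ expect pot (join l f g) := by
    rw [expect_join l pot hf.fam hg.fam]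
    refine Finset.sum_le_sum fun j _ => Finset.sum_le_sum fun k _ =>
      mul_le_mul_of_nonneg_left ?_
        (mul_nonneg (wt_nonneg (hf.fam.nonneg j)) (wt_nonneg (hg.fam.nonneg k)))
    have := h.addG _ _ (post_inS (hf.fam.nonneg j)) (post_inS (hg.fam.nonneg k))
    linarith
  have hq : 0 ≤ expect wf f * expect (fun y => pot (img l y)) g :=
    mul_nonneg (expect_nonneg hf.fam h.wf0)
      (le_trans (mul_nonneg (pow_nonneg h.l0 3) hg.pos) (img_pot_ge h hg.fam))
  have hx : expect sI g ≤ 1 :=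
    (expect_mono hg.fam fun a ha => sI_le_one ha).trans (expect_const hg.fam 1).le
  have h1 : 0 ≤ 1999 / 1000 * l ^ 2 * expect pot f * (1 - expect sI g) :=
    mul_nonneg (mul_nonneg (by positivity) hf.pos) (by linarith)
  have e : ∀ j k, wt (f j) * wt (g k) *
      ((pot (post (f j)) * 1) - 1999 / 1000 * l ^ 2 * (pot (post (f j)) * sI (post (g k)))
        + wf (post (f j)) * pot (img l (post (g k)))
        + l ^ 2 / 50 * ((sI (post (f j)) - sI (post (f j)) ^ 2) * sI (post (g k))))
      = wt (f j) * wt (g k) * (pot (post (f j)) * 1)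
        - 1999 / 1000 * l ^ 2 * (wt (f j) * wt (g k) * (pot (post (f j)) * sI (post (g k))))
        + wt (f j) * wt (g k) * (wf (post (f j)) * pot (img l (post (g k))))
        + l ^ 2 / 50 *
          (wt (f j) * wt (g k) * ((sI (post (f j)) - sI (post (f j)) ^ 2) * sI (post (g k)))) :=
    fun j k => by ring
  simp only [e, Finset.sum_sub_distrib, Finset.sum_add_distrib, ← Finset.mul_sum] at hb
  rw [double hf.fam hg.fam pot (fun _ => 1), double hf.fam hg.fam pot sI,
    double hf.fam hg.fam wf (fun y => pot (img l y)),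
    double hf.fam hg.fam (fun a => sI a - sI a ^ 2) sI, expect_const hg.fam] at hb
  linarith

lemma sI_sub_sq_nonneg {a : Spin → ℝ} (h : InS a) : 0 ≤ sI a - sI a ^ 2 := by
  nlinarith [sI_nonneg a, sI_le_one h]

lemma Fam'.join (h : Ineq l qf wf) (hf : Fam' f) (hg : Fam' g) : Fam' (Four.join l f g) := by
  refine ⟨Fam.join h.l0 h.le_one hf.fam hg.fam, le_trans ?_ (join_pot_ge h hf hg)⟩
  refine add_nonneg (mul_nonneg (by linarith [h.kap]) hf.pos) (mul_nonneg (by positivity) ?_)
  exact mul_nonneg (expect_nonneg hf.fam fun a => sI_sub_sq_nonneg)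
    (expect_nonneg hg.fam fun a _ => sI_nonneg a)

lemma Fam'.kids (h : Ineq l qf wf) : ∀ {k : ℕ} {ι : Fin k → Type}
    [∀ j, Fintype (ι j)] {g : ∀ j, ι j → Spin → ℝ}, (∀ j, Fam' (g j)) →
      Fam' (Four.kids l g) := by
  intro k
  induction k with
  | zero =>
    intro ι _ g _
    refine ⟨Fam.kids h.l0 h.le_one fun j => j.elim0, ?_⟩
    simp [expect, kids_nil, post_one, pot_one]
  | succ k ih =>
    intro ι _ g hg
    have := Fam'.join h (ih fun j : Fin k => hg j.succ) (hg 0)
    refine ⟨Fam.kids h.l0 h.le_one fun j => (hg j).fam, ?_⟩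
    rw [← expect_reindex (splitFirst ι), kids_split]
    exact this.pos

lemma kids_sI_le (h : Ineq l qf wf) : ∀ {k : ℕ} {ι : Fin k → Type}
    [∀ j, Fintype (ι j)] {g : ∀ j, ι j → Spin → ℝ}, (∀ j, Fam' (g j)) →
      expect sI (Four.kids l g) ≤ l ^ 2 * ∑ j, expect sI (g j) := by
  intro k
  induction k with
  | zero =>
    intro ι _ g _
    simp [expect, kids_nil, post_one, sI_one]
  | succ k ih =>
    intro ι _ g hg
    rw [← expect_reindex (splitFirst ι), kids_split, Fin.sum_univ_succ, mul_add]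
    have hr := Fam'.kids h fun j : Fin k => hg j.succ
    have h1 := join_sI_le h hr.fam (hg 0)
    have h2 := ih fun j : Fin k => hg j.succ
    have h3 : 0 ≤ l ^ 2 * (expect pot (Four.kids l fun j => g j.succ) * expect sI (g 0)) :=
      mul_nonneg (sq_nonneg l)
        (mul_nonneg hr.pos (expect_nonneg (hg 0).fam fun a _ => sI_nonneg a))
    linarith

lemma expect_single (hl : 0 ≤ l) (hu : l ≤ 1) (φ : (Spin → ℝ) → ℝ) {ι : Fin 1 → Type}
    [∀ j, Fintype (ι j)] {g : ∀ j, ι j → Spin → ℝ} (hg : ∀ j, Fam (g j)) :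
    expect φ (Four.kids l g) = expect (fun y => φ (img l y)) (g 0) := by
  rw [← expect_reindex (splitFirst ι), kids_split]
  simp only [expect, Fintype.sum_prod_type]
  rw [Fintype.sum_unique]
  refine Finset.sum_congr rfl fun k _ => ?_
  rw [show join l (Four.kids l fun j => g j.succ) (g 0) (default, k)
      = fun i => Four.kids l (fun j => g j.succ) default i * push l (g 0 k) i from rfl,
    join_term φ (fun i => by rw [kids_nil]; exact zero_le_one) ((hg 0).nonneg k), kids_nil,
    post_one]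
  have hy := img_inS hl hu (post_inS ((hg 0).nonneg k))
  have hz : zw (fun _ => 1) (img l (post (g 0 k))) = 1 := by
    simp only [zw, Fin.sum_univ_four, one_mul, hy.2]; norm_num
  have hw : wt (fun _ : Spin => (1 : ℝ)) = 1 := by simp [wt]
  have hc : comb (fun _ => 1) (img l (post (g 0 k))) = img l (post (g 0 k)) := by
    funext i; simp [comb, hz]
  rw [hz, hw, hc]; ring

/-- The loss in one step of the linear bound. -/
noncomputable def gainA (l : ℝ) (m : ℕ) : ℝ := l ^ 5 * (1 - 1999 / 1000 * l ^ 2) ^ m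

/-- The gain in one step of the potential. -/
noncomputable def gainB (l : ℝ) (m : ℕ) : ℝ :=
  l ^ 4 * (1 - l ^ 2) / 50 * (1 - 1999 / 1000 * l ^ 2) ^ m

lemma kids_pot_last (h : Ineq l qf wf) : ∀ {k : ℕ} {ι : Fin (k + 1) → Type}
    [∀ j, Fintype (ι j)] {g : ∀ j, ι j → Spin → ℝ}, (∀ j, Fam' (g j)) →
      (1 - 1999 / 1000 * l ^ 2) ^ k * (l ^ 3 * expect pot (g (Fin.last k)))
        ≤ expect pot (Four.kids l g) := by
  intro k
  induction k with
  | zero =>
    intro ι _ g hg
    rw [expect_single h.l0 h.le_one pot fun j => (hg j).fam, pow_zero, one_mul]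
    exact img_pot_ge h (hg 0).fam
  | succ k ih =>
    intro ι _ g hg
    rw [← expect_reindex (splitFirst ι), kids_split]
    have hr := Fam'.kids h fun j : Fin (k + 1) => hg j.succ
    refine le_trans ?_ (join_pot_ge h hr (hg 0))
    have h2 := ih fun j : Fin (k + 1) => hg j.succ
    have h3 : 0 ≤ l ^ 2 / 50 * (expect (fun a => sI a - sI a ^ 2)
        (Four.kids l fun j : Fin (k + 1) => g j.succ) * expect sI (g 0)) :=
      mul_nonneg (by positivity) (mul_nonneg (expect_nonneg hr.fam fun a => sI_sub_sq_nonneg)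
        (expect_nonneg (hg 0).fam fun a _ => sI_nonneg a))
    have h4 := mul_le_mul_of_nonneg_left h2
      (show (0 : ℝ) ≤ 1 - 1999 / 1000 * l ^ 2 by linarith [h.kap])
    have e : (Fin.last k).succ = Fin.last (k + 1) := Fin.succ_last k
    rw [e] at h4
    rw [pow_succ']
    linarith

lemma kids_sI_gain (h : Ineq l qf wf) {m : ℕ} {ι : Fin (m + 2) → Type}
    [∀ j, Fintype (ι j)] {g : ∀ j, ι j → Spin → ℝ} (hg : ∀ j, Fam' (g j)) :
    expect sI (Four.kids l g)
      + gainA l m * (expect sI (g 0) * expect pot (g (Fin.last (m + 1))))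
      ≤ l ^ 2 * ∑ j, expect sI (g j) := by
  rw [← expect_reindex (splitFirst ι), kids_split, Fin.sum_univ_succ, mul_add]
  have hr := Fam'.kids h fun j : Fin (m + 1) => hg j.succ
  have h1 := join_sI_le h hr.fam (hg 0)
  have h2 := kids_sI_le h fun j : Fin (m + 1) => hg j.succ
  have h4 := kids_pot_last h fun j : Fin (m + 1) => hg j.succ
  rw [Fin.succ_last] at h4
  have h5 := mul_le_mul_of_nonneg_right h4 (mul_nonneg (sq_nonneg l)
    (expect_nonneg (hg 0).fam fun a _ => sI_nonneg a))
  simp only [gainA] at *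
  linarith

lemma kids_pot_gain (h : Ineq l qf wf) : ∀ {m : ℕ} {ι : Fin (m + 2) → Type}
    [∀ j, Fintype (ι j)] {g : ∀ j, ι j → Spin → ℝ}, (∀ j, Fam' (g j)) →
      gainB l m * (expect sI (g (Fin.last m).castSucc) * expect sI (g (Fin.last (m + 1))))
        ≤ expect pot (Four.kids l g) := by
  intro m
  induction m with
  | zero =>
    intro ι _ g hg
    rw [← expect_reindex (splitFirst ι), kids_split]
    have hr := Fam'.kids h fun j : Fin 1 => hg j.succ
    refine le_trans ?_ (join_pot_ge h hr (hg 0))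
    have h2 : l ^ 2 * (1 - l ^ 2) * expect sI (g (Fin.succ 0)) ≤ expect (fun a => sI a - sI a ^ 2)
        (Four.kids l fun j : Fin 1 => g j.succ) := by
      rw [expect_single h.l0 h.le_one _ fun j : Fin 1 => (hg j.succ).fam, ← expect_smul]
      refine expect_mono (hg (Fin.succ 0)).fam fun y hy => ?_
      rw [sI_img]
      nlinarith [mul_nonneg (mul_nonneg (sq_nonneg (l ^ 2)) (sI_nonneg y))
        (sub_nonneg.mpr (sI_le_one hy))]
    have h3 : 0 ≤ expect sI (g 0) := expect_nonneg (hg 0).fam fun a _ => sI_nonneg a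
    have h4 := mul_le_mul_of_nonneg_left (mul_le_mul_of_nonneg_right h2 h3)
      (show (0 : ℝ) ≤ l ^ 2 / 50 by positivity)
    have h5 : 0 ≤ (1 - 1999 / 1000 * l ^ 2) * expect pot (Four.kids l fun j : Fin 1 => g j.succ) :=
      mul_nonneg (by linarith [h.kap]) hr.pos
    rw [gainB, pow_zero, mul_one,
      show ((Fin.last 0).castSucc : Fin 2) = 0 from rfl,
      show (Fin.last 1 : Fin 2) = Fin.succ 0 from rfl]
    linarith
  | succ m ih =>
    intro ι _ g hg
    rw [← expect_reindex (splitFirst ι), kids_split]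
    have hr := Fam'.kids h fun j : Fin (m + 2) => hg j.succ
    refine le_trans ?_ (join_pot_ge h hr (hg 0))
    have h2 := mul_le_mul_of_nonneg_left (ih fun j : Fin (m + 2) => hg j.succ)
      (show (0 : ℝ) ≤ 1 - 1999 / 1000 * l ^ 2 by linarith [h.kap])
    have h3 : 0 ≤ l ^ 2 / 50 * (expect (fun a => sI a - sI a ^ 2)
        (Four.kids l fun j : Fin (m + 2) => g j.succ) * expect sI (g 0)) :=
      mul_nonneg (by positivity) (mul_nonneg (expect_nonneg hr.fam fun a => sI_sub_sq_nonneg)
        (expect_nonneg (hg 0).fam fun a _ => sI_nonneg a))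
    have e1 : ((Fin.last m).castSucc.succ : Fin (m + 3)) = (Fin.last (m + 1)).castSucc := rfl
    have e2 : ((Fin.last (m + 1)).succ : Fin (m + 3)) = Fin.last (m + 2) := rfl
    rw [e1, e2] at h2
    simp only [gainB, pow_succ'] at *
    linarith

end fold

lemma lik_succ (l : ℝ) (n : ℕ) (T : Tr (n + 1)) :
    lik l (n + 1) T = kids l (fun j => lik l n (T.2 j)) := rfl

lemma expect_leaf (l : ℝ) (T : Tr 0) (φ : (Spin → ℝ) → ℝ) :
    expect φ (lik l 0 T) = ∑ c : Spin, 1 / 4 * φ (fun i => if i = c then 4 else 0) := by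
  show (∑ c : Spin, wt (fun i => if i = c then (1 : ℝ) else 0) *
    φ (post fun i => if i = c then (1 : ℝ) else 0)) = _
  refine Finset.sum_congr rfl fun c _ => ?_
  have hw : wt (fun i => if i = c then (1 : ℝ) else 0) = 1 / 4 := by simp [wt]
  have hp : (post fun i => if i = c then (1 : ℝ) else 0) = fun i => if i = c then 4 else 0 := by
    funext i; rw [post, hw]; split_ifs with h1 h2 <;> simp_all
  rw [hw, hp]

lemma pot_leaf (c : Spin) : 0 ≤ pot (fun i => if i = c then 4 else 0) := by
  have h2 : Real.log 4 = 2 * Real.log 2 := by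
    rw [show (4 : ℝ) = 2 ^ 2 by norm_num, Real.log_pow]; norm_num
  have := Real.log_two_lt_d9
  fin_cases c <;> simp [pot, sI, ent, Fin.sum_univ_four] <;> norm_num <;> linarith

lemma fam_lik {l : ℝ} {qf wf : (Spin → ℝ) → ℝ} (h : Ineq l qf wf) :
    ∀ (n : ℕ) (T : Tr n), Fam' (lik l n T)
  | 0, T => by
    refine ⟨⟨fun (c : Spin) i => ?_, fun i => ?_, fun σ => ⟨σ.symm, fun (c : Spin) i => ?_⟩⟩, ?_⟩
    · simp only [lik]; split_ifs <;> norm_num
    · show ∑ c : Spin, (if i = c then (1 : ℝ) else 0) = 1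
      simp
    · show (if i = σ.symm c then (1 : ℝ) else 0) = if σ i = c then 1 else 0
      simp only [Equiv.eq_symm_apply]
    · rw [expect_leaf]
      exact Finset.sum_nonneg fun c _ => mul_nonneg (by norm_num) (pot_leaf c)
  | n + 1, T => by
    rw [lik_succ]
    exact @Fam'.kids l qf wf h T.1 (fun j => Cfg n (T.2 j)) (fun j => cfgFintype n (T.2 j))
      (fun j => lik l n (T.2 j)) (fun j => fam_lik h n (T.2 j))

lemma tv_le {l : ℝ} {qf wf : (Spin → ℝ) → ℝ} (h : Ineq l qf wf) (n : ℕ) (T : Tr n) {ε : ℝ}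
    (hε : 0 < ε) : tv l n T ≤ ε + expect sI (lik l n T) / ε := by
  have hF := (fam_lik h n T).fam
  have hw : ∀ c, prob l n T c = wt (lik l n T c) := fun c => by
    simp only [prob, wt, ← Finset.mul_sum]; ring
  calc tv l n T ≤ ∑ c, wt (lik l n T c) * (ε + sI (post (lik l n T c)) / ε) := by
        refine Finset.sum_le_sum fun c _ => ?_
        rw [hw c]
        by_cases h0 : wt (lik l n T c) = 0
        · rw [h0, zero_mul, zero_mul]
        · refine mul_le_mul_of_nonneg_left ?_ (wt_nonneg (hF.nonneg c))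
          have e : ∀ i, (1 / 4 : ℝ) * lik l n T c i / wt (lik l n T c) - 1 / 4
              = (post (lik l n T c) i - 1) / 4 := fun i => by
            rw [post, if_neg h0]; ring
          have hx : ∀ x : ℝ, |x / 4| / 2 ≤ ε / 4 + x ^ 2 / 12 / ε := fun x => by
            rw [abs_div, abs_of_pos (by norm_num : (0 : ℝ) < 4), ← sq_abs x]
            rw [show ε / 4 + |x| ^ 2 / 12 / ε = (3 * ε ^ 2 + |x| ^ 2) / (12 * ε) by field_simp; ring,
              div_div, div_le_div_iff₀ (by norm_num) (by positivity)]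
            nlinarith [sq_nonneg (3 * ε - 4 * |x|), abs_nonneg x, sq_nonneg ε, sq_nonneg |x|]
          have b0 := hx (post (lik l n T c) 0 - 1)
          have b1 := hx (post (lik l n T c) 1 - 1)
          have b2 := hx (post (lik l n T c) 2 - 1)
          have b3 := hx (post (lik l n T c) 3 - 1)
          simp only [Fin.sum_univ_four, e, sI, add_div]
          linarith
    _ = ε + expect sI (lik l n T) / ε := by
        simp only [mul_add, Finset.sum_add_distrib, ← Finset.sum_mul, hF.wt_sum, one_mul, expect,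
          Finset.sum_div, mul_div_assoc]

lemma tv_nonneg {l : ℝ} {qf wf : (Spin → ℝ) → ℝ} (h : Ineq l qf wf) (n : ℕ) (T : Tr n) :
    0 ≤ tv l n T :=
  Finset.sum_nonneg fun c _ => mul_nonneg
    (Finset.sum_nonneg fun i _ => mul_nonneg (by norm_num) ((fam_lik h n T).fam.nonneg c i))
    (by positivity)

end Vale.Agent.P154.Four
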