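import Vale.Agent.P154.FourAllPot
import Vale.Agent.P154.FourTrees

/-!
The recursive bounds on trees coming from the pointwise inequalities on the whole simplex.
-/

open scoped BigOperators
open Set

namespace Vale.Agent.P154.Four.All

open Vale.Agent.P154 (Tr)

lemma hfun_scale {l z : ℝ} (hl : 0 ≤ l) (hu : l ≤ 1) (hz : -1 ≤ z) :
    hfun (l * z) ≤ l ^ 3 * hfun z := by
  rcases eq_or_lt_of_le hl with rfl | hlp
  · simp [hfun]
  -- `x h'(x) - 3 h(x)` is convex and vanishes to first order at the origin
  set H1 : ℝ → ℝ := fun x => Real.log (1 + x) - x + x ^ 2 / 2 with hH1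
  have d1 : ∀ x : ℝ, -1 < x → HasDerivAt hfun (H1 x) x := fun x hx => by
    have e : psi 1 [] = hfun := funext fun w => by simp [psi, pev]
    simpa [e, psi1, dev, hH1] using hasDerivAt_psi 1 [] hx
  have d2 : ∀ x : ℝ, -1 < x → HasDerivAt H1 (x ^ 2 / (1 + x)) x := fun x hx => by
    have e : psi1 1 [] = H1 := funext fun w => by simp [psi1, dev, hH1]
    simpa [e, ddev] using hasDerivAt_psi1 1 [] hx
  have dk : ∀ x : ℝ, -1 < x →
      HasDerivAt (fun w => w * H1 w - 3 * hfun w) (x * (x ^ 2 / (1 + x)) - 2 * H1 x) x := fun x hx => by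
    have := ((hasDerivAt_id x).fun_mul (d2 x hx)).fun_sub ((d1 x hx).const_mul 3)
    refine this.congr_deriv ?_
    simp only [id]; ring
  have dk2 : ∀ x : ℝ, -1 < x → HasDerivAt (fun w => w * (w ^ 2 / (1 + w)) - 2 * H1 w)
      (x ^ 2 / (1 + x) ^ 2) x := fun x hx => by
    have hne : (1 : ℝ) + x ≠ 0 := by linarith
    have := ((hasDerivAt_id x).fun_mul ((hasDerivAt_pow 2 x).fun_div
      ((hasDerivAt_id x).const_add 1) hne)).fun_sub ((d2 x hx).const_mul 2)
    refine this.congr_deriv ?_
    simp only [id]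
    field_simp
    ring
  have kpos : ∀ x : ℝ, -1 < x → 0 ≤ x * H1 x - 3 * hfun x := by
    intro x hx
    have hconv : ConvexOn ℝ (Ioi (-1 : ℝ)) fun w => w * H1 w - 3 * hfun w := by
      refine convexOn_of_hasDerivWithinAt2_nonneg (convex_Ioi _)
        (fun w hw => (dk w hw).continuousAt.continuousWithinAt)
        (f' := fun w => w * (w ^ 2 / (1 + w)) - 2 * H1 w) (f'' := fun w => w ^ 2 / (1 + w) ^ 2)
        ?_ ?_ ?_
      · rw [interior_Ioi]; exact fun w hw => (dk w hw).hasDerivWithinAt
      · rw [interior_Ioi]; exact fun w hw => (dk2 w hw).hasDerivWithinAt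
      · intro w _; positivity
    have hd0 : HasDerivAt (fun w => w * H1 w - 3 * hfun w) 0 0 := by
      simpa [hH1] using dk 0 (by norm_num)
    rcases lt_trichotomy x 0 with hlt | rfl | hgt
    · have := hconv.slope_le_of_hasDerivAt hx (by norm_num) hlt hd0
      simp [slope_def_field, hfun] at this ⊢
      rw [div_le_iff₀ (by linarith)] at this
      simpa using this
    · simp [hfun]
    · have := hconv.le_slope_of_hasDerivAt (by norm_num) hx hgt hd0
      simp [slope_def_field, hfun] at this ⊢
      rw [le_div_iff₀ hgt] at this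
      simpa using this
  -- so `h (t z) / t³` increases in `t`
  have hmono : MonotoneOn (fun t => hfun (t * z) / t ^ 3) (Icc l 1) := by
    refine monotoneOn_of_hasDerivWithinAt_nonneg (convex_Icc l 1) ?_
      (f' := fun t => (t * z * H1 (t * z) - 3 * hfun (t * z)) / t ^ 4) ?_ ?_
    · have hc : Continuous fun t => hfun (t * z) := by
        have := (continuous_psi 1 []).comp (continuous_id.mul continuous_const :
          Continuous fun t : ℝ => t * z)
        simpa [psi, pev, Function.comp_def] using this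
      exact hc.continuousOn.div (by fun_prop) fun t ht => pow_ne_zero 3 (by linarith [ht.1])
    · rw [interior_Icc]
      intro t ht
      have htp : 0 < t := by linarith [ht.1]
      have htz : -1 < t * z := by nlinarith [ht.2]
      have := ((d1 (t * z) htz).comp t ((hasDerivAt_id t).mul_const z)).fun_div
        (hasDerivAt_pow 3 t) (pow_ne_zero 3 htp.ne')
      refine (this.congr_deriv ?_).hasDerivWithinAt
      simp only [Function.comp_apply, id]
      field_simp
      norm_num
      ring
    · rw [interior_Icc]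
      intro t ht
      have htp : 0 < t := by linarith [ht.1]
      have htz : -1 < t * z := by nlinarith [ht.2]
      exact div_nonneg (kpos _ htz) (by positivity)
  have := hmono (left_mem_Icc.mpr hu) (right_mem_Icc.mpr hu) hu
  simp only [one_mul, one_pow, div_one] at this
  rw [div_le_iff₀ (by positivity)] at this
  linarith

lemma img_pot {l : ℝ} (hl : 0 ≤ l) (hu : l ≤ 1) {y : Spin → ℝ} (hy : InS y) :
    l ^ 3 * pot y ≤ pot (img l y) := by
  rw [pot_eq hy, pot_eq (img_inS hl hu hy)]
  have e : ∀ i, img l y i - 1 = l * (y i - 1) := fun i => by simp [img]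
  have s := fun i => hfun_scale hl hu (range hy i).1
  have et : tI (img l y) = l ^ 3 * tI y := by
    simp only [tI, img, Fin.sum_univ_four]; ring
  rw [e, e, e, e, et]
  linarith [s 0, s 1, s 2, s 3]

lemma sI_le_avc {a b : Spin → ℝ} (ha : InS a) (hb : InS b) : sI a ≤ avc sI a b := by
  have key : ∀ σ : Equiv.Perm Spin,
      ∑ i, (2 * (a i - 1) * (a i * b (σ i) - zw a fun i => b (σ i))
        - (a i - 1) ^ 2 * zw a fun i => b (σ i)) / 12
      ≤ zw a (fun i => b (σ i)) * sI (comb a fun i => b (σ i)) := fun σ => by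
    have hv := InS.perm hb σ
    set v : Spin → ℝ := fun i => b (σ i)
    have hv' : ∀ i, b (σ i) = v i := fun i => rfl
    simp only [hv']
    by_cases hz : zw a v = 0
    · simp [hz, prod_eq_zero ha hv hz]
    · have hZ : 0 ≤ zw a v :=
        div_nonneg (Finset.sum_nonneg fun i _ => mul_nonneg (ha.1 i) (hv.1 i)) (by norm_num)
      rw [sI, Finset.sum_div, Finset.mul_sum]
      refine Finset.sum_le_sum fun i _ => ?_
      have e : zw a v * comb a v i = a i * v i := by simp only [comb]; field_simp
      rw [← e]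
      nlinarith [mul_nonneg hZ (sq_nonneg (comb a v i - a i))]
  have h := Finset.sum_le_sum (s := Finset.univ) fun σ (_ : σ ∈ Finset.univ) => key σ
  have hZ : ∑ σ : Equiv.Perm Spin, zw a (fun i => b (σ i)) = 24 := by
    simp only [zw, ← Finset.sum_div]
    rw [Finset.sum_comm]
    simp only [← Finset.mul_sum, sum_apply, ← Finset.sum_mul]
    simp only [Fin.sum_univ_four, ha.2, hb.2]; norm_num
  have e : ∑ σ : Equiv.Perm Spin, ∑ i, (2 * (a i - 1) * (a i * b (σ i) - zw a fun i => b (σ i))
        - (a i - 1) ^ 2 * zw a fun i => b (σ i)) / 12 = 24 * sI a := by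
    rw [Finset.sum_comm]
    simp only [← Finset.sum_div, Finset.sum_sub_distrib, ← Finset.mul_sum, mul_sub, hZ, sum_apply]
    simp only [sI, Fin.sum_univ_four, hb.2]; ring
  rw [e] at h
  rw [avc]
  linarith

variable {ι κ : Type} [Fintype ι] [Fintype κ] {f : ι → Spin → ℝ} {g : κ → Spin → ℝ} {l : ℝ}

lemma img_pot_mean (hl : 0 ≤ l) (hu : l ≤ 1) (hg : Fam' g) :
    0 ≤ expect (fun y => pot (img l y)) g ∧
      l ^ 3 * expect pot g ≤ expect (fun y => pot (img l y)) g := by
  have h : l ^ 3 * expect pot g ≤ expect (fun y => pot (img l y)) g := by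
    rw [← expect_smul]
    exact expect_mono hg.fam fun y hy => img_pot hl hu hy
  exact ⟨le_trans (mul_nonneg (pow_nonneg hl 3) hg.pos) h, h⟩

lemma join_sI_le (hl : 0 ≤ l) (hu : l ≤ 1) (hf : Fam' f) (hg : Fam' g) :
    expect sI (join l f g) + 361 / 2500 * l ^ 2 * (expect pot f * expect sI g)
      ≤ expect sI f + l ^ 2 * expect sI g := by
  have hb : expect sI (join l f g) ≤ ∑ j, ∑ k, wt (f j) * wt (g k) *
      ((sI (post (f j)) * 1) + l ^ 2 * (1 * sI (post (g k)))
        - 1 / 4 * (pot (post (f j)) * gfun (img l (post (g k))))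
        - 1 / 4 * (gfun (post (f j)) * pot (img l (post (g k))))) := by
    rw [expect_join l sI hf.fam hg.fam]
    refine Finset.sum_le_sum fun j _ => Finset.sum_le_sum fun k _ =>
      mul_le_mul_of_nonneg_left ?_
        (mul_nonneg (wt_nonneg (hf.fam.nonneg j)) (wt_nonneg (hg.fam.nonneg k)))
    have := addS (post_inS (hf.fam.nonneg j)) (img_inS hl hu (post_inS (hg.fam.nonneg k)))
    rw [sI_img] at this
    linarith
  have hq : 0 ≤ expect gfun f * expect (fun y => pot (img l y)) g :=
    mul_nonneg (expect_nonneg hf.fam fun a ha =>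
      le_trans (mul_nonneg (by norm_num) (sI_nonneg a)) (gfun_ge ha)) (img_pot_mean hl hu hg).1
  have hge : 361 / 625 * l ^ 2 * expect sI g ≤ expect (fun y => gfun (img l y)) g := by
    rw [← expect_smul]
    refine expect_mono hg.fam fun y hy => ?_
    have := gfun_ge (img_inS hl hu hy)
    rw [sI_img] at this
    linarith
  have h2 := mul_le_mul_of_nonneg_left hge hf.pos
  have e : ∀ j k, wt (f j) * wt (g k) *
      ((sI (post (f j)) * 1) + l ^ 2 * (1 * sI (post (g k)))
        - 1 / 4 * (pot (post (f j)) * gfun (img l (post (g k))))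
        - 1 / 4 * (gfun (post (f j)) * pot (img l (post (g k)))))
      = wt (f j) * wt (g k) * (sI (post (f j)) * 1)
        + l ^ 2 * (wt (f j) * wt (g k) * (1 * sI (post (g k))))
        - 1 / 4 * (wt (f j) * wt (g k) * (pot (post (f j)) * gfun (img l (post (g k)))))
        - 1 / 4 * (wt (f j) * wt (g k) * (gfun (post (f j)) * pot (img l (post (g k))))) :=
    fun j k => by ring
  simp only [e, Finset.sum_sub_distrib, Finset.sum_add_distrib, ← Finset.mul_sum] at hb
  rw [double hf.fam hg.fam sI (fun _ => 1), double hf.fam hg.fam (fun _ => 1) sI,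
    double hf.fam hg.fam pot (fun y => gfun (img l y)),
    double hf.fam hg.fam gfun (fun y => pot (img l y)),
    expect_const hf.fam, expect_const hg.fam] at hb
  linarith

lemma join_pot_ge (hl : 0 ≤ l) (hu : l ≤ 1) (hf : Fam' f) (hg : Fam' g) :
    1 / 25 * l ^ 2 * (expect sI f * expect sI g) ≤ expect pot (join l f g) := by
  have hb : ∑ j, ∑ k, wt (f j) * wt (g k) *
      ((pot (post (f j)) * wfun (img l (post (g k))))
        + wfun (post (f j)) * pot (img l (post (g k)))
        + 1 / 25 * l ^ 2 * (sI (post (f j)) * sI (post (g k))))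
      ≤ expect pot (join l f g) := by
    rw [expect_join l pot hf.fam hg.fam]
    refine Finset.sum_le_sum fun j _ => Finset.sum_le_sum fun k _ =>
      mul_le_mul_of_nonneg_left ?_
        (mul_nonneg (wt_nonneg (hf.fam.nonneg j)) (wt_nonneg (hg.fam.nonneg k)))
    have := addG (post_inS (hf.fam.nonneg j)) (img_inS hl hu (post_inS (hg.fam.nonneg k)))
    rw [sI_img] at this
    linarith
  have h1 : 0 ≤ expect pot f * expect (fun y => wfun (img l y)) g :=
    mul_nonneg hf.pos (expect_nonneg hg.fam fun y hy => wfun_nonneg (img_inS hl hu hy))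
  have h2 : 0 ≤ expect wfun f * expect (fun y => pot (img l y)) g :=
    mul_nonneg (expect_nonneg hf.fam fun a ha => wfun_nonneg ha) (img_pot_mean hl hu hg).1
  simp only [mul_add, mul_left_comm (_ * _) (1 / 25 * l ^ 2), Finset.sum_add_distrib,
    ← Finset.mul_sum] at hb
  rw [double hf.fam hg.fam pot (fun y => wfun (img l y)),
    double hf.fam hg.fam wfun (fun y => pot (img l y)), double hf.fam hg.fam sI sI] at hb
  linarith

lemma join_sI_ge (hl : 0 ≤ l) (hu : l ≤ 1) (hf : Fam f) (hg : Fam g) :
    expect sI f ≤ expect sI (join l f g) := by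
  rw [expect_join l sI hf hg]
  calc expect sI f = expect sI f * expect (fun _ => 1) g := by rw [expect_const hg, mul_one]
    _ = ∑ j, ∑ k, wt (f j) * wt (g k) * (sI (post (f j)) * 1) := (double hf hg sI fun _ => 1).symm
    _ ≤ _ := Finset.sum_le_sum fun j _ => Finset.sum_le_sum fun k _ =>
      mul_le_mul_of_nonneg_left (by
        rw [mul_one]
        exact sI_le_avc (post_inS (hf.nonneg j)) (img_inS hl hu (post_inS (hg.nonneg k))))
        (mul_nonneg (wt_nonneg (hf.nonneg j)) (wt_nonneg (hg.nonneg k)))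

lemma fam_join (hl : 0 ≤ l) (hu : l ≤ 1) (hf : Fam' f) (hg : Fam' g) :
    Fam' (Four.join l f g) := by
  refine ⟨Fam.join hl hu hf.fam hg.fam, le_trans ?_ (join_pot_ge hl hu hf hg)⟩
  exact mul_nonneg (by positivity) (mul_nonneg (expect_nonneg hf.fam fun a _ => sI_nonneg a)
    (expect_nonneg hg.fam fun a _ => sI_nonneg a))

lemma fam_kids (hl : 0 ≤ l) (hu : l ≤ 1) : ∀ {k : ℕ} {ι : Fin k → Type}
    [∀ j, Fintype (ι j)] {g : ∀ j, ι j → Spin → ℝ}, (∀ j, Fam' (g j)) →
      Fam' (Four.kids l g) := by
  intro k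
  induction k with
  | zero =>
    intro ι _ g _
    refine ⟨Fam.kids hl hu fun j => j.elim0, ?_⟩
    simp [expect, kids_nil, post_one, pot_one]
  | succ k ih =>
    intro ι _ g hg
    have := fam_join hl hu (ih fun j : Fin k => hg j.succ) (hg 0)
    refine ⟨Fam.kids hl hu fun j => (hg j).fam, ?_⟩
    rw [← expect_reindex (splitFirst ι), kids_split]
    exact this.pos

lemma kids_sI_le (hl : 0 ≤ l) (hu : l ≤ 1) : ∀ {k : ℕ} {ι : Fin k → Type}
    [∀ j, Fintype (ι j)] {g : ∀ j, ι j → Spin → ℝ}, (∀ j, Fam' (g j)) →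
      expect sI (Four.kids l g) ≤ l ^ 2 * ∑ j, expect sI (g j) := by
  intro k
  induction k with
  | zero =>
    intro ι _ g _
    simp [expect, kids_nil, post_one, sI_one]
  | succ k ih =>
    intro ι _ g hg
    rw [← expect_reindex (splitFirst ι), kids_split, Fin.sum_univ_succ, mul_add]
    have hr := fam_kids hl hu fun j : Fin k => hg j.succ
    have h1 := join_sI_le hl hu hr (hg 0)
    have h2 := ih fun j : Fin k => hg j.succ
    have h3 : 0 ≤ 361 / 2500 * l ^ 2 *
        (expect pot (Four.kids l fun j => g j.succ) * expect sI (g 0)) :=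
      mul_nonneg (by positivity)
        (mul_nonneg hr.pos (expect_nonneg (hg 0).fam fun a _ => sI_nonneg a))
    linarith

lemma kids_sI_ge (hl : 0 ≤ l) (hu : l ≤ 1) : ∀ {k : ℕ} {ι : Fin (k + 1) → Type}
    [∀ j, Fintype (ι j)] {g : ∀ j, ι j → Spin → ℝ}, (∀ j, Fam' (g j)) →
      l ^ 2 * expect sI (g (Fin.last k)) ≤ expect sI (Four.kids l g) := by
  intro k
  induction k with
  | zero =>
    intro ι _ g hg
    rw [expect_single hl hu sI fun j => (hg j).fam, ← expect_smul]
    exact le_of_eq (by simp only [sI_img]; rfl)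
  | succ k ih =>
    intro ι _ g hg
    rw [← expect_reindex (splitFirst ι), kids_split]
    have hr := fam_kids hl hu fun j : Fin (k + 1) => hg j.succ
    refine le_trans ?_ (join_sI_ge hl hu hr.fam (hg 0).fam)
    have h2 := ih fun j : Fin (k + 1) => hg j.succ
    rwa [Fin.succ_last] at h2

/-- The loss in one step of the linear bound. -/
noncomputable def gA (l : ℝ) : ℝ := 361 / 2500 * l ^ 5

/-- The gain in one step of the potential. -/
noncomputable def gB (l : ℝ) : ℝ := l ^ 4 / 25

lemma kids_sI_gain (hl : 0 ≤ l) (hu : l ≤ 1) : ∀ {m : ℕ} {ι : Fin (m + 2) → Type}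
    [∀ j, Fintype (ι j)] {g : ∀ j, ι j → Spin → ℝ}, (∀ j, Fam' (g j)) →
      expect sI (Four.kids l g)
        + gA l * (expect sI (g (Fin.last m).castSucc) * expect pot (g (Fin.last (m + 1))))
      ≤ l ^ 2 * ∑ j, expect sI (g j) := by
  intro m
  induction m with
  | zero =>
    intro ι _ g hg
    rw [← expect_reindex (splitFirst ι), kids_split, Fin.sum_univ_succ, mul_add]
    have hr := fam_kids hl hu fun j : Fin 1 => hg j.succ
    have h1 := join_sI_le hl hu hr (hg 0)
    have h2 := kids_sI_le hl hu fun j : Fin 1 => hg j.succ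
    have h4 : l ^ 3 * expect pot (g (Fin.succ 0))
        ≤ expect pot (Four.kids l fun j : Fin 1 => g j.succ) := by
      rw [expect_single hl hu pot fun j : Fin 1 => (hg j.succ).fam]
      exact (img_pot_mean hl hu (hg (Fin.succ 0))).2
    have h5 := mul_le_mul_of_nonneg_right h4 (mul_nonneg (show (0 : ℝ) ≤ 361 / 2500 * l ^ 2 by
      positivity) (expect_nonneg (hg 0).fam fun a _ => sI_nonneg a))
    rw [show ((Fin.last 0).castSucc : Fin 2) = 0 from rfl,
      show (Fin.last 1 : Fin 2) = Fin.succ 0 from rfl]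
    simp only [gA] at *
    linarith
  | succ m ih =>
    intro ι _ g hg
    rw [← expect_reindex (splitFirst ι), kids_split, Fin.sum_univ_succ, mul_add]
    have hr := fam_kids hl hu fun j : Fin (m + 2) => hg j.succ
    have h1 := join_sI_le hl hu hr (hg 0)
    have h2 := ih fun j : Fin (m + 2) => hg j.succ
    have h3 : 0 ≤ 361 / 2500 * l ^ 2 *
        (expect pot (Four.kids l fun j : Fin (m + 2) => g j.succ) * expect sI (g 0)) :=
      mul_nonneg (by positivity)
        (mul_nonneg hr.pos (expect_nonneg (hg 0).fam fun a _ => sI_nonneg a))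
    have e1 : ((Fin.last m).castSucc.succ : Fin (m + 3)) = (Fin.last (m + 1)).castSucc := rfl
    have e2 : ((Fin.last (m + 1)).succ : Fin (m + 3)) = Fin.last (m + 2) := rfl
    rw [e1, e2] at h2
    linarith

lemma kids_pot_gain (hl : 0 ≤ l) (hu : l ≤ 1) {m : ℕ} {ι : Fin (m + 2) → Type}
    [∀ j, Fintype (ι j)] {g : ∀ j, ι j → Spin → ℝ} (hg : ∀ j, Fam' (g j)) :
    gB l * (expect sI (g 0) * expect sI (g (Fin.last (m + 1))))
      ≤ expect pot (Four.kids l g) := by
  rw [← expect_reindex (splitFirst ι), kids_split]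
  have hr := fam_kids hl hu fun j : Fin (m + 1) => hg j.succ
  refine le_trans ?_ (join_pot_ge hl hu hr (hg 0))
  have h2 := kids_sI_ge hl hu fun j : Fin (m + 1) => hg j.succ
  rw [Fin.succ_last] at h2
  have h3 := mul_le_mul_of_nonneg_left h2 (mul_nonneg (show (0 : ℝ) ≤ l ^ 2 / 25 by positivity)
    (expect_nonneg (hg 0).fam fun a _ => sI_nonneg a))
  simp only [gB]
  linarith

lemma fam_lik (hl : 0 ≤ l) (hu : l ≤ 1) : ∀ (n : ℕ) (T : Tr n), Fam' (lik l n T)
  | 0, T => by
    refine ⟨⟨fun (c : Spin) i => ?_, fun i => ?_, fun σ => ⟨σ.symm, fun (c : Spin) i => ?_⟩⟩, ?_⟩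
    · simp only [lik]; split_ifs <;> norm_num
    · show ∑ c : Spin, (if i = c then (1 : ℝ) else 0) = 1
      simp
    · show (if i = σ.symm c then (1 : ℝ) else 0) = if σ i = c then 1 else 0
      simp only [Equiv.eq_symm_apply]
    · rw [expect_leaf]
      exact Finset.sum_nonneg fun c _ => mul_nonneg (by norm_num) (pot_leaf c)
  | n + 1, T => by
    rw [lik_succ]
    exact @fam_kids l hl hu T.1 (fun j => Cfg n (T.2 j)) (fun j => cfgFintype n (T.2 j))
      (fun j => lik l n (T.2 j)) (fun j => fam_lik hl hu n (T.2 j))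

lemma tv_le (hl : 0 ≤ l) (hu : l ≤ 1) (n : ℕ) (T : Tr n) {ε : ℝ}
    (hε : 0 < ε) : tv l n T ≤ ε + expect sI (lik l n T) / ε := by
  have hF := (fam_lik hl hu n T).fam
  have hw : ∀ c, prob l n T c = wt (lik l n T c) := fun c => by
    simp only [prob, wt, ← Finset.mul_sum]; ring
  calc tv l n T ≤ ∑ c, wt (lik l n T c) * (ε + sI (post (lik l n T c)) / ε) := by
        refine Finset.sum_le_sum fun c _ => ?_
        rw [hw c]
        by_cases h0 : wt (lik l n T c) = 0
        · rw [h0, zero_mul, zero_mul]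
        · refine mul_le_mul_of_nonneg_left ?_ (wt_nonneg (hF.nonneg c))
          have e : ∀ i, (1 / 4 : ℝ) * lik l n T c i / wt (lik l n T c) - 1 / 4
              = (post (lik l n T c) i - 1) / 4 := fun i => by
            rw [post, if_neg h0]; ring
          have hx : ∀ x : ℝ, |x / 4| / 2 ≤ ε / 4 + x ^ 2 / 12 / ε := fun x => by
            rw [abs_div, abs_of_pos (by norm_num : (0 : ℝ) < 4), ← sq_abs x]
            rw [show ε / 4 + |x| ^ 2 / 12 / ε = (3 * ε ^ 2 + |x| ^ 2) / (12 * ε) by field_simp; ring,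
              div_div, div_le_div_iff₀ (by norm_num) (by positivity)]
            nlinarith [sq_nonneg (3 * ε - 4 * |x|), abs_nonneg x, sq_nonneg ε, sq_nonneg |x|]
          have b0 := hx (post (lik l n T c) 0 - 1)
          have b1 := hx (post (lik l n T c) 1 - 1)
          have b2 := hx (post (lik l n T c) 2 - 1)
          have b3 := hx (post (lik l n T c) 3 - 1)
          simp only [Fin.sum_univ_four, e, sI, add_div]
          linarith
    _ = ε + expect sI (lik l n T) / ε := by
        simp only [mul_add, Finset.sum_add_distrib, ← Finset.sum_mul, hF.wt_sum, one_mul, expect,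
          Finset.sum_div, mul_div_assoc]

lemma tv_nonneg (hl : 0 ≤ l) (hu : l ≤ 1) (n : ℕ) (T : Tr n) :
    0 ≤ tv l n T :=
  Finset.sum_nonneg fun c _ => mul_nonneg
    (Finset.sum_nonneg fun i _ => mul_nonneg (by norm_num) ((fam_lik hl hu n T).fam.nonneg c i))
    (by positivity)

end Vale.Agent.P154.Four.All
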