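import Mathlib

/-!
Broadcasting through the four-state Potts channel: likelihood families, their posterior ratios,
and the symmetrised identity for the expectation of a function of the posterior after a join.
-/

open scoped BigOperators

namespace Vale.Agent.P154.Four

/-- Spins. -/
abbrev Spin := Fin 4

/-- The transition probability of the four-state Potts channel. -/
noncomputable def chan (l : ℝ) (i j : Spin) : ℝ := (if i = j then l else 0) + (1 - l) / 4

/-- Likelihood pushed through one edge. -/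
noncomputable def push (l : ℝ) (g : Spin → ℝ) (i : Spin) : ℝ := ∑ j, chan l i j * g j

lemma push_eq (l : ℝ) (g : Spin → ℝ) (i : Spin) :
    push l g i = l * g i + (1 - l) / 4 * ∑ j, g j := by
  simp only [push, chan, add_mul, Finset.sum_add_distrib, ite_mul, zero_mul,
    Finset.sum_ite_eq, Finset.mem_univ, if_true, Finset.mul_sum]

lemma chan_nonneg {l : ℝ} (hl : 0 ≤ l) (hu : l ≤ 1) (i j : Spin) : 0 ≤ chan l i j := by
  unfold chan; split_ifs <;> linarith

/-- Posterior ratio vectors: nonnegative, with mean one. -/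
def InS (a : Spin → ℝ) : Prop := (∀ i, 0 ≤ a i) ∧ a 0 + a 1 + a 2 + a 3 = 4

/-- The second invariant: a third of the mean square of the centred vector. -/
noncomputable def sI (a : Spin → ℝ) : ℝ := (∑ i, (a i - 1) ^ 2) / 12

/-- The third invariant. -/
noncomputable def tI (a : Spin → ℝ) : ℝ := (∑ i, (a i - 1) ^ 3) / 24

/-- The fourth invariant. -/
noncomputable def fI (a : Spin → ℝ) : ℝ := (∑ i, (a i - 1) ^ 4) / 84

/-- The relative entropy to the uniform law. -/
noncomputable def ent (a : Spin → ℝ) : ℝ := (∑ i, a i * Real.log (a i)) / 4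

/-- The auxiliary potential. -/
noncomputable def pot (a : Spin → ℝ) : ℝ := 6 * sI a - 4 * ent a

/-- The normalising weight of two children. -/
noncomputable def zw (a b : Spin → ℝ) : ℝ := (∑ i, a i * b i) / 4

/-- The combined posterior. -/
noncomputable def comb (a b : Spin → ℝ) : Spin → ℝ := fun i => a i * b i / zw a b

/-- The image of a posterior ratio under the channel. -/
def img (l : ℝ) (y : Spin → ℝ) : Spin → ℝ := fun i => 1 + l * (y i - 1)

/-- The symmetrised expectation of `φ` after joining. -/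
noncomputable def avc (φ : (Spin → ℝ) → ℝ) (a b : Spin → ℝ) : ℝ :=
  (1 / 24 : ℝ) * ∑ σ : Equiv.Perm Spin,
    zw a (fun i => b (σ i)) * φ (comb a fun i => b (σ i))

/-- A family of likelihood vectors of a symmetric experiment. -/
structure Fam {ι : Type} [Fintype ι] (f : ι → Spin → ℝ) : Prop where
  nonneg : ∀ k i, 0 ≤ f k i
  mass : ∀ i, ∑ k, f k i = 1
  equiv : ∀ σ : Equiv.Perm Spin, ∃ e : ι ≃ ι, ∀ k i, f (e k) i = f k (σ i)

variable {ι κ : Type} [Fintype ι] [Fintype κ]

/-- Probability of one observation. -/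
noncomputable def wt (g : Spin → ℝ) : ℝ := (∑ i, g i) / 4

/-- Posterior ratio of one observation (the uniform vector if it has probability zero). -/
noncomputable def post (g : Spin → ℝ) : Spin → ℝ :=
  if wt g = 0 then fun _ => 1 else fun i => g i / wt g

/-- Expectation of a function of the posterior ratio. -/
noncomputable def expect (φ : (Spin → ℝ) → ℝ) (f : ι → Spin → ℝ) : ℝ :=
  ∑ k, wt (f k) * φ (post (f k))

lemma wt_nonneg {g : Spin → ℝ} (h : ∀ i, 0 ≤ g i) : 0 ≤ wt g :=
  div_nonneg (Finset.sum_nonneg fun i _ => h i) (by norm_num)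

lemma post_inS {g : Spin → ℝ} (h : ∀ i, 0 ≤ g i) : InS (post g) := by
  unfold post
  split_ifs with h0
  · exact ⟨fun i => zero_le_one, by norm_num⟩
  · refine ⟨fun i => div_nonneg (h i) (wt_nonneg h), ?_⟩
    rw [← add_div, ← add_div, ← add_div, div_eq_iff h0]
    simp only [wt, Fin.sum_univ_four]; ring

lemma wt_mul_post {g : Spin → ℝ} (h : ∀ i, 0 ≤ g i) (i : Spin) :
    wt g * post g i = g i := by
  unfold post
  split_ifs with h0
  · have hs : ∑ j, g j = 0 := by
      unfold wt at h0; linarith [(div_eq_zero_iff.mp h0).resolve_right (by norm_num)]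
    have := (Finset.sum_eq_zero_iff_of_nonneg (fun j _ => h j)).mp hs i (Finset.mem_univ i)
    simp [h0, this]
  · field_simp

lemma Fam.wt_sum {f : ι → Spin → ℝ} (hf : Fam f) : ∑ j, wt (f j) = 1 := by
  simp only [wt, ← Finset.sum_div]
  rw [Finset.sum_comm, Fin.sum_univ_four, hf.mass, hf.mass, hf.mass, hf.mass]
  norm_num

lemma expect_mono {f : ι → Spin → ℝ} (hf : Fam f) {φ ψ : (Spin → ℝ) → ℝ}
    (h : ∀ a, InS a → φ a ≤ ψ a) : expect φ f ≤ expect ψ f :=
  Finset.sum_le_sum fun k _ =>
    mul_le_mul_of_nonneg_left (h _ (post_inS (hf.nonneg k))) (wt_nonneg (hf.nonneg k))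

lemma expect_nonneg {f : ι → Spin → ℝ} (hf : Fam f) {φ : (Spin → ℝ) → ℝ}
    (h : ∀ a, InS a → 0 ≤ φ a) : 0 ≤ expect φ f :=
  Finset.sum_nonneg fun k _ =>
    mul_nonneg (wt_nonneg (hf.nonneg k)) (h _ (post_inS (hf.nonneg k)))

lemma expect_const {f : ι → Spin → ℝ} (hf : Fam f) (c : ℝ) : expect (fun _ => c) f = c := by
  simp only [expect, ← Finset.sum_mul, hf.wt_sum, one_mul]

lemma expect_add (f : ι → Spin → ℝ) (φ ψ : (Spin → ℝ) → ℝ) :
    expect (fun a => φ a + ψ a) f = expect φ f + expect ψ f := by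
  simp only [expect, mul_add, Finset.sum_add_distrib]

lemma expect_sub (f : ι → Spin → ℝ) (φ ψ : (Spin → ℝ) → ℝ) :
    expect (fun a => φ a - ψ a) f = expect φ f - expect ψ f := by
  simp only [expect, mul_sub, Finset.sum_sub_distrib]

lemma expect_smul (f : ι → Spin → ℝ) (c : ℝ) (φ : (Spin → ℝ) → ℝ) :
    expect (fun a => c * φ a) f = c * expect φ f := by
  simp only [expect, Finset.mul_sum]
  exact Finset.sum_congr rfl fun k _ => by ring

/-- Joining a family with a child family through an edge. -/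
noncomputable def join (l : ℝ) (f : ι → Spin → ℝ) (g : κ → Spin → ℝ) :
    ι × κ → Spin → ℝ := fun p i => f p.1 i * push l (g p.2) i

lemma Fam.join {l : ℝ} (hl : 0 ≤ l) (hu : l ≤ 1)
    {f : ι → Spin → ℝ} {g : κ → Spin → ℝ} (hf : Fam f) (hg : Fam g) :
    Fam (Four.join l f g) := by
  refine ⟨fun p i => mul_nonneg (hf.nonneg _ _) (Finset.sum_nonneg fun j _ =>
    mul_nonneg (chan_nonneg hl hu i j) (hg.nonneg _ _)), fun i => ?_, fun σ => ?_⟩
  · simp only [Four.join, push_eq, Fintype.sum_prod_type, ← Finset.mul_sum,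
      Finset.sum_add_distrib]
    rw [← Finset.sum_mul, hf.mass, one_mul, Finset.sum_comm, Fin.sum_univ_four, hg.mass, hg.mass,
      hg.mass, hg.mass, hg.mass]
    ring
  · obtain ⟨e, he⟩ := hf.equiv σ
    obtain ⟨e', he'⟩ := hg.equiv σ
    refine ⟨e.prodCongr e', fun p i => ?_⟩
    have hs : ∑ j, g (e' p.2) j = ∑ j, g p.2 j := by
      rw [← Equiv.sum_comp σ (g p.2)]; exact Finset.sum_congr rfl fun j _ => he' _ j
    simp only [Four.join, Equiv.prodCongr_apply, Prod.map_fst, Prod.map_snd, push_eq, he, hs]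
    rw [he']

lemma img_post {l : ℝ} {g : Spin → ℝ} (h : ∀ i, 0 ≤ g i) (i : Spin) :
    push l g i = wt g * img l (post g) i := by
  have := wt_mul_post h i
  rw [push_eq, img, mul_add, mul_one, mul_left_comm, mul_sub, mul_one, this]
  simp only [wt]; ring

lemma join_term {l : ℝ} (φ : (Spin → ℝ) → ℝ) {u v : Spin → ℝ}
    (hu : ∀ i, 0 ≤ u i) (hv : ∀ i, 0 ≤ v i) :
    wt (fun i => u i * push l v i) * φ (post fun i => u i * push l v i)
      = wt u * wt v * (zw (post u) (img l (post v)) * φ (comb (post u) (img l (post v)))) := by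
  have e : ∀ i, u i * push l v i = wt u * wt v * (post u i * img l (post v) i) := fun i => by
    rw [img_post hv]; nth_rewrite 1 [← wt_mul_post hu i]; ring
  have hw : wt (fun i => u i * push l v i) = wt u * wt v * zw (post u) (img l (post v)) := by
    simp only [wt, zw, e, ← Finset.mul_sum]; ring
  by_cases h0 : wt (fun i => u i * push l v i) = 0
  · rw [h0, zero_mul, ← mul_assoc, ← hw, h0, zero_mul]
  · have hz : zw (post u) (img l (post v)) ≠ 0 := fun hz => h0 (by rw [hw, hz, mul_zero])
    have huv : wt u * wt v ≠ 0 := fun hz' => h0 (by rw [hw, hz', zero_mul])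
    have hp : post (fun i => u i * push l v i) = comb (post u) (img l (post v)) := by
      rw [post, if_neg h0]; funext i
      rw [e i, hw, comb, mul_div_mul_left _ _ huv]
    rw [hp, hw]; ring

lemma post_perm {g h : Spin → ℝ} (σ : Equiv.Perm Spin) (e : ∀ i, h i = g (σ i)) :
    wt h = wt g ∧ ∀ i, post h i = post g (σ i) := by
  have hw : wt h = wt g := by
    simp only [wt, e]; rw [Equiv.sum_comp σ g]
  refine ⟨hw, fun i => ?_⟩
  simp only [post, hw]; split_ifs <;> simp [e i]

/-- The expectation after a join is the double expectation of the symmetrised kernel. -/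
lemma expect_join (l : ℝ) (φ : (Spin → ℝ) → ℝ) {f : ι → Spin → ℝ} {g : κ → Spin → ℝ}
    (hf : Fam f) (hg : Fam g) :
    expect φ (join l f g)
      = ∑ j, ∑ k, wt (f j) * wt (g k) * avc φ (post (f j)) (img l (post (g k))) := by
  classical
  let F : (Spin → ℝ) → (Spin → ℝ) → ℝ := fun a b => zw a b * φ (comb a b)
  have h1 : expect φ (join l f g) = ∑ j, ∑ k, wt (f j) * wt (g k) *
      F (post (f j)) (img l (post (g k))) := by
    simp only [expect, Fintype.sum_prod_type]
    exact Finset.sum_congr rfl fun j _ => Finset.sum_congr rfl fun k _ =>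
      join_term φ (hf.nonneg j) (hg.nonneg k)
  have h2 : ∀ σ : Equiv.Perm Spin, ∀ j, ∑ k, wt (f j) * wt (g k) *
      F (post (f j)) (img l (post (g k))) = ∑ k, wt (f j) * wt (g k) *
      F (post (f j)) (fun i => img l (post (g k)) (σ i)) := fun σ j => by
    obtain ⟨e, he⟩ := hg.equiv σ
    rw [← Equiv.sum_comp e (fun k => wt (f j) * wt (g k) * F (post (f j)) (img l (post (g k))))]
    refine Finset.sum_congr rfl fun k _ => ?_
    obtain ⟨hw, hp⟩ := post_perm σ (he k)
    have : img l (post (g (e k))) = fun i => img l (post (g k)) (σ i) := by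
      funext i; simp [img, hp i]
    rw [hw, this]
  rw [h1]
  refine Finset.sum_congr rfl fun j _ => ?_
  have h24 : (Fintype.card (Equiv.Perm Spin) : ℝ) = 24 := by
    rw [Fintype.card_perm, Fintype.card_fin]; norm_num [Nat.factorial]
  calc ∑ k, wt (f j) * wt (g k) * F (post (f j)) (img l (post (g k)))
      = (1 / 24 : ℝ) * ∑ _σ : Equiv.Perm Spin,
          ∑ k, wt (f j) * wt (g k) * F (post (f j)) (img l (post (g k))) := by
        rw [Finset.sum_const, Finset.card_univ, nsmul_eq_mul, h24]; ring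
    _ = _ := by
        rw [Finset.sum_congr rfl fun σ _ => h2 σ j, Finset.sum_comm, Finset.mul_sum]
        refine Finset.sum_congr rfl fun k _ => ?_
        rw [← Finset.mul_sum, avc]; ring

lemma img_inS {l : ℝ} (hl : 0 ≤ l) (hu : l ≤ 1) {y : Spin → ℝ} (h : InS y) : InS (img l y) := by
  refine ⟨fun i => ?_, ?_⟩
  · have := h.1 i
    simp only [img]; nlinarith
  · simp only [img]; linear_combination l * h.2

lemma sI_img (l : ℝ) (y : Spin → ℝ) : sI (img l y) = l ^ 2 * sI y := by
  simp only [sI, img, Fin.sum_univ_four]; ring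

lemma sI_nonneg (a : Spin → ℝ) : 0 ≤ sI a :=
  div_nonneg (Finset.sum_nonneg fun i _ => sq_nonneg _) (by norm_num)

lemma sI_le_one {a : Spin → ℝ} (h : InS a) : sI a ≤ 1 := by
  have h0 := h.1 0; have h1 := h.1 1; have h2 := h.1 2; have h3 := h.1 3
  have hs := h.2
  simp only [sI, Fin.sum_univ_four]
  rw [div_le_one (by norm_num)]
  nlinarith [mul_nonneg h0 h1, mul_nonneg h0 h2, mul_nonneg h0 h3, mul_nonneg h1 h2,
    mul_nonneg h1 h3, mul_nonneg h2 h3]

lemma ent_nonneg {a : Spin → ℝ} (h : InS a) : 0 ≤ ent a := by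
  have key : ∀ x : ℝ, 0 ≤ x → x - 1 ≤ x * Real.log x := fun x hx => by
    rcases eq_or_lt_of_le hx with rfl | hx'
    · simp
    · have := Real.log_le_sub_one_of_pos (inv_pos.mpr hx')
      rw [Real.log_inv] at this
      have h1 := mul_le_mul_of_nonneg_left this hx
      rw [mul_sub, mul_inv_cancel₀ hx'.ne'] at h1
      linarith
  refine div_nonneg ?_ (by norm_num)
  simp only [Fin.sum_univ_four]
  linarith [key _ (h.1 0), key _ (h.1 1), key _ (h.1 2), key _ (h.1 3), h.2]

lemma pot_le {a : Spin → ℝ} (h : InS a) : pot a ≤ 6 * sI a := by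
  have := ent_nonneg h
  unfold pot; linarith

end Vale.Agent.P154.Four
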