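import Vale.Agent.P154.KSGW

/-!
Data processing: the averaged total variation distance is nonincreasing in the depth, so its
limit exists and reconstruction (`lim a_n > 0`) is the failure of convergence to zero.
-/

open scoped BigOperators ENNReal
open Filter

namespace Vale.Agent.P154.KS

/-- Deleting the deepest level of a tree. -/
def trunc : (n : ℕ) → Tr (n + 1) → Tr n
  | 0, _ => ()
  | n + 1, T => node n T.1 fun j => trunc n (T.2 j)

/-- The law of the deepest spins given those one level above. -/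
noncomputable def ker (q : ℕ) (l : ℝ) :
    (n : ℕ) → (T : Tr (n + 1)) → CfgQ q n (trunc n T) → CfgQ q (n + 1) T → ℝ
  | 0, T, s, c => likQ q l 1 T c s
  | n + 1, T, c', c => ∏ j, ker q l n (T.2 j) (c' j) (c j)

variable {q : ℕ} [NeZero q] {l : ℝ}

omit [NeZero q] in
lemma ker_nonneg (hq : 2 ≤ q) (hl : -(1 / ((q : ℝ) - 1)) ≤ l) (hu : l ≤ 1) :
    ∀ (n : ℕ) (T : Tr (n + 1)) (c' : CfgQ q n (trunc n T)) (c : CfgQ q (n + 1) T),
    0 ≤ ker q l n T c' c
  | 0, T, s, c => likQ_nonneg hq hl hu 1 T c s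
  | n + 1, T, c', c => Finset.prod_nonneg fun j _ => ker_nonneg hq hl hu n (T.2 j) (c' j) (c j)

lemma sum_ker : ∀ (n : ℕ) (T : Tr (n + 1)) (c' : CfgQ q n (trunc n T)),
    ∑ c, ker q l n T c' c = 1
  | 0, T, s => sum_likQ 1 T s
  | n + 1, T, c' => by
    show ∑ c : (j : Fin T.1) → CfgQ q (n + 1) (T.2 j), ∏ j, ker q l n (T.2 j) (c' j) (c j) = 1
    rw [← Fintype.prod_sum fun j x => ker q l n (T.2 j) (c' j) x]
    exact Finset.prod_eq_one fun j _ => sum_ker n _ _

omit [NeZero q] in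
lemma likQ_factor : ∀ (n : ℕ) (T : Tr (n + 1)) (c : CfgQ q (n + 1) T) (i : Fin q),
    likQ q l (n + 1) T c i = ∑ c', likQ q l n (trunc n T) c' i * ker q l n T c' c
  | 0, T, c, i => by
    show _ = ∑ s : Fin q, (if i = s then (1 : ℝ) else 0) * likQ q l 1 T c s
    simp
  | n + 1, T, c, i => by
    show ∏ j, ∑ s, chanQ q l i s * likQ q l (n + 1) (T.2 j) (c j) s
      = ∑ c' : (j : Fin T.1) → CfgQ q n (trunc n (T.2 j)),
          (∏ j, ∑ s, chanQ q l i s * likQ q l n (trunc n (T.2 j)) (c' j) s) *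
            ∏ j, ker q l n (T.2 j) (c' j) (c j)
    simp only [← Finset.prod_mul_distrib]
    rw [← Fintype.prod_sum fun j x =>
      (∑ s, chanQ q l i s * likQ q l n (trunc n (T.2 j)) x s) * ker q l n (T.2 j) x (c j)]
    refine Finset.prod_congr rfl fun j _ => ?_
    simp only [likQ_factor n, Finset.sum_mul, Finset.mul_sum]
    rw [Finset.sum_comm]
    simp only [mul_assoc]

lemma tvQ_eq_abs (hq : 2 ≤ q) (hl : -(1 / ((q : ℝ) - 1)) ≤ l) (hu : l ≤ 1) (n : ℕ) (T : Tr n) :
    tvQ q l n T = 1 / (2 * (q : ℝ)) * ∑ c, ∑ i, |likQ q l n T c i - probQ q l n T c| := by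
  have hq0 := cast_q_pos q
  rw [Finset.mul_sum]
  refine Finset.sum_congr rfl fun c _ => ?_
  rcases (probQ_nonneg hq hl hu n T c).eq_or_lt' with hz | hpos
  · have h : ∀ i, likQ q l n T c i = 0 := fun i => by
      have := (Finset.sum_eq_zero_iff_of_nonneg fun i _ =>
        mul_nonneg (by positivity) (likQ_nonneg hq hl hu n T c i)).mp hz i (Finset.mem_univ i)
      exact (mul_eq_zero.mp this).resolve_left (by positivity)
    simp [hz, h]
  · simp only [Finset.mul_sum]
    refine Finset.sum_congr rfl fun i _ => ?_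
    rw [show (1 / (q : ℝ)) * likQ q l n T c i / probQ q l n T c - 1 / (q : ℝ)
      = (likQ q l n T c i - probQ q l n T c) / ((q : ℝ) * probQ q l n T c) by field_simp,
      abs_div, abs_of_pos (mul_pos hq0 hpos)]
    field_simp

/-- Data processing for one more level of the tree. -/
theorem tvQ_trunc (hq : 2 ≤ q) (hl : -(1 / ((q : ℝ) - 1)) ≤ l) (hu : l ≤ 1) (n : ℕ)
    (T : Tr (n + 1)) : tvQ q l (n + 1) T ≤ tvQ q l n (trunc n T) := by
  rw [tvQ_eq_abs hq hl hu, tvQ_eq_abs hq hl hu]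
  refine mul_le_mul_of_nonneg_left ?_ (by positivity)
  have hp : ∀ c, probQ q l (n + 1) T c = ∑ c', probQ q l n (trunc n T) c' * ker q l n T c' c :=
      fun c => by
    simp only [probQ, likQ_factor n, Finset.mul_sum, Finset.sum_mul, mul_assoc]
    exact Finset.sum_comm
  calc ∑ c, ∑ i, |likQ q l (n + 1) T c i - probQ q l (n + 1) T c|
      ≤ ∑ c, ∑ i, ∑ c', |likQ q l n (trunc n T) c' i - probQ q l n (trunc n T) c'|
          * ker q l n T c' c := Finset.sum_le_sum fun c _ => Finset.sum_le_sum fun i _ => by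
        rw [likQ_factor n T c i, hp c, ← Finset.sum_sub_distrib]
        refine (Finset.abs_sum_le_sum_abs _ _).trans (Finset.sum_le_sum fun c' _ => le_of_eq ?_)
        rw [← sub_mul, abs_mul, abs_of_nonneg (ker_nonneg hq hl hu n T c' c)]
    _ = _ := by
        simp only [← Finset.sum_mul, Finset.sum_comm (s := (Finset.univ : Finset (Fin q)))]
        rw [Finset.sum_comm]
        simp only [← Finset.mul_sum, sum_ker, mul_one]

lemma trunc_regular (d : ℕ) : ∀ n, trunc n (regular d (n + 1)) = regular d n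
  | 0 => rfl
  | n + 1 => by
    show node n d (fun _ => trunc n (regular d (n + 1))) = _
    rw [trunc_regular d n]
    rfl

lemma tsum_pi_map {α β : Type} (π : α → β) (w : α → ℝ≥0∞) (v : β → ℝ≥0∞)
    (h : ∀ G : β → ℝ≥0∞, ∑' a, w a * G (π a) = ∑' b, v b * G b) :
    ∀ {k : ℕ} (H : (Fin k → β) → ℝ≥0∞),
      ∑' c : Fin k → α, (∏ j, w (c j)) * H (fun j => π (c j))
        = ∑' c : Fin k → β, (∏ j, v (c j)) * H c := by
  intro k
  induction k with
  | zero =>
    intro H
    simp only [tsum_fintype, Finset.univ_eq_empty, Finset.prod_empty, one_mul]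
    simp only [Fintype.sum_unique]
    exact congrArg H (Subsingleton.elim _ _)
  | succ k ih =>
    intro H
    rw [← (Fin.consEquiv fun _ : Fin (k + 1) => α).tsum_eq
        (fun c => (∏ j, w (c j)) * H (fun j => π (c j))),
      ← (Fin.consEquiv fun _ : Fin (k + 1) => β).tsum_eq (fun c => (∏ j, v (c j)) * H c),
      ENNReal.tsum_prod', ENNReal.tsum_prod']
    have e : ∀ (a : α) (c : Fin k → α),
        (fun j => π ((Fin.consEquiv fun _ : Fin (k + 1) => α) (a, c) j))
          = Fin.cons (π a) fun j => π (c j) := fun a c => by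
      funext j
      refine Fin.cases ?_ (fun i => ?_) j <;> simp
    simp only [e]
    simp only [Fin.consEquiv_apply, Fin.prod_univ_succ, Fin.cons_zero, Fin.cons_succ, mul_assoc,
      ENNReal.tsum_mul_left]
    show _ = ∑' b : β, v b * ∑' c : Fin k → β, (∏ j, v (c j)) * H (Fin.cons b c)
    rw [← h fun b => ∑' c : Fin k → β, (∏ j, v (c j)) * H (Fin.cons b c)]
    exact tsum_congr fun a => congrArg (w a * ·) (ih fun c => H (Fin.cons (π a) c))

lemma tsum_trunc (p : ℕ → ℝ≥0∞) (hp : ∑' k, p k = 1) : ∀ (n : ℕ) (G : Tr n → ℝ≥0∞),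
    ∑' T : Tr (n + 1), treeWeight p (n + 1) T * G (trunc n T) = ∑' T, treeWeight p n T * G T
  | 0, G => by
    show ∑' T : Tr 1, treeWeight p 1 T * G () = ∑' _T : Unit, (1 : ℝ≥0∞) * G ()
    rw [ENNReal.tsum_mul_right, tsum_treeWeight p hp 1]
    simp [tsum_fintype]
  | n + 1, G => by
    rw [tsum_tree_succ, tsum_tree_succ]
    exact tsum_congr fun k => congrArg (p k * ·) (tsum_pi_map (trunc n) (treeWeight p (n + 1))
      (treeWeight p n) (tsum_trunc p hp n) fun c => G (node n k c))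

omit [NeZero q] in
/-- The regular-tree sequence is nonincreasing. -/
theorem tvQ_regular_antitone (hq : 2 ≤ q) (hl : -(1 / ((q : ℝ) - 1)) ≤ l) (hu : l ≤ 1) (d : ℕ) :
    Antitone fun n => tvQ q l n (regular d n) := by
  have : NeZero q := ⟨by omega⟩
  refine antitone_nat_of_succ_le fun n => ?_
  have h := tvQ_trunc hq hl hu n (regular d (n + 1))
  rwa [trunc_regular] at h

omit [NeZero q] in
/-- The Galton-Watson sequence is nonincreasing. -/
theorem gwTVQ_antitone (hq : 2 ≤ q) (hl : -(1 / ((q : ℝ) - 1)) ≤ l) (hu : l ≤ 1)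
    (p : ℕ → ℝ≥0∞) (hp : ∑' k, p k = 1) : Antitone fun n => gwTVQ q p l n := by
  have : NeZero q := ⟨by omega⟩
  refine antitone_nat_of_succ_le fun n => ?_
  exact (ENNReal.tsum_le_tsum fun T => mul_le_mul' le_rfl
    (ENNReal.ofReal_le_ofReal (tvQ_trunc hq hl hu n T))).trans (le_of_eq
      (tsum_trunc p hp n fun T => ENNReal.ofReal (tvQ q l n T)))

omit [NeZero q] in
/-- On regular trees the limit exists; it is positive exactly when the sequence does not
tend to zero. -/
theorem regular_limit (hq : 2 ≤ q) (hl : -(1 / ((q : ℝ) - 1)) ≤ l) (hu : l ≤ 1) (d : ℕ) :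
    ∃ r : ℝ, 0 ≤ r ∧ Tendsto (fun n => tvQ q l n (regular d n)) atTop (nhds r) ∧
      (0 < r ↔ ¬ Tendsto (fun n => tvQ q l n (regular d n)) atTop (nhds 0)) := by
  have : NeZero q := ⟨by omega⟩
  have h0 : ∀ n, 0 ≤ tvQ q l n (regular d n) := fun n => tvQ_nonneg hq hl hu n _
  have hb : BddBelow (Set.range fun n => tvQ q l n (regular d n)) :=
    ⟨0, by rintro x ⟨n, rfl⟩; exact h0 n⟩
  have ht := tendsto_atTop_ciInf (tvQ_regular_antitone hq hl hu d) hb
  refine ⟨_, le_ciInf h0, ht, fun hr hz => hr.ne' (tendsto_nhds_unique ht hz), fun hn => ?_⟩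
  exact (le_ciInf h0).lt_of_ne fun e => hn (e.symm ▸ ht)

omit [NeZero q] in
/-- On Galton-Watson trees the limit exists; it is positive exactly when the sequence does not
tend to zero. -/
theorem gw_limit (hq : 2 ≤ q) (hl : -(1 / ((q : ℝ) - 1)) ≤ l) (hu : l ≤ 1)
    (p : ℕ → ℝ≥0∞) (hp : ∑' k, p k = 1) :
    ∃ r : ℝ≥0∞, Tendsto (gwTVQ q p l) atTop (nhds r) ∧
      (0 < r ↔ ¬ Tendsto (gwTVQ q p l) atTop (nhds 0)) := by
  have ht : Tendsto (gwTVQ q p l) atTop (nhds (⨅ n, gwTVQ q p l n)) :=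
    tendsto_atTop_iInf (gwTVQ_antitone hq hl hu p hp)
  refine ⟨_, ht, fun hr hz => hr.ne' (tendsto_nhds_unique ht hz), fun hn => ?_⟩
  exact pos_iff_ne_zero.2 fun e => hn (by rw [e] at ht; exact ht)

omit [NeZero q] in
/-- Three states on a regular tree, in the notation of the nonreconstruction theorems. -/
theorem regular_limit_three {l : ℝ} (hl : -(1 / 2) ≤ l) (hu : l ≤ 1) (d : ℕ) :
    ∃ r : ℝ, 0 ≤ r ∧ Tendsto (fun n => tv l n (regular d n)) atTop (nhds r) ∧
      (0 < r ↔ ¬ Tendsto (fun n => tv l n (regular d n)) atTop (nhds 0)) := by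
  simpa only [tvQ_three] using
    regular_limit (q := 3) (by norm_num) (by norm_num; linarith) hu d

omit [NeZero q] in
/-- Three states on a Galton-Watson tree, in the notation of the nonreconstruction theorems. -/
theorem gw_limit_three {l : ℝ} (hl : -(1 / 2) ≤ l) (hu : l ≤ 1)
    (p : ℕ → ℝ≥0∞) (hp : ∑' k, p k = 1) :
    ∃ r : ℝ≥0∞, Tendsto (gwTV p l) atTop (nhds r) ∧
      (0 < r ↔ ¬ Tendsto (gwTV p l) atTop (nhds 0)) := by
  have e : gwTVQ 3 p l = gwTV p l := funext fun n => gwTVQ_three p l n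
  simpa only [e] using gw_limit (q := 3) (by norm_num) (by norm_num; linarith) hu p hp

end Vale.Agent.P154.KS
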