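import Vale.Agent.P154.FourDecay
import Vale.Agent.P154.KSGW
import Vale.Agent.P154.Limit

/-!
The four-state quantities in both notations, the converse bound and the existence of the limit.
-/

open scoped ENNReal
open Filter

namespace Vale.Agent.P154.Four

open Vale.Agent.P154 (Tr regular poissonLaw poissonLaw_sum)

/-- Configurations with four states, in both notations. -/
noncomputable def cfgEquivQ : (n : ℕ) → (T : Tr n) → KS.CfgQ 4 n T ≃ Cfg n T
  | 0, _ => Equiv.refl (Fin 4)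
  | n + 1, T => Equiv.piCongrRight fun j => cfgEquivQ n (T.2 j)

lemma likQ_four (l : ℝ) : ∀ (n : ℕ) (T : Tr n) (c : KS.CfgQ 4 n T) (i : Fin 4),
    KS.likQ 4 l n T c i = lik l n T (cfgEquivQ n T c) i
  | 0, _, _, _ => rfl
  | n + 1, T, c, i => by
    show ∏ j, ∑ s, KS.chanQ 4 l i s * KS.likQ 4 l n (T.2 j) (c j) s
      = ∏ j, ∑ s, chan l i s * lik l n (T.2 j) (cfgEquivQ n (T.2 j) (c j)) s
    have e : ∀ s, KS.chanQ 4 l i s = chan l i s := fun s => by simp [KS.chanQ, chan]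
    simp only [e, likQ_four l n]

lemma tvQ_four (l : ℝ) (n : ℕ) (T : Tr n) : KS.tvQ 4 l n T = tv l n T := by
  refine Fintype.sum_equiv (cfgEquivQ n T) _ _ fun c => ?_
  simp only [KS.probQ, prob, likQ_four, Nat.cast_ofNat]

lemma gwTVQ_four (p : ℕ → ℝ≥0∞) (l : ℝ) (n : ℕ) : KS.gwTVQ 4 p l n = gwTV p l n := by
  simp only [KS.gwTVQ, gwTV, tvQ_four]

/-- Nonreconstruction below the threshold gives the exact limit statement on a regular tree. -/
theorem regular_threshold {d : ℕ} {l : ℝ} (hl : 0 ≤ l) (hu : l ≤ 1)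
    (h : (d : ℝ) * l ^ 2 ≤ 1 → Tendsto (fun n => tv l n (regular d n)) atTop (nhds 0)) :
    ∃ r : ℝ, Tendsto (fun n => tv l n (regular d n)) atTop (nhds r) ∧
      (0 < r ↔ 1 < (d : ℝ) * l ^ 2) := by
  have hl4 : -(1 / (((4 : ℕ) : ℝ) - 1)) ≤ l := by norm_num; linarith
  obtain ⟨r, -, hr, hpos⟩ := KS.regular_limit (q := 4) (by norm_num) hl4 hu d
  simp only [tvQ_four] at hr hpos
  refine ⟨r, hr, hpos.trans ⟨fun hn => ?_, fun hgt => ?_⟩⟩
  · by_contra hc
    exact hn (h (not_lt.mp hc))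
  · obtain ⟨c, hc, hb⟩ := KS.tvQ_regular_ge (q := 4) (by norm_num) hl4 hu hgt
    exact KS.not_tendsto_of_ge hc fun n => tvQ_four l n (regular d n) ▸ hb n

/-- The same on the Poisson Galton-Watson tree. -/
theorem poisson_threshold {d l : ℝ} (hd : 0 ≤ d) (hl : 0 ≤ l) (hu : l ≤ 1)
    (h : d * l ^ 2 ≤ 1 → Tendsto (gwTV (poissonLaw d) l) atTop (nhds 0)) :
    ∃ r : ℝ≥0∞, Tendsto (gwTV (poissonLaw d) l) atTop (nhds r) ∧
      (0 < r ↔ 1 < d * l ^ 2) := by
  have hl4 : -(1 / (((4 : ℕ) : ℝ) - 1)) ≤ l := by norm_num; linarith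
  obtain ⟨r, hr, hpos⟩ :=
    KS.gw_limit (q := 4) (by norm_num) hl4 hu (poissonLaw d) (poissonLaw_sum hd)
  have e : KS.gwTVQ 4 (poissonLaw d) l = gwTV (poissonLaw d) l :=
    funext fun n => gwTVQ_four _ l n
  rw [e] at hr hpos
  refine ⟨r, hr, hpos.trans ⟨fun hn => ?_, fun hgt => ?_⟩⟩
  · by_contra hc
    exact hn (h (not_lt.mp hc))
  · obtain ⟨c, hc, hb⟩ := KS.gwTVQ_poisson_ge (q := 4) (by norm_num) hl4 hu hd hgt
    exact KS.not_tendsto_of_ge' hc fun n => gwTVQ_four (poissonLaw d) l n ▸ hb n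

end Vale.Agent.P154.Four
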