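import Vale.Agent.P154.FourPoly

/-!
A verified nonnegativity check, on a product of two simplices, of a form that is bilinear in
monomials of three invariants of each factor: Bernstein coefficients are compared after packing
each row into one integer, and negative ones may be covered by arithmetic-geometric means.
-/

namespace Vale.Agent.P154.Four.Check

/-! Evaluation before passing on. -/

/-- Evaluates a list of integers before passing it on. -/
def forceZs {β : Type} : List ℤ → (List ℤ → β) → β
  | [], k => k []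
  | a :: r, k => forceZ a fun a' => forceZs r fun r' => k (a' :: r')

lemma forceZs_eq {β : Type} : ∀ (l : List ℤ) (k : List ℤ → β), forceZs l k = k l
  | [], _ => rfl
  | a :: r, k => by simp only [forceZs, forceZ_eq, forceZs_eq r]

/-- Evaluates a list of naturals before passing it on. -/
def forceNs {β : Type} : List ℕ → (List ℕ → β) → β
  | [], k => k []
  | a :: r, k => forceN a fun a' => forceNs r fun r' => k (a' :: r')

lemma forceNs_eq {β : Type} : ∀ (l : List ℕ) (k : List ℕ → β), forceNs l k = k l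
  | [], _ => rfl
  | a :: r, k => by simp only [forceNs, forceN_eq, forceNs_eq r]

/-- Evaluates a value before passing it on. -/
def forceV {β : Type} (v : Val) (k : Val → β) : β :=
  forceZ v.1 fun a => forceN v.2 fun b => k (a, b)

lemma forceV_eq {β : Type} (v : Val) (k : Val → β) : forceV v k = k v := by
  simp [forceV, forceZ_eq, forceN_eq]

/-! The invariants of a simplex. -/

/-- Three coordinates of each of the four vertices, and their common denominator. -/
structure Simp where
  /-- First coordinate. -/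
  P : ℤ × ℤ × ℤ × ℤ
  /-- Second coordinate. -/
  Q : ℤ × ℤ × ℤ × ℤ
  /-- Third coordinate. -/
  R : ℤ × ℤ × ℤ × ℤ
  /-- Denominator. -/
  N : ℤ

/-- The second power sum. -/
def invS (p q r : ℝ) : ℝ := p * p + q * q + r * r
/-- The product. -/
def invT (p q r : ℝ) : ℝ := p * q * r
/-- The fourth power sum of the associated four values. -/
def invF (p q r : ℝ) : ℝ :=
  p * p * (p * p) + q * q * (q * q) + r * r * (r * r)
    + 6 * (p * p * (q * q) + p * p * (r * r) + q * q * (r * r))

/-- The monomial of the invariants with exponents `m`. -/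
def imono (p q r : ℝ) (m : ℕ × ℕ × ℕ × ℕ) : ℝ :=
  invS p q r ^ m.1 * invT p q r ^ m.2.1 * invF p q r ^ m.2.2.1

/-- Expansion of the monomials, each multiplied by the indicated power of the denominator. -/
noncomputable def expand (B : ℕ) (ks : List Ex) (t : CT) (S T F O : Val) :
    List (ℕ × ℕ × ℕ × ℕ) → (List Pol → Bool) → Bool
  | [], k => k []
  | m :: r, k =>
    forceV (vmul (vmul (vmul (vpow S m.1) (vpow T m.2.1)) (vpow F m.2.2.1)) (vpow O m.2.2.2))
      fun v => forceZs (unTr B t v.1 []) fun U =>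
        forceN (2 ^ B - v.2) fun lim => readOK lim U && expand B ks t S T F O r fun ps => k (ks.zip U :: ps)

/-- The sum of squares of three linear forms. -/
def vS (pp qq rr : Val) : Val := vadd (vadd pp qq) rr

/-- The fourth-order invariant. -/
def vF (pp qq rr : Val) : Val :=
  vadd (vadd (vadd (vmul pp pp) (vmul qq qq)) (vmul rr rr))
    (vsmul 6 (vadd (vadd (vmul pp qq) (vmul pp rr)) (vmul qq rr)))

/-- The expansions on a simplex. -/
noncomputable def invPolys (B d : ℕ) (t : CT) (v : Simp) (ms : List (ℕ × ℕ × ℕ × ℕ)) (k : List Pol → Bool) : Bool :=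
  forceNs ((allE d).map (code (d + 1))) fun cs =>
  incr cs && decide (t.codes 0 [] = cs) &&
  forceV (vlin (sep B (d + 1)) v.P) fun p => forceV (vlin (sep B (d + 1)) v.Q) fun q =>
  forceV (vlin (sep B (d + 1)) v.R) fun r =>
  forceV (vlin (sep B (d + 1)) (v.N, v.N, v.N, v.N)) fun O =>
  forceV (vS (vmul p p) (vmul q q) (vmul r r)) fun S =>
  forceV (vmul (vmul p q) r) fun T =>
  forceV (vF (vmul p p) (vmul q q) (vmul r r)) fun F =>
  expand B (allE d) t S T F O ms k

/-- The point with the given barycentric coordinates, one coordinate. -/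
noncomputable def co (v : Simp) (c : ℤ × ℤ × ℤ × ℤ) (x : Fin 4 → ℝ) : ℝ := linv x c / v.N

/-- The degree is right for padding. -/
def degOK (d : ℕ) (ms : List (ℕ × ℕ × ℕ × ℕ)) : Bool :=
  ms.all fun m => 2 * m.1 + 3 * m.2.1 + 4 * m.2.2.1 + m.2.2.2 == d

lemma invPolys_spec {B : ℕ} {t : CT} {v : Simp} {x : Fin 4 → ℝ} (hN : (v.N : ℝ) ≠ 0)
    (hx : x 0 + x 1 + x 2 + x 3 = 1) {d : ℕ} {ms : List (ℕ × ℕ × ℕ × ℕ)}
    (hd : degOK d ms = true) {k : List Pol → Bool} (h : invPolys B d t v ms k = true) :
    ∃ ps : List Pol, ps.map (ev x) = ms.map (fun m => (v.N : ℝ) ^ d *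
      imono (co v v.P x) (co v v.Q x) (co v v.R x) m) ∧
      (∀ p ∈ ps, p.map Prod.fst = allE d) ∧ k ps = true := by
  simp only [invPolys, forceV_eq, forceNs_eq, Bool.and_eq_true, decide_eq_true_eq] at h
  obtain ⟨⟨hinc, htree⟩, h⟩ := h
  set u := sep B (d + 1) with hu
  generalize hS : vS _ _ _ = S at h
  generalize hT : vmul (vmul _ _) _ = T at h
  generalize hF : vF _ _ _ = F at h
  generalize hO : vlin u (v.N, v.N, v.N, v.N) = O at h
  have lP : Rep u x 1 (vlin u v.P) (linv x v.P) := rep_lin _
  have lQ : Rep u x 1 (vlin u v.Q) (linv x v.Q) := rep_lin _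
  have lR : Rep u x 1 (vlin u v.R) (linv x v.R) := rep_lin _
  have eS : Rep u x 2 S ((v.N : ℝ) ^ 2 * invS (co v v.P x) (co v v.Q x) (co v v.R x)) := by
    have := ((lP.mul lP).add (lQ.mul lQ)).add (lR.mul lR)
    rw [← hS]; refine (congrArg (Rep u x 2 _) ?_).mp this
    simp only [invS, co]; field_simp
  have eT : Rep u x 3 T ((v.N : ℝ) ^ 3 * invT (co v v.P x) (co v v.Q x) (co v v.R x)) := by
    have := (lP.mul lQ).mul lR
    rw [← hT]; refine (congrArg (Rep u x 3 _) ?_).mp this
    simp only [invT, co]; field_simp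
  have eF : Rep u x 4 F ((v.N : ℝ) ^ 4 * invF (co v v.P x) (co v v.Q x) (co v v.R x)) := by
    have pp := lP.mul lP
    have qq := lQ.mul lQ
    have rr := lR.mul lR
    have := (((pp.mul pp).add (qq.mul qq)).add (rr.mul rr)).add
      ((((pp.mul qq).add (pp.mul rr)).add (qq.mul rr)).smul 6)
    rw [← hF]; refine (congrArg (Rep u x 4 _) ?_).mp this
    simp only [invF, co]; push_cast; field_simp
  have eO : Rep u x 1 O (v.N : ℝ) := by
    rw [← hO]; refine (congrArg (Rep u x 1 _) ?_).mp (rep_lin _)
    simp only [linv]; linear_combination (v.N : ℝ) * hx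
  clear hS hT hF hO lP lQ lR
  generalize co v v.P x = p at *
  generalize co v v.Q x = q at *
  generalize co v v.R x = r at *
  induction ms generalizing k with
  | nil => exact ⟨[], rfl, by simp, h⟩
  | cons m ms ih =>
    simp only [expand, forceV_eq, forceZs_eq, forceN_eq, Bool.and_eq_true] at h
    obtain ⟨hread, h⟩ := h
    simp only [degOK, List.all_cons, Bool.and_eq_true, beq_iff_eq] at hd
    obtain ⟨ps, hps, hkeys, hk⟩ := ih hd.2 h
    refine ⟨_ :: ps, ?_, ?_, hk⟩
    rotate_left
    · intro p hp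
      rcases List.mem_cons.mp hp with rfl | hp
      · have hv := (((eS.pow m.1).mul (eT.pow m.2.1)).mul (eF.pow m.2.2.1)).mul (eO.pow m.2.2.2)
        rw [show m.1 * 2 + m.2.1 * 3 + m.2.2.1 * 4 + m.2.2.2 * 1 = d by omega, hu] at hv
        exact (read_spec hv htree rfl hinc rfl hread).2
      · exact hkeys p hp
    have hv := (((eS.pow m.1).mul (eT.pow m.2.1)).mul (eF.pow m.2.2.1)).mul (eO.pow m.2.2.2)
    rw [show m.1 * 2 + m.2.1 * 3 + m.2.2.1 * 4 + m.2.2.2 * 1 = d by omega, hu] at hv
    have hval := (read_spec hv htree rfl hinc rfl hread).1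
    simp only [List.map_cons, hps, List.cons.injEq, and_true]
    rw [hval, imono, ← hd.1]
    ring

/-! Weighted sums, of which packing is a special case. -/

/-- `∑ y, l y * w y`. -/
def dotW {R : Type} [CommRing R] : List ℤ → List R → R
  | a :: l, b :: w => (a : R) * b + dotW l w
  | _, _ => 0

/-- The coefficient list of a polynomial. -/
def coeffs (p : Pol) : List ℤ := p.map Prod.snd

/-- The exponent list of a polynomial. -/
def keys (p : Pol) : List Ex := p.map Prod.fst

lemma ev_eq_dotW (x : Fin 4 → ℝ) : ∀ p : Pol, ev x p = dotW (coeffs p) ((keys p).map (mono x))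
  | [] => rfl
  | t :: r => by simp [ev, coeffs, keys, dotW, ev_eq_dotW x r]

/-- `∑ i, c i * q i` for vectors `q i` of length `n`. -/
def comb (n : ℕ) : List ℤ → List (List ℤ) → List ℤ
  | a :: c, q :: qs => List.zipWith (fun u v => a * u + v) q (comb n c qs)
  | _, _ => List.replicate n 0

lemma length_comb (n : ℕ) : ∀ (c : List ℤ) (qs : List (List ℤ)), (∀ q ∈ qs, q.length = n) →
    (comb n c qs).length = n
  | _ :: c, q :: qs, h => by
    simp [comb, h q (List.mem_cons_self ..),
      length_comb n c qs fun r hr => h r (List.mem_cons_of_mem _ hr)]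
  | [], _, _ => by simp [comb]
  | _ :: _, [], _ => by simp [comb]

lemma dotW_replicate {R : Type} [CommRing R] : ∀ (n : ℕ) (w : List R),
    dotW (List.replicate n (0 : ℤ)) w = 0
  | 0, _ => rfl
  | n + 1, [] => rfl
  | n + 1, b :: w => by simp [List.replicate_succ, dotW, dotW_replicate n w]

lemma dotW_zip {R : Type} [CommRing R] (a : ℤ) : ∀ (q v : List ℤ) (w : List R),
    q.length = v.length →
    dotW (List.zipWith (fun u z => a * u + z) q v) w = (a : R) * dotW q w + dotW v w
  | [], [], _, _ => by simp [dotW]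
  | _ :: _, [], _, h => by simp at h
  | [], _ :: _, _, h => by simp at h
  | _ :: _, _ :: _, [], _ => by simp [dotW]
  | x :: q, y :: v, b :: w, h => by
    simp only [List.length_cons, Nat.add_right_cancel_iff] at h
    simp only [List.zipWith_cons_cons, dotW, dotW_zip a q v w h]; push_cast; ring

lemma dotW_comb {R : Type} [CommRing R] (n : ℕ) (w : List R) :
    ∀ (c : List ℤ) (qs : List (List ℤ)), (∀ q ∈ qs, q.length = n) →
      dotW (comb n c qs) w = dotW c (qs.map fun q => dotW q w)
  | a :: c, q :: qs, h => by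
    have h' : ∀ r ∈ qs, r.length = n := fun r hr => h r (List.mem_cons_of_mem _ hr)
    rw [comb, dotW_zip a q _ w (by rw [h q (List.mem_cons_self ..), length_comb n c qs h'])]
    simp [dotW, dotW_comb n w c qs h']
  | [], _, _ => by simp [comb, dotW_replicate, dotW]
  | _ :: _, [], _ => by simp [comb, dotW_replicate, dotW]

/-- The sum of absolute values, weighted. -/
def dotA : List ℤ → List ℕ → ℕ
  | a :: c, m :: ms => a.natAbs * m + dotA c ms
  | _, _ => 0

lemma abs_comb (n : ℕ) : ∀ (c : List ℤ) (qs : List (List ℤ)) (z : ℤ), z ∈ comb n c qs →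
    z.natAbs ≤ dotA c (qs.map maxA)
  | [], _, z, h => by simp [comb] at h; simp [h.2]
  | _ :: _, [], z, h => by simp [comb] at h; simp [h.2]
  | a :: c, q :: qs, z, h => by
    simp only [comb] at h
    obtain ⟨i, hi, rfl⟩ := List.getElem_of_mem h
    rw [List.getElem_zipWith]
    simp only [List.map_cons, dotA]
    refine (Int.natAbs_add_le _ _).trans (add_le_add ?_ (abs_comb n c qs _ (List.getElem_mem _)))
    rw [Int.natAbs_mul]
    exact Nat.mul_le_mul_left _ (le_maxA (List.getElem_mem _))

/-- Adding `d` at position `y`. -/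
def bump : ℕ → ℤ → List ℤ → List ℤ
  | _, _, [] => []
  | 0, d, a :: l => (a + d) :: l
  | y + 1, d, a :: l => a :: bump y d l

lemma length_bump : ∀ (y : ℕ) (d : ℤ) (l : List ℤ), (bump y d l).length = l.length
  | _, _, [] => by simp [bump]
  | 0, _, _ :: _ => by simp [bump]
  | y + 1, d, _ :: l => by simp [bump, length_bump y d l]

lemma dotW_bump {R : Type} [CommRing R] : ∀ (y : ℕ) (d : ℤ) (l : List ℤ) (w : List R),
    l.length = w.length → y < w.length → dotW (bump y d l) w = dotW l w + d * w.getD y 0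
  | _, _, [], w, h, hy => by simp [← h] at hy
  | _, _, _ :: _, [], h, _ => by simp at h
  | 0, d, a :: l, b :: w, _, _ => by simp [bump, dotW]; ring
  | y + 1, d, a :: l, b :: w, h, hy => by
    simp only [List.length_cons, Nat.add_right_cancel_iff] at h
    simp only [List.length_cons, Nat.add_lt_add_iff_right] at hy
    simp [bump, dotW, dotW_bump y d l w h hy]; ring

lemma abs_bump : ∀ (y : ℕ) (d : ℤ) (l : List ℤ) (M : ℕ), (∀ z ∈ l, z.natAbs ≤ M) →
    ∀ z ∈ bump y d l, z.natAbs ≤ M + d.natAbs
  | _, _, [], _, _, z, h => by simp [bump] at h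
  | 0, d, a :: l, M, hM, z, h => by
    simp only [bump, List.mem_cons] at h
    rcases h with rfl | h
    · exact (Int.natAbs_add_le _ _).trans (add_le_add (hM a (List.mem_cons_self ..)) le_rfl)
    · exact (hM z (List.mem_cons_of_mem _ h)).trans (Nat.le_add_right _ _)
  | y + 1, d, a :: l, M, hM, z, h => by
    simp only [bump, List.mem_cons] at h
    rcases h with rfl | h
    · exact (hM _ (List.mem_cons_self ..)).trans (Nat.le_add_right _ _)
    · exact abs_bump y d l M (fun z hz => hM z (List.mem_cons_of_mem _ hz)) z h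

/-- The powers of `b`. -/
def pows (b : ℤ) : ℕ → List ℤ
  | 0 => []
  | n + 1 => 1 :: (pows b n).map (b * ·)

/-- Packing by Horner's rule. -/
def pack (b : ℤ) : List ℤ → ℤ
  | [] => 0
  | a :: l => a + b * pack b l

lemma dotW_map (b : ℤ) : ∀ (l w : List ℤ), dotW l (w.map (b * ·)) = b * dotW l w
  | [], _ => by simp [dotW]
  | _ :: _, [] => by simp [dotW]
  | a :: l, c :: w => by simp [dotW, dotW_map b l w]; ring

lemma pack_eq_dotW (b : ℤ) : ∀ l : List ℤ, pack b l = dotW l (pows b l.length)
  | [] => rfl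
  | a :: l => by simp [pack, pows, dotW, dotW_map, pack_eq_dotW b l]

lemma length_pows (b : ℤ) : ∀ n : ℕ, (pows b n).length = n
  | 0 => rfl
  | n + 1 => by simp [pows, length_pows b n]

lemma getD_pows (b : ℤ) : ∀ (n y : ℕ), y < n → (pows b n).getD y 0 = b ^ y
  | n + 1, 0, _ => by simp [pows]
  | n + 1, y + 1, h => by
    have hy : y < n := by omega
    have hl := length_pows b n
    have := getD_pows b n y hy
    rw [List.getD_eq_getElem _ _ (by omega)] at this
    simp only [pows, List.getD_cons_succ]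
    rw [List.getD_eq_getElem _ _ (by simp; omega), List.getElem_map, this]; ring

/-- Offsets `H` in `n` slots. -/
def offN (B H : ℕ) : ℕ → ℕ
  | 0 => 0
  | n + 1 => H + 2 ^ B * offN B H n

lemma slots_nonneg {B H : ℕ} (hB : 2 * H = 2 ^ B) : ∀ (l : List ℤ),
    (∀ z ∈ l, z.natAbs < H) → ∀ V : ℕ, pack ((2 : ℤ) ^ B) l + offN B H l.length = V →
      V &&& offN B H l.length = offN B H l.length → ∀ z ∈ l, 0 ≤ z
  | [], _, _, _, _, z, hz => by simp at hz
  | a :: l, hb, V, hV, hland, z, hz => by
    have ha := hb a (List.mem_cons_self ..)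
    have hHB : H < 2 ^ B := by omega
    set r : ℤ := pack ((2 : ℤ) ^ B) l + offN B H l.length with hr
    have hV' : (a + H : ℤ) + 2 ^ B * r = V := by
      rw [← hV, hr]; simp only [pack, List.length_cons, offN]; push_cast; ring
    have h0 : 0 ≤ a + H := by omega
    have h1 : a + H < (2 : ℤ) ^ B := by
      have : ((2 * H : ℕ) : ℤ) = (2 : ℤ) ^ B := by rw [hB]; norm_num
      omega
    have hr0 : 0 ≤ r := by
      by_contra hc
      have : (2 : ℤ) ^ B * r ≤ 2 ^ B * (-1) := mul_le_mul_of_nonneg_left (by omega) (by positivity)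
      omega
    obtain ⟨m, hm⟩ := Int.eq_ofNat_of_zero_le h0
    obtain ⟨s, hs⟩ := Int.eq_ofNat_of_zero_le hr0
    have hm' : m < 2 ^ B := by rw [hm] at h1; exact_mod_cast h1
    have hVn : V = m + 2 ^ B * s := by
      rw [hm, hs] at hV'; exact_mod_cast hV'.symm
    simp only [List.length_cons, offN] at hland
    have e1 : (m + 2 ^ B * s) % 2 ^ B = m := by
      rw [Nat.add_mul_mod_self_left, Nat.mod_eq_of_lt hm']
    have e2 : (m + 2 ^ B * s) / 2 ^ B = s := by
      rw [Nat.add_mul_div_left _ _ (by positivity), Nat.div_eq_of_lt hm', zero_add]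
    have e3 : (H + 2 ^ B * offN B H l.length) % 2 ^ B = H := by
      rw [Nat.add_mul_mod_self_left, Nat.mod_eq_of_lt hHB]
    have e4 : (H + 2 ^ B * offN B H l.length) / 2 ^ B = offN B H l.length := by
      rw [Nat.add_mul_div_left _ _ (by positivity), Nat.div_eq_of_lt hHB, zero_add]
    have l1 : m &&& H = H := by
      have := congrArg (· % 2 ^ B) hland
      simp only [Nat.and_mod_two_pow, hVn, e1, e3] at this
      exact this
    have l2 : s &&& offN B H l.length = offN B H l.length := by
      have := congrArg (· / 2 ^ B) hland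
      simp only [Nat.and_div_two_pow, hVn, e2, e4] at this
      exact this
    have hmH : H ≤ m := l1 ▸ Nat.and_le_left
    rcases List.mem_cons.mp hz with rfl | hz
    · omega
    · exact slots_nonneg hB l (fun w hw => hb w (List.mem_cons_of_mem _ hw)) s
        (by rw [← hr, hs]) l2 z hz

/-! Rows. -/

/-- Adding all the corrections of a row. -/
def bumps : List (ℕ × ℤ) → List ℤ → List ℤ
  | [], l => l
  | (y, d) :: r, l => bump y d (bumps r l)

/-- The packed corrections. -/
def packC (B : ℕ) : List (ℕ × ℤ) → ℤ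
  | [] => 0
  | (y, d) :: r => d * two (B * y) + packC B r

/-- The size of the corrections. -/
def sizeC : List (ℕ × ℤ) → ℕ
  | [] => 0
  | (_, d) :: r => d.natAbs + sizeC r

/-- The weighted corrections. -/
def valC (w : List ℝ) : List (ℕ × ℤ) → ℝ
  | [] => 0
  | (y, d) :: r => (d : ℝ) * w.getD y 0 + valC w r

lemma bumps_spec : ∀ (cs : List (ℕ × ℤ)) (l : List ℤ) (n : ℕ), l.length = n →
    (cs.all fun c => Nat.blt c.1 n) = true →
    (bumps cs l).length = n ∧
      (∀ B, pack ((2 : ℤ) ^ B) (bumps cs l) = pack ((2 : ℤ) ^ B) l + packC B cs) ∧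
      (∀ w : List ℝ, w.length = n → dotW (bumps cs l) w = dotW l w + valC w cs) ∧
      (∀ M, (∀ z ∈ l, z.natAbs ≤ M) → ∀ z ∈ bumps cs l, z.natAbs ≤ M + sizeC cs)
  | [], l, n, h, _ => by
    refine ⟨h, fun B => by simp [bumps, packC], fun w _ => by simp [bumps, valC],
      fun M hM => by simpa [bumps, sizeC] using hM⟩
  | (y, d) :: r, l, n, h, hc => by
    simp only [List.all_cons, Bool.and_eq_true, Nat.blt_eq] at hc
    obtain ⟨h1, h2, h3, h4⟩ := bumps_spec r l n h hc.2
    have hl : (bumps ((y, d) :: r) l).length = n := by simp [bumps, length_bump, h1]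
    refine ⟨hl, fun B => ?_, fun w hw => ?_, fun M hM z hz => ?_⟩
    · have hp := length_pows ((2 : ℤ) ^ B) n
      rw [pack_eq_dotW, hl, bumps, dotW_bump _ _ _ _ (by rw [h1, hp]) (by rw [hp]; exact hc.1)]
      have := h2 B
      rw [pack_eq_dotW, h1] at this
      rw [this, getD_pows _ _ _ hc.1, packC, two_eq, Int.cast_id, ← pow_mul]
      ring
    · rw [bumps, dotW_bump _ _ _ _ (by rw [h1, hw]) (by rw [hw]; exact hc.1), h3 w hw, valC]
      ring
    · have := abs_bump y d _ _ (h4 M hM) z hz
      simp only [sizeC]; omega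

/-- The test for one row. -/
def rowOK (B n H Z : ℕ) (G : List ℤ) (Ms : List ℕ) (c : List ℤ) (cs : List (ℕ × ℤ)) : Bool :=
  (cs.all fun q => Nat.blt q.1 n) && Nat.blt (dotA c Ms + sizeC cs) H &&
    match dotW c G + packC B cs + (Z : ℤ) with
    | .ofNat V => Nat.land V Z == Z
    | .negSucc _ => false

lemma row_nonneg {B n H Z : ℕ} (hB : 2 * H = 2 ^ B) (hZ : Z = offN B H n) {G : List ℤ}
    {Ms : List ℕ} {c : List ℤ} {cs : List (ℕ × ℤ)} {qs : List (List ℤ)}
    (hn : ∀ q ∈ qs, q.length = n) (hG : G = qs.map (pack ((2 : ℤ) ^ B)))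
    (hM : ∀ z ∈ comb n c qs, z.natAbs ≤ dotA c Ms) (h : rowOK B n H Z G Ms c cs = true) {w : List ℝ}
    (hw : w.length = n) (h0 : ∀ v ∈ w, 0 ≤ v) :
    0 ≤ dotW c (qs.map fun q => dotW q w) + valC w cs := by
  simp only [rowOK, Bool.and_eq_true, Nat.blt_eq] at h
  obtain ⟨⟨hcs, hsz⟩, hland⟩ := h
  obtain ⟨e1, e2, e3, e4⟩ := bumps_spec cs (comb n c qs) n (length_comb n c qs hn) hcs
  set l := bumps cs (comb n c qs) with hl
  have hp : pack ((2 : ℤ) ^ B) l = dotW c G + packC B cs := by
    rw [e2 B, pack_eq_dotW, length_comb n c qs hn, dotW_comb n _ c qs hn, hG]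
    congr 2
    refine List.map_congr_left fun q hq => ?_
    rw [pack_eq_dotW, hn q hq]
  have hb : ∀ z ∈ l, z.natAbs < H := fun z hz =>
    lt_of_le_of_lt (e4 _ hM z hz) hsz
  split at hland
  · next V hV =>
    have hnn := slots_nonneg hB l hb V (by rw [hp, e1, ← hZ]; exact hV)
      (by rw [e1, ← hZ]; exact beq_iff_eq.mp hland)
    have key : ∀ (l : List ℤ) (w : List ℝ), (∀ z ∈ l, 0 ≤ z) → (∀ v ∈ w, 0 ≤ v) →
        0 ≤ dotW l w := by
      intro l
      induction l with
      | nil => intro w _ _; simp [dotW]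
      | cons a l ih =>
        intro w hl hw
        cases w with
        | nil => simp [dotW]
        | cons b w =>
          simp only [dotW]
          exact add_nonneg (mul_nonneg (by exact_mod_cast hl a (List.mem_cons_self ..))
            (hw b (List.mem_cons_self ..)))
            (ih w (fun z hz => hl z (List.mem_cons_of_mem _ hz))
              fun v hv => hw v (List.mem_cons_of_mem _ hv))
    have := key l w hnn h0
    rw [e3 w hw, dotW_comb n w c qs hn] at this
    exact this
  · simp at hland

end Vale.Agent.P154.Four.Check
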