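import Vale.Agent.P154.FourLeaf

/-!
The same test written with recursors, which the kernel evaluates much faster, and its agreement
with the test proved sound.
-/

namespace Vale.Agent.P154.Four.Check

/-- Evaluates an integer before passing it on. -/
noncomputable def frcZ {β : Type} (a : ℤ) (k : ℤ → β) : β :=
  Int.rec (fun n => frcN n fun m => k (Int.ofNat m)) (fun n => frcN n fun m => k (Int.negSucc m)) a

lemma frcZ_eq {β : Type} (a : ℤ) (k : ℤ → β) : frcZ a k = k a := by
  cases a with
  | ofNat n => exact frcN_eq n fun m => k (Int.ofNat m)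
  | negSucc n => exact frcN_eq n fun m => k (Int.negSucc m)

/-- Evaluates a value before passing it on. -/
noncomputable def frcV {β : Type} (v : Val) (k : Val → β) : β :=
  frcZ v.1 fun a => frcN v.2 fun b => k (a, b)

lemma frcV_eq {β : Type} (v : Val) (k : Val → β) : frcV v k = k v := by
  simp [frcV, frcZ_eq, frcN_eq]

/-- Evaluates a list before passing it on. -/
noncomputable def frcL {α β : Type} (f : α → (α → β) → β) (l : List α) : (List α → β) → β :=
  List.rec (motive := fun _ => (List α → β) → β) (fun k => k [])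
    (fun a _ ih k => f a fun a' => ih fun r => k (a' :: r)) l

lemma frcL_eq {α β : Type} {f : α → (α → β) → β} (hf : ∀ a k, f a k = k a) :
    ∀ (l : List α) (k : List α → β), frcL f l k = k l
  | [], _ => rfl
  | a :: r, k => by
    show f a (fun a' => frcL f r fun r' => k (a' :: r')) = _
    rw [hf, frcL_eq hf r]

/-- Evaluates a list of exponents before passing it on. -/
noncomputable def frcE {β : Type} (e : Ex) (k : Ex → β) : β :=
  frcN e.1 fun a => frcN e.2.1 fun b => frcN e.2.2.1 fun c => frcN e.2.2.2 fun d => k (a, b, c, d)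

lemma frcE_eq {β : Type} (e : Ex) (k : Ex → β) : frcE e k = k e := by
  simp [frcE, frcN_eq]

/-- Evaluates a correction before passing it on. -/
noncomputable def frcC {β : Type} (e : ℕ × ℤ) (k : ℕ × ℤ → β) : β :=
  frcN e.1 fun a => frcZ e.2 fun b => k (a, b)

lemma frcC_eq {β : Type} (e : ℕ × ℤ) (k : ℕ × ℤ → β) : frcC e k = k e := by
  simp [frcC, frcN_eq, frcZ_eq]

/-- Image of a list. -/
noncomputable def mapR {α β : Type} (f : α → β) (l : List α) : List β :=
  List.rec (motive := fun _ => List β) [] (fun a _ ih => f a :: ih) l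

lemma mapR_eq {α β : Type} (f : α → β) : ∀ l : List α, mapR f l = l.map f
  | [] => rfl
  | a :: r => by show f a :: mapR f r = _; rw [mapR_eq f r]; rfl

/-- Conjunction over a list. -/
noncomputable def allR {α : Type} (f : α → Bool) (l : List α) : Bool :=
  List.rec (motive := fun _ => Bool) true (fun a _ ih => f a && ih) l

lemma allR_eq {α : Type} (f : α → Bool) : ∀ l : List α, allR f l = l.all f
  | [] => rfl
  | a :: r => by show (f a && allR f r) = _; rw [allR_eq f r]; rfl

/-- The length. -/
noncomputable def lenR {α : Type} (l : List α) : ℕ :=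
  List.rec (motive := fun _ => ℕ) 0 (fun _ _ ih => Nat.add ih 1) l

lemma lenR_eq {α : Type} : ∀ l : List α, lenR l = l.length
  | [] => rfl
  | a :: r => by show lenR r + 1 = _; rw [lenR_eq r]; rfl

/-- Pairing two lists. -/
noncomputable def zipR {α β : Type} (l : List α) : List β → List (α × β) :=
  List.rec (motive := fun _ => List β → List (α × β)) (fun _ => [])
    (fun a _ ih m => List.rec (motive := fun _ => List (α × β)) [] (fun b m' _ => (a, b) :: ih m') m) l

lemma zipR_eq {α β : Type} : ∀ (l : List α) (m : List β), zipR l m = l.zip m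
  | [], _ => rfl
  | _ :: _, [] => rfl
  | a :: l, b :: m => by show (a, b) :: zipR l m = _; rw [zipR_eq l m]; rfl

/-- Strictly increasing. -/
noncomputable def incrR (l : List ℕ) : Bool :=
  List.rec (motive := fun _ => Bool) true
    (fun a r ih => List.rec (motive := fun _ => Bool) true (fun b _ _ => Nat.blt a b && ih) r) l

lemma incrR_eq : ∀ l : List ℕ, incrR l = incr l
  | [] => rfl
  | [_] => rfl
  | a :: b :: r => by show (Nat.blt a b && incrR (b :: r)) = _; rw [incrR_eq (b :: r)]; rfl

/-- Equality of lists of numbers. -/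
noncomputable def sameR (l : List ℕ) : List ℕ → Bool :=
  List.rec (motive := fun _ => List ℕ → Bool)
    (fun m => List.rec (motive := fun _ => Bool) true (fun _ _ _ => false) m)
    (fun a _ ih m => List.rec (motive := fun _ => Bool) false
      (fun b m' _ => Nat.beq a b && ih m') m) l

lemma sameR_true : ∀ {l m : List ℕ}, sameR l m = true → l = m
  | [], [], _ => rfl
  | [], _ :: _, h => Bool.noConfusion h
  | _ :: _, [], h => Bool.noConfusion h
  | a :: l, b :: m, h => by
    have h' : (Nat.beq a b && sameR l m) = true := h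
    rw [Bool.and_eq_true] at h'
    rw [Nat.eq_of_beq_eq_true h'.1, sameR_true h'.2]

/-- The codes of a shape. -/
noncomputable def codesR (t : CT) : ℕ → List ℕ → List ℕ :=
  CT.rec (motive := fun _ => ℕ → List ℕ → List ℕ) (fun base acc => base :: acc)
    (fun g _ _ il ir base acc => il base (ir (Nat.add base g) acc)) t

lemma codesR_eq : ∀ (t : CT) (base : ℕ) (acc : List ℕ), codesR t base acc = t.codes base acc
  | .one, _, _ => rfl
  | .node g l r, base, acc => by
    show codesR l base (codesR r (base + g) acc) = _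
    rw [codesR_eq r, codesR_eq l]; rfl

/-- All values small. -/
noncomputable def readR (lim : ℕ) (l : List ℤ) : Bool :=
  List.rec (motive := fun _ => Bool) true (fun a _ ih => Nat.blt a.natAbs lim && ih) l

lemma readR_eq (lim : ℕ) : ∀ l : List ℤ, readR lim l = readOK lim l
  | [] => rfl
  | a :: r => by show (Nat.blt a.natAbs lim && readR lim r) = _; rw [readR_eq lim r]; rfl

/-- A power. -/
noncomputable def powR (a : Val) (n : ℕ) : Val :=
  Nat.rec (motive := fun _ => Val) (1, 1) (fun _ ih => vmul a ih) n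

lemma powR_eq (a : Val) : ∀ n : ℕ, powR a n = vpow a n
  | 0 => rfl
  | n + 1 => by show vmul a (powR a n) = _; rw [powR_eq a n]; rfl

/-- The expansions. -/
noncomputable def expandR (B : ℕ) (ks : List Ex) (t : CT) (S T F O : Val)
    (ms : List (ℕ × ℕ × ℕ × ℕ)) : (List Pol → Bool) → Bool :=
  List.rec (motive := fun _ => (List Pol → Bool) → Bool) (fun k => k [])
    (fun m _ ih k =>
      frcV (vmul (vmul (vmul (powR S m.1) (powR T m.2.1)) (powR F m.2.2.1)) (powR O m.2.2.2))
        fun v => frcL frcZ (unTr B t v.1 []) fun U =>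
          frcN (2 ^ B - v.2) fun lim => readR lim U &&
            frcL (fun p k => k p) (zipR ks U) fun p => ih fun ps => k (p :: ps)) ms

lemma expandR_eq (B : ℕ) (ks : List Ex) (t : CT) (S T F O : Val) :
    ∀ (ms : List (ℕ × ℕ × ℕ × ℕ)) (k : List Pol → Bool),
      expandR B ks t S T F O ms k = expand B ks t S T F O ms k
  | [], _ => rfl
  | m :: r, k => by
    show frcV (vmul (vmul (vmul (powR S m.1) (powR T m.2.1)) (powR F m.2.2.1)) (powR O m.2.2.2))
        (fun v => frcL frcZ (unTr B t v.1 []) fun U => frcN (2 ^ B - v.2) fun lim => readR lim U &&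
          frcL (fun p k => k p) (zipR ks U) fun p =>
            expandR B ks t S T F O r fun ps => k (p :: ps)) = _
    simp only [expand, frcV_eq, frcL_eq frcZ_eq, frcN_eq, readR_eq, powR_eq, forceV_eq, forceZs_eq,
      forceN_eq, zipR_eq, frcL_eq (f := fun (p : Ex × ℤ) k => k p) fun _ _ => rfl]
    rw [expandR_eq B ks t S T F O r]

/-- The expansions on a simplex. -/
noncomputable def invR (B d : ℕ) (t : CT) (v : Simp) (ms : List (ℕ × ℕ × ℕ × ℕ))
    (k : List Pol → Bool) : Bool :=
  frcL frcE (allE d) fun ks =>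
  frcL frcN (mapR (code (d + 1)) ks) fun cs =>
  incrR cs && sameR (codesR t 0 []) cs &&
  frcV (vlin (sep B (d + 1)) v.P) fun p => frcV (vlin (sep B (d + 1)) v.Q) fun q =>
  frcV (vlin (sep B (d + 1)) v.R) fun r =>
  frcV (vlin (sep B (d + 1)) (v.N, v.N, v.N, v.N)) fun O =>
  frcV (vS (vmul p p) (vmul q q) (vmul r r)) fun S =>
  frcV (vmul (vmul p q) r) fun T =>
  frcV (vF (vmul p p) (vmul q q) (vmul r r)) fun F =>
  expandR B ks t S T F O ms k

lemma invR_true {B d : ℕ} {t : CT} {v : Simp} {ms : List (ℕ × ℕ × ℕ × ℕ)} {k k' : List Pol → Bool}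
    (hk : ∀ ps, k ps = true → k' ps = true) (h : invR B d t v ms k = true) :
    invPolys B d t v ms k' = true := by
  simp only [invR, frcL_eq frcE_eq, frcL_eq (fun a k => frcN_eq a k), frcV_eq, mapR_eq, incrR_eq,
    expandR_eq, Bool.and_eq_true] at h
  obtain ⟨⟨h1, h2⟩, h3⟩ := h
  have h2' := sameR_true h2
  rw [codesR_eq] at h2'
  simp only [invPolys, forceNs_eq, forceV_eq, Bool.and_eq_true, decide_eq_true_eq]
  refine ⟨⟨h1, h2'⟩, ?_⟩
  generalize vS _ _ _ = S at h3 ⊢
  generalize vmul (vmul _ _) _ = T at h3 ⊢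
  generalize vF _ _ _ = F at h3 ⊢
  generalize vlin _ (v.N, v.N, v.N, v.N) = O at h3 ⊢
  induction ms generalizing k k' with
  | nil => exact hk _ h3
  | cons m r ih =>
    simp only [expand, forceV_eq, forceZs_eq, forceN_eq, Bool.and_eq_true] at h3 ⊢
    exact ⟨h3.1, ih (fun ps => hk _) h3.2⟩

/-- The first coefficients. -/
noncomputable def headsR (ps : List Pol) : List ℤ :=
  List.rec (motive := fun _ => List ℤ) []
    (fun p _ ih => List.rec (motive := fun _ => List ℤ) (0 :: ih) (fun t _ _ => t.2 :: ih) p) ps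

lemma headsR_eq : ∀ ps : List Pol, headsR ps = heads ps
  | [] => rfl
  | [] :: r => by show 0 :: headsR r = _; rw [headsR_eq r]; rfl
  | (t :: p) :: r => by show t.2 :: headsR r = _; rw [headsR_eq r]; rfl

/-- Removes all first terms, passing the literal remainder on. -/
noncomputable def tailsK {β : Type} (ps : List Pol) : (List Pol → β) → β :=
  List.rec (motive := fun _ => (List Pol → β) → β) (fun k => k [])
    (fun p _ ih k => List.rec (motive := fun _ => β) (ih fun r => k ([] :: r))
      (fun _ q _ => ih fun r => k (q :: r)) p) ps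

lemma tailsK_eq {β : Type} : ∀ (ps : List Pol) (k : List Pol → β), tailsK ps k = k (tails ps)
  | [], _ => rfl
  | [] :: r, k => by show tailsK r (fun r' => k ([] :: r')) = _; rw [tailsK_eq r]; rfl
  | (t :: p) :: r, k => by show tailsK r (fun r' => k (p :: r')) = _; rw [tailsK_eq r]; rfl

/-- Weighted sum. -/
noncomputable def dotWR (l : List ℤ) : List ℤ → ℤ :=
  List.rec (motive := fun _ => List ℤ → ℤ) (fun _ => 0)
    (fun a _ ih w => List.rec (motive := fun _ => ℤ) 0 (fun b w' _ => a * b + ih w') w) l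

lemma dotWR_eq : ∀ (l w : List ℤ), dotWR l w = dotW l w
  | [], _ => by simp [dotW]; rfl
  | _ :: _, [] => rfl
  | a :: l, b :: w => by show a * b + dotWR l w = _; rw [dotWR_eq l w]; simp [dotW]

/-- Weighted sum of absolute values. -/
noncomputable def dotAR (l : List ℤ) : List ℕ → ℕ :=
  List.rec (motive := fun _ => List ℕ → ℕ) (fun _ => 0)
    (fun a _ ih w => List.rec (motive := fun _ => ℕ) 0
      (fun b w' _ => Nat.add (Nat.mul a.natAbs b) (ih w')) w) l

lemma dotAR_eq : ∀ (l : List ℤ) (w : List ℕ), dotAR l w = dotA l w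
  | [], _ => rfl
  | _ :: _, [] => rfl
  | a :: l, b :: w => by show a.natAbs * b + dotAR l w = _; rw [dotAR_eq l w]; rfl

/-- Horner's rule. -/
noncomputable def packR (b : ℤ) (l : List ℤ) : ℤ :=
  List.rec (motive := fun _ => ℤ) 0 (fun a _ ih => a + b * ih) l

lemma packR_eq (b : ℤ) : ∀ l : List ℤ, packR b l = pack b l
  | [] => rfl
  | a :: l => by show a + b * packR b l = _; rw [packR_eq b l]; rfl

/-- The largest absolute value. -/
noncomputable def maxAR (l : List ℤ) : ℕ :=
  List.rec (motive := fun _ => ℕ) 0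
    (fun a _ ih => frcN ih fun m => bif Nat.ble m a.natAbs then a.natAbs else m) l

lemma maxAR_eq : ∀ l : List ℤ, maxAR l = maxA l
  | [] => rfl
  | a :: l => by
    show frcN (maxAR l) (fun m => bif Nat.ble m a.natAbs then a.natAbs else m) = _
    rw [frcN_eq, maxAR_eq l]
    rcases h : Nat.ble (maxA l) a.natAbs with _ | _
    · have : ¬maxA l ≤ a.natAbs := fun hle => by simp [Nat.ble_eq.mpr hle] at h
      simp [maxA]; omega
    · have := Nat.ble_eq.mp h
      simp [maxA]; omega

/-- The offsets of all slots. -/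
noncomputable def offR (b H n : ℕ) : ℕ :=
  Nat.rec (motive := fun _ => ℕ) 0 (fun _ ih => Nat.add H (Nat.mul b ih)) n

lemma offR_eq (B H : ℕ) : ∀ n : ℕ, offR (2 ^ B) H n = offN B H n
  | 0 => rfl
  | n + 1 => by show H + 2 ^ B * offR (2 ^ B) H n = _; rw [offR_eq B H n]; rfl

/-- The packed corrections. -/
noncomputable def packCR (B : ℕ) (l : List (ℕ × ℤ)) : ℤ :=
  List.rec (motive := fun _ => ℤ) 0 (fun e _ ih => e.2 * two (B * e.1) + ih) l

lemma packCR_eq (B : ℕ) : ∀ l : List (ℕ × ℤ), packCR B l = packC B l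
  | [] => rfl
  | (y, d) :: l => by show d * two (B * y) + packCR B l = _; rw [packCR_eq B l]; rfl

/-- The size of the corrections. -/
noncomputable def sizeR (l : List (ℕ × ℤ)) : ℕ :=
  List.rec (motive := fun _ => ℕ) 0 (fun e _ ih => Nat.add e.2.natAbs ih) l

lemma sizeR_eq : ∀ l : List (ℕ × ℤ), sizeR l = sizeC l
  | [] => rfl
  | (y, d) :: l => by show d.natAbs + sizeR l = _; rw [sizeR_eq l]; rfl

/-- One row. -/
noncomputable def rowR (B n H Z : ℕ) (G : List ℤ) (Ms : List ℕ) (c : List ℤ)
    (cs : List (ℕ × ℤ)) : Bool :=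
  allR (fun q => Nat.blt q.1 n) cs && Nat.blt (dotAR c Ms + sizeR cs) H &&
    Int.rec (motive := fun _ => Bool) (fun V => Nat.beq (Nat.land V Z) Z) (fun _ => false)
      (dotWR c G + packCR B cs + (Z : ℤ))

lemma rowR_true {B n H Z : ℕ} {G : List ℤ} {Ms : List ℕ} {c : List ℤ} {cs : List (ℕ × ℤ)}
    (h : rowR B n H Z G Ms c cs = true) : rowOK B n H Z G Ms c cs = true := by
  simp only [rowR, allR_eq, dotAR_eq, sizeR_eq, dotWR_eq, packCR_eq, Bool.and_eq_true] at h
  obtain ⟨h1, h2⟩ := h
  simp only [rowOK, Bool.and_eq_true]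
  refine ⟨h1, ?_⟩
  rcases e : dotW c G + packC B cs + (Z : ℤ) with n | n <;> simp only [e] at h2 ⊢
  · rw [beq_iff_eq]; exact Nat.eq_of_beq_eq_true h2
  · exact absurd h2 Bool.false_ne_true

/-- The rows, one by one. -/
noncomputable def rowsR (B n H Z : ℕ) (G : List ℤ) (Ms : List ℕ)
    (L : List (List (ℕ × ℤ))) : List Pol → Bool :=
  List.rec (motive := fun _ => List Pol → Bool) (fun _ => true)
    (fun cs _ ih ps => frcL frcC cs fun cs' => frcL frcZ (headsR ps) fun hs =>
      rowR B n H Z G Ms hs cs' && tailsK ps fun ps' => ih ps') L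

lemma rowsR_true {B n H Z : ℕ} {G : List ℤ} {Ms : List ℕ} :
    ∀ (L : List (List (ℕ × ℤ))) (ps : List Pol),
      rowsR B n H Z G Ms L ps = true → rowsOK B n H Z G Ms L ps = true
  | [], _, _ => rfl
  | cs :: L, ps, h => by
    have h' : (frcL frcC cs fun cs' => frcL frcZ (headsR ps) fun hs =>
      rowR B n H Z G Ms hs cs' && tailsK ps fun ps' => rowsR B n H Z G Ms L ps') = true := h
    rw [frcL_eq frcC_eq, frcL_eq frcZ_eq, tailsK_eq, headsR_eq, Bool.and_eq_true] at h'
    simp only [rowsOK, Bool.and_eq_true]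
    exact ⟨rowR_true h'.1, rowsR_true L _ h'.2⟩

/-- Entry of a list. -/
noncomputable def getR (l : List Ex) : ℕ → Ex :=
  List.rec (motive := fun _ => ℕ → Ex) (fun _ => (0, 0, 0, 0))
    (fun a _ ih i => Nat.rec (motive := fun _ => Ex) a (fun j _ => ih j) i) l

lemma getR_eq : ∀ (l : List Ex) (i : ℕ), getR l i = l.getD i (0, 0, 0, 0)
  | [], _ => by simp; rfl
  | _ :: _, 0 => by simp; rfl
  | a :: l, i + 1 => by show getR l i = _; rw [getR_eq l i]; simp

/-- A triple. -/
noncomputable def triR (ka kb : List Ex) (na nb : ℕ) (t : Tri) : Bool :=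
  Nat.blt t.i.1 na && Nat.blt t.j.1 na && Nat.blt t.k.1 na &&
  Nat.blt t.i.2 nb && Nat.blt t.j.2 nb && Nat.blt t.k.2 nb &&
  midOK (getR ka t.i.1) (getR ka t.j.1) (getR ka t.k.1) &&
  midOK (getR kb t.i.2) (getR kb t.j.2) (getR kb t.k.2) &&
  Nat.ble (t.r * t.r) (4 * t.wi * t.wj)

lemma triR_eq (ka kb : List Ex) (t : Tri) : triR ka kb ka.length kb.length t = triOK ka kb t := by
  simp only [triR, triOK, getR_eq]

/-- The entries of one row. -/
def rowOf (E : List (ℕ × ℕ × ℤ)) (x : ℕ) : List (ℕ × ℤ) :=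
  (E.filter fun e => e.1 == x).map Prod.snd

/-- The corrections with their rows. -/
noncomputable def entsR (ts : List Tri) : List (ℕ × ℕ × ℤ) :=
  List.rec (motive := fun _ => List (ℕ × ℕ × ℤ)) []
    (fun t _ ih => (t.i.1, t.i.2, -(t.wi : ℤ)) :: (t.j.1, t.j.2, -(t.wj : ℤ)) ::
      (t.k.1, t.k.2, (t.r : ℤ)) :: ih) ts

/-- Keeps the entries with a given property. -/
noncomputable def filtR {α β : Type} (p : α → Bool) (l : List α) : (List α → β) → β :=
  List.rec (motive := fun _ => (List α → β) → β) (fun k => k [])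
    (fun a _ ih k => bif p a then ih (fun r => k (a :: r)) else ih k) l

lemma filtR_eq {α β : Type} (p : α → Bool) : ∀ (l : List α) (k : List α → β),
    filtR p l k = k (l.filter p)
  | [], _ => rfl
  | a :: l, k => by
    show (bif p a then filtR p l (fun r => k (a :: r)) else filtR p l k) = _
    rw [filtR_eq p l, filtR_eq p l]
    cases h : p a <;> simp [h]

/-- Concatenation. -/
noncomputable def appR {α : Type} (l m : List α) : List α :=
  List.rec (motive := fun _ => List α) m (fun a _ ih => a :: ih) l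

lemma appR_eq {α : Type} : ∀ l m : List α, appR l m = l ++ m
  | [], _ => rfl
  | a :: l, m => by show a :: appR l m = _; rw [appR_eq l m]; rfl

/-- A prefix. -/
noncomputable def takeR {α : Type} (l : List α) : ℕ → List α :=
  List.rec (motive := fun _ => ℕ → List α) (fun _ => [])
    (fun a _ ih n => Nat.rec (motive := fun _ => List α) [] (fun m _ => a :: ih m) n) l

lemma takeR_eq {α : Type} : ∀ (l : List α) (n : ℕ), takeR l n = l.take n
  | [], _ => by simp; rfl
  | _ :: _, 0 => rfl
  | a :: l, n + 1 => by show a :: takeR l n = _; rw [takeR_eq l n]; rfl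

/-- Sorting the entries into `2 ^ d` consecutive rows by repeated halving. -/
noncomputable def bk (d : ℕ) : ℕ → List (ℕ × ℕ × ℤ) → List (List (ℕ × ℤ)) :=
  Nat.rec (motive := fun _ => ℕ → List (ℕ × ℕ × ℤ) → List (List (ℕ × ℤ)))
    (fun lo E => [filtR (fun e => Nat.beq e.1 lo) E fun E' => mapR Prod.snd E'])
    (fun d' ih lo E => frcN (Nat.add lo (Nat.pow 2 d')) fun mid =>
      appR (filtR (fun e => Nat.blt e.1 mid) E fun E' => ih lo E')
        (filtR (fun e => !Nat.blt e.1 mid) E fun E' => ih mid E')) d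

lemma bk_eq : ∀ (d lo : ℕ) (E : List (ℕ × ℕ × ℤ)),
    bk d lo E = (List.range (2 ^ d)).map fun x => rowOf E (lo + x)
  | 0, lo, E => by
    show [filtR (fun e => Nat.beq e.1 lo) E fun E' => mapR Prod.snd E'] = _
    rw [filtR_eq, mapR_eq]
    simp [rowOf]
    congr 1
    refine List.filter_congr fun e _ => ?_
    rw [Bool.eq_iff_iff]
    simp
  | d + 1, lo, E => by
    show frcN (lo + 2 ^ d) (fun mid =>
      appR (filtR (fun e => Nat.blt e.1 mid) E fun E' => bk d lo E')
        (filtR (fun e => !Nat.blt e.1 mid) E fun E' => bk d mid E')) = _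
    simp only [frcN_eq, appR_eq, filtR_eq, bk_eq d]
    rw [show 2 ^ (d + 1) = 2 ^ d + 2 ^ d by ring, List.range_add, List.map_append, List.map_map]
    congr 1
    · refine List.map_congr_left fun x hx => ?_
      rw [List.mem_range] at hx
      simp only [rowOf, List.filter_filter]
      congr 1
      refine List.filter_congr fun e _ => ?_
      by_cases h : e.1 = lo + x <;> simp [h]
      omega
    · refine List.map_congr_left fun x hx => ?_
      simp only [rowOf, List.filter_filter, Function.comp_apply, add_assoc]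
      congr 1
      refine List.filter_congr fun e _ => ?_
      by_cases h : e.1 = lo + (2 ^ d + x) <;> simp [h, Bool.eq_false_iff]

lemma getElem_addAt : ∀ (x : ℕ) (e : ℕ × ℤ) (L : List (List (ℕ × ℤ))) (i : ℕ)
    (h : i < (addAt x e L).length),
    (addAt x e L)[i] = if x = i then e :: L[i]'(by rwa [length_addAt] at h)
      else L[i]'(by rwa [length_addAt] at h)
  | _, _, [], i, h => by simp [addAt] at h
  | 0, e, l :: L, 0, h => by simp [addAt]
  | 0, e, l :: L, i + 1, h => by simp [addAt]
  | x + 1, e, l :: L, 0, h => by simp [addAt]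
  | x + 1, e, l :: L, i + 1, h => by
    have h' : i < (addAt x e L).length := by simpa [addAt] using h
    simp only [addAt, List.getElem_cons_succ, getElem_addAt x e L i h', Nat.add_right_cancel_iff]

lemma addAt_rows (n : ℕ) (x : ℕ) (e : ℕ × ℤ) (E : List (ℕ × ℕ × ℤ)) :
    addAt x e ((List.range n).map (rowOf E)) = (List.range n).map (rowOf ((x, e) :: E)) := by
  refine List.ext_getElem (by simp [length_addAt]) fun i h1 h2 => ?_
  rw [getElem_addAt]
  simp only [List.getElem_map, List.getElem_range, rowOf, List.filter_cons, beq_iff_eq]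
  split_ifs <;> simp

lemma spread_rows (n : ℕ) : ∀ ts : List Tri,
    spread n ts = (List.range n).map (rowOf (entsR ts))
  | [] => List.ext_getElem (by simp [spread]) fun i h1 h2 => by
    simp [spread, rowOf, show entsR [] = [] from rfl]
  | t :: ts => by
    rw [show entsR (t :: ts) = (t.i.1, t.i.2, -(t.wi : ℤ)) :: (t.j.1, t.j.2, -(t.wj : ℤ)) ::
      (t.k.1, t.k.2, (t.r : ℤ)) :: entsR ts from rfl]
    simp only [spread, spread_rows n ts, addAt_rows]

lemma take_bk {n : ℕ} (h : n ≤ 512) (ts : List Tri) :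
    takeR (bk 9 0 (entsR ts)) n = spread n ts := by
  rw [takeR_eq, bk_eq, spread_rows, ← List.map_take, List.take_range, Nat.min_eq_left (by simpa using h)]
  simp

/-- Evaluates a located correction before passing it on. -/
noncomputable def frcEnt {β : Type} (e : ℕ × ℕ × ℤ) (k : ℕ × ℕ × ℤ → β) : β :=
  frcN e.1 fun a => frcC e.2 fun b => k (a, b)

lemma frcEnt_eq {β : Type} (e : ℕ × ℕ × ℤ) (k : ℕ × ℕ × ℤ → β) : frcEnt e k = k e := by
  simp [frcEnt, frcN_eq, frcC_eq]

/-- The test of a leaf, in fast form. -/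
noncomputable def leafFast (F : Form) (a b : Simp) (ts : List Tri) : Bool :=
  invR F.Ba F.da F.ta a F.am fun ps => invR F.Bb F.db F.tb b F.bm fun qs =>
    frcL frcE (allE F.da) fun ka => frcL frcE (allE F.db) fun kb =>
    frcN (lenR ka) fun na => frcN (lenR kb) fun nb =>
    Nat.blt 0 F.B && Nat.ble na 512 && allR (triR ka kb na nb) ts &&
    frcZ (two F.B) fun b2 =>
    frcL frcZ (mapR (fun q => packR b2 (mapR Prod.snd q)) qs) fun K =>
    frcL frcN (mapR (fun q => maxAR (mapR Prod.snd q)) qs) fun Mq =>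
    frcL frcZ (mapR (fun mi => dotWR mi K) F.M) fun G =>
    frcL frcN (mapR (fun mi => dotAR mi Mq) F.M) fun Ms =>
    frcN (Nat.pow 2 (F.B - 1)) fun H => frcN (offR (Nat.pow 2 F.B) H nb) fun Z =>
      frcL frcEnt (entsR ts) fun E => rowsR F.B nb H Z G Ms (takeR (bk 9 0 E) na) ps

theorem leafFast_true {F : Form} {a b : Simp} {ts : List Tri} (h : leafFast F a b ts = true) :
    leafOK F a b ts = true := by
  refine invR_true (fun ps hps => invR_true (fun qs hqs => ?_) hps) h
  simp only [frcL_eq frcE_eq, frcN_eq, lenR_eq, frcZ_eq, frcL_eq frcZ_eq,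
    frcL_eq (fun a k => frcN_eq a k), mapR_eq, packR_eq, maxAR_eq, dotWR_eq, dotAR_eq, allR_eq,
    frcL_eq frcEnt_eq, Bool.and_eq_true] at hqs
  obtain ⟨⟨⟨h1, hn⟩, h2⟩, h3⟩ := hqs
  rw [take_bk (Nat.ble_eq.mp hn)] at h3
  simp only [core, forceZs_eq, forceNs_eq, forceN_eq, Bool.and_eq_true, coeffs]
  refine ⟨⟨h1, ?_⟩, ?_⟩
  · rw [List.all_eq_true] at h2 ⊢
    intro t ht
    rw [← triR_eq]; exact h2 t ht
  · have h4 := rowsR_true _ _ h3
    simp only [Nat.pow_eq, offR_eq] at h4
    exact h4

/-- The fast test gives nonnegativity on the leaf. -/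
theorem leaf_check {F : Form} {a b : Simp} {ts : List Tri}
    (hd : (degOK F.da F.am && degOK F.db F.bm) = true) (h : leafFast F a b ts = true) :
    check F (.leaf ts) a b = true := by
  simp only [check, Bool.and_eq_true] at hd ⊢
  exact ⟨hd, leafFast_true h⟩

end Vale.Agent.P154.Four.Check
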