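import Vale.Agent.P154.FourCheck

/-!
Soundness of the subdivision certificate for a bilinear form in invariant monomials.
-/

namespace Vale.Agent.P154.Four.Check

/-- `∑ i, u i * v i`. -/
def dotR : List ℝ → List ℝ → ℝ
  | a :: u, b :: v => a * b + dotR u v
  | _, _ => 0

/-- The bilinear form. -/
structure Form where
  /-- Monomials of the first factor. -/
  am : List (ℕ × ℕ × ℕ × ℕ)
  /-- Monomials of the second factor. -/
  bm : List (ℕ × ℕ × ℕ × ℕ)
  /-- Coefficients, a list for each monomial of the first factor. -/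
  M : List (List ℤ)
  /-- Degree of padding in the first factor. -/
  da : ℕ
  /-- Degree of padding in the second factor. -/
  db : ℕ
  /-- Slot width. -/
  B : ℕ
  /-- Slot width for the expansions of the first factor. -/
  Ba : ℕ
  /-- Slot width for the expansions of the second factor. -/
  Bb : ℕ
  /-- Shape of the codes of the first factor. -/
  ta : CT
  /-- Shape of the codes of the second factor. -/
  tb : CT

/-- The value of the form. -/
noncomputable def Form.val (F : Form) (p q r p' q' r' : ℝ) : ℝ :=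
  dotR (F.am.map (imono p q r)) (F.M.map fun mi => dotW mi (F.bm.map (imono p' q' r')))

/-- A use of the arithmetic-geometric mean: positions of the outer and middle terms, weights. -/
structure Tri where
  /-- First outer position. -/
  i : ℕ × ℕ
  /-- Second outer position. -/
  j : ℕ × ℕ
  /-- Middle position. -/
  k : ℕ × ℕ
  /-- Weight of the first outer term. -/
  wi : ℕ
  /-- Weight of the second outer term. -/
  wj : ℕ
  /-- Weight removed from the middle term. -/
  r : ℕ

/-- Midpoint of two exponents. -/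
def midOK (a b c : Ex) : Bool :=
  (a.1 + b.1 == 2 * c.1) && (a.2.1 + b.2.1 == 2 * c.2.1) &&
    (a.2.2.1 + b.2.2.1 == 2 * c.2.2.1) && (a.2.2.2 + b.2.2.2 == 2 * c.2.2.2)

/-- The triple is sound. -/
def triOK (ka kb : List Ex) (t : Tri) : Bool :=
  Nat.blt t.i.1 ka.length && Nat.blt t.j.1 ka.length && Nat.blt t.k.1 ka.length &&
  Nat.blt t.i.2 kb.length && Nat.blt t.j.2 kb.length && Nat.blt t.k.2 kb.length &&
  midOK (ka.getD t.i.1 (0, 0, 0, 0)) (ka.getD t.j.1 (0, 0, 0, 0)) (ka.getD t.k.1 (0, 0, 0, 0)) &&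
  midOK (kb.getD t.i.2 (0, 0, 0, 0)) (kb.getD t.j.2 (0, 0, 0, 0)) (kb.getD t.k.2 (0, 0, 0, 0)) &&
  Nat.ble (t.r * t.r) (4 * t.wi * t.wj)

/-- Adding an entry to a row. -/
def addAt : ℕ → ℕ × ℤ → List (List (ℕ × ℤ)) → List (List (ℕ × ℤ))
  | _, _, [] => []
  | 0, e, l :: L => (e :: l) :: L
  | x + 1, e, l :: L => l :: addAt x e L

/-- The corrections of all rows. -/
def spread (n : ℕ) : List Tri → List (List (ℕ × ℤ))
  | [] => List.replicate n []
  | t :: ts =>
    addAt t.i.1 (t.i.2, -(t.wi : ℤ)) <| addAt t.j.1 (t.j.2, -(t.wj : ℤ)) <|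
      addAt t.k.1 (t.k.2, (t.r : ℤ)) <| spread n ts

/-- The total value of the corrections. -/
def totC (wy : List ℝ) : List ℝ → List (List (ℕ × ℤ)) → ℝ
  | v :: wx, l :: L => v * valC wy l + totC wy wx L
  | _, _ => 0

lemma length_addAt : ∀ (x : ℕ) (e : ℕ × ℤ) (L : List (List (ℕ × ℤ))),
    (addAt x e L).length = L.length
  | _, _, [] => by simp [addAt]
  | 0, _, _ :: _ => by simp [addAt]
  | x + 1, e, _ :: L => by simp [addAt, length_addAt x e L]

lemma totC_addAt (wy : List ℝ) : ∀ (x : ℕ) (e : ℕ × ℤ) (L : List (List (ℕ × ℤ))) (wx : List ℝ),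
    L.length = wx.length → x < wx.length →
    totC wy wx (addAt x e L) = totC wy wx L + (e.2 : ℝ) * (wx.getD x 0 * wy.getD e.1 0)
  | _, _, [], wx, h, hx => by simp [← h] at hx
  | _, _, _ :: _, [], h, _ => by simp at h
  | 0, e, l :: L, v :: wx, _, _ => by simp [addAt, totC, valC]; ring
  | x + 1, e, l :: L, v :: wx, h, hx => by
    simp only [List.length_cons, Nat.add_right_cancel_iff] at h
    simp only [List.length_cons, Nat.add_lt_add_iff_right] at hx
    simp [addAt, totC, totC_addAt wy x e L wx h hx]; ring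

lemma length_spread (n : ℕ) : ∀ ts : List Tri, (spread n ts).length = n
  | [] => by simp [spread]
  | t :: ts => by simp [spread, length_addAt, length_spread n ts]

lemma sq_mono_mid {a b c : Ex} (h : midOK a b c = true) (x : Fin 4 → ℝ) :
    mono x c ^ 2 = mono x a * mono x b := by
  simp only [midOK, Bool.and_eq_true, beq_iff_eq] at h
  obtain ⟨⟨⟨h1, h2⟩, h3⟩, h4⟩ := h
  simp only [mono, mul_pow, ← pow_mul]
  rw [mul_comm c.1, mul_comm c.2.1, mul_comm c.2.2.1, mul_comm c.2.2.2, ← h1, ← h2, ← h3, ← h4]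
  simp only [pow_add]; ring

lemma amgm {P Q K : ℝ} {wi wj r : ℕ} (hP : 0 ≤ P) (hQ : 0 ≤ Q) (_hK : 0 ≤ K)
    (h : K ^ 2 = P * Q) (hr : r * r ≤ 4 * wi * wj) :
    0 ≤ (wi : ℝ) * P + wj * Q - r * K := by
  have hr' : ((r : ℝ) * r) ≤ 4 * wi * wj := by exact_mod_cast hr
  have : ((r : ℝ) * K) ^ 2 ≤ ((wi : ℝ) * P + wj * Q) ^ 2 := by
    rw [mul_pow, h]
    nlinarith [sq_nonneg ((wi : ℝ) * P - wj * Q),
      mul_le_mul_of_nonneg_right hr' (mul_nonneg hP hQ)]
  have := abs_le_of_sq_le_sq this (by positivity)
  linarith [le_abs_self ((r : ℝ) * K)]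

lemma getD_map_mono (x : Fin 4 → ℝ) : ∀ (k : List Ex) (i : ℕ), i < k.length →
    (k.map (mono x)).getD i 0 = mono x (k.getD i (0, 0, 0, 0))
  | _ :: _, 0, _ => by simp
  | a :: k, i + 1, h => by
    simp only [List.map_cons, List.getD_cons_succ]
    exact getD_map_mono x k i (by simpa using h)

lemma totC_spread_nonpos {x y : Fin 4 → ℝ} (hx : ∀ k, 0 ≤ x k) (hy : ∀ k, 0 ≤ y k)
    (ka kb : List Ex) : ∀ ts : List Tri, ts.all (triOK ka kb) = true →
      totC (kb.map (mono y)) (ka.map (mono x)) (spread ka.length ts) ≤ 0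
  | [], _ => by
    have : ∀ (n : ℕ) (wx wy : List ℝ),
        totC wy wx (List.replicate n ([] : List (ℕ × ℤ))) = 0 := by
      intro n
      induction n with
      | zero => intro wx wy; cases wx <;> simp [totC]
      | succ n ih => intro wx wy; cases wx <;> simp [List.replicate_succ, totC, valC, ih]
    exact (this _ _ _).le
  | t :: ts, h => by
    simp only [List.all_cons, Bool.and_eq_true] at h
    have ih := totC_spread_nonpos hx hy ka kb ts h.2
    obtain ⟨⟨⟨⟨⟨⟨⟨⟨a1, a2⟩, a3⟩, b1⟩, b2⟩, b3⟩, ma⟩, mb⟩, hr⟩ := by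
      simpa only [triOK, Bool.and_eq_true] using h.1
    simp only [Nat.blt_eq] at a1 a2 a3 b1 b2 b3
    simp only [Nat.ble_eq] at hr
    rw [spread, totC_addAt _ _ _ _ _ (by simp [length_addAt, length_spread]) (by simpa using a1),
      totC_addAt _ _ _ _ _ (by simp [length_addAt, length_spread]) (by simpa using a2),
      totC_addAt _ _ _ _ _ (by simp [length_spread]) (by simpa using a3)]
    simp only [getD_map_mono _ _ _ a1, getD_map_mono _ _ _ a2, getD_map_mono _ _ _ a3,
      getD_map_mono _ _ _ b1, getD_map_mono _ _ _ b2, getD_map_mono _ _ _ b3]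
    have key := amgm (wi := t.wi) (wj := t.wj) (r := t.r)
      (mul_nonneg (mono_nonneg hx (ka.getD t.i.1 (0, 0, 0, 0)))
        (mono_nonneg hy (kb.getD t.i.2 (0, 0, 0, 0))))
      (mul_nonneg (mono_nonneg hx (ka.getD t.j.1 (0, 0, 0, 0)))
        (mono_nonneg hy (kb.getD t.j.2 (0, 0, 0, 0))))
      (mul_nonneg (mono_nonneg hx (ka.getD t.k.1 (0, 0, 0, 0)))
        (mono_nonneg hy (kb.getD t.k.2 (0, 0, 0, 0))))
      (by rw [mul_pow, sq_mono_mid ma, sq_mono_mid mb]; ring) hr
    push_cast
    linarith

/-- The first coefficient of each polynomial. -/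
def heads : List Pol → List ℤ
  | [] => []
  | [] :: ps => 0 :: heads ps
  | ((_, c) :: _) :: ps => c :: heads ps

/-- All polynomials without their first term. -/
def tails : List Pol → List Pol
  | [] => []
  | [] :: ps => [] :: tails ps
  | (_ :: p) :: ps => p :: tails ps

/-- The rows, one by one. -/
def rowsOK (B n H Z : ℕ) (G : List ℤ) (Ms : List ℕ) :
    List (List (ℕ × ℤ)) → List Pol → Bool
  | [], _ => true
  | cs :: L, ps => rowOK B n H Z G Ms (heads ps) cs && rowsOK B n H Z G Ms L (tails ps)

lemma ev_split (x : Fin 4 → ℝ) (e : Ex) (ks : List Ex) : ∀ ps : List Pol,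
    (∀ p ∈ ps, keys p = e :: ks) →
    ∀ v : List ℝ, dotR (ps.map (ev x)) v =
      mono x e * dotW (heads ps) v + dotR ((tails ps).map (ev x)) v
  | [], _, v => by simp [heads, tails, dotR, dotW]
  | [] :: ps, h, _ => by have := h [] (List.mem_cons_self ..); simp [keys] at this
  | ((e', c) :: p) :: ps, h, v => by
    have he : e' = e := by have := h _ (List.mem_cons_self ..); simp [keys] at this; exact this.1
    cases v with
    | nil => simp [heads, tails, dotR, dotW]
    | cons b v =>
      simp only [List.map_cons, heads, tails, dotR, dotW, ev, he,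
        ev_split x e ks ps (fun q hq => h q (List.mem_cons_of_mem _ hq)) v]
      ring

lemma keys_tails (e : Ex) (ks : List Ex) : ∀ ps : List Pol, (∀ p ∈ ps, keys p = e :: ks) →
    ∀ p ∈ tails ps, keys p = ks
  | [], _, p, hp => by simp [tails] at hp
  | [] :: ps, h, _, _ => by have := h [] (List.mem_cons_self ..); simp [keys] at this
  | (t :: q) :: ps, h, p, hp => by
    simp only [tails, List.mem_cons] at hp
    rcases hp with rfl | hp
    · have := h _ (List.mem_cons_self ..); simp [keys] at this; exact this.2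
    · exact keys_tails e ks ps (fun r hr => h r (List.mem_cons_of_mem _ hr)) p hp

lemma rows_nonneg {B n H Z : ℕ} (hB : 2 * H = 2 ^ B) (hZ : Z = offN B H n) {G : List ℤ}
    {Ms : List ℕ} {vs : List (List ℤ)} (hn : ∀ q ∈ vs, q.length = n)
    (hG : G = vs.map (pack ((2 : ℤ) ^ B)))
    (hM : ∀ c : List ℤ, ∀ z ∈ comb n c vs, z.natAbs ≤ dotA c Ms)
    {x : Fin 4 → ℝ} (hx : ∀ k, 0 ≤ x k) {wy : List ℝ} (hw : wy.length = n)
    (h0 : ∀ v ∈ wy, 0 ≤ v) : ∀ (ks : List Ex) (L : List (List (ℕ × ℤ))) (ps : List Pol),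
      L.length = ks.length → (∀ p ∈ ps, keys p = ks) → rowsOK B n H Z G Ms L ps = true →
      0 ≤ dotR (ps.map (ev x)) (vs.map fun q => dotW q wy) + totC wy (ks.map (mono x)) L
  | [], [], ps, _, hk, _ => by
    have : ∀ (ps : List Pol) (v : List ℝ), (∀ p ∈ ps, keys p = []) →
        dotR (ps.map (ev x)) v = 0 := by
      intro ps
      induction ps with
      | nil => intro v _; simp [dotR]
      | cons p ps ih =>
        intro v h
        have hp : p = [] := by simpa [keys] using h p (List.mem_cons_self ..)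
        cases v with
        | nil => simp [dotR]
        | cons b v => simp [hp, dotR, ev, ih v fun q hq => h q (List.mem_cons_of_mem _ hq)]
    simp [this ps _ hk, totC]
  | [], _ :: _, _, h, _, _ => by simp at h
  | _ :: _, [], _, h, _, _ => by simp at h
  | e :: ks, cs :: L, ps, hl, hk, h => by
    simp only [rowsOK, Bool.and_eq_true] at h
    have h1 := row_nonneg hB hZ hn hG (hM _) h.1 hw h0
    have h2 := rows_nonneg hB hZ hn hG hM hx hw h0 ks L (tails ps) (by simpa using hl)
      (keys_tails e ks ps hk) h.2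
    rw [ev_split x e ks ps hk]
    simp only [List.map_cons, totC]
    nlinarith [mul_nonneg (mono_nonneg hx e) h1]

/-- The check on the expansions. -/
noncomputable def core (B : ℕ) (M : List (List ℤ)) (ka kb : List Ex) (ts : List Tri) (ps qs : List Pol) : Bool :=
  Nat.blt 0 B && ts.all (triOK ka kb) &&
    forceZs (qs.map fun q => pack (two B) (coeffs q)) fun K =>
    forceNs (qs.map fun q => maxA (coeffs q)) fun Mq =>
    forceZs (M.map fun mi => dotW mi K) fun G =>
    forceNs (M.map fun mi => dotA mi Mq) fun Ms =>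
    forceN (offN B (2 ^ (B - 1)) kb.length) fun Z =>
      rowsOK B kb.length (2 ^ (B - 1)) Z G Ms (spread ka.length ts) ps

lemma dotA_mono : ∀ (c : List ℤ) (a b : List ℕ), List.Forall₂ (· ≤ ·) a b → dotA c a ≤ dotA c b
  | [], _, _, _ => by simp [dotA]
  | _ :: _, _, _, .nil => le_rfl
  | _ :: c, _, _, .cons h t => by
    simp only [dotA]
    exact add_le_add (Nat.mul_le_mul_left _ h) (dotA_mono c _ _ t)

lemma core_sound {B : ℕ} {M : List (List ℤ)} {ka kb : List Ex} {ts : List Tri} {ps qs : List Pol}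
    (hka : ∀ p ∈ ps, keys p = ka) (hkb : ∀ q ∈ qs, keys q = kb)
    (h : core B M ka kb ts ps qs = true) {x y : Fin 4 → ℝ} (hx : ∀ k, 0 ≤ x k) (hy : ∀ k, 0 ≤ y k) :
    0 ≤ dotR (ps.map (ev x)) (M.map fun mi => dotW mi (qs.map (ev y))) := by
    simp only [core, two_eq, forceZs_eq, forceNs_eq, forceN_eq, Bool.and_eq_true,
      Nat.blt_eq] at h
    obtain ⟨⟨hB, hts⟩, hrows⟩ := h
    set n := kb.length with hn
    have hlen : ∀ q ∈ qs.map coeffs, q.length = n := by
      intro v hv
      obtain ⟨q, hq, rfl⟩ := List.mem_map.mp hv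
      simp [hn, ← hkb q hq, coeffs, keys]
    set vs := M.map fun mi => comb n mi (qs.map coeffs) with hvs
    have hvl : ∀ q ∈ vs, q.length = n := by
      intro v hv
      obtain ⟨mi, _, rfl⟩ := List.mem_map.mp hv
      exact length_comb n mi _ hlen
    have h2 : 2 * 2 ^ (B - 1) = 2 ^ B := by rw [← pow_succ']; congr 1; omega
    have := rows_nonneg (vs := vs) h2 rfl hvl ?_ ?_ hx (wy := kb.map (mono y)) (by simp [hn])
      (fun v hv => by obtain ⟨e, _, rfl⟩ := List.mem_map.mp hv; exact mono_nonneg hy e)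
      ka (spread ka.length ts) ps (length_spread _ _) hka hrows
    · have htot := totC_spread_nonpos hx hy ka kb ts hts
      have e : (vs.map fun q => dotW q (kb.map (mono y)))
          = M.map fun mi => dotW mi (qs.map (ev y)) := by
        rw [hvs, List.map_map]
        refine List.map_congr_left fun mi _ => ?_
        simp only [Function.comp_apply]
        rw [dotW_comb n _ mi _ hlen, List.map_map]
        congr 1
        refine List.map_congr_left fun q hq => ?_
        simp only [Function.comp_apply]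
        rw [ev_eq_dotW, hkb q hq]
      rw [e] at this
      linarith
    · rw [hvs, List.map_map]
      refine List.map_congr_left fun mi _ => ?_
      simp only [Function.comp_apply]
      rw [pack_eq_dotW, length_comb n mi _ hlen, dotW_comb n _ mi _ hlen, List.map_map]
      congr 1
      refine List.map_congr_left fun q hq => ?_
      simp only [Function.comp_apply]
      rw [pack_eq_dotW, hlen _ (List.mem_map_of_mem hq)]
    · intro c z hz
      refine (abs_comb n c vs z hz).trans (dotA_mono c _ _ ?_)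
      rw [hvs, List.map_map, List.forall₂_map_left_iff, List.forall₂_map_right_iff, List.forall₂_same]
      intro mi _
      simp only [Function.comp_apply]
      have : ∀ l : List ℤ, ∀ N : ℕ, (∀ z ∈ l, z.natAbs ≤ N) → maxA l ≤ N := by
        intro l
        induction l with
        | nil => simp [maxA]
        | cons a l ih =>
          intro N hN
          exact max_le (hN a (List.mem_cons_self ..))
            (ih N fun z hz => hN z (List.mem_cons_of_mem _ hz))
      refine this _ _ fun z hz => (abs_comb n mi _ z hz).trans (le_of_eq ?_)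
      rw [List.map_map]; rfl

/-! Subdivision. -/

/-- One coordinate of a quadruple. -/
def get4 (c : ℤ × ℤ × ℤ × ℤ) : Fin 4 → ℤ
  | 0 => c.1
  | 1 => c.2.1
  | 2 => c.2.2.1
  | 3 => c.2.2.2

/-- Doubling, with vertex `j` replaced by the sum of the vertices `i` and `j`. -/
def sub4 (i j : Fin 4) (c : ℤ × ℤ × ℤ × ℤ) : ℤ × ℤ × ℤ × ℤ :=
  let f : Fin 4 → ℤ := fun k => if k = j then get4 c i + get4 c j else 2 * get4 c k
  (f 0, f 1, f 2, f 3)

/-- The half of a simplex keeping vertex `i`. -/
def Simp.sub (v : Simp) (i j : Fin 4) : Simp :=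
  ⟨sub4 i j v.P, sub4 i j v.Q, sub4 i j v.R, 2 * v.N⟩

lemma linv_eq (x : Fin 4 → ℝ) (c : ℤ × ℤ × ℤ × ℤ) :
    linv x c = ∑ k, (get4 c k : ℝ) * x k := by
  simp [linv, get4, Fin.sum_univ_four]

/-- New barycentric coordinates in a half. -/
def coord (x : Fin 4 → ℝ) (i j : Fin 4) : Fin 4 → ℝ :=
  fun k => if k = i then x i - x j else if k = j then 2 * x j else x k

lemma linv_sub4 (x : Fin 4 → ℝ) {i j : Fin 4} (h : i ≠ j) (c : ℤ × ℤ × ℤ × ℤ) :
    linv (coord x i j) (sub4 i j c) = 2 * linv x c := by
  simp only [linv_eq, Fin.sum_univ_four]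
  fin_cases i <;> fin_cases j <;> simp_all [sub4, get4, coord] <;> ring

lemma coord_sum (x : Fin 4 → ℝ) {i j : Fin 4} (h : i ≠ j) :
    coord x i j 0 + coord x i j 1 + coord x i j 2 + coord x i j 3 = x 0 + x 1 + x 2 + x 3 := by
  fin_cases i <;> fin_cases j <;> simp_all [coord] <;> ring

lemma coord_nonneg {x : Fin 4 → ℝ} (hx : ∀ k, 0 ≤ x k) {i j : Fin 4} (h : x j ≤ x i) (k : Fin 4) :
    0 ≤ coord x i j k := by
  unfold coord
  split_ifs
  · linarith
  · linarith [hx j]
  · exact hx k

lemma co_sub (v : Simp) (x : Fin 4 → ℝ) {i j : Fin 4} (h : i ≠ j) :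
    co (v.sub i j) (v.sub i j).P (coord x i j) = co v v.P x ∧
    co (v.sub i j) (v.sub i j).Q (coord x i j) = co v v.Q x ∧
    co (v.sub i j) (v.sub i j).R (coord x i j) = co v v.R x := by
  refine ⟨?_, ?_, ?_⟩ <;>
  · simp only [co, Simp.sub, linv_sub4 x h]
    push_cast
    exact mul_div_mul_left _ _ two_ne_zero

/-- Nonnegativity on a product of two simplices. -/
def Good (F : Form) (a b : Simp) : Prop :=
  (0 : ℝ) < a.N → (0 : ℝ) < b.N → ∀ x y : Fin 4 → ℝ, (∀ k, 0 ≤ x k) → x 0 + x 1 + x 2 + x 3 = 1 →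
    (∀ k, 0 ≤ y k) → y 0 + y 1 + y 2 + y 3 = 1 →
      0 ≤ F.val (co a a.P x) (co a a.Q x) (co a a.R x) (co b b.P y) (co b b.Q y) (co b b.R y)

/-- Certificates. -/
inductive Cert where
  | leaf (ts : List Tri) : Cert
  | node (inA : Bool) (i j : Fin 4) (l r : Cert) : Cert

/-- The leaf test. -/
noncomputable def leafOK (F : Form) (a b : Simp) (ts : List Tri) : Bool :=
  invPolys F.Ba F.da F.ta a F.am fun ps => invPolys F.Bb F.db F.tb b F.bm fun qs =>
    core F.B F.M (allE F.da) (allE F.db) ts ps qs

/-- The whole test. -/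
noncomputable def check (F : Form) : Cert → Simp → Simp → Bool
  | .leaf ts, a, b => degOK F.da F.am && degOK F.db F.bm && leafOK F a b ts
  | .node true i j l r, a, b =>
    decide (i ≠ j) && check F l (a.sub i j) b && check F r (a.sub j i) b
  | .node false i j l r, a, b =>
    decide (i ≠ j) && check F l a (b.sub i j) && check F r a (b.sub j i)

theorem nodeA {F : Form} {i j : Fin 4} {l r : Cert} {a b : Simp} (h : i ≠ j)
    (hl : check F l (a.sub i j) b = true) (hr : check F r (a.sub j i) b = true) :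
    check F (.node true i j l r) a b = true := by
  simp [check, h, hl, hr]

theorem nodeB {F : Form} {i j : Fin 4} {l r : Cert} {a b : Simp} (h : i ≠ j)
    (hl : check F l a (b.sub i j) = true) (hr : check F r a (b.sub j i) = true) :
    check F (.node false i j l r) a b = true := by
  simp [check, h, hl, hr]

lemma dotR_scale (k k' : ℝ) : ∀ (u : List ℝ) (M : List (List ℤ)) (v : List ℝ),
    dotR (u.map (k * ·)) (M.map fun mi => dotW mi (v.map (k' * ·)))
      = k * k' * dotR u (M.map fun mi => dotW mi v)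
  | [], _, _ => by simp [dotR]
  | _ :: _, [], _ => by simp [dotR]
  | a :: u, mi :: M, v => by
    have e : ∀ (c : List ℤ) (v : List ℝ), dotW c (v.map (k' * ·)) = k' * dotW c v := by
      intro c
      induction c with
      | nil => intro v; simp [dotW]
      | cons z c ih => intro v; cases v <;> simp [dotW, ih]; ring
    simp only [List.map_cons, dotR]
    rw [dotR_scale k k' u M v, e]; ring

theorem check_sound {F : Form} : ∀ (c : Cert) (a b : Simp), check F c a b = true → Good F a b
  | .leaf ts, a, b, h => by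
    intro ha hb x y hx hxs hy hys
    simp only [check, leafOK, Bool.and_eq_true] at h
    obtain ⟨ps, hps, hka, h'⟩ := invPolys_spec ha.ne' hxs h.1.1 h.2
    obtain ⟨qs, hqs, hkb, h''⟩ := invPolys_spec hb.ne' hys h.1.2 h'
    have h0 := core_sound hka hkb h'' hx hy
    rw [hps, hqs] at h0
    have e := dotR_scale ((a.N : ℝ) ^ F.da) ((b.N : ℝ) ^ F.db)
      (F.am.map (imono (co a a.P x) (co a a.Q x) (co a a.R x))) F.M
      (F.bm.map (imono (co b b.P y) (co b b.Q y) (co b b.R y)))
    simp only [List.map_map, Function.comp_def] at e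
    rw [show dotR _ _ = _ from e] at h0
    exact nonneg_of_mul_nonneg_right h0 (by positivity)
  | .node true i j l r, a, b, h => by
    intro ha hb x y hx hxs hy hys
    simp only [check, Bool.and_eq_true, decide_eq_true_eq] at h
    obtain ⟨⟨hij, hl⟩, hr⟩ := h
    have hN : ∀ i j, (0 : ℝ) < ((a.sub i j).N : ℤ) := fun i j => by
      simp only [Simp.sub]; push_cast; linarith
    rcases le_total (x j) (x i) with h1 | h1
    · have := check_sound l _ b hl (hN i j) hb (coord x i j) y (coord_nonneg hx h1)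
        (by rw [coord_sum x hij]; exact hxs) hy hys
      obtain ⟨e1, e2, e3⟩ := co_sub a x hij
      rwa [e1, e2, e3] at this
    · have := check_sound r _ b hr (hN j i) hb (coord x j i) y (coord_nonneg hx h1)
        (by rw [coord_sum x hij.symm]; exact hxs) hy hys
      obtain ⟨e1, e2, e3⟩ := co_sub a x hij.symm
      rwa [e1, e2, e3] at this
  | .node false i j l r, a, b, h => by
    intro ha hb x y hx hxs hy hys
    simp only [check, Bool.and_eq_true, decide_eq_true_eq] at h
    obtain ⟨⟨hij, hl⟩, hr⟩ := h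
    have hN : ∀ i j, (0 : ℝ) < ((b.sub i j).N : ℤ) := fun i j => by
      simp only [Simp.sub]; push_cast; linarith
    rcases le_total (y j) (y i) with h1 | h1
    · have := check_sound l a _ hl ha (hN i j) x (coord y i j) hx hxs (coord_nonneg hy h1)
        (by rw [coord_sum y hij]; exact hys)
      obtain ⟨e1, e2, e3⟩ := co_sub b y hij
      rwa [e1, e2, e3] at this
    · have := check_sound r a _ hr ha (hN j i) x (coord y j i) hx hxs (coord_nonneg hy h1)
        (by rw [coord_sum y hij.symm]; exact hys)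
      obtain ⟨e1, e2, e3⟩ := co_sub b y hij.symm
      rwa [e1, e2, e3] at this

end Vale.Agent.P154.Four.Check
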