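import Vale.Agent.P154.FourSym

/-!
Power sums of a centred vector in the three invariants (generated).
-/

namespace Vale.Agent.P154.Four

open Check (invS invT invF)

/-- The mean of the powers of the centred vector. -/
noncomputable def mm (k : ℕ) (a : Spin → ℝ) : ℝ := (∑ i, (a i - 1) ^ k) / 4

lemma mm2 (p q r : ℝ) : mm 2 (vec p q r) = (1 : ℝ) * invS p q r := by
  simp [mm, vec, Fin.sum_univ_four, invS, invT, invF]; ring

lemma mm3 (p q r : ℝ) : mm 3 (vec p q r) = (6 : ℝ) * invT p q r := by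
  simp [mm, vec, Fin.sum_univ_four, invS, invT, invF]; ring

lemma mm4 (p q r : ℝ) : mm 4 (vec p q r) = (1 : ℝ) * invF p q r := by
  simp [mm, vec, Fin.sum_univ_four, invS, invT, invF]; ring

lemma mm5 (p q r : ℝ) : mm 5 (vec p q r) = (20 : ℝ) * invS p q r * invT p q r := by
  simp [mm, vec, Fin.sum_univ_four, invS, invT, invF]; ring

lemma mm6 (p q r : ℝ) : mm 6 (vec p q r) = (48 : ℝ) * invT p q r ^ 2
    + (3 : ℝ) * invS p q r * invF p q r
    + (-2 : ℝ) * invS p q r ^ 3 := by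
  simp [mm, vec, Fin.sum_univ_four, invS, invT, invF]; ring

lemma mm7 (p q r : ℝ) : mm 7 (vec p q r) = (14 : ℝ) * invT p q r * invF p q r
    + (28 : ℝ) * invS p q r ^ 2 * invT p q r := by
  simp [mm, vec, Fin.sum_univ_four, invS, invT, invF]; ring

lemma mm8 (p q r : ℝ) : mm 8 (vec p q r) = (1 : ℝ) * invF p q r ^ 2
    + (256 : ℝ) * invS p q r * invT p q r ^ 2
    + (4 : ℝ) * invS p q r ^ 2 * invF p q r
    + (-4 : ℝ) * invS p q r ^ 4 := by
  simp [mm, vec, Fin.sum_univ_four, invS, invT, invF]; ring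

lemma mm9 (p q r : ℝ) : mm 9 (vec p q r) = (384 : ℝ) * invT p q r ^ 3
    + (72 : ℝ) * invS p q r * invT p q r * invF p q r := by
  simp [mm, vec, Fin.sum_univ_four, invS, invT, invF]; ring

lemma mm10 (p q r : ℝ) : mm 10 (vec p q r) = (160 : ℝ) * invT p q r ^ 2 * invF p q r
    + (5 : ℝ) * invS p q r * invF p q r ^ 2
    + (640 : ℝ) * invS p q r ^ 2 * invT p q r ^ 2
    + (-4 : ℝ) * invS p q r ^ 5 := by
  simp [mm, vec, Fin.sum_univ_four, invS, invT, invF]; ring

end Vale.Agent.P154.Four
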