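import Mathlib

/-!
Averages over the relabellings of four states of symmetric polynomials in the products
`a i * b (σ i)`, written as sums of products of symmetrised monomials in `a` and in `b`.
-/

open scoped BigOperators

namespace Vale.Agent.P154.Four

/-- Exponents of a monomial in four variables. -/
abbrev Ex : Type := ℕ × ℕ × ℕ × ℕ

/-- The exponent of each variable. -/
def Ex.fn : Ex → Fin 4 → ℕ := fun e => ![e.1, e.2.1, e.2.2.1, e.2.2.2]

/-- The symmetrised monomial. -/
noncomputable def msym (e : Ex) (a : Fin 4 → ℝ) : ℝ :=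
  ∑ τ : Equiv.Perm (Fin 4), ∏ i, a (τ i) ^ e.fn i

lemma msym_zero (a : Fin 4 → ℝ) : msym (0, 0, 0, 0) a = 24 := by
  have h : ∀ i, Ex.fn (0, 0, 0, 0) i = 0 := by decide
  simp [msym, h, Fintype.card_perm, Nat.factorial]

lemma msym_congr {e e' : Ex} (π : Equiv.Perm (Fin 4)) (h : ∀ i, e'.fn i = e.fn (π i))
    (a : Fin 4 → ℝ) : msym e' a = msym e a := by
  rw [msym, msym, ← Equiv.sum_comp (Equiv.mulRight π) fun τ => ∏ i, a (τ i) ^ e'.fn i]
  refine Finset.sum_congr rfl fun τ _ => ?_
  simp only [Equiv.coe_mulRight, Equiv.Perm.mul_apply, h]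
  exact Equiv.prod_comp π fun i => a (τ i) ^ e.fn i

/-- Orders the first two exponents decreasingly. -/
def c01 (e : Ex) : Ex := if e.1 < e.2.1 then (e.2.1, e.1, e.2.2.1, e.2.2.2) else e
/-- Orders the middle exponents decreasingly. -/
def c12 (e : Ex) : Ex := if e.2.1 < e.2.2.1 then (e.1, e.2.2.1, e.2.1, e.2.2.2) else e
/-- Orders the last two exponents decreasingly. -/
def c23 (e : Ex) : Ex := if e.2.2.1 < e.2.2.2 then (e.1, e.2.1, e.2.2.2, e.2.2.1) else e

/-- The decreasingly sorted exponents. -/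
def Ex.sort (e : Ex) : Ex := c01 (c12 (c01 (c23 (c12 (c01 e)))))

lemma msym_c01 (e : Ex) (a : Fin 4 → ℝ) : msym (c01 e) a = msym e a := by
  refine msym_congr (if e.1 < e.2.1 then Equiv.swap 0 1 else 1) (fun i => ?_) a
  unfold c01; split_ifs <;> fin_cases i <;> simp [Ex.fn, Equiv.swap_apply_def]

lemma msym_c12 (e : Ex) (a : Fin 4 → ℝ) : msym (c12 e) a = msym e a := by
  refine msym_congr (if e.2.1 < e.2.2.1 then Equiv.swap 1 2 else 1) (fun i => ?_) a
  unfold c12; split_ifs <;> fin_cases i <;> simp [Ex.fn, Equiv.swap_apply_def]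

lemma msym_c23 (e : Ex) (a : Fin 4 → ℝ) : msym (c23 e) a = msym e a := by
  refine msym_congr (if e.2.2.1 < e.2.2.2 then Equiv.swap 2 3 else 1) (fun i => ?_) a
  unfold c23; split_ifs <;> fin_cases i <;> simp [Ex.fn, Equiv.swap_apply_def]

lemma msym_sort (e : Ex) (a : Fin 4 → ℝ) : msym e.sort a = msym e a := by
  simp only [Ex.sort, msym_c01, msym_c12, msym_c23]

/-- Adding a multiple of one symmetrised monomial to a list of them. -/
def ins (c : ℕ) (e : Ex) : List (ℕ × Ex) → List (ℕ × Ex)
  | [] => [(c, e)]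
  | p :: L => if p.2 = e then (p.1 + c, e) :: L else p :: ins c e L

/-- The children of one term under multiplication by the power sum of exponent `k`. -/
def put (k : ℕ) (p : ℕ × Ex) (L : List (ℕ × Ex)) : List (ℕ × Ex) :=
  ins p.1 (Ex.sort (p.2.1 + k, p.2.2.1, p.2.2.2.1, p.2.2.2.2)) <|
  ins p.1 (Ex.sort (p.2.1, p.2.2.1 + k, p.2.2.2.1, p.2.2.2.2)) <|
  ins p.1 (Ex.sort (p.2.1, p.2.2.1, p.2.2.2.1 + k, p.2.2.2.2)) <|
  ins p.1 (Ex.sort (p.2.1, p.2.2.1, p.2.2.2.1, p.2.2.2.2 + k)) L

/-- Multiplication by the power sum of exponent `k`. -/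
def step (k : ℕ) : List (ℕ × Ex) → List (ℕ × Ex)
  | [] => []
  | p :: L => put k p (step k L)

/-- Twenty four times a product of power sums, in symmetrised monomials. -/
def reps : List ℕ → List (ℕ × Ex)
  | [] => [(1, (0, 0, 0, 0))]
  | k :: ks => step k (reps ks)

/-- The value of a list of symmetrised monomials. -/
noncomputable def lval (L : List (ℕ × Ex)) (a : Fin 4 → ℝ) : ℝ :=
  (L.map fun p => (p.1 : ℝ) * msym p.2 a).sum

/-- The value of the bilinear form of a list of symmetrised monomials. -/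
noncomputable def bval (L : List (ℕ × Ex)) (a b : Fin 4 → ℝ) : ℝ :=
  (L.map fun p => (p.1 : ℝ) * (msym p.2 a * msym p.2 b)).sum

lemma lval_ins (c : ℕ) (e : Ex) (a : Fin 4 → ℝ) :
    ∀ L, lval (ins c e L) a = (c : ℝ) * msym e a + lval L a
  | [] => by simp [ins, lval]
  | p :: L => by
    have ih := lval_ins c e a L
    unfold ins
    split_ifs with h
    · subst h; simp only [lval, List.map_cons, List.sum_cons]; push_cast; ring
    · simp only [lval, List.map_cons, List.sum_cons] at ih ⊢; rw [ih]; ring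

lemma msym_mul_psum (e : Ex) (k : ℕ) (a : Fin 4 → ℝ) :
    msym e a * ∑ i, a i ^ k =
      msym (e.1 + k, e.2.1, e.2.2.1, e.2.2.2) a + msym (e.1, e.2.1 + k, e.2.2.1, e.2.2.2) a +
      msym (e.1, e.2.1, e.2.2.1 + k, e.2.2.2) a + msym (e.1, e.2.1, e.2.2.1, e.2.2.2 + k) a := by
  simp only [msym, Finset.sum_mul, ← Finset.sum_add_distrib]
  refine Finset.sum_congr rfl fun τ _ => ?_
  rw [← Equiv.sum_comp τ fun i => a i ^ k]
  simp only [Fin.sum_univ_four, Fin.prod_univ_four, Ex.fn, Matrix.cons_val_zero,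
    Matrix.cons_val_one, Matrix.cons_val, pow_add]
  ring

lemma lval_step (k : ℕ) (a : Fin 4 → ℝ) :
    ∀ L, lval (step k L) a = lval L a * ∑ i, a i ^ k
  | [] => by simp [step, lval]
  | p :: L => by
    have ih := lval_step k a L
    simp only [step, put, lval_ins, msym_sort, ih]
    simp only [lval, List.map_cons, List.sum_cons, add_mul, mul_assoc, msym_mul_psum]
    ring

lemma lval_reps (a : Fin 4 → ℝ) :
    ∀ ks : List ℕ, lval (reps ks) a = 24 * (ks.map fun k => ∑ i, a i ^ k).prod
  | [] => by simp [reps, lval, msym_zero]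
  | k :: ks => by
    simp only [reps, lval_step, lval_reps a ks, List.map_cons, List.prod_cons]; ring

/-- Summed over the relabellings, a symmetrised monomial of the products factorises. -/
lemma sum_msym_mul (e : Ex) (a b : Fin 4 → ℝ) :
    ∑ σ : Equiv.Perm (Fin 4), msym e (fun i => a i * b (σ i)) = msym e a * msym e b := by
  simp only [msym, mul_pow, Finset.prod_mul_distrib]
  rw [Finset.sum_comm, Finset.sum_mul]
  refine Finset.sum_congr rfl fun τ _ => ?_
  rw [← Finset.mul_sum]
  congr 1
  exact Equiv.sum_comp (Equiv.mulRight τ) fun σ => ∏ i, b (σ i) ^ e.fn i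

lemma sum_lval_mul (a b : Fin 4 → ℝ) :
    ∀ L, ∑ σ : Equiv.Perm (Fin 4), lval L (fun i => a i * b (σ i)) = bval L a b
  | [] => by simp [lval, bval]
  | p :: L => by
    have ih := sum_lval_mul a b L
    simp only [lval, bval, List.map_cons, List.sum_cons] at ih ⊢
    rw [Finset.sum_add_distrib, ← Finset.mul_sum, sum_msym_mul, ih]

/-- The average over relabellings of a product of power sums of the products. -/
theorem orbit_psums (ks : List ℕ) (a b : Fin 4 → ℝ) :
    1 / 24 * ∑ σ : Equiv.Perm (Fin 4), (ks.map fun k => ∑ i, (a i * b (σ i)) ^ k).prod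
      = 1 / 576 * bval (reps ks) a b := by
  rw [← sum_lval_mul a b]
  simp only [lval_reps, Finset.mul_sum]
  exact Finset.sum_congr rfl fun σ _ => by ring

/-- The expansion of a power of the weight. -/
def powL (m : ℕ) : List (ℕ × Ex) := reps (List.replicate m 1)

/-- The expansion of the sum of squares times a power of the weight. -/
def sqPowL (n : ℕ) : List (ℕ × Ex) := reps (2 :: List.replicate n 1)

/-- The average over relabellings of a power of `∑ a i * b (σ i)`. -/
theorem orbit_pow (m : ℕ) (a b : Fin 4 → ℝ) :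
    1 / 24 * ∑ σ : Equiv.Perm (Fin 4), (∑ i, a i * b (σ i)) ^ m
      = 1 / 576 * bval (powL m) a b := by
  rw [powL, ← orbit_psums]
  simp [List.map_replicate]

/-- The average over relabellings of the sum of squares times a power of the weight. -/
theorem orbit_sq_pow (n : ℕ) (a b : Fin 4 → ℝ) :
    1 / 24 * ∑ σ : Equiv.Perm (Fin 4),
        (∑ i, (a i * b (σ i)) ^ 2) * (∑ i, a i * b (σ i)) ^ n
      = 1 / 576 * bval (sqPowL n) a b := by
  rw [sqPowL, ← orbit_psums]
  simp [List.map_replicate]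

end Vale.Agent.P154.Four
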