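import Mathlib

/-!
Homogeneous integer polynomials in four variables, handled through their values at a point with
well separated powers of two, from which the coefficient vector is read off and checked.
-/

namespace Vale.Agent.P154.Four.Check

/-- Exponents of the four barycentric coordinates. -/
abbrev Ex := ℕ × ℕ × ℕ × ℕ

/-- Sparse polynomials. -/
abbrev Pol := List (Ex × ℤ)

/-- The monomial. -/
def mono {R : Type} [CommRing R] (x : Fin 4 → R) (e : Ex) : R :=
  x 0 ^ e.1 * x 1 ^ e.2.1 * x 2 ^ e.2.2.1 * x 3 ^ e.2.2.2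

lemma mono_nonneg {x : Fin 4 → ℝ} (h : ∀ k, 0 ≤ x k) (e : Ex) : 0 ≤ mono x e := by
  have := h 0; have := h 1; have := h 2; have := h 3
  unfold mono; positivity

/-- The value. -/
def ev {R : Type} [CommRing R] (x : Fin 4 → R) : Pol → R
  | [] => 0
  | t :: r => (t.2 : R) * mono x t.1 + ev x r

/-- The sum of absolute values of the coefficients. -/
def l1 : Pol → ℕ
  | [] => 0
  | t :: r => t.2.natAbs + l1 r

/-- The total degree of an exponent. -/
def tot (e : Ex) : ℕ := e.1 + e.2.1 + e.2.2.1 + e.2.2.2

/-- All terms have degree `d`. -/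
def Hom (d : ℕ) (p : Pol) : Prop := ∀ t ∈ p, tot t.1 = d

/-- Multiplication by a term. -/
def shift (s : Ex × ℤ) : Pol → Pol
  | [] => []
  | t :: r =>
    ((s.1.1 + t.1.1, s.1.2.1 + t.1.2.1, s.1.2.2.1 + t.1.2.2.1, s.1.2.2.2 + t.1.2.2.2), s.2 * t.2)
      :: shift s r

/-- Product. -/
def mul : Pol → Pol → Pol
  | [], _ => []
  | s :: p, q => shift s q ++ mul p q

lemma ev_append {R : Type} [CommRing R] (x : Fin 4 → R) :
    ∀ p q : Pol, ev x (p ++ q) = ev x p + ev x q
  | [], q => by simp [ev]
  | t :: p, q => by simp only [List.cons_append, ev, ev_append x p q]; ring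

lemma l1_append : ∀ p q : Pol, l1 (p ++ q) = l1 p + l1 q
  | [], q => by simp [l1]
  | t :: p, q => by simp only [List.cons_append, l1, l1_append p q]; omega

lemma Hom.append {d : ℕ} {p q : Pol} (hp : Hom d p) (hq : Hom d q) : Hom d (p ++ q) :=
  fun t ht => (List.mem_append.mp ht).elim (hp t) (hq t)

lemma ev_shift {R : Type} [CommRing R] (x : Fin 4 → R) (s : Ex × ℤ) : ∀ p : Pol,
    ev x (shift s p) = (s.2 : R) * mono x s.1 * ev x p
  | [] => by simp [shift, ev]
  | t :: r => by simp only [shift, ev, ev_shift x s r, mono, pow_add]; push_cast; ring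

lemma ev_mul {R : Type} [CommRing R] (x : Fin 4 → R) :
    ∀ p q : Pol, ev x (mul p q) = ev x p * ev x q
  | [], q => by simp [mul, ev]
  | s :: p, q => by simp only [mul, ev_append, ev_shift, ev_mul x p q, ev]; ring

lemma l1_shift (s : Ex × ℤ) : ∀ p : Pol, l1 (shift s p) = s.2.natAbs * l1 p
  | [] => by simp [shift, l1]
  | t :: r => by simp only [shift, l1, l1_shift s r, Int.natAbs_mul]; ring

lemma l1_mul : ∀ p q : Pol, l1 (mul p q) = l1 p * l1 q
  | [], q => by simp [mul, l1]
  | s :: p, q => by simp only [mul, l1_append, l1_shift, l1_mul p q, l1]; ring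

lemma Hom.shift {d e : ℕ} {s : Ex × ℤ} (hs : tot s.1 = d) :
    ∀ {p : Pol}, Hom e p → Hom (d + e) (Check.shift s p)
  | [], _ => fun t ht => by simp [Check.shift] at ht
  | u :: r, h => fun t ht => by
    simp only [Check.shift, List.mem_cons] at ht
    rcases ht with rfl | ht
    · have := h u (List.mem_cons_self ..)
      simp only [tot] at this hs ⊢; omega
    · exact Hom.shift hs (fun v hv => h v (List.mem_cons_of_mem _ hv)) t ht

lemma Hom.mul : ∀ {p : Pol} {d e : ℕ} {q : Pol}, Hom d p → Hom e q → Hom (d + e) (Check.mul p q)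
  | [], _, _, _, _, _ => fun t ht => by simp [Check.mul] at ht
  | s :: p, _, _, _, hp, hq =>
    Hom.append (Hom.shift (hp s (List.mem_cons_self ..)) hq)
      (Hom.mul (fun t ht => hp t (List.mem_cons_of_mem _ ht)) hq)

/-! Valued pieces: what is computed, and what it stands for. -/

/-- A value at the separated point, and a bound on the size of the coefficients. -/
abbrev Val := ℤ × ℕ

/-- `v` stands for a polynomial of degree `d` with values `f` at the real point `x`. -/
def Rep (u : Fin 4 → ℤ) (x : Fin 4 → ℝ) (d : ℕ) (v : Val) (f : ℝ) : Prop :=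
  ∃ p : Pol, Hom d p ∧ ev u p = v.1 ∧ l1 p ≤ v.2 ∧ ev x p = f

/-- Sum. -/
def vadd (a b : Val) : Val := (a.1 + b.1, a.2 + b.2)
/-- Product. -/
def vmul (a b : Val) : Val := (a.1 * b.1, a.2 * b.2)
/-- Multiple. -/
def vsmul (k : ℕ) (a : Val) : Val := ((k : ℤ) * a.1, k * a.2)
/-- Power. -/
def vpow (a : Val) : ℕ → Val
  | 0 => (1, 1)
  | n + 1 => vmul a (vpow a n)

variable {u : Fin 4 → ℤ} {x : Fin 4 → ℝ}

lemma Rep.add {d : ℕ} {a b : Val} {f g : ℝ} (ha : Rep u x d a f) (hb : Rep u x d b g) :
    Rep u x d (vadd a b) (f + g) := by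
  obtain ⟨p, h1, h2, h3, h4⟩ := ha
  obtain ⟨q, k1, k2, k3, k4⟩ := hb
  exact ⟨p ++ q, h1.append k1, by rw [ev_append, h2, k2]; rfl,
    by rw [l1_append]; exact add_le_add h3 k3, by rw [ev_append, h4, k4]⟩

lemma Rep.mul {d e : ℕ} {a b : Val} {f g : ℝ} (ha : Rep u x d a f) (hb : Rep u x e b g) :
    Rep u x (d + e) (vmul a b) (f * g) := by
  obtain ⟨p, h1, h2, h3, h4⟩ := ha
  obtain ⟨q, k1, k2, k3, k4⟩ := hb
  exact ⟨Check.mul p q, h1.mul k1, by rw [ev_mul, h2, k2]; rfl,
    by rw [l1_mul]; exact Nat.mul_le_mul h3 k3, by rw [ev_mul, h4, k4]⟩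

lemma Rep.smul {d : ℕ} {a : Val} {f : ℝ} (k : ℕ) (ha : Rep u x d a f) :
    Rep u x d (vsmul k a) (k * f) := by
  obtain ⟨p, h1, h2, h3, h4⟩ := ha
  refine ⟨Check.shift ((0, 0, 0, 0), (k : ℤ)) p, ?_, ?_, ?_, ?_⟩
  · simpa using Hom.shift (d := 0) (s := ((0, 0, 0, 0), (k : ℤ))) rfl h1
  · rw [ev_shift, h2]; simp [mono, vsmul]
  · rw [l1_shift]; simp only [vsmul, Int.natAbs_natCast]; exact Nat.mul_le_mul_left _ h3
  · rw [ev_shift, h4]; simp [mono]

lemma Rep.pow {d : ℕ} {a : Val} {f : ℝ} (ha : Rep u x d a f) :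
    ∀ n : ℕ, Rep u x (n * d) (vpow a n) (f ^ n)
  | 0 => ⟨[((0, 0, 0, 0), 1)], fun t ht => by simp at ht; subst ht; simp [tot],
      by simp [ev, mono, vpow], by simp [l1, vpow], by simp [ev, mono]⟩
  | n + 1 => by
    have h := ha.mul (ha.pow n)
    rw [← pow_succ', show d + n * d = (n + 1) * d by ring] at h
    exact h

/-- A linear form from its four values. -/
def vlin (u : Fin 4 → ℤ) (c : ℤ × ℤ × ℤ × ℤ) : Val :=
  (c.1 * u 0 + c.2.1 * u 1 + c.2.2.1 * u 2 + c.2.2.2 * u 3,
    c.1.natAbs + c.2.1.natAbs + c.2.2.1.natAbs + c.2.2.2.natAbs)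

/-- The value of a linear form. -/
def linv (x : Fin 4 → ℝ) (c : ℤ × ℤ × ℤ × ℤ) : ℝ :=
  c.1 * x 0 + c.2.1 * x 1 + c.2.2.1 * x 2 + c.2.2.2 * x 3

lemma rep_lin (c : ℤ × ℤ × ℤ × ℤ) : Rep u x 1 (vlin u c) (linv x c) := by
  refine ⟨[((1, 0, 0, 0), c.1), ((0, 1, 0, 0), c.2.1), ((0, 0, 1, 0), c.2.2.1),
    ((0, 0, 0, 1), c.2.2.2)], ?_, ?_, ?_, ?_⟩
  · intro t ht; simp at ht; rcases ht with rfl | rfl | rfl | rfl <;> rfl
  · simp [ev, mono, vlin]; ring
  · simp [l1, vlin]; omega
  · simp [ev, mono, linv]; ring

/-! Reading off the coefficients. -/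

/-- All exponents of degree `d`, by increasing code. -/
def allE (d : ℕ) : List Ex :=
  (List.range (d + 1)).flatMap fun c => (List.range (d + 1 - c)).flatMap fun b =>
    (List.range (d + 1 - c - b)).map fun a => (d - c - b - a, a, b, c)

lemma mem_allE {d : ℕ} {e : Ex} (h : tot e = d) : e ∈ allE d := by
  obtain ⟨a, b, c, f⟩ := e
  simp only [tot] at h
  simp only [allE, List.mem_flatMap, List.mem_range, List.mem_map, Prod.mk.injEq]
  exact ⟨f, by omega, c, by omega, b, by omega, by omega, rfl, rfl, rfl⟩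

/-- The code of an exponent. -/
def code (D : ℕ) (e : Ex) : ℕ := e.2.1 + D * (e.2.2.1 + D * e.2.2.2)

/-- A power of two, computed fast. -/
def two (e : ℕ) : ℤ := Int.ofNat (Nat.pow 2 e)

lemma two_eq (e : ℕ) : two e = (2 : ℤ) ^ e := by
  simp [two]

/-- The separated point. -/
def sep (B D : ℕ) : Fin 4 → ℤ
  | 0 => 1
  | 1 => two B
  | 2 => two (B * D)
  | 3 => two (B * (D * D))

lemma mono_sep (B D : ℕ) (e : Ex) : mono (sep B D) e = (2 : ℤ) ^ (B * code D e) := by
  simp only [mono, sep, two_eq, code, one_pow, one_mul, ← pow_mul, ← pow_add]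
  congr 1; ring

/-- The codes increase. -/
def incr : List ℕ → Bool
  | a :: b :: r => Nat.blt a b && incr (b :: r)
  | _ => true

lemma incr_pairwise : ∀ {l : List ℕ}, incr l = true → l.Pairwise (· < ·)
  | [], _ => List.Pairwise.nil
  | [a], _ => List.pairwise_singleton ..
  | a :: b :: r, h => by
    simp only [incr, Bool.and_eq_true, Nat.blt_eq] at h
    have ih := incr_pairwise h.2
    refine List.Pairwise.cons ?_ ih
    intro c hc
    rcases List.mem_cons.mp hc with rfl | hc
    · exact h.1
    · exact lt_trans h.1 (List.rel_of_pairwise_cons ih hc)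

/-- The packed value of coefficients placed at given codes, relative to `base`. -/
def flat (B base : ℕ) : List (ℕ × ℤ) → ℤ
  | [] => 0
  | (n, c) :: r => c * two (B * (n - base)) + flat B base r

lemma flat_append (B base : ℕ) : ∀ a b : List (ℕ × ℤ),
    flat B base (a ++ b) = flat B base a + flat B base b
  | [], b => by simp [flat]
  | (n, c) :: a, b => by simp only [List.cons_append, flat, flat_append B base a b]; ring

lemma flat_shift (B base base' : ℕ) (h : base ≤ base') : ∀ l : List (ℕ × ℤ),
    (∀ q ∈ l, base' ≤ q.1) → flat B base l = (2 : ℤ) ^ (B * (base' - base)) * flat B base' l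
  | [], _ => by simp [flat]
  | (n, c) :: r, hl => by
    have hn : base' ≤ n := hl (n, c) (List.mem_cons_self ..)
    simp only [flat, two_eq, flat_shift B base base' h r fun q hq => hl q (List.mem_cons_of_mem _ hq),
      mul_add]
    rw [mul_left_comm ((2 : ℤ) ^ _) c, ← pow_add, ← Nat.mul_add]
    congr 4; omega

/-- The shape of the halving of a code list. -/
inductive CT where
  | one : CT
  | node (gap : ℕ) (l r : CT) : CT

/-- The codes of a shape. -/
def CT.codes : CT → ℕ → List ℕ → List ℕ
  | .one, base, acc => base :: acc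
  | .node g l r, base, acc => CT.codes l base (CT.codes r (base + g) acc)

/-- Evaluates a natural number before passing it on. -/
def forceN {β : Type} (m : ℕ) (k : ℕ → β) : β :=
  match m with
  | 0 => k 0
  | m + 1 => k (m + 1)

lemma forceN_eq {β : Type} : ∀ (m : ℕ) (k : ℕ → β), forceN m k = k m
  | 0, _ => rfl
  | _ + 1, _ => rfl

/-- Evaluates an integer before passing it on. -/
def forceZ {β : Type} (a : ℤ) (k : ℤ → β) : β :=
  match a with
  | .ofNat m => forceN m fun m' => k (.ofNat m')
  | .negSucc m => forceN m fun m' => k (.negSucc m')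

lemma forceZ_eq {β : Type} : ∀ (a : ℤ) (k : ℤ → β), forceZ a k = k a
  | .ofNat m, k => forceN_eq m fun m' => k (.ofNat m')
  | .negSucc m, k => forceN_eq m fun m' => k (.negSucc m')

/-- The signed remainder. -/
def smod (V M : ℤ) : ℤ := (V + M / 2) % M - M / 2

/-- Reading signed coefficients off along a shape. -/
def unInt (B : ℕ) : CT → ℤ → List ℤ → List ℤ
  | .one, V, acc => V :: acc
  | .node g l r, V, acc =>
    forceZ (two (B * g)) fun M => forceZ (smod V M) fun lo => forceZ ((V - lo) / M) fun hi =>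
      unInt B l lo (unInt B r hi acc)

/-- The value of a shape with one half in every slot. -/
noncomputable def offT (B : ℕ) (t : CT) : ℕ :=
  CT.rec (motive := fun _ => ℕ) (2 ^ (B - 1))
    (fun g _ _ il ir => Nat.add il (Nat.mul (Nat.pow 2 (Nat.mul B g)) ir)) t

/-- Evaluates a natural number before passing it on. -/
noncomputable def frcN {β : Type} (m : ℕ) (k : ℕ → β) : β :=
  Nat.rec (k 0) (fun n _ => k (n + 1)) m

lemma frcN_eq {β : Type} (m : ℕ) (k : ℕ → β) : frcN m k = k m := by cases m <;> rfl

/-- Reading shifted coefficients off along a shape. -/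
noncomputable def unOff (B : ℕ) (t : CT) : ℕ → List ℤ → List ℤ :=
  CT.rec (motive := fun _ => ℕ → List ℤ → List ℤ)
    (fun V acc => Int.subNatNat V (2 ^ (B - 1)) :: acc)
    (fun g _ _ il ir V acc => frcN (Nat.pow 2 (Nat.mul B g)) fun M =>
      frcN (Nat.mod V M) fun lo => frcN (Nat.div V M) fun hi => il lo (ir hi acc)) t

/-- Reading the coefficients off along a shape. -/
noncomputable def unTr (B : ℕ) (t : CT) (V : ℤ) (acc : List ℤ) : List ℤ :=
  Int.rec (fun n => unOff B t n acc) (fun _ => unInt B t V acc) (V + (offT B t : ℤ))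

lemma codes_append : ∀ (t : CT) (base : ℕ) (acc : List ℕ),
    t.codes base acc = t.codes base [] ++ acc
  | .one, base, acc => rfl
  | .node g l r, base, acc => by
    simp only [CT.codes]
    rw [codes_append l base (r.codes _ acc), codes_append r _ acc,
      codes_append l base (r.codes _ []), List.append_assoc]

lemma base_le_codes : ∀ (t : CT) (base : ℕ), ∀ n ∈ t.codes base [], base ≤ n
  | .one, base, n, h => by simp [CT.codes] at h; omega
  | .node g l r, base, n, h => by
    simp only [CT.codes] at h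
    rw [codes_append] at h
    rcases List.mem_append.mp h with h | h
    · exact base_le_codes l base n h
    · have := base_le_codes r (base + g) n h; omega

lemma smod_dvd (V : ℤ) {M : ℤ} : M ∣ V - smod V M := by
  refine ⟨(V + M / 2) / M, ?_⟩
  simp only [smod]
  linarith [Int.mul_ediv_add_emod (V + M / 2) M]

lemma unInt_spec (B : ℕ) : ∀ (t : CT) (base : ℕ) (V : ℤ) (acc : List ℤ),
    ∃ U, unInt B t V acc = U ++ acc ∧ U.length = (t.codes base []).length ∧
      flat B base ((t.codes base []).zip U) = V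
  | .one, base, V, acc => ⟨[V], rfl, rfl, by simp [CT.codes, flat, two_eq]⟩
  | .node g l r, base, V, acc => by
    simp only [unInt, forceZ_eq]
    obtain ⟨U2, e2, n2, f2⟩ :=
      unInt_spec B r (base + g) ((V - smod V (two (B * g))) / two (B * g)) acc
    obtain ⟨U1, e1, n1, f1⟩ := unInt_spec B l base (smod V (two (B * g))) (U2 ++ acc)
    refine ⟨U1 ++ U2, by rw [e2, e1, List.append_assoc], ?_, ?_⟩
    · simp only [CT.codes]; rw [codes_append, List.length_append, List.length_append, n1, n2]
    · simp only [CT.codes]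
      rw [codes_append, List.zip_append n1.symm, flat_append,
        flat_shift B base (base + g) (Nat.le_add_right _ _) _
          (fun q hq => base_le_codes r _ _ (List.of_mem_zip hq).1),
        Nat.add_sub_cancel_left, f1, f2, ← two_eq, Int.mul_ediv_cancel' (smod_dvd V)]
      ring

lemma unOff_spec (B : ℕ) : ∀ (t : CT) (base : ℕ) (V : ℕ) (acc : List ℤ),
    ∃ U, unOff B t V acc = U ++ acc ∧ U.length = (t.codes base []).length ∧
      flat B base ((t.codes base []).zip U) = (V : ℤ) - offT B t
  | .one, base, V, acc => by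
    refine ⟨[Int.subNatNat V (2 ^ (B - 1))], rfl, rfl, ?_⟩
    simp [CT.codes, flat, two_eq, offT, Int.subNatNat_eq_coe]
  | .node g l r, base, V, acc => by
    obtain ⟨U2, e2, n2, f2⟩ := unOff_spec B r (base + g) (V / 2 ^ (B * g)) acc
    obtain ⟨U1, e1, n1, f1⟩ := unOff_spec B l base (V % 2 ^ (B * g)) (U2 ++ acc)
    refine ⟨U1 ++ U2, ?_, ?_, ?_⟩
    · show frcN (Nat.pow 2 (Nat.mul B g)) (fun M => frcN (Nat.mod V M) fun lo =>
          frcN (Nat.div V M) fun hi => unOff B l lo (unOff B r hi acc)) = _
      simp only [frcN_eq]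
      show unOff B l (V % 2 ^ (B * g)) (unOff B r (V / 2 ^ (B * g)) acc) = _
      rw [e2, e1, List.append_assoc]
    · simp only [CT.codes]; rw [codes_append, List.length_append, List.length_append, n1, n2]
    · simp only [CT.codes]
      rw [codes_append, List.zip_append n1.symm, flat_append,
        flat_shift B base (base + g) (Nat.le_add_right _ _) _
          (fun q hq => base_le_codes r _ _ (List.of_mem_zip hq).1),
        Nat.add_sub_cancel_left, f1, f2]
      have e : ((offT B (.node g l r) : ℕ) : ℤ) = offT B l + 2 ^ (B * g) * offT B r := by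
        show ((offT B l + 2 ^ (B * g) * offT B r : ℕ) : ℤ) = _
        push_cast; ring
      have h := congrArg (Nat.cast : ℕ → ℤ) (Nat.mod_add_div V (2 ^ (B * g)))
      push_cast at h ⊢
      rw [e]
      linear_combination h

lemma unTr_spec (B : ℕ) (t : CT) (base : ℕ) (V : ℤ) (acc : List ℤ) :
    ∃ U, unTr B t V acc = U ++ acc ∧ U.length = (t.codes base []).length ∧
      flat B base ((t.codes base []).zip U) = V := by
  unfold unTr
  rcases h : V + (offT B t : ℤ) with n | n
  · obtain ⟨U, e1, e2, e3⟩ := unOff_spec B t base n acc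
    refine ⟨U, e1, e2, e3.trans ?_⟩
    rw [Int.ofNat_eq_natCast] at h
    linarith
  · exact unInt_spec B t base V acc

/-- Coefficient at an exponent. -/
def cof : Pol → Ex → ℤ
  | [], _ => 0
  | t :: r, e => (if t.1 = e then t.2 else 0) + cof r e

lemma natAbs_cof : ∀ (p : Pol) (e : Ex), (cof p e).natAbs ≤ l1 p
  | [], _ => by simp [cof, l1]
  | t :: r, e => by
    refine (Int.natAbs_add_le _ _).trans (add_le_add ?_ (natAbs_cof r e))
    split_ifs <;> simp

lemma sum_ite_key {R : Type} [CommRing R] (x : Fin 4 → R) (e : Ex) (c : ℤ) :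
    ∀ K : List Ex, K.Nodup →
      ev x (K.map fun k => (k, if e = k then c else 0)) = if e ∈ K then (c : R) * mono x e else 0
  | [], _ => by simp [ev]
  | k :: K, h => by
    rw [List.nodup_cons] at h
    simp only [List.map_cons, ev, sum_ite_key x e c K h.2]
    by_cases hk : e = k
    · subst hk; simp [h.1]
    · simp [hk]

lemma ev_cof {R : Type} [CommRing R] (x : Fin 4 → R) {K : List Ex} (hK : K.Nodup) :
    ∀ p : Pol, (∀ t ∈ p, t.1 ∈ K) → ev x (K.map fun k => (k, cof p k)) = ev x p
  | [], _ => by
    simp only [cof, ev]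
    induction K with
    | nil => simp [ev]
    | cons k K ih => simp [ev, ih (List.nodup_cons.mp hK).2]
  | t :: r, h => by
    have e : ∀ K : List Ex, ev x (K.map fun k => (k, cof (t :: r) k))
        = ev x (K.map fun k => (k, if t.1 = k then t.2 else 0))
          + ev x (K.map fun k => (k, cof r k)) := by
      intro K
      induction K with
      | nil => simp [ev]
      | cons k K ih =>
        simp only [List.map_cons, ev]
        rw [ih, cof]; push_cast; ring
    rw [e, sum_ite_key x t.1 t.2 K hK, ev_cof x hK r fun s hs => h s (List.mem_cons_of_mem _ hs),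
      if_pos (h t (List.mem_cons_self ..))]
    simp [ev]

lemma flat_eq_zero (B : ℕ) : ∀ (l : List (ℕ × ℤ)), (l.map Prod.fst).Pairwise (· < ·) →
    (∀ q ∈ l, q.2.natAbs < 2 ^ B) → flat B 0 l = 0 → ∀ q ∈ l, q.2 = 0
  | [], _, _, _, q, hq => by simp at hq
  | (n, c) :: r, hp, hb, h0, q, hq => by
    rw [List.map_cons, List.pairwise_cons] at hp
    have hge : ∀ s ∈ r, n + 1 ≤ s.1 := fun s hs => hp.1 s.1 (List.mem_map_of_mem hs)
    simp only [flat, two_eq, Nat.sub_zero, flat_shift B 0 (n + 1) (Nat.zero_le _) r hge] at h0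
    have hc : c = 0 := by
      have h1 : ((2 : ℤ) ^ (B * n)) * (c + 2 ^ B * flat B (n + 1) r) = 0 := by
        have e : (2 : ℤ) ^ (B * (n + 1)) = 2 ^ (B * n) * 2 ^ B := by
          rw [← pow_add]; ring_nf
        rw [e] at h0; linear_combination h0
      have h2 : c + 2 ^ B * flat B (n + 1) r = 0 :=
        (mul_eq_zero.mp h1).resolve_left (by positivity)
      have h3 : ((2 : ℤ) ^ B) ∣ c := ⟨-flat B (n + 1) r, by linear_combination h2⟩
      refine Int.natAbs_eq_zero.mp (Nat.eq_zero_of_dvd_of_lt ?_ (hb (n, c) (List.mem_cons_self ..)))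
      have := Int.natAbs_dvd_natAbs.mpr h3
      simpa [Int.natAbs_pow] using this
    rcases List.mem_cons.mp hq with rfl | hq
    · exact hc
    · refine flat_eq_zero B r hp.2 (fun s hs => hb s (List.mem_cons_of_mem _ hs)) ?_ q hq
      rw [hc, zero_mul, zero_add] at h0
      rw [flat_shift B 0 (n + 1) (Nat.zero_le _) r hge, Nat.sub_zero]
      exact h0

/-- The largest absolute value. -/
def maxA : List ℤ → ℕ
  | [] => 0
  | a :: r => max a.natAbs (maxA r)

lemma le_maxA : ∀ {l : List ℤ} {a : ℤ}, a ∈ l → a.natAbs ≤ maxA l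
  | _ :: _, a, h => by
    rcases List.mem_cons.mp h with rfl | h
    · exact le_max_left _ _
    · exact (le_maxA h).trans (le_max_right _ _)

/-- The read-off coefficients are small enough to be the true ones. -/
def readOK (lim : ℕ) : List ℤ → Bool
  | [] => true
  | a :: r => Nat.blt a.natAbs lim && readOK lim r

lemma readOK_lt : ∀ {lim : ℕ} {U : List ℤ}, readOK lim U = true → ∀ a ∈ U, a.natAbs < lim
  | lim, [], _, a, ha => by simp at ha
  | lim, b :: r, h, a, ha => by
    simp only [readOK, Bool.and_eq_true, Nat.blt_eq] at h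
    rcases List.mem_cons.mp ha with rfl | ha
    · exact h.1
    · exact readOK_lt h.2 a ha

lemma read_spec {B d : ℕ} {x : Fin 4 → ℝ} {v : Val} {f : ℝ}
    (hv : Rep (sep B (d + 1)) x d v f) {t : CT} {cs : List ℕ} (ht : t.codes 0 [] = cs)
    (hcs : cs = (allE d).map (code (d + 1)))
    (hinc : incr cs = true) {U : List ℤ} (hU : U = unTr B t v.1 [])
    (h : readOK (2 ^ B - v.2) U = true) :
    ev x ((allE d).zip U) = f ∧ ((allE d).zip U).map Prod.fst = allE d := by
  obtain ⟨p, h1, h2, h3, h4⟩ := hv
  obtain ⟨U', eU, eL, hpack⟩ := unTr_spec B t 0 v.1 []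
  rw [List.append_nil, ← hU] at eU
  subst eU
  rw [ht] at hpack eL
  have hlen := eL
  have hsize := readOK_lt h
  have hp := incr_pairwise hinc
  have hK : (allE d).Nodup := List.Nodup.of_map (code (d + 1)) (hcs ▸ hp.imp fun h => h.ne)
  have hsupp : ∀ t ∈ p, t.1 ∈ allE d := fun t ht => mem_allE (h1 t ht)
  have hfst : (cs.zip U).map Prod.fst = cs := List.map_fst_zip (by omega)
  have key : ∀ (K : List Ex) (W : List ℤ), W.length = K.length →
      ev (sep B (d + 1)) (K.zip W) = flat B 0 ((K.map (code (d + 1))).zip W) := by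
    intro K
    induction K with
    | nil => intro W _; simp [ev, flat]
    | cons k K ih =>
      intro W hW
      cases W with
      | nil => simp at hW
      | cons a W =>
        simp only [List.zip_cons_cons, List.map_cons, ev, flat, two_eq, Int.cast_id, mono_sep,
          Nat.sub_zero, ih W (by simpa using hW)]
  set W := (allE d).map (cof p) with hW
  have eW : (allE d).zip W = (allE d).map fun k => (k, cof p k) := by
    rw [hW, ← List.zip_map', List.map_id']
  have heq : flat B 0 (cs.zip W) = flat B 0 (cs.zip U) := by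
    rw [hpack, ← h2, ← ev_cof (sep B (d + 1)) hK p hsupp, ← eW, hcs]
    exact (key _ _ (by simp [hW])).symm
  have hlenW : W.length = cs.length := by simp [hW, hcs]
  set Z := List.zipWith (fun a b => a - b) U W with hZ
  have sub : ∀ (K : List ℕ) (a b : List ℤ), a.length = K.length → b.length = K.length →
      flat B 0 (K.zip (List.zipWith (fun a b => a - b) a b))
        = flat B 0 (K.zip a) - flat B 0 (K.zip b) := by
    intro K
    induction K with
    | nil => intro a b _ _; simp [flat]
    | cons k K ih =>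
      intro a b ha hb
      cases a with
      | nil => simp at ha
      | cons a0 a =>
        cases b with
        | nil => simp at hb
        | cons b0 b =>
          simp only [List.zipWith_cons_cons, List.zip_cons_cons, flat,
            ih a b (by simpa using ha) (by simpa using hb)]
          ring
  have hZlen : Z.length = cs.length := by simp [hZ, hlen, hlenW]
  have hz := flat_eq_zero B (cs.zip Z) ((List.map_fst_zip (by omega : cs.length ≤ Z.length)).symm ▸ hp)
    (fun q hq => by
      have hq2 : q.2 ∈ Z := (List.of_mem_zip hq).2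
      obtain ⟨i, hi, e⟩ := List.getElem_of_mem hq2
      rw [← e]
      simp only [hZ, List.getElem_zipWith]
      have a1 := hsize _ (List.getElem_mem (l := U) (n := i) (by simp [hZ] at hi; omega))
      have a2 : (W[i]'(by simp [hZ] at hi; omega)).natAbs ≤ l1 p := by
        simp only [hW, List.getElem_map]; exact natAbs_cof _ _
      have a3 := Int.natAbs_sub_le (U[i]'(by simp [hZ] at hi; omega)) (W[i]'(by simp [hZ] at hi; omega))
      omega)
    (by rw [hZ, sub cs U W hlen hlenW, heq, sub_self])
  have hUW : U = W := by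
    refine List.ext_getElem (by omega) fun i h1 h2 => ?_
    have := hz ((cs.zip Z)[i]'(by simp; omega)) (List.getElem_mem _)
    simp only [List.getElem_zip, hZ, List.getElem_zipWith] at this
    linarith
  refine ⟨by rw [hUW, eW, ev_cof x hK p hsupp, h4], List.map_fst_zip ?_⟩
  rw [hlen, hcs, List.length_map]

end Vale.Agent.P154.Four.Check
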