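import Vale.Agent.P154.QInvBasic

/-!
Scalar facts for the four-state invariant `3/2 sqd - KL`: the join identity, the edge inequality
and polynomial bounds for `z log z` and for the reciprocal of the normalising weight.
-/

open scoped BigOperators
open Real Set

namespace Vale.Agent.P154.Four

/-- The relative entropy of a posterior ratio with respect to the uniform law. -/
noncomputable def kl (a : Fin 4 → ℝ) : ℝ := (1 / 4 : ℝ) * ∑ i, a i * log (a i)

/-- The invariant. -/
noncomputable def J0 (a : Fin 4 → ℝ) : ℝ := 3 / 2 * QInv.sqd a - kl a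

lemma sum_eq_four {a : Fin 4 → ℝ} (ha : QInv.InS a) : ∑ i, a i = 4 := by simpa using ha.2

lemma sum_mul_eq (a b : Fin 4 → ℝ) : ∑ i, a i * b i = 4 * QInv.zw a b := by
  simp only [QInv.zw, Nat.cast_ofNat]; ring

lemma sum_perm_apply (f : Fin 4 → ℝ) (i : Fin 4) :
    ∑ σ : Equiv.Perm (Fin 4), f (σ i) = 6 * ∑ j, f j := by
  have h : ∀ k, ∑ σ : Equiv.Perm (Fin 4), f (σ k) = ∑ σ : Equiv.Perm (Fin 4), f (σ i) :=
    fun k => by
    rw [← Equiv.sum_comp (Equiv.mulRight (Equiv.swap k i)) fun σ : Equiv.Perm (Fin 4) => f (σ k)]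
    simp
  have h2 : ∑ k, ∑ σ : Equiv.Perm (Fin 4), f (σ k) = 24 * ∑ j, f j := by
    rw [Finset.sum_comm]
    simp only [Equiv.sum_comp]
    rw [Finset.sum_const, Finset.card_univ, Fintype.card_perm, Fintype.card_fin]
    norm_num [Nat.factorial]
  rw [Finset.sum_congr rfl fun k _ => h k, Finset.sum_const, Finset.card_univ,
    Fintype.card_fin, nsmul_eq_mul] at h2
  push_cast at h2
  linarith

/-- One term of the average of the relative entropy. -/
lemma zw_mul_kl {a b : Fin 4 → ℝ} (ha : ∀ i, 0 ≤ a i) (hb : ∀ i, 0 ≤ b i) :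
    QInv.zw a b * kl (QInv.comb a b)
      = (1 / 4 : ℝ) * ∑ i, (a i * log (a i) * b i + a i * (b i * log (b i)))
        - QInv.zw a b * log (QInv.zw a b) := by
  by_cases hz : QInv.zw a b = 0
  · have h : ∀ i, a i * b i = 0 := fun i => by
      have := sum_mul_eq a b
      rw [hz, mul_zero, Finset.sum_eq_zero_iff_of_nonneg fun j _ => mul_nonneg (ha j) (hb j)]
        at this
      exact this i (Finset.mem_univ i)
    have e : ∀ i, a i * log (a i) * b i + a i * (b i * log (b i)) = 0 := fun i => by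
      rw [show a i * log (a i) * b i + a i * (b i * log (b i))
        = a i * b i * (log (a i) + log (b i)) by ring, h i, zero_mul]
    simp [hz, e]
  · have e : ∀ i, QInv.zw a b * (QInv.comb a b i * log (QInv.comb a b i))
        = a i * log (a i) * b i + a i * (b i * log (b i)) - a i * b i * log (QInv.zw a b) := fun i => by
      by_cases h0 : a i * b i = 0
      · rcases mul_eq_zero.1 h0 with h | h <;> simp [QInv.comb, h]
      · obtain ⟨h1, h2⟩ := mul_ne_zero_iff.1 h0
        simp only [QInv.comb]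
        rw [log_div h0 hz, log_mul h1 h2]
        field_simp
    rw [kl, mul_left_comm, Finset.mul_sum Finset.univ _ (QInv.zw a b),
      Finset.sum_congr rfl fun i _ => e i, Finset.sum_sub_distrib, ← Finset.sum_mul, sum_mul_eq]
    ring

lemma sum_perm_zw {a b : Fin 4 → ℝ} (ha : QInv.InS a) (hb : QInv.InS b) :
    ∑ σ : Equiv.Perm (Fin 4), QInv.zw a (fun i => b (σ i)) = 24 := by
  simp only [QInv.zw, ← Finset.sum_div]
  rw [Finset.sum_comm]
  simp only [← Finset.mul_sum, sum_perm_apply, ← Finset.sum_mul, sum_eq_four ha, sum_eq_four hb]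
  norm_num

lemma avgJoin_kl {a b : Fin 4 → ℝ} (ha : QInv.InS a) (hb : QInv.InS b) :
    QInv.avgJoin kl a b = kl a + kl b - (1 / 24 : ℝ) *
      ∑ σ : Equiv.Perm (Fin 4), QInv.zw a (fun i => b (σ i)) * log (QInv.zw a fun i => b (σ i)) := by
  have h1 : ∑ σ : Equiv.Perm (Fin 4), ∑ i,
      (a i * log (a i) * b (σ i) + a i * (b (σ i) * log (b (σ i)))) = 96 * (kl a + kl b) := by
    rw [Finset.sum_comm]
    simp only [Finset.sum_add_distrib, ← Finset.mul_sum]
    simp only [sum_perm_apply b, sum_perm_apply fun j => b j * log (b j)]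
    rw [← Finset.sum_mul, ← Finset.sum_mul, sum_eq_four ha, sum_eq_four hb, kl, kl]
    ring
  simp only [QInv.avgJoin, Nat.factorial, Nat.cast_mul, Nat.cast_one]
  rw [Finset.sum_congr rfl fun σ _ => zw_mul_kl ha.1 (b := fun i => b (σ i)) fun i => hb.1 (σ i),
    Finset.sum_sub_distrib, ← Finset.mul_sum, h1]
  ring

lemma avgJoin_lin (c : ℝ) (φ ψ : (Fin 4 → ℝ) → ℝ) (a b : Fin 4 → ℝ) :
    QInv.avgJoin (fun x => c * φ x - ψ x) a b = c * QInv.avgJoin φ a b - QInv.avgJoin ψ a b := by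
  simp only [QInv.avgJoin, mul_sub, Finset.sum_sub_distrib, Finset.mul_sum]
  congr 1
  exact Finset.sum_congr rfl fun σ _ => by ring

/-- The join identity of the invariant. -/
theorem avgJoin_J0 {a b : Fin 4 → ℝ} (ha : QInv.InS a) (hb : QInv.InS b) :
    QInv.avgJoin J0 a b = J0 a + J0 b + 3 / 2 * (QInv.avgJoin QInv.sqd a b - QInv.sqd a - QInv.sqd b) + (1 / 24 : ℝ) *
      ∑ σ : Equiv.Perm (Fin 4), QInv.zw a (fun i => b (σ i)) * log (QInv.zw a fun i => b (σ i)) := by
  have h := avgJoin_lin (3 / 2) QInv.sqd kl a b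
  rw [show J0 = fun x => 3 / 2 * QInv.sqd x - kl x from rfl, h, avgJoin_kl ha hb]
  ring

theorem J0_one : J0 (fun _ => 1) = 0 := by simp [J0, QInv.sqd, kl]

theorem J0_leaf (c : Fin 4) : 0 ≤ J0 fun i => if i = c then ((4 : ℕ) : ℝ) else 0 := by
  have h4 : log 4 = 2 * log 2 := by
    rw [show (4 : ℝ) = 2 ^ 2 by norm_num, log_pow]; norm_num
  have h2 := log_two_lt_d9
  have hk : kl (fun i => if i = c then ((4 : ℕ) : ℝ) else 0) = log 4 := by
    simp [kl, ite_mul]
  have hs : QInv.sqd (fun i => if i = c then ((4 : ℕ) : ℝ) else 0) = 1 := by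
    fin_cases c <;> simp [QInv.sqd, Fin.sum_univ_four] <;> norm_num
  simp only [J0, hk, hs, h4]
  linarith

/-! ### The edge inequality -/

/-- The invariant of one coordinate. -/
noncomputable def hh (c : ℝ) : ℝ := (c - 1) ^ 2 / 8 - (c * log c - c + 1) / 4

lemma J0_eq_sum {a : Fin 4 → ℝ} (h : ∑ i, a i = 4) : J0 a = ∑ i, hh (a i) := by
  simp only [Fin.sum_univ_four] at h
  simp only [J0, QInv.sqd, kl, hh, Fin.sum_univ_four, Nat.cast_ofNat]
  linarith

lemma continuous_hh : Continuous hh :=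
  (((continuous_id.sub continuous_const).pow 2).div_const 8).sub
    (((continuous_mul_log.sub continuous_id).add continuous_const).div_const 4)

lemma hasDerivAt_hh {c : ℝ} (hc : c ≠ 0) : HasDerivAt hh ((c - 1) / 4 - log c / 4) c := by
  have h1 := (((hasDerivAt_id c).sub_const 1).pow 2).div_const 8
  have h2 := (((hasDerivAt_mul_log hc).sub (hasDerivAt_id c)).add_const 1).div_const 4
  refine HasDerivAt.congr_deriv (h1.sub h2) ?_
  simp only [id_eq, Nat.cast_ofNat]
  ring

lemma key_log {t : ℝ} (ht : -1 < t) : (3 + 2 * t) * log (1 + t) ≤ t ^ 2 / 2 + 3 * t := by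
  let φ : ℝ → ℝ := fun s => (s ^ 2 / 2 + 3 * s) / (3 + 2 * s) - log (1 + s)
  have hd : ∀ s : ℝ, -1 < s → HasDerivAt φ (s ^ 3 / ((3 + 2 * s) ^ 2 * (1 + s))) s := fun s hs => by
    have h1 := (((hasDerivAt_id s).pow 2).div_const 2).add ((hasDerivAt_id s).const_mul (3 : ℝ))
    have h2 := ((hasDerivAt_id s).const_mul (2 : ℝ)).const_add 3
    have h3 := ((hasDerivAt_id s).const_add 1).log (by simp only [id_eq]; linarith)
    refine HasDerivAt.congr_deriv ((h1.div h2 (by simp only [id_eq]; linarith)).sub h3) ?_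
    have : 3 + 2 * s ≠ 0 := by linarith
    have : 1 + s ≠ 0 := by linarith
    simp only [id_eq, Nat.cast_ofNat, Pi.add_apply, Pi.pow_apply]
    field_simp
    ring
  have hc : ∀ a b : ℝ, -1 < a → ContinuousOn φ (Icc a b) := fun a b ha x hx =>
    (hd x (ha.trans_le hx.1)).continuousAt.continuousWithinAt
  have h0 : φ 0 ≤ φ t := by
    rcases le_total t 0 with h | h
    · refine antitoneOn_of_hasDerivWithinAt_nonpos (convex_Icc t 0) (hc t 0 ht)
        (fun x hx => (hd x ?_).hasDerivWithinAt) (fun x hx => ?_) (left_mem_Icc.2 h)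
        (right_mem_Icc.2 h) h
      all_goals rw [interior_Icc] at hx
      · linarith [hx.1]
      · exact div_nonpos_of_nonpos_of_nonneg
          (by nlinarith [mul_nonpos_of_nonpos_of_nonneg hx.2.le (sq_nonneg x)])
          (mul_nonneg (sq_nonneg _) (by linarith [hx.1]))
    · refine monotoneOn_of_hasDerivWithinAt_nonneg (convex_Icc 0 t) (hc 0 t (by norm_num))
        (fun x hx => (hd x ?_).hasDerivWithinAt) (fun x hx => ?_) (left_mem_Icc.2 h)
        (right_mem_Icc.2 h) h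
      all_goals rw [interior_Icc] at hx
      · linarith [hx.1]
      · exact div_nonneg (pow_nonneg hx.1.le 3) (mul_nonneg (sq_nonneg _) (by linarith [hx.1]))
  have h32 : 0 < 3 + 2 * t := by linarith
  simp only [φ] at h0
  norm_num at h0
  rw [le_div_iff₀ h32] at h0
  linarith

lemma edge_coord {l t : ℝ} (hl0 : 0 ≤ l) (hl1 : l ≤ 1) (ht : -1 ≤ t) :
    l ^ 3 * hh (1 + t) ≤ hh (1 + l * t) := by
  rcases hl0.eq_or_lt with rfl | hl
  · simp [hh]
  let g : ℝ → ℝ := fun s => hh (1 + s * t) / s ^ 3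
  have hc : ContinuousOn g (Icc l 1) :=
    ((continuous_hh.comp (continuous_const.add (continuous_id.mul continuous_const))).continuousOn).div
      ((continuous_id.pow 3).continuousOn) fun x hx => pow_ne_zero 3 (hl.trans_le hx.1).ne'
  have hpos : ∀ x ∈ Ioo l 1, 0 < 1 + x * t := fun x hx => by
    nlinarith [mul_le_mul_of_nonneg_left ht (hl.trans hx.1).le, hx.2]
  have hanti : AntitoneOn g (Icc l 1) := by
    refine antitoneOn_of_hasDerivWithinAt_nonpos (convex_Icc l 1) hc
      (f' := fun x => (((1 + x * t - 1) / 4 - log (1 + x * t) / 4) * t * x ^ 3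
        - hh (1 + x * t) * (3 * x ^ 2)) / (x ^ 3) ^ 2)
      (fun x hx => ?_) (fun x hx => ?_)
    all_goals rw [interior_Icc] at hx
    · have hin : HasDerivAt (fun s : ℝ => 1 + s * t) t x := by
        simpa using ((hasDerivAt_id x).mul_const t).const_add 1
      have hout := (hasDerivAt_hh (hpos x hx).ne').comp x hin
      have := hout.div (hasDerivAt_pow 3 x) (pow_ne_zero 3 (hl.trans hx.1).ne')
      refine (HasDerivAt.congr_deriv this ?_).hasDerivWithinAt
      norm_num
    · refine div_nonpos_of_nonpos_of_nonneg ?_ (sq_nonneg _)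
      have hk := key_log (t := x * t) (by linarith [hpos x hx])
      have e : ((1 + x * t - 1) / 4 - log (1 + x * t) / 4) * t * x ^ 3
          - hh (1 + x * t) * (3 * x ^ 2) = x ^ 2 / 4 * ((3 + 2 * (x * t)) * log (1 + x * t)
            - ((x * t) ^ 2 / 2 + 3 * (x * t))) := by
        simp only [hh]; ring
      rw [e]
      exact mul_nonpos_of_nonneg_of_nonpos (by positivity) (by linarith)
  have h := hanti (left_mem_Icc.2 hl1) (right_mem_Icc.2 hl1) hl1
  simp only [g, one_mul, one_pow, div_one] at h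
  rw [le_div_iff₀ (pow_pos hl 3)] at h
  linarith

/-- The edge inequality for the invariant. -/
theorem J0_edge {l : ℝ} {y : Fin 4 → ℝ} (hl0 : 0 ≤ l) (hl1 : l ≤ 1) (hy : QInv.InS y) :
    l ^ 3 * J0 y ≤ J0 (QInv.img l y) := by
  have hs : ∑ i, QInv.img l y i = 4 := by
    have := sum_eq_four hy
    simp only [QInv.img, Fin.sum_univ_four] at this ⊢
    linear_combination l * this
  rw [J0_eq_sum (sum_eq_four hy), J0_eq_sum hs, Finset.mul_sum]
  refine Finset.sum_le_sum fun i _ => ?_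
  have h := edge_coord (t := y i - 1) hl0 hl1 (by linarith [hy.1 i])
  rwa [add_sub_cancel] at h

/-! ### Polynomial bounds for `z log z` -/

/-- A function with vanishing value and slope at one and nonnegative second derivative. -/
lemma nonneg_of_convex {g g' g'' : ℝ → ℝ} {a b : ℝ} (ha : a < 1) (hb : 1 < b)
    (hg : ContinuousOn g (Icc a b)) (h1 : ∀ x ∈ Ioo a b, HasDerivAt g (g' x) x)
    (h2 : ∀ x ∈ Ioo a b, HasDerivAt g' (g'' x) x) (hpos : ∀ x ∈ Ioo a b, 0 ≤ g'' x)
    (e0 : g 1 = 0) (e1 : g' 1 = 0) {z : ℝ} (hz : z ∈ Icc a b) : 0 ≤ g z := by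
  have hm : MonotoneOn g' (Ioo a b) := by
    refine monotoneOn_of_hasDerivWithinAt_nonneg (f' := g'') (convex_Ioo a b)
      (fun x hx => (h2 x hx).continuousAt.continuousWithinAt)
      (fun x hx => ?_) (fun x hx => ?_)
    · exact (h2 x (interior_subset hx)).hasDerivWithinAt
    · exact hpos x (interior_subset hx)
  rcases le_total z 1 with h | h
  · rw [← e0]
    refine antitoneOn_of_hasDerivWithinAt_nonpos (convex_Icc a 1) (hg.mono (Icc_subset_Icc_right
      hb.le)) (fun x hx => (h1 x ?_).hasDerivWithinAt) (fun x hx => ?_) ⟨hz.1, h⟩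
      (right_mem_Icc.2 ha.le) h
    all_goals rw [interior_Icc] at hx
    · exact ⟨hx.1, hx.2.trans hb⟩
    · exact e1 ▸ hm ⟨hx.1, hx.2.trans hb⟩ ⟨ha, hb⟩ hx.2.le
  · rw [← e0]
    refine monotoneOn_of_hasDerivWithinAt_nonneg (convex_Icc 1 b) (hg.mono (Icc_subset_Icc_left
      ha.le)) (fun x hx => (h1 x ?_).hasDerivWithinAt) (fun x hx => ?_) (left_mem_Icc.2 hb.le)
      ⟨h, hz.2⟩ h
    all_goals rw [interior_Icc] at hx
    · exact ⟨ha.trans hx.1, hx.2⟩
    · exact e1 ▸ hm ⟨ha, hb⟩ ⟨ha.trans hx.1, hx.2⟩ hx.1.le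

/-- A lower bound of `z log z`: `P' 1 = 1` is the slope of `z log z` at one. -/
theorem le_mul_log {P P' p : ℝ → ℝ} (hP : ∀ x, HasDerivAt P (P' x) x)
    (hP' : ∀ x, HasDerivAt P' (p x) x) (hp : ∀ z ∈ Icc (0 : ℝ) 4, z * p z ≤ 1)
    (e0 : P 1 = 0) (e1 : P' 1 = 1) {z : ℝ} (hz : z ∈ Icc (0 : ℝ) 4) : P z ≤ z * log z := by
  have h := nonneg_of_convex (g := fun x => x * log x - P x) (g' := fun x => log x + 1 - P' x)
    (g'' := fun x => x⁻¹ - p x) (a := 0) (b := 4) (by norm_num) (by norm_num)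
    ((continuous_mul_log.continuousOn).sub fun x _ => (hP x).continuousAt.continuousWithinAt)
    (fun x hx => (hasDerivAt_mul_log hx.1.ne').sub (hP x))
    (fun x hx => ((hasDerivAt_log hx.1.ne').add_const 1).sub (hP' x))
    (fun x hx => sub_nonneg.2 (by
      rw [inv_eq_one_div, le_div_iff₀ hx.1, mul_comm]; exact hp x (Ioo_subset_Icc_self hx)))
    (by simp [e0]) (by simp [e1]) hz
  linarith

/-- The same bound for the centred function `z log z - z + 1`. -/
theorem le_mul_log_centred {P P' p : ℝ → ℝ} (hP : ∀ x, HasDerivAt P (P' x) x)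
    (hP' : ∀ x, HasDerivAt P' (p x) x) (hp : ∀ z ∈ Icc (0 : ℝ) 4, z * p z ≤ 1)
    (e0 : P 1 = 0) (e1 : P' 1 = 0) {z : ℝ} (hz : z ∈ Icc (0 : ℝ) 4) :
    P z ≤ z * log z - z + 1 := by
  have h := le_mul_log (P := fun x => P x + (x - 1)) (P' := fun x => P' x + 1)
    (fun x => (hP x).add ((hasDerivAt_id x).sub_const 1)) (fun x => (hP' x).add_const 1) hp
    (by simp [e0]) (by simp [e1]) hz
  linarith

/-- An upper bound of `c log c`: `U' 1 = 1` is the slope of `c log c` at one. -/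
theorem mul_log_le {U U' U'' : ℝ → ℝ} (hU : ∀ x, HasDerivAt U (U' x) x)
    (hU' : ∀ x, HasDerivAt U' (U'' x) x) {c₀ : ℝ} (h0 : 0 < c₀) (h1 : c₀ < 1)
    (hlo : ∀ c ∈ Icc 0 c₀, c * U'' c ≤ 1) (hhi : ∀ c ∈ Icc c₀ 4, 1 ≤ c * U'' c)
    (e : 0 ≤ U 0) (e0 : U 1 = 0) (e1 : U' 1 = 1) {c : ℝ} (hc : c ∈ Icc (0 : ℝ) 4) :
    c * log c ≤ U c := by
  have hcont : ∀ s : Set ℝ, ContinuousOn (fun x => U x - x * log x) s := fun s =>
    ContinuousOn.sub (fun x _ => (hU x).continuousAt.continuousWithinAt)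
      continuous_mul_log.continuousOn
  have hr : ∀ x ∈ Icc c₀ 4, 0 ≤ U x - x * log x := fun x hx =>
    nonneg_of_convex (g := fun x => U x - x * log x) (g' := fun x => U' x - (log x + 1))
      (g'' := fun x => U'' x - x⁻¹) h1 (by norm_num) (hcont _)
      (fun y hy => (hU y).sub (hasDerivAt_mul_log (h0.trans hy.1).ne'))
      (fun y hy => (hU' y).sub ((hasDerivAt_log (h0.trans hy.1).ne').add_const 1))
      (fun y hy => sub_nonneg.2 (by
        rw [inv_eq_one_div, div_le_iff₀ (h0.trans hy.1), mul_comm]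
        exact hhi y (Ioo_subset_Icc_self hy)))
      (by simp [e0]) (by simp [e1]) hx
  rcases le_total c₀ c with h | h
  · linarith [hr c ⟨h, hc.2⟩]
  have hconc : ConcaveOn ℝ (Icc 0 c₀) fun x => U x - x * log x := by
    refine concaveOn_of_hasDerivWithinAt2_nonpos (convex_Icc 0 c₀) (hcont _)
      (f' := fun x => U' x - (log x + 1)) (f'' := fun x => U'' x - x⁻¹)
      (fun y hy => ?_) (fun y hy => ?_) (fun y hy => ?_)
    all_goals rw [interior_Icc] at hy
    · exact ((hU y).sub (hasDerivAt_mul_log hy.1.ne')).hasDerivWithinAt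
    · exact ((hU' y).sub ((hasDerivAt_log hy.1.ne').add_const 1)).hasDerivWithinAt
    · rw [sub_nonpos, inv_eq_one_div, le_div_iff₀ hy.1, mul_comm]
      exact hlo y (Ioo_subset_Icc_self hy)
  have hm := hconc.ge_on_segment (left_mem_Icc.2 h0.le) (right_mem_Icc.2 h0.le)
    (z := c) (by rw [segment_eq_Icc h0.le]; exact ⟨hc.1, h⟩)
  have : (0 : ℝ) ≤ min (U 0 - 0 * log 0) (U c₀ - c₀ * log c₀) :=
    le_min (by simpa using e) (hr c₀ ⟨le_rfl, by linarith⟩)
  linarith

/-- The same bound for the centred function `c log c - c + 1`. -/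
theorem mul_log_centred_le {U U' U'' : ℝ → ℝ} (hU : ∀ x, HasDerivAt U (U' x) x)
    (hU' : ∀ x, HasDerivAt U' (U'' x) x) {c₀ : ℝ} (h0 : 0 < c₀) (h1 : c₀ < 1)
    (hlo : ∀ c ∈ Icc 0 c₀, c * U'' c ≤ 1) (hhi : ∀ c ∈ Icc c₀ 4, 1 ≤ c * U'' c)
    (e : 1 ≤ U 0) (e0 : U 1 = 0) (e1 : U' 1 = 0) {c : ℝ} (hc : c ∈ Icc (0 : ℝ) 4) :
    c * log c - c + 1 ≤ U c := by
  have h := mul_log_le (U := fun x => U x + (x - 1)) (U' := fun x => U' x + 1)
    (fun x => (hU x).add ((hasDerivAt_id x).sub_const 1)) (fun x => (hU' x).add_const 1) h0 h1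
    hlo hhi (by simp only [zero_sub]; linarith) (by simp [e0]) (by simp [e1]) hc
  linarith

/-! ### The joined second moment -/

lemma zw_mem {a b : Fin 4 → ℝ} (ha : QInv.InS a) (hb : QInv.InS b) : QInv.zw a b ∈ Icc (0 : ℝ) 4 := by
  have h1 := sum_mul_eq a b
  have h2 : 0 ≤ ∑ i, a i * b i := Finset.sum_nonneg fun i _ => mul_nonneg (ha.1 i) (hb.1 i)
  have h3 : ∑ i, a i * b i ≤ (∑ i, a i) * ∑ i, b i := by
    rw [Finset.sum_mul]
    exact Finset.sum_le_sum fun i _ => mul_le_mul_of_nonneg_left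
      (Finset.single_le_sum (fun j _ => hb.1 j) (Finset.mem_univ i)) (ha.1 i)
  rw [sum_eq_four ha, sum_eq_four hb] at h3
  constructor <;> linarith

/-- Polynomial bounds for one term of the average of `QInv.sqd`. -/
theorem zw_mul_sqd_bounds {a b : Fin 4 → ℝ} (ha : QInv.InS a) (hb : QInv.InS b) {p : ℝ → ℝ}
    (hp : ∀ z ∈ Icc (0 : ℝ) 4, z * p z ≤ 1) :
    (∑ i, (a i * b i) ^ 2) * p (QInv.zw a b) / 12 - QInv.zw a b / 3 ≤ QInv.zw a b * QInv.sqd (QInv.comb a b) ∧
      QInv.zw a b * QInv.sqd (QInv.comb a b) ≤ ((∑ i, (a i * b i) ^ 2) * p (QInv.zw a b)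
        + 16 * QInv.zw a b * (1 - QInv.zw a b * p (QInv.zw a b))) / 12 - QInv.zw a b / 3 := by
  set N := ∑ i, (a i * b i) ^ 2 with hN
  set z := QInv.zw a b with hz
  have hzm : z ∈ Icc (0 : ℝ) 4 := zw_mem ha hb
  have hzp := hp z hzm
  have hN0 : 0 ≤ N := Finset.sum_nonneg fun i _ => sq_nonneg _
  have hN16 : N ≤ 16 * z ^ 2 := by
    calc N ≤ (∑ i, a i * b i) ^ 2 :=
          Finset.sum_sq_le_sq_sum_of_nonneg fun i _ => mul_nonneg (ha.1 i) (hb.1 i)
      _ = _ := by rw [sum_mul_eq]; ring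
  rcases hzm.1.eq_or_lt with h | h
  · have hN' : N = 0 := le_antisymm (by rw [← h] at hN16; simpa using hN16) hN0
    rw [← h, hN']
    simp
  · have e : z * QInv.sqd (QInv.comb a b) = N / (12 * z) - z / 3 := by
      have hs := sum_mul_eq a b
      simp only [Fin.sum_univ_four, ← hz] at hs
      simp only [QInv.sqd, QInv.comb, hN, Fin.sum_univ_four, Nat.cast_ofNat, ← hz]
      field_simp
      linear_combination (-72 * z) * hs
    have e2 : N / (12 * z) - N * p z / 12 = N * (1 - z * p z) / (12 * z) := by field_simp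
    have h2 : 0 ≤ 1 - z * p z := by linarith
    have l1 : 0 ≤ N * (1 - z * p z) / (12 * z) := by positivity
    have l2 : N * (1 - z * p z) / (12 * z) ≤ 16 * z * (1 - z * p z) / 12 := by
      rw [div_le_div_iff₀ (by linarith) (by norm_num)]
      nlinarith [mul_le_mul_of_nonneg_right hN16 h2]
    constructor <;> linarith

end Vale.Agent.P154.Four
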