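import Mathlib

/-!
Tools for comparing `(1+x) log (1+x) - x - x²/2 + x³/6` with polynomials on intervals: convexity
with a slack, concavity, and rational bounds on logarithms.
-/

open Set

namespace Vale.Agent.P154.Four

/-- The remainder of `(1+x) log (1+x)` after three terms of its expansion. -/
noncomputable def hfun (x : ℝ) : ℝ := (1 + x) * Real.log (1 + x) - x - x ^ 2 / 2 + x ^ 3 / 6

/-- Value of a coefficient list. -/
def pev : List ℝ → ℝ → ℝ
  | [], _ => 0
  | a :: l, x => a + x * pev l x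

/-- First derivative of a coefficient list. -/
def dev : List ℝ → ℝ → ℝ
  | [], _ => 0
  | _ :: l, x => pev l x + x * dev l x

/-- Second derivative of a coefficient list. -/
def ddev : List ℝ → ℝ → ℝ
  | [], _ => 0
  | _ :: l, x => 2 * dev l x + x * ddev l x

/-- A form in two nonnegative variables. -/
def bev : List ℝ → ℝ → ℝ → ℝ
  | [], _, _ => 0
  | a :: l, u, v => a * v ^ l.length + u * bev l u v

lemma bev_nonneg {u v : ℝ} (hu : 0 ≤ u) (hv : 0 ≤ v) :
    ∀ {l : List ℝ}, (∀ a ∈ l, 0 ≤ a) → 0 ≤ bev l u v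
  | [], _ => le_refl _
  | a :: l, h => add_nonneg (mul_nonneg (h a (List.mem_cons_self ..)) (pow_nonneg hv _))
      (mul_nonneg hu (bev_nonneg hu hv fun b hb => h b (List.mem_cons_of_mem _ hb)))

lemma hasDerivAt_pev : ∀ (l : List ℝ) (x : ℝ), HasDerivAt (pev l) (dev l x) x
  | [], x => hasDerivAt_const x (0 : ℝ)
  | a :: l, x => by
    have := ((hasDerivAt_id x).mul (hasDerivAt_pev l x)).const_add a
    simp only [id, one_mul] at this
    exact this

lemma hasDerivAt_dev : ∀ (l : List ℝ) (x : ℝ), HasDerivAt (dev l) (ddev l x) x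
  | [], x => hasDerivAt_const x (0 : ℝ)
  | a :: l, x => by
    have := (hasDerivAt_pev l x).add ((hasDerivAt_id x).mul (hasDerivAt_dev l x))
    simp only [id, one_mul] at this
    refine this.congr_deriv ?_
    simp only [ddev]; ring

lemma continuous_pev (l : List ℝ) : Continuous (pev l) :=
  continuous_iff_continuousAt.mpr fun x => (hasDerivAt_pev l x).continuousAt

/-- The compared function. -/
noncomputable def psi (k : ℝ) (l : List ℝ) (x : ℝ) : ℝ := k * hfun x + pev l x

/-- Its derivative. -/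
noncomputable def psi1 (k : ℝ) (l : List ℝ) (x : ℝ) : ℝ :=
  k * (Real.log (1 + x) - x + x ^ 2 / 2) + dev l x

lemma continuous_psi (k : ℝ) (l : List ℝ) : Continuous (psi k l) := by
  have : Continuous fun x : ℝ => (1 + x) * Real.log (1 + x) :=
    Real.continuous_mul_log.comp (continuous_const.add continuous_id)
  unfold psi hfun
  exact (continuous_const.mul (((this.sub continuous_id).sub (by fun_prop)).add (by fun_prop))).add
    (continuous_pev l)

lemma hasDerivAt_psi (k : ℝ) (l : List ℝ) {x : ℝ} (hx : -1 < x) :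
    HasDerivAt (psi k l) (psi1 k l x) x := by
  have h1 : HasDerivAt (fun y : ℝ => 1 + y) 1 x := (hasDerivAt_id x).const_add 1
  have hne : (1 : ℝ) + x ≠ 0 := by linarith
  have hml : HasDerivAt (fun y : ℝ => (1 + y) * Real.log (1 + y)) (Real.log (1 + x) + 1) x := by
    have := h1.mul (h1.log hne)
    rw [one_mul, mul_one_div_cancel hne] at this
    exact this
  have h2 : HasDerivAt (fun y : ℝ => y ^ 2 / 2) x x := by
    have := (hasDerivAt_pow 2 x).div_const 2
    simpa using this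
  have h3 : HasDerivAt (fun y : ℝ => y ^ 3 / 6) (x ^ 2 / 2) x := by
    have := (hasDerivAt_pow 3 x).div_const 6
    refine this.congr_deriv ?_
    norm_num; ring
  have := ((((hml.sub (hasDerivAt_id x)).sub h2).add h3).const_mul k).add (hasDerivAt_pev l x)
  refine this.congr_deriv ?_
  simp only [psi1]; ring

lemma hasDerivAt_psi1 (k : ℝ) (l : List ℝ) {x : ℝ} (hx : -1 < x) :
    HasDerivAt (psi1 k l) (k * x ^ 2 / (1 + x) + ddev l x) x := by
  have h1 : HasDerivAt (fun y : ℝ => 1 + y) 1 x := (hasDerivAt_id x).const_add 1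
  have hne : (1 : ℝ) + x ≠ 0 := by linarith
  have h2 : HasDerivAt (fun y : ℝ => y ^ 2 / 2) x x := by
    have := (hasDerivAt_pow 2 x).div_const 2
    simpa using this
  have := ((((h1.log hne).sub (hasDerivAt_id x)).add h2).const_mul k).add (hasDerivAt_dev l x)
  refine this.congr_deriv ?_
  field_simp
  ring

/-- Tangent parabola below, on an interval where the second derivative is at least `-m`. -/
lemma psi_tangent {k : ℝ} {l : List ℝ} {c d x0 m : ℝ} (hc : -1 ≤ c) (h0 : c < x0) (h1 : x0 < d)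
    (hdd : ∀ x, c < x → x < d → 0 ≤ k * x ^ 2 + (ddev l x + m) * (1 + x))
    {x : ℝ} (hx : c ≤ x) (hx' : x ≤ d) :
    psi k l x0 + psi1 k l x0 * (x - x0) - m / 2 * (x - x0) ^ 2 ≤ psi k l x := by
  have hq : ∀ y, HasDerivAt (fun z : ℝ => m / 2 * (z - x0) ^ 2) (m * (y - x0)) y := fun y => by
    have := ((((hasDerivAt_id y).sub_const x0).pow 2).const_mul (m / 2))
    refine this.congr_deriv ?_
    norm_num; ring
  have hq' : ∀ y, HasDerivAt (fun z : ℝ => m * (z - x0)) m y := fun y => by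
    simpa using ((hasDerivAt_id y).sub_const x0).const_mul m
  have hconv : ConvexOn ℝ (Icc c d) (fun z => psi k l z + m / 2 * (z - x0) ^ 2) := by
    refine convexOn_of_hasDerivWithinAt2_nonneg (convex_Icc c d)
      (((continuous_psi k l).add (by fun_prop)).continuousOn)
      (f' := fun z => psi1 k l z + m * (z - x0))
      (f'' := fun z => k * z ^ 2 / (1 + z) + ddev l z + m) ?_ ?_ ?_
    · rw [interior_Icc]
      exact fun z hz => ((hasDerivAt_psi k l (by linarith [hz.1])).add (hq z)).hasDerivWithinAt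
    · rw [interior_Icc]
      exact fun z hz => ((hasDerivAt_psi1 k l (by linarith [hz.1])).add (hq' z)).hasDerivWithinAt
    · rw [interior_Icc]
      intro z hz
      have hz1 : 0 < 1 + z := by linarith [hz.1]
      rw [show k * z ^ 2 / (1 + z) + ddev l z + m
        = (k * z ^ 2 + (ddev l z + m) * (1 + z)) / (1 + z) by field_simp; ring]
      exact div_nonneg (hdd z hz.1 hz.2) hz1.le
  have hd0 : HasDerivAt (fun z => psi k l z + m / 2 * (z - x0) ^ 2) (psi1 k l x0) x0 := by
    simpa using (hasDerivAt_psi k l (by linarith)).fun_add (hq x0)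
  rcases lt_trichotomy x x0 with hlt | rfl | hgt
  · have := hconv.slope_le_of_hasDerivAt ⟨hx, hx'⟩ ⟨h0.le, h1.le⟩ hlt hd0
    simp only [slope_def_field, sub_self] at this
    rw [div_le_iff₀ (by linarith)] at this
    linarith
  · simp
  · have := hconv.le_slope_of_hasDerivAt ⟨h0.le, h1.le⟩ ⟨hx, hx'⟩ hgt hd0
    simp only [slope_def_field, sub_self] at this
    rw [le_div_iff₀ (by linarith)] at this
    linarith

/-- Nonnegativity from the tangent parabola. -/
lemma psi_nonneg_convex {k : ℝ} {l : List ℝ} {c d x0 m a b1 b2 : ℝ} (hc : -1 ≤ c) (h0 : c < x0)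
    (h1 : x0 < d) (hdd : ∀ x, c < x → x < d → 0 ≤ k * x ^ 2 + (ddev l x + m) * (1 + x))
    (hm : 0 ≤ m) (ha0 : 0 ≤ a) (ha : a ≤ psi k l x0) (hb1 : b1 ≤ psi1 k l x0)
    (hb2 : psi1 k l x0 ≤ b2) (el : 0 ≤ a + b2 * (c - x0) - m / 2 * (c - x0) ^ 2)
    (er : 0 ≤ a + b1 * (d - x0) - m / 2 * (d - x0) ^ 2)
    {x : ℝ} (hx : c ≤ x) (hx' : x ≤ d) : 0 ≤ psi k l x := by
  have ht := psi_tangent hc h0 h1 hdd hx hx'
  have conc : ∀ {t T β : ℝ}, 0 ≤ t → t ≤ T → 0 ≤ a + β * T - m / 2 * T ^ 2 →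
      0 ≤ a + β * t - m / 2 * t ^ 2 := by
    intro t T β ht hT hend
    rcases eq_or_lt_of_le (ht.trans hT) with rfl | hpos
    · rw [show t = 0 by linarith]; simpa using ha0
    · nlinarith [mul_nonneg (sub_nonneg.mpr hT) ha0, mul_nonneg ht hend,
        mul_nonneg (mul_nonneg hm (mul_nonneg ht (sub_nonneg.mpr hT))) hpos.le]
  rcases le_total x0 x with h | h
  · have h4 := conc (sub_nonneg.mpr h) (show x - x0 ≤ d - x0 by linarith) er
    nlinarith [mul_nonneg (sub_nonneg.mpr hb1) (sub_nonneg.mpr h)]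
  · have h4 := conc (β := -b2) (sub_nonneg.mpr h) (show x0 - x ≤ x0 - c by linarith)
      (le_trans el (le_of_eq (by ring)))
    nlinarith [mul_nonneg (sub_nonneg.mpr hb2) (sub_nonneg.mpr h)]

/-- Nonnegativity around the origin. -/
lemma psi_nonneg_zero {k : ℝ} {l : List ℝ} {c d : ℝ} (hc : -1 ≤ c) (h0 : c < 0) (h1 : 0 < d)
    (hdd : ∀ x, c < x → x < d → 0 ≤ k * x ^ 2 + (ddev l x + 0) * (1 + x))
    (e0 : pev l 0 = 0) (e1 : dev l 0 = 0) {x : ℝ} (hx : c ≤ x) (hx' : x ≤ d) :
    0 ≤ psi k l x := by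
  have := psi_tangent hc h0 h1 hdd hx hx'
  simp [psi, psi1, hfun, e0, e1] at this
  simpa [psi, hfun] using this

/-- Nonnegativity by concavity. -/
lemma psi_nonneg_concave {k : ℝ} {l : List ℝ} {c d : ℝ} (hc : -1 ≤ c) (hcd : c ≤ d)
    (hdd : ∀ x, c < x → x < d → 0 ≤ -(k * x ^ 2 + ddev l x * (1 + x)))
    (el : 0 ≤ psi k l c) (er : 0 ≤ psi k l d) {x : ℝ} (hx : c ≤ x) (hx' : x ≤ d) :
    0 ≤ psi k l x := by
  have hconc : ConcaveOn ℝ (Icc c d) (psi k l) := by
    refine concaveOn_of_hasDerivWithinAt2_nonpos (convex_Icc c d) (continuous_psi k l).continuousOn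
      (f' := psi1 k l) (f'' := fun z => k * z ^ 2 / (1 + z) + ddev l z) ?_ ?_ ?_
    · rw [interior_Icc]
      exact fun z hz => (hasDerivAt_psi k l (by linarith [hz.1])).hasDerivWithinAt
    · rw [interior_Icc]
      exact fun z hz => (hasDerivAt_psi1 k l (by linarith [hz.1])).hasDerivWithinAt
    · rw [interior_Icc]
      intro z hz
      have hz1 : 0 < 1 + z := by linarith [hz.1]
      rw [show k * z ^ 2 / (1 + z) + ddev l z
        = (k * z ^ 2 + ddev l z * (1 + z)) / (1 + z) by field_simp]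
      exact div_nonpos_of_nonpos_of_nonneg (by linarith [hdd z hz.1 hz.2]) hz1.le
  exact le_trans (le_min el er)
    (hconc.min_le_of_mem_Icc (left_mem_Icc.mpr hcd) (right_mem_Icc.mpr hcd) ⟨hx, hx'⟩)

/-- Rational bounds on a logarithm. -/
lemma log_bounds {y z lo hi : ℝ} (n : ℕ) (hz : 0 ≤ z) (hz1 : z < 1)
    (hy : y = (1 + z) / (1 - z))
    (hlo : lo ≤ 2 * ∑ i ∈ Finset.range n, z ^ (2 * i + 1) / (2 * i + 1))
    (hhi : 2 * (∑ i ∈ Finset.range n, z ^ (2 * i + 1) / (2 * i + 1))
      + 2 * (z ^ (2 * n + 1) / (1 - z ^ 2)) ≤ hi) :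
    lo ≤ Real.log y ∧ Real.log y ≤ hi := by
  subst hy
  exact ⟨by linarith [Real.sum_range_le_log_div hz hz1 n],
    by linarith [Real.log_div_le_sum_range_add hz hz1 n]⟩

/-- Rational bounds on a logarithm below one. -/
lemma log_bounds' {y z lo hi : ℝ} (n : ℕ) (hz : 0 ≤ z) (hz1 : z < 1)
    (hy : y = (1 - z) / (1 + z))
    (hlo : lo + 2 * (∑ i ∈ Finset.range n, z ^ (2 * i + 1) / (2 * i + 1))
      + 2 * (z ^ (2 * n + 1) / (1 - z ^ 2)) ≤ 0)
    (hhi : 0 ≤ hi + 2 * ∑ i ∈ Finset.range n, z ^ (2 * i + 1) / (2 * i + 1)) :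
    lo ≤ Real.log y ∧ Real.log y ≤ hi := by
  have e : y = ((1 + z) / (1 - z))⁻¹ := by rw [hy, inv_div]
  rw [e, Real.log_inv]
  exact ⟨by linarith [Real.log_div_le_sum_range_add hz hz1 n],
    by linarith [Real.sum_range_le_log_div hz hz1 n]⟩

end Vale.Agent.P154.Four
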