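import Vale.Agent.P154.FourBasic
import Vale.Agent.P154.FourCheck

/-!
Centred vectors in three coordinates, in which the permutations act by signed permutations, and
the products that occur in the expansion of a join (generated).
-/

namespace Vale.Agent.P154.Four

set_option linter.unusedSimpArgs false

open Check (invS invT invF)

/-- The ratio vector with given three coordinates. -/
def vec (p q r : ℝ) : Spin → ℝ :=
  ![1 + (p + q + r), 1 + (p - q - r), 1 + (-p + q - r), 1 + (-p - q + r)]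

/-- The sum over the group of signed permutations. -/
def sym (F : ℝ → ℝ → ℝ → ℝ) (p q r : ℝ) : ℝ :=
  F p q r
    + F p (-q) (-r)
    + F (-p) q (-r)
    + F (-p) (-q) r
    + F p r q
    + F p (-r) (-q)
    + F (-p) r (-q)
    + F (-p) (-r) q
    + F q p r
    + F q (-p) (-r)
    + F (-q) p (-r)
    + F (-q) (-p) r
    + F q r p
    + F q (-r) (-p)
    + F (-q) r (-p)
    + F (-q) (-r) p
    + F r p q
    + F r (-p) (-q)
    + F (-r) p (-q)
    + F (-r) (-p) q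
    + F r q p
    + F r (-q) (-p)
    + F (-r) q (-p)
    + F (-r) (-q) p

/-- The permutations, in the order of `sym`. -/
def permList : List (Equiv.Perm Spin) :=
  [⟨![0, 1, 2, 3], ![0, 1, 2, 3], by decide, by decide⟩,
    ⟨![1, 0, 3, 2], ![1, 0, 3, 2], by decide, by decide⟩,
    ⟨![2, 3, 0, 1], ![2, 3, 0, 1], by decide, by decide⟩,
    ⟨![3, 2, 1, 0], ![3, 2, 1, 0], by decide, by decide⟩,
    ⟨![0, 1, 3, 2], ![0, 1, 3, 2], by decide, by decide⟩,
    ⟨![1, 0, 2, 3], ![1, 0, 2, 3], by decide, by decide⟩,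
    ⟨![3, 2, 0, 1], ![2, 3, 1, 0], by decide, by decide⟩,
    ⟨![2, 3, 1, 0], ![3, 2, 0, 1], by decide, by decide⟩,
    ⟨![0, 2, 1, 3], ![0, 2, 1, 3], by decide, by decide⟩,
    ⟨![2, 0, 3, 1], ![1, 3, 0, 2], by decide, by decide⟩,
    ⟨![1, 3, 0, 2], ![2, 0, 3, 1], by decide, by decide⟩,
    ⟨![3, 1, 2, 0], ![3, 1, 2, 0], by decide, by decide⟩,
    ⟨![0, 2, 3, 1], ![0, 3, 1, 2], by decide, by decide⟩,
    ⟨![2, 0, 1, 3], ![1, 2, 0, 3], by decide, by decide⟩,
    ⟨![3, 1, 0, 2], ![2, 1, 3, 0], by decide, by decide⟩,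
    ⟨![1, 3, 2, 0], ![3, 0, 2, 1], by decide, by decide⟩,
    ⟨![0, 3, 1, 2], ![0, 2, 3, 1], by decide, by decide⟩,
    ⟨![3, 0, 2, 1], ![1, 3, 2, 0], by decide, by decide⟩,
    ⟨![1, 2, 0, 3], ![2, 0, 1, 3], by decide, by decide⟩,
    ⟨![2, 1, 3, 0], ![3, 1, 0, 2], by decide, by decide⟩,
    ⟨![0, 3, 2, 1], ![0, 3, 2, 1], by decide, by decide⟩,
    ⟨![3, 0, 1, 2], ![1, 2, 3, 0], by decide, by decide⟩,
    ⟨![2, 1, 0, 3], ![2, 1, 0, 3], by decide, by decide⟩,
    ⟨![1, 2, 3, 0], ![3, 0, 1, 2], by decide, by decide⟩]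

lemma sum_perm (G : (Spin → ℝ) → ℝ) (p q r : ℝ) :
    (∑ σ : Equiv.Perm Spin, G fun i => vec p q r (σ i)) = sym (fun x y z => G (vec x y z)) p q r := by
  have hu : (Finset.univ : Finset (Equiv.Perm Spin)) = permList.toFinset := by decide
  rw [hu, List.sum_toFinset _ (by decide)]
  have e : ∀ (σ : Equiv.Perm Spin) (x y z : ℝ), (∀ i, vec p q r (σ i) = vec x y z i) →
      G (fun i => vec p q r (σ i)) = G (vec x y z) := fun σ x y z h => congrArg G (funext h)
  simp only [permList, List.map_cons, List.map_nil, List.sum_cons, List.sum_nil, add_zero]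
  rw [e _ (p) (q) (r)]
  rw [e _ (p) (-q) (-r)]
  rw [e _ (-p) (q) (-r)]
  rw [e _ (-p) (-q) (r)]
  rw [e _ (p) (r) (q)]
  rw [e _ (p) (-r) (-q)]
  rw [e _ (-p) (r) (-q)]
  rw [e _ (-p) (-r) (q)]
  rw [e _ (q) (p) (r)]
  rw [e _ (q) (-p) (-r)]
  rw [e _ (-q) (p) (-r)]
  rw [e _ (-q) (-p) (r)]
  rw [e _ (q) (r) (p)]
  rw [e _ (q) (-r) (-p)]
  rw [e _ (-q) (r) (-p)]
  rw [e _ (-q) (-r) (p)]
  rw [e _ (r) (p) (q)]
  rw [e _ (r) (-p) (-q)]
  rw [e _ (-r) (p) (-q)]
  rw [e _ (-r) (-p) (q)]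
  rw [e _ (r) (q) (p)]
  rw [e _ (r) (-q) (-p)]
  rw [e _ (-r) (q) (-p)]
  rw [e _ (-r) (-q) (p)]
  · simp only [sym, add_assoc]
  all_goals intro i; fin_cases i <;> simp [vec] <;> ring

/-- The inner product. -/
def wd (p q r p' q' r' : ℝ) : ℝ := p * p' + q * q' + r * r'
/-- The mixed third-order term, quadratic in the second vector. -/
def cd (p q r p' q' r' : ℝ) : ℝ := 2 * (p * q' * r' + q * p' * r' + r * p' * q')
/-- The mixed third-order term, quadratic in the first vector. -/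
def md (p q r p' q' r' : ℝ) : ℝ := 2 * (p' * q * r + q' * p * r + r' * p * q)
/-- The mixed fourth-order term. -/
def ed (p q r p' q' r' : ℝ) : ℝ := q * r * q' * r' + p * r * p' * r' + p * q * p' * q'

end Vale.Agent.P154.Four
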