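import Vale.Agent.P154.FourMom

/-!
Averages over the signed permutations of the products in the expansion of a join (generated):
first over the sign changes, then over the permutations.
-/

namespace Vale.Agent.P154.Four

set_option linter.unusedSimpArgs false

open Check (invS invT invF)

/-- The sum over the even sign changes. -/
def sgn (F : ℝ → ℝ → ℝ → ℝ) (p q r : ℝ) : ℝ :=
  F p q r + F p (-q) (-r) + F (-p) q (-r) + F (-p) (-q) r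

lemma sym_eq_sgn (F : ℝ → ℝ → ℝ → ℝ) (p q r : ℝ) :
    sym F p q r = sgn F p q r + sgn F p r q + sgn F q p r + sgn F q r p + sgn F r p q
      + sgn F r q p := by
  simp only [sym, sgn]; ring

/-- The signed sum of powers of a sum. -/
def pws (k : ℕ) (u v t : ℝ) : ℝ :=
  (u + v + t) ^ k + (u - v - t) ^ k + (-u + v - t) ^ k + (-u - v + t) ^ k

/-- The signed sum of powers of a sum times a linear form. -/
def pwl (k : ℕ) (u v t P Q R : ℝ) : ℝ :=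
  (u + v + t) ^ k * (P + Q + R) + (u - v - t) ^ k * (P - Q - R)
    + (-u + v - t) ^ k * (-P + Q - R) + (-u - v + t) ^ k * (-P - Q + R)

variable (u v t P Q R : ℝ) (p q r p' q' r' : ℝ)

lemma sgn_wd (k : ℕ) (x y z : ℝ) :
    sgn (fun x y z => wd p q r x y z ^ k) x y z = pws k (p * x) (q * y) (r * z) := by
  simp only [sgn, pws, wd, mul_neg, ← sub_eq_add_neg]

lemma sgn_cd (k : ℕ) (x y z : ℝ) :
    sgn (fun x y z => wd p q r x y z ^ k * cd p q r x y z) x y z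
      = pwl k (p * x) (q * y) (r * z) (2 * p * y * z) (2 * q * x * z) (2 * r * x * y) := by
  simp only [sgn, pwl, wd, cd, mul_neg, ← sub_eq_add_neg]; ring

lemma sgn_md (k : ℕ) (x y z : ℝ) :
    sgn (fun x y z => wd p q r x y z ^ k * md p q r x y z) x y z
      = pwl k (p * x) (q * y) (r * z) (2 * x * q * r) (2 * y * p * r) (2 * z * p * q) := by
  simp only [sgn, pwl, wd, md, mul_neg, ← sub_eq_add_neg]; ring

lemma sgn_ed (k : ℕ) (x y z : ℝ) :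
    sgn (fun x y z => wd p q r x y z ^ k * ed p q r x y z) x y z
      = pwl k (p * x) (q * y) (r * z) (q * r * y * z) (p * r * x * z) (p * q * x * y) := by
  simp only [sgn, pwl, wd, ed, mul_neg, ← sub_eq_add_neg]; ring

lemma pws0 : pws 0 u v t =
    (4 : ℝ) := by
  simp only [pws]; ring

lemma pws1 : pws 1 u v t =
    0 := by
  simp only [pws]; ring

lemma pws2 : pws 2 u v t =
    (4 : ℝ) * t ^ 2
      + (4 : ℝ) * v ^ 2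
      + (4 : ℝ) * u ^ 2 := by
  simp only [pws]; ring

lemma pws3 : pws 3 u v t =
    (24 : ℝ) * u * v * t := by
  simp only [pws]; ring

lemma pws4 : pws 4 u v t =
    (4 : ℝ) * t ^ 4
      + (24 : ℝ) * v ^ 2 * t ^ 2
      + (4 : ℝ) * v ^ 4
      + (24 : ℝ) * u ^ 2 * t ^ 2
      + (24 : ℝ) * u ^ 2 * v ^ 2
      + (4 : ℝ) * u ^ 4 := by
  simp only [pws]; ring

lemma pws5 : pws 5 u v t =
    (80 : ℝ) * u * v * t ^ 3
      + (80 : ℝ) * u * v ^ 3 * t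
      + (80 : ℝ) * u ^ 3 * v * t := by
  simp only [pws]; ring

lemma pws6 : pws 6 u v t =
    (4 : ℝ) * t ^ 6
      + (60 : ℝ) * v ^ 2 * t ^ 4
      + (60 : ℝ) * v ^ 4 * t ^ 2
      + (4 : ℝ) * v ^ 6
      + (60 : ℝ) * u ^ 2 * t ^ 4
      + (360 : ℝ) * u ^ 2 * v ^ 2 * t ^ 2
      + (60 : ℝ) * u ^ 2 * v ^ 4
      + (60 : ℝ) * u ^ 4 * t ^ 2
      + (60 : ℝ) * u ^ 4 * v ^ 2
      + (4 : ℝ) * u ^ 6 := by
  simp only [pws]; ring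

lemma pws7 : pws 7 u v t =
    (168 : ℝ) * u * v * t ^ 5
      + (560 : ℝ) * u * v ^ 3 * t ^ 3
      + (168 : ℝ) * u * v ^ 5 * t
      + (560 : ℝ) * u ^ 3 * v * t ^ 3
      + (560 : ℝ) * u ^ 3 * v ^ 3 * t
      + (168 : ℝ) * u ^ 5 * v * t := by
  simp only [pws]; ring

lemma pws8 : pws 8 u v t =
    (4 : ℝ) * t ^ 8
      + (112 : ℝ) * v ^ 2 * t ^ 6
      + (280 : ℝ) * v ^ 4 * t ^ 4
      + (112 : ℝ) * v ^ 6 * t ^ 2
      + (4 : ℝ) * v ^ 8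
      + (112 : ℝ) * u ^ 2 * t ^ 6
      + (1680 : ℝ) * u ^ 2 * v ^ 2 * t ^ 4
      + (1680 : ℝ) * u ^ 2 * v ^ 4 * t ^ 2
      + (112 : ℝ) * u ^ 2 * v ^ 6
      + (280 : ℝ) * u ^ 4 * t ^ 4
      + (1680 : ℝ) * u ^ 4 * v ^ 2 * t ^ 2
      + (280 : ℝ) * u ^ 4 * v ^ 4
      + (112 : ℝ) * u ^ 6 * t ^ 2
      + (112 : ℝ) * u ^ 6 * v ^ 2
      + (4 : ℝ) * u ^ 8 := by
  simp only [pws]; ring

lemma pws9 : pws 9 u v t =
    (288 : ℝ) * u * v * t ^ 7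
      + (2016 : ℝ) * u * v ^ 3 * t ^ 5
      + (2016 : ℝ) * u * v ^ 5 * t ^ 3
      + (288 : ℝ) * u * v ^ 7 * t
      + (2016 : ℝ) * u ^ 3 * v * t ^ 5
      + (6720 : ℝ) * u ^ 3 * v ^ 3 * t ^ 3
      + (2016 : ℝ) * u ^ 3 * v ^ 5 * t
      + (2016 : ℝ) * u ^ 5 * v * t ^ 3
      + (2016 : ℝ) * u ^ 5 * v ^ 3 * t
      + (288 : ℝ) * u ^ 7 * v * t := by
  simp only [pws]; ring

lemma pws10 : pws 10 u v t =
    (4 : ℝ) * t ^ 10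
      + (180 : ℝ) * v ^ 2 * t ^ 8
      + (840 : ℝ) * v ^ 4 * t ^ 6
      + (840 : ℝ) * v ^ 6 * t ^ 4
      + (180 : ℝ) * v ^ 8 * t ^ 2
      + (4 : ℝ) * v ^ 10
      + (180 : ℝ) * u ^ 2 * t ^ 8
      + (5040 : ℝ) * u ^ 2 * v ^ 2 * t ^ 6
      + (12600 : ℝ) * u ^ 2 * v ^ 4 * t ^ 4
      + (5040 : ℝ) * u ^ 2 * v ^ 6 * t ^ 2
      + (180 : ℝ) * u ^ 2 * v ^ 8
      + (840 : ℝ) * u ^ 4 * t ^ 6
      + (12600 : ℝ) * u ^ 4 * v ^ 2 * t ^ 4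
      + (12600 : ℝ) * u ^ 4 * v ^ 4 * t ^ 2
      + (840 : ℝ) * u ^ 4 * v ^ 6
      + (840 : ℝ) * u ^ 6 * t ^ 4
      + (5040 : ℝ) * u ^ 6 * v ^ 2 * t ^ 2
      + (840 : ℝ) * u ^ 6 * v ^ 4
      + (180 : ℝ) * u ^ 8 * t ^ 2
      + (180 : ℝ) * u ^ 8 * v ^ 2
      + (4 : ℝ) * u ^ 10 := by
  simp only [pws]; ring

lemma pwl0 : pwl 0 u v t P Q R =
    0 := by
  simp only [pwl]; ring

lemma pwl1 : pwl 1 u v t P Q R =
    (4 : ℝ) * t * R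
      + (4 : ℝ) * v * Q
      + (4 : ℝ) * u * P := by
  simp only [pwl]; ring

lemma pwl2 : pwl 2 u v t P Q R =
    (8 : ℝ) * v * t * P
      + (8 : ℝ) * u * t * Q
      + (8 : ℝ) * u * v * R := by
  simp only [pwl]; ring

lemma pwl3 : pwl 3 u v t P Q R =
    (4 : ℝ) * t ^ 3 * R
      + (12 : ℝ) * v * t ^ 2 * Q
      + (12 : ℝ) * v ^ 2 * t * R
      + (4 : ℝ) * v ^ 3 * Q
      + (12 : ℝ) * u * t ^ 2 * P
      + (12 : ℝ) * u * v ^ 2 * P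
      + (12 : ℝ) * u ^ 2 * t * R
      + (12 : ℝ) * u ^ 2 * v * Q
      + (4 : ℝ) * u ^ 3 * P := by
  simp only [pwl]; ring

lemma pwl4 : pwl 4 u v t P Q R =
    (16 : ℝ) * v * t ^ 3 * P
      + (16 : ℝ) * v ^ 3 * t * P
      + (16 : ℝ) * u * t ^ 3 * Q
      + (48 : ℝ) * u * v * t ^ 2 * R
      + (48 : ℝ) * u * v ^ 2 * t * Q
      + (16 : ℝ) * u * v ^ 3 * R
      + (48 : ℝ) * u ^ 2 * v * t * P
      + (16 : ℝ) * u ^ 3 * t * Q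
      + (16 : ℝ) * u ^ 3 * v * R := by
  simp only [pwl]; ring

lemma pwl5 : pwl 5 u v t P Q R =
    (4 : ℝ) * t ^ 5 * R
      + (20 : ℝ) * v * t ^ 4 * Q
      + (40 : ℝ) * v ^ 2 * t ^ 3 * R
      + (40 : ℝ) * v ^ 3 * t ^ 2 * Q
      + (20 : ℝ) * v ^ 4 * t * R
      + (4 : ℝ) * v ^ 5 * Q
      + (20 : ℝ) * u * t ^ 4 * P
      + (120 : ℝ) * u * v ^ 2 * t ^ 2 * P
      + (20 : ℝ) * u * v ^ 4 * P
      + (40 : ℝ) * u ^ 2 * t ^ 3 * R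
      + (120 : ℝ) * u ^ 2 * v * t ^ 2 * Q
      + (120 : ℝ) * u ^ 2 * v ^ 2 * t * R
      + (40 : ℝ) * u ^ 2 * v ^ 3 * Q
      + (40 : ℝ) * u ^ 3 * t ^ 2 * P
      + (40 : ℝ) * u ^ 3 * v ^ 2 * P
      + (20 : ℝ) * u ^ 4 * t * R
      + (20 : ℝ) * u ^ 4 * v * Q
      + (4 : ℝ) * u ^ 5 * P := by
  simp only [pwl]; ring

lemma pwl6 : pwl 6 u v t P Q R =
    (24 : ℝ) * v * t ^ 5 * P
      + (80 : ℝ) * v ^ 3 * t ^ 3 * P
      + (24 : ℝ) * v ^ 5 * t * P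
      + (24 : ℝ) * u * t ^ 5 * Q
      + (120 : ℝ) * u * v * t ^ 4 * R
      + (240 : ℝ) * u * v ^ 2 * t ^ 3 * Q
      + (240 : ℝ) * u * v ^ 3 * t ^ 2 * R
      + (120 : ℝ) * u * v ^ 4 * t * Q
      + (24 : ℝ) * u * v ^ 5 * R
      + (240 : ℝ) * u ^ 2 * v * t ^ 3 * P
      + (240 : ℝ) * u ^ 2 * v ^ 3 * t * P
      + (80 : ℝ) * u ^ 3 * t ^ 3 * Q
      + (240 : ℝ) * u ^ 3 * v * t ^ 2 * R
      + (240 : ℝ) * u ^ 3 * v ^ 2 * t * Q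
      + (80 : ℝ) * u ^ 3 * v ^ 3 * R
      + (120 : ℝ) * u ^ 4 * v * t * P
      + (24 : ℝ) * u ^ 5 * t * Q
      + (24 : ℝ) * u ^ 5 * v * R := by
  simp only [pwl]; ring

lemma pwl7 : pwl 7 u v t P Q R =
    (4 : ℝ) * t ^ 7 * R
      + (28 : ℝ) * v * t ^ 6 * Q
      + (84 : ℝ) * v ^ 2 * t ^ 5 * R
      + (140 : ℝ) * v ^ 3 * t ^ 4 * Q
      + (140 : ℝ) * v ^ 4 * t ^ 3 * R
      + (84 : ℝ) * v ^ 5 * t ^ 2 * Q
      + (28 : ℝ) * v ^ 6 * t * R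
      + (4 : ℝ) * v ^ 7 * Q
      + (28 : ℝ) * u * t ^ 6 * P
      + (420 : ℝ) * u * v ^ 2 * t ^ 4 * P
      + (420 : ℝ) * u * v ^ 4 * t ^ 2 * P
      + (28 : ℝ) * u * v ^ 6 * P
      + (84 : ℝ) * u ^ 2 * t ^ 5 * R
      + (420 : ℝ) * u ^ 2 * v * t ^ 4 * Q
      + (840 : ℝ) * u ^ 2 * v ^ 2 * t ^ 3 * R
      + (840 : ℝ) * u ^ 2 * v ^ 3 * t ^ 2 * Q
      + (420 : ℝ) * u ^ 2 * v ^ 4 * t * R
      + (84 : ℝ) * u ^ 2 * v ^ 5 * Q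
      + (140 : ℝ) * u ^ 3 * t ^ 4 * P
      + (840 : ℝ) * u ^ 3 * v ^ 2 * t ^ 2 * P
      + (140 : ℝ) * u ^ 3 * v ^ 4 * P
      + (140 : ℝ) * u ^ 4 * t ^ 3 * R
      + (420 : ℝ) * u ^ 4 * v * t ^ 2 * Q
      + (420 : ℝ) * u ^ 4 * v ^ 2 * t * R
      + (140 : ℝ) * u ^ 4 * v ^ 3 * Q
      + (84 : ℝ) * u ^ 5 * t ^ 2 * P
      + (84 : ℝ) * u ^ 5 * v ^ 2 * P
      + (28 : ℝ) * u ^ 6 * t * R
      + (28 : ℝ) * u ^ 6 * v * Q
      + (4 : ℝ) * u ^ 7 * P := by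
  simp only [pwl]; ring

lemma pwl8 : pwl 8 u v t P Q R =
    (32 : ℝ) * v * t ^ 7 * P
      + (224 : ℝ) * v ^ 3 * t ^ 5 * P
      + (224 : ℝ) * v ^ 5 * t ^ 3 * P
      + (32 : ℝ) * v ^ 7 * t * P
      + (32 : ℝ) * u * t ^ 7 * Q
      + (224 : ℝ) * u * v * t ^ 6 * R
      + (672 : ℝ) * u * v ^ 2 * t ^ 5 * Q
      + (1120 : ℝ) * u * v ^ 3 * t ^ 4 * R
      + (1120 : ℝ) * u * v ^ 4 * t ^ 3 * Q
      + (672 : ℝ) * u * v ^ 5 * t ^ 2 * R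
      + (224 : ℝ) * u * v ^ 6 * t * Q
      + (32 : ℝ) * u * v ^ 7 * R
      + (672 : ℝ) * u ^ 2 * v * t ^ 5 * P
      + (2240 : ℝ) * u ^ 2 * v ^ 3 * t ^ 3 * P
      + (672 : ℝ) * u ^ 2 * v ^ 5 * t * P
      + (224 : ℝ) * u ^ 3 * t ^ 5 * Q
      + (1120 : ℝ) * u ^ 3 * v * t ^ 4 * R
      + (2240 : ℝ) * u ^ 3 * v ^ 2 * t ^ 3 * Q
      + (2240 : ℝ) * u ^ 3 * v ^ 3 * t ^ 2 * R
      + (1120 : ℝ) * u ^ 3 * v ^ 4 * t * Q
      + (224 : ℝ) * u ^ 3 * v ^ 5 * R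
      + (1120 : ℝ) * u ^ 4 * v * t ^ 3 * P
      + (1120 : ℝ) * u ^ 4 * v ^ 3 * t * P
      + (224 : ℝ) * u ^ 5 * t ^ 3 * Q
      + (672 : ℝ) * u ^ 5 * v * t ^ 2 * R
      + (672 : ℝ) * u ^ 5 * v ^ 2 * t * Q
      + (224 : ℝ) * u ^ 5 * v ^ 3 * R
      + (224 : ℝ) * u ^ 6 * v * t * P
      + (32 : ℝ) * u ^ 7 * t * Q
      + (32 : ℝ) * u ^ 7 * v * R := by
  simp only [pwl]; ring

lemma pwl9 : pwl 9 u v t P Q R =
    (4 : ℝ) * t ^ 9 * R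
      + (36 : ℝ) * v * t ^ 8 * Q
      + (144 : ℝ) * v ^ 2 * t ^ 7 * R
      + (336 : ℝ) * v ^ 3 * t ^ 6 * Q
      + (504 : ℝ) * v ^ 4 * t ^ 5 * R
      + (504 : ℝ) * v ^ 5 * t ^ 4 * Q
      + (336 : ℝ) * v ^ 6 * t ^ 3 * R
      + (144 : ℝ) * v ^ 7 * t ^ 2 * Q
      + (36 : ℝ) * v ^ 8 * t * R
      + (4 : ℝ) * v ^ 9 * Q
      + (36 : ℝ) * u * t ^ 8 * P
      + (1008 : ℝ) * u * v ^ 2 * t ^ 6 * P
      + (2520 : ℝ) * u * v ^ 4 * t ^ 4 * P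
      + (1008 : ℝ) * u * v ^ 6 * t ^ 2 * P
      + (36 : ℝ) * u * v ^ 8 * P
      + (144 : ℝ) * u ^ 2 * t ^ 7 * R
      + (1008 : ℝ) * u ^ 2 * v * t ^ 6 * Q
      + (3024 : ℝ) * u ^ 2 * v ^ 2 * t ^ 5 * R
      + (5040 : ℝ) * u ^ 2 * v ^ 3 * t ^ 4 * Q
      + (5040 : ℝ) * u ^ 2 * v ^ 4 * t ^ 3 * R
      + (3024 : ℝ) * u ^ 2 * v ^ 5 * t ^ 2 * Q
      + (1008 : ℝ) * u ^ 2 * v ^ 6 * t * R
      + (144 : ℝ) * u ^ 2 * v ^ 7 * Q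
      + (336 : ℝ) * u ^ 3 * t ^ 6 * P
      + (5040 : ℝ) * u ^ 3 * v ^ 2 * t ^ 4 * P
      + (5040 : ℝ) * u ^ 3 * v ^ 4 * t ^ 2 * P
      + (336 : ℝ) * u ^ 3 * v ^ 6 * P
      + (504 : ℝ) * u ^ 4 * t ^ 5 * R
      + (2520 : ℝ) * u ^ 4 * v * t ^ 4 * Q
      + (5040 : ℝ) * u ^ 4 * v ^ 2 * t ^ 3 * R
      + (5040 : ℝ) * u ^ 4 * v ^ 3 * t ^ 2 * Q
      + (2520 : ℝ) * u ^ 4 * v ^ 4 * t * R
      + (504 : ℝ) * u ^ 4 * v ^ 5 * Q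
      + (504 : ℝ) * u ^ 5 * t ^ 4 * P
      + (3024 : ℝ) * u ^ 5 * v ^ 2 * t ^ 2 * P
      + (504 : ℝ) * u ^ 5 * v ^ 4 * P
      + (336 : ℝ) * u ^ 6 * t ^ 3 * R
      + (1008 : ℝ) * u ^ 6 * v * t ^ 2 * Q
      + (1008 : ℝ) * u ^ 6 * v ^ 2 * t * R
      + (336 : ℝ) * u ^ 6 * v ^ 3 * Q
      + (144 : ℝ) * u ^ 7 * t ^ 2 * P
      + (144 : ℝ) * u ^ 7 * v ^ 2 * P
      + (36 : ℝ) * u ^ 8 * t * R
      + (36 : ℝ) * u ^ 8 * v * Q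
      + (4 : ℝ) * u ^ 9 * P := by
  simp only [pwl]; ring

/-- An orbit sum. -/
def m0_0_0 (p q r : ℝ) : ℝ :=
  p ^ 0 * q ^ 0 * r ^ 0 + p ^ 0 * r ^ 0 * q ^ 0 + q ^ 0 * p ^ 0 * r ^ 0 + q ^ 0 * r ^ 0 * p ^ 0 + r ^ 0 * p ^ 0 * q ^ 0 + r ^ 0 * q ^ 0 * p ^ 0

lemma m0_0_0_eq : m0_0_0 p q r =
    (6 : ℝ) := by
  simp only [m0_0_0, invS, invT, invF]; ring

/-- An orbit sum. -/
def m1_1_1 (p q r : ℝ) : ℝ :=
  p ^ 1 * q ^ 1 * r ^ 1 + p ^ 1 * r ^ 1 * q ^ 1 + q ^ 1 * p ^ 1 * r ^ 1 + q ^ 1 * r ^ 1 * p ^ 1 + r ^ 1 * p ^ 1 * q ^ 1 + r ^ 1 * q ^ 1 * p ^ 1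

lemma m1_1_1_eq : m1_1_1 p q r =
    (6 : ℝ) * (invT p q r) := by
  simp only [m1_1_1, invS, invT, invF]; ring

/-- An orbit sum. -/
def m2_0_0 (p q r : ℝ) : ℝ :=
  p ^ 2 * q ^ 0 * r ^ 0 + p ^ 2 * r ^ 0 * q ^ 0 + q ^ 2 * p ^ 0 * r ^ 0 + q ^ 2 * r ^ 0 * p ^ 0 + r ^ 2 * p ^ 0 * q ^ 0 + r ^ 2 * q ^ 0 * p ^ 0

lemma m2_0_0_eq : m2_0_0 p q r =
    (2 : ℝ) * (invS p q r) := by
  simp only [m2_0_0, invS, invT, invF]; ring

/-- An orbit sum. -/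
def m2_2_0 (p q r : ℝ) : ℝ :=
  p ^ 2 * q ^ 2 * r ^ 0 + p ^ 2 * r ^ 2 * q ^ 0 + q ^ 2 * p ^ 2 * r ^ 0 + q ^ 2 * r ^ 2 * p ^ 0 + r ^ 2 * p ^ 2 * q ^ 0 + r ^ 2 * q ^ 2 * p ^ 0

lemma m2_2_0_eq : m2_2_0 p q r =
    ((1 : ℝ) / 2) * (invF p q r)
      + ((-1 : ℝ) / 2) * (invS p q r) ^ 2 := by
  simp only [m2_2_0, invS, invT, invF]; ring

/-- An orbit sum. -/
def m2_2_2 (p q r : ℝ) : ℝ :=
  p ^ 2 * q ^ 2 * r ^ 2 + p ^ 2 * r ^ 2 * q ^ 2 + q ^ 2 * p ^ 2 * r ^ 2 + q ^ 2 * r ^ 2 * p ^ 2 + r ^ 2 * p ^ 2 * q ^ 2 + r ^ 2 * q ^ 2 * p ^ 2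

lemma m2_2_2_eq : m2_2_2 p q r =
    (6 : ℝ) * (invT p q r) ^ 2 := by
  simp only [m2_2_2, invS, invT, invF]; ring

/-- An orbit sum. -/
def m3_1_1 (p q r : ℝ) : ℝ :=
  p ^ 3 * q ^ 1 * r ^ 1 + p ^ 3 * r ^ 1 * q ^ 1 + q ^ 3 * p ^ 1 * r ^ 1 + q ^ 3 * r ^ 1 * p ^ 1 + r ^ 3 * p ^ 1 * q ^ 1 + r ^ 3 * q ^ 1 * p ^ 1

lemma m3_1_1_eq : m3_1_1 p q r =
    (2 : ℝ) * (invS p q r) * (invT p q r) := by
  simp only [m3_1_1, invS, invT, invF]; ring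

/-- An orbit sum. -/
def m3_3_1 (p q r : ℝ) : ℝ :=
  p ^ 3 * q ^ 3 * r ^ 1 + p ^ 3 * r ^ 3 * q ^ 1 + q ^ 3 * p ^ 3 * r ^ 1 + q ^ 3 * r ^ 3 * p ^ 1 + r ^ 3 * p ^ 3 * q ^ 1 + r ^ 3 * q ^ 3 * p ^ 1

lemma m3_3_1_eq : m3_3_1 p q r =
    ((1 : ℝ) / 2) * (invT p q r) * (invF p q r)
      + ((-1 : ℝ) / 2) * (invS p q r) ^ 2 * (invT p q r) := by
  simp only [m3_3_1, invS, invT, invF]; ring

/-- An orbit sum. -/
def m3_3_3 (p q r : ℝ) : ℝ :=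
  p ^ 3 * q ^ 3 * r ^ 3 + p ^ 3 * r ^ 3 * q ^ 3 + q ^ 3 * p ^ 3 * r ^ 3 + q ^ 3 * r ^ 3 * p ^ 3 + r ^ 3 * p ^ 3 * q ^ 3 + r ^ 3 * q ^ 3 * p ^ 3

lemma m3_3_3_eq : m3_3_3 p q r =
    (6 : ℝ) * (invT p q r) ^ 3 := by
  simp only [m3_3_3, invS, invT, invF]; ring

/-- An orbit sum. -/
def m4_0_0 (p q r : ℝ) : ℝ :=
  p ^ 4 * q ^ 0 * r ^ 0 + p ^ 4 * r ^ 0 * q ^ 0 + q ^ 4 * p ^ 0 * r ^ 0 + q ^ 4 * r ^ 0 * p ^ 0 + r ^ 4 * p ^ 0 * q ^ 0 + r ^ 4 * q ^ 0 * p ^ 0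

lemma m4_0_0_eq : m4_0_0 p q r =
    (-1 : ℝ) * (invF p q r)
      + (3 : ℝ) * (invS p q r) ^ 2 := by
  simp only [m4_0_0, invS, invT, invF]; ring

/-- An orbit sum. -/
def m4_2_0 (p q r : ℝ) : ℝ :=
  p ^ 4 * q ^ 2 * r ^ 0 + p ^ 4 * r ^ 2 * q ^ 0 + q ^ 4 * p ^ 2 * r ^ 0 + q ^ 4 * r ^ 2 * p ^ 0 + r ^ 4 * p ^ 2 * q ^ 0 + r ^ 4 * q ^ 2 * p ^ 0

lemma m4_2_0_eq : m4_2_0 p q r =
    (-3 : ℝ) * (invT p q r) ^ 2
      + ((1 : ℝ) / 4) * (invS p q r) * (invF p q r)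
      + ((-1 : ℝ) / 4) * (invS p q r) ^ 3 := by
  simp only [m4_2_0, invS, invT, invF]; ring

/-- An orbit sum. -/
def m4_2_2 (p q r : ℝ) : ℝ :=
  p ^ 4 * q ^ 2 * r ^ 2 + p ^ 4 * r ^ 2 * q ^ 2 + q ^ 4 * p ^ 2 * r ^ 2 + q ^ 4 * r ^ 2 * p ^ 2 + r ^ 4 * p ^ 2 * q ^ 2 + r ^ 4 * q ^ 2 * p ^ 2

lemma m4_2_2_eq : m4_2_2 p q r =
    (2 : ℝ) * (invS p q r) * (invT p q r) ^ 2 := by
  simp only [m4_2_2, invS, invT, invF]; ring

/-- An orbit sum. -/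
def m4_4_0 (p q r : ℝ) : ℝ :=
  p ^ 4 * q ^ 4 * r ^ 0 + p ^ 4 * r ^ 4 * q ^ 0 + q ^ 4 * p ^ 4 * r ^ 0 + q ^ 4 * r ^ 4 * p ^ 0 + r ^ 4 * p ^ 4 * q ^ 0 + r ^ 4 * q ^ 4 * p ^ 0

lemma m4_4_0_eq : m4_4_0 p q r =
    ((1 : ℝ) / 8) * (invF p q r) ^ 2
      + (-4 : ℝ) * (invS p q r) * (invT p q r) ^ 2
      + ((-1 : ℝ) / 4) * (invS p q r) ^ 2 * (invF p q r)
      + ((1 : ℝ) / 8) * (invS p q r) ^ 4 := by
  simp only [m4_4_0, invS, invT, invF]; ring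

/-- An orbit sum. -/
def m4_4_2 (p q r : ℝ) : ℝ :=
  p ^ 4 * q ^ 4 * r ^ 2 + p ^ 4 * r ^ 4 * q ^ 2 + q ^ 4 * p ^ 4 * r ^ 2 + q ^ 4 * r ^ 4 * p ^ 2 + r ^ 4 * p ^ 4 * q ^ 2 + r ^ 4 * q ^ 4 * p ^ 2

lemma m4_4_2_eq : m4_4_2 p q r =
    ((1 : ℝ) / 2) * (invT p q r) ^ 2 * (invF p q r)
      + ((-1 : ℝ) / 2) * (invS p q r) ^ 2 * (invT p q r) ^ 2 := by
  simp only [m4_4_2, invS, invT, invF]; ring

/-- An orbit sum. -/
def m5_1_1 (p q r : ℝ) : ℝ :=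
  p ^ 5 * q ^ 1 * r ^ 1 + p ^ 5 * r ^ 1 * q ^ 1 + q ^ 5 * p ^ 1 * r ^ 1 + q ^ 5 * r ^ 1 * p ^ 1 + r ^ 5 * p ^ 1 * q ^ 1 + r ^ 5 * q ^ 1 * p ^ 1

lemma m5_1_1_eq : m5_1_1 p q r =
    (-1 : ℝ) * (invT p q r) * (invF p q r)
      + (3 : ℝ) * (invS p q r) ^ 2 * (invT p q r) := by
  simp only [m5_1_1, invS, invT, invF]; ring

/-- An orbit sum. -/
def m5_3_1 (p q r : ℝ) : ℝ :=
  p ^ 5 * q ^ 3 * r ^ 1 + p ^ 5 * r ^ 3 * q ^ 1 + q ^ 5 * p ^ 3 * r ^ 1 + q ^ 5 * r ^ 3 * p ^ 1 + r ^ 5 * p ^ 3 * q ^ 1 + r ^ 5 * q ^ 3 * p ^ 1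

lemma m5_3_1_eq : m5_3_1 p q r =
    (-3 : ℝ) * (invT p q r) ^ 3
      + ((1 : ℝ) / 4) * (invS p q r) * (invT p q r) * (invF p q r)
      + ((-1 : ℝ) / 4) * (invS p q r) ^ 3 * (invT p q r) := by
  simp only [m5_3_1, invS, invT, invF]; ring

/-- An orbit sum. -/
def m5_3_3 (p q r : ℝ) : ℝ :=
  p ^ 5 * q ^ 3 * r ^ 3 + p ^ 5 * r ^ 3 * q ^ 3 + q ^ 5 * p ^ 3 * r ^ 3 + q ^ 5 * r ^ 3 * p ^ 3 + r ^ 5 * p ^ 3 * q ^ 3 + r ^ 5 * q ^ 3 * p ^ 3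

lemma m5_3_3_eq : m5_3_3 p q r =
    (2 : ℝ) * (invS p q r) * (invT p q r) ^ 3 := by
  simp only [m5_3_3, invS, invT, invF]; ring

/-- An orbit sum. -/
def m5_5_1 (p q r : ℝ) : ℝ :=
  p ^ 5 * q ^ 5 * r ^ 1 + p ^ 5 * r ^ 5 * q ^ 1 + q ^ 5 * p ^ 5 * r ^ 1 + q ^ 5 * r ^ 5 * p ^ 1 + r ^ 5 * p ^ 5 * q ^ 1 + r ^ 5 * q ^ 5 * p ^ 1

lemma m5_5_1_eq : m5_5_1 p q r =
    ((1 : ℝ) / 8) * (invT p q r) * (invF p q r) ^ 2
      + (-4 : ℝ) * (invS p q r) * (invT p q r) ^ 3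
      + ((-1 : ℝ) / 4) * (invS p q r) ^ 2 * (invT p q r) * (invF p q r)
      + ((1 : ℝ) / 8) * (invS p q r) ^ 4 * (invT p q r) := by
  simp only [m5_5_1, invS, invT, invF]; ring

/-- An orbit sum. -/
def m6_0_0 (p q r : ℝ) : ℝ :=
  p ^ 6 * q ^ 0 * r ^ 0 + p ^ 6 * r ^ 0 * q ^ 0 + q ^ 6 * p ^ 0 * r ^ 0 + q ^ 6 * r ^ 0 * p ^ 0 + r ^ 6 * p ^ 0 * q ^ 0 + r ^ 6 * q ^ 0 * p ^ 0

lemma m6_0_0_eq : m6_0_0 p q r =
    (6 : ℝ) * (invT p q r) ^ 2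
      + ((-3 : ℝ) / 2) * (invS p q r) * (invF p q r)
      + ((7 : ℝ) / 2) * (invS p q r) ^ 3 := by
  simp only [m6_0_0, invS, invT, invF]; ring

/-- An orbit sum. -/
def m6_2_0 (p q r : ℝ) : ℝ :=
  p ^ 6 * q ^ 2 * r ^ 0 + p ^ 6 * r ^ 2 * q ^ 0 + q ^ 6 * p ^ 2 * r ^ 0 + q ^ 6 * r ^ 2 * p ^ 0 + r ^ 6 * p ^ 2 * q ^ 0 + r ^ 6 * q ^ 2 * p ^ 0

lemma m6_2_0_eq : m6_2_0 p q r =
    ((-1 : ℝ) / 8) * (invF p q r) ^ 2
      + (-1 : ℝ) * (invS p q r) * (invT p q r) ^ 2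
      + ((1 : ℝ) / 2) * (invS p q r) ^ 2 * (invF p q r)
      + ((-3 : ℝ) / 8) * (invS p q r) ^ 4 := by
  simp only [m6_2_0, invS, invT, invF]; ring

/-- An orbit sum. -/
def m6_2_2 (p q r : ℝ) : ℝ :=
  p ^ 6 * q ^ 2 * r ^ 2 + p ^ 6 * r ^ 2 * q ^ 2 + q ^ 6 * p ^ 2 * r ^ 2 + q ^ 6 * r ^ 2 * p ^ 2 + r ^ 6 * p ^ 2 * q ^ 2 + r ^ 6 * q ^ 2 * p ^ 2

lemma m6_2_2_eq : m6_2_2 p q r =
    (-1 : ℝ) * (invT p q r) ^ 2 * (invF p q r)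
      + (3 : ℝ) * (invS p q r) ^ 2 * (invT p q r) ^ 2 := by
  simp only [m6_2_2, invS, invT, invF]; ring

/-- An orbit sum. -/
def m6_4_0 (p q r : ℝ) : ℝ :=
  p ^ 6 * q ^ 4 * r ^ 0 + p ^ 6 * r ^ 4 * q ^ 0 + q ^ 6 * p ^ 4 * r ^ 0 + q ^ 6 * r ^ 4 * p ^ 0 + r ^ 6 * p ^ 4 * q ^ 0 + r ^ 6 * q ^ 4 * p ^ 0

lemma m6_4_0_eq : m6_4_0 p q r =
    ((-1 : ℝ) / 4) * (invT p q r) ^ 2 * (invF p q r)
      + ((1 : ℝ) / 16) * (invS p q r) * (invF p q r) ^ 2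
      + ((-7 : ℝ) / 4) * (invS p q r) ^ 2 * (invT p q r) ^ 2
      + ((-1 : ℝ) / 8) * (invS p q r) ^ 3 * (invF p q r)
      + ((1 : ℝ) / 16) * (invS p q r) ^ 5 := by
  simp only [m6_4_0, invS, invT, invF]; ring

/-- An orbit sum. -/
def m7_1_1 (p q r : ℝ) : ℝ :=
  p ^ 7 * q ^ 1 * r ^ 1 + p ^ 7 * r ^ 1 * q ^ 1 + q ^ 7 * p ^ 1 * r ^ 1 + q ^ 7 * r ^ 1 * p ^ 1 + r ^ 7 * p ^ 1 * q ^ 1 + r ^ 7 * q ^ 1 * p ^ 1

lemma m7_1_1_eq : m7_1_1 p q r =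
    (6 : ℝ) * (invT p q r) ^ 3
      + ((-3 : ℝ) / 2) * (invS p q r) * (invT p q r) * (invF p q r)
      + ((7 : ℝ) / 2) * (invS p q r) ^ 3 * (invT p q r) := by
  simp only [m7_1_1, invS, invT, invF]; ring

/-- An orbit sum. -/
def m7_3_1 (p q r : ℝ) : ℝ :=
  p ^ 7 * q ^ 3 * r ^ 1 + p ^ 7 * r ^ 3 * q ^ 1 + q ^ 7 * p ^ 3 * r ^ 1 + q ^ 7 * r ^ 3 * p ^ 1 + r ^ 7 * p ^ 3 * q ^ 1 + r ^ 7 * q ^ 3 * p ^ 1

lemma m7_3_1_eq : m7_3_1 p q r =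
    ((-1 : ℝ) / 8) * (invT p q r) * (invF p q r) ^ 2
      + (-1 : ℝ) * (invS p q r) * (invT p q r) ^ 3
      + ((1 : ℝ) / 2) * (invS p q r) ^ 2 * (invT p q r) * (invF p q r)
      + ((-3 : ℝ) / 8) * (invS p q r) ^ 4 * (invT p q r) := by
  simp only [m7_3_1, invS, invT, invF]; ring

/-- An orbit sum. -/
def m8_0_0 (p q r : ℝ) : ℝ :=
  p ^ 8 * q ^ 0 * r ^ 0 + p ^ 8 * r ^ 0 * q ^ 0 + q ^ 8 * p ^ 0 * r ^ 0 + q ^ 8 * r ^ 0 * p ^ 0 + r ^ 8 * p ^ 0 * q ^ 0 + r ^ 8 * q ^ 0 * p ^ 0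

lemma m8_0_0_eq : m8_0_0 p q r =
    ((1 : ℝ) / 4) * (invF p q r) ^ 2
      + (8 : ℝ) * (invS p q r) * (invT p q r) ^ 2
      + ((-5 : ℝ) / 2) * (invS p q r) ^ 2 * (invF p q r)
      + ((17 : ℝ) / 4) * (invS p q r) ^ 4 := by
  simp only [m8_0_0, invS, invT, invF]; ring

/-- An orbit sum. -/
def m8_2_0 (p q r : ℝ) : ℝ :=
  p ^ 8 * q ^ 2 * r ^ 0 + p ^ 8 * r ^ 2 * q ^ 0 + q ^ 8 * p ^ 2 * r ^ 0 + q ^ 8 * r ^ 2 * p ^ 0 + r ^ 8 * p ^ 2 * q ^ 0 + r ^ 8 * q ^ 2 * p ^ 0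

lemma m8_2_0_eq : m8_2_0 p q r =
    ((5 : ℝ) / 4) * (invT p q r) ^ 2 * (invF p q r)
      + ((-3 : ℝ) / 16) * (invS p q r) * (invF p q r) ^ 2
      + ((-9 : ℝ) / 4) * (invS p q r) ^ 2 * (invT p q r) ^ 2
      + ((5 : ℝ) / 8) * (invS p q r) ^ 3 * (invF p q r)
      + ((-7 : ℝ) / 16) * (invS p q r) ^ 5 := by
  simp only [m8_2_0, invS, invT, invF]; ring

/-- An orbit sum. -/
def m9_1_1 (p q r : ℝ) : ℝ :=
  p ^ 9 * q ^ 1 * r ^ 1 + p ^ 9 * r ^ 1 * q ^ 1 + q ^ 9 * p ^ 1 * r ^ 1 + q ^ 9 * r ^ 1 * p ^ 1 + r ^ 9 * p ^ 1 * q ^ 1 + r ^ 9 * q ^ 1 * p ^ 1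

lemma m9_1_1_eq : m9_1_1 p q r =
    ((1 : ℝ) / 4) * (invT p q r) * (invF p q r) ^ 2
      + (8 : ℝ) * (invS p q r) * (invT p q r) ^ 3
      + ((-5 : ℝ) / 2) * (invS p q r) ^ 2 * (invT p q r) * (invF p q r)
      + ((17 : ℝ) / 4) * (invS p q r) ^ 4 * (invT p q r) := by
  simp only [m9_1_1, invS, invT, invF]; ring

/-- An orbit sum. -/
def m10_0_0 (p q r : ℝ) : ℝ :=
  p ^ 10 * q ^ 0 * r ^ 0 + p ^ 10 * r ^ 0 * q ^ 0 + q ^ 10 * p ^ 0 * r ^ 0 + q ^ 10 * r ^ 0 * p ^ 0 + r ^ 10 * p ^ 0 * q ^ 0 + r ^ 10 * q ^ 0 * p ^ 0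

lemma m10_0_0_eq : m10_0_0 p q r =
    ((-5 : ℝ) / 2) * (invT p q r) ^ 2 * (invF p q r)
      + ((5 : ℝ) / 8) * (invS p q r) * (invF p q r) ^ 2
      + ((25 : ℝ) / 2) * (invS p q r) ^ 2 * (invT p q r) ^ 2
      + ((-15 : ℝ) / 4) * (invS p q r) ^ 3 * (invF p q r)
      + ((41 : ℝ) / 8) * (invS p q r) ^ 5 := by
  simp only [m10_0_0, invS, invT, invF]; ring

lemma orb_wd0 : sym (fun x y z => wd p q r x y z ^ 0) p' q' r' =
    ((2 : ℝ) / 3) * m0_0_0 p q r * m0_0_0 p' q' r' := by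
  simp only [sym_eq_sgn, sgn_wd, pws0, m0_0_0]; ring

lemma sym_wd0 : sym (fun x y z => wd p q r x y z ^ 0) p' q' r' =
    (24 : ℝ) := by
  rw [orb_wd0]
  simp only [m0_0_0_eq]; ring

lemma orb_wd1 : sym (fun x y z => wd p q r x y z ^ 1) p' q' r' =
    0 := by
  simp only [sym_eq_sgn, sgn_wd, pws1]; ring

lemma sym_wd1 : sym (fun x y z => wd p q r x y z ^ 1) p' q' r' =
    0 := by
  rw [orb_wd1]

lemma orb_wd2 : sym (fun x y z => wd p q r x y z ^ 2) p' q' r' =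
    (2 : ℝ) * m2_0_0 p q r * m2_0_0 p' q' r' := by
  simp only [sym_eq_sgn, sgn_wd, pws2, m2_0_0]; ring

lemma sym_wd2 : sym (fun x y z => wd p q r x y z ^ 2) p' q' r' =
    (8 : ℝ) * (invS p q r) * (invS p' q' r') := by
  rw [orb_wd2]
  simp only [m2_0_0_eq]; ring

lemma orb_wd3 : sym (fun x y z => wd p q r x y z ^ 3) p' q' r' =
    (4 : ℝ) * m1_1_1 p q r * m1_1_1 p' q' r' := by
  simp only [sym_eq_sgn, sgn_wd, pws3, m1_1_1]; ring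

lemma sym_wd3 : sym (fun x y z => wd p q r x y z ^ 3) p' q' r' =
    (144 : ℝ) * (invT p q r) * (invT p' q' r') := by
  rw [orb_wd3]
  simp only [m1_1_1_eq]; ring

lemma orb_wd4 : sym (fun x y z => wd p q r x y z ^ 4) p' q' r' =
    (12 : ℝ) * m2_2_0 p q r * m2_2_0 p' q' r'
      + (2 : ℝ) * m4_0_0 p q r * m4_0_0 p' q' r' := by
  simp only [sym_eq_sgn, sgn_wd, pws4, m2_2_0, m4_0_0]; ring

lemma sym_wd4 : sym (fun x y z => wd p q r x y z ^ 4) p' q' r' =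
    (5 : ℝ) * (invF p q r) * (invF p' q' r')
      + (-9 : ℝ) * (invF p q r) * (invS p' q' r') ^ 2
      + (-9 : ℝ) * (invS p q r) ^ 2 * (invF p' q' r')
      + (21 : ℝ) * (invS p q r) ^ 2 * (invS p' q' r') ^ 2 := by
  rw [orb_wd4]
  simp only [m2_2_0_eq, m4_0_0_eq]; ring

lemma orb_wd5 : sym (fun x y z => wd p q r x y z ^ 5) p' q' r' =
    (40 : ℝ) * m3_1_1 p q r * m3_1_1 p' q' r' := by
  simp only [sym_eq_sgn, sgn_wd, pws5, m3_1_1]; ring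

lemma sym_wd5 : sym (fun x y z => wd p q r x y z ^ 5) p' q' r' =
    (160 : ℝ) * (invS p q r) * (invT p q r) * (invS p' q' r') * (invT p' q' r') := by
  rw [orb_wd5]
  simp only [m3_1_1_eq]; ring

lemma orb_wd6 : sym (fun x y z => wd p q r x y z ^ 6) p' q' r' =
    (60 : ℝ) * m2_2_2 p q r * m2_2_2 p' q' r'
      + (60 : ℝ) * m4_2_0 p q r * m4_2_0 p' q' r'
      + (2 : ℝ) * m6_0_0 p q r * m6_0_0 p' q' r' := by
  simp only [sym_eq_sgn, sgn_wd, pws6, m2_2_2, m4_2_0, m6_0_0]; ring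

lemma sym_wd6 : sym (fun x y z => wd p q r x y z ^ 6) p' q' r' =
    (2772 : ℝ) * (invT p q r) ^ 2 * (invT p' q' r') ^ 2
      + (-63 : ℝ) * (invT p q r) ^ 2 * (invS p' q' r') * (invF p' q' r')
      + (87 : ℝ) * (invT p q r) ^ 2 * (invS p' q' r') ^ 3
      + (-63 : ℝ) * (invS p q r) * (invF p q r) * (invT p' q' r') ^ 2
      + ((33 : ℝ) / 4) * (invS p q r) * (invF p q r) * (invS p' q' r') * (invF p' q' r')
      + ((-57 : ℝ) / 4) * (invS p q r) * (invF p q r) * (invS p' q' r') ^ 3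
      + (87 : ℝ) * (invS p q r) ^ 3 * (invT p' q' r') ^ 2
      + ((-57 : ℝ) / 4) * (invS p q r) ^ 3 * (invS p' q' r') * (invF p' q' r')
      + ((113 : ℝ) / 4) * (invS p q r) ^ 3 * (invS p' q' r') ^ 3 := by
  rw [orb_wd6]
  simp only [m2_2_2_eq, m4_2_0_eq, m6_0_0_eq]; ring

lemma orb_wd7 : sym (fun x y z => wd p q r x y z ^ 7) p' q' r' =
    (280 : ℝ) * m3_3_1 p q r * m3_3_1 p' q' r'
      + (84 : ℝ) * m5_1_1 p q r * m5_1_1 p' q' r' := by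
  simp only [sym_eq_sgn, sgn_wd, pws7, m3_3_1, m5_1_1]; ring

lemma sym_wd7 : sym (fun x y z => wd p q r x y z ^ 7) p' q' r' =
    (154 : ℝ) * (invT p q r) * (invF p q r) * (invT p' q' r') * (invF p' q' r')
      + (-322 : ℝ) * (invT p q r) * (invF p q r) * (invS p' q' r') ^ 2 * (invT p' q' r')
      + (-322 : ℝ) * (invS p q r) ^ 2 * (invT p q r) * (invT p' q' r') * (invF p' q' r')
      + (826 : ℝ) * (invS p q r) ^ 2 * (invT p q r) * (invS p' q' r') ^ 2 * (invT p' q' r') := by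
  rw [orb_wd7]
  simp only [m3_3_1_eq, m5_1_1_eq]; ring

lemma orb_wd8 : sym (fun x y z => wd p q r x y z ^ 8) p' q' r' =
    (840 : ℝ) * m4_2_2 p q r * m4_2_2 p' q' r'
      + (140 : ℝ) * m4_4_0 p q r * m4_4_0 p' q' r'
      + (112 : ℝ) * m6_2_0 p q r * m6_2_0 p' q' r'
      + (2 : ℝ) * m8_0_0 p q r * m8_0_0 p' q' r' := by
  simp only [sym_eq_sgn, sgn_wd, pws8, m4_2_2, m4_4_0, m6_2_0, m8_0_0]; ring

lemma sym_wd8 : sym (fun x y z => wd p q r x y z ^ 8) p' q' r' =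
    ((65 : ℝ) / 16) * (invF p q r) ^ 2 * (invF p' q' r') ^ 2
      + (-52 : ℝ) * (invF p q r) ^ 2 * (invS p' q' r') * (invT p' q' r') ^ 2
      + ((-101 : ℝ) / 8) * (invF p q r) ^ 2 * (invS p' q' r') ^ 2 * (invF p' q' r')
      + ((153 : ℝ) / 16) * (invF p q r) ^ 2 * (invS p' q' r') ^ 4
      + (-52 : ℝ) * (invS p q r) * (invT p q r) ^ 2 * (invF p' q' r') ^ 2
      + (5840 : ℝ) * (invS p q r) * (invT p q r) ^ 2 * (invS p' q' r') * (invT p' q' r') ^ 2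
      + (44 : ℝ) * (invS p q r) * (invT p q r) ^ 2 * (invS p' q' r') ^ 2 * (invF p' q' r')
      + (40 : ℝ) * (invS p q r) * (invT p q r) ^ 2 * (invS p' q' r') ^ 4
      + ((-101 : ℝ) / 8) * (invS p q r) ^ 2 * (invF p q r) * (invF p' q' r') ^ 2
      + (44 : ℝ) * (invS p q r) ^ 2 * (invF p q r) * (invS p' q' r') * (invT p' q' r') ^ 2
      + ((197 : ℝ) / 4) * (invS p q r) ^ 2 * (invF p q r) * (invS p' q' r') ^ 2 * (invF p' q' r')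
      + ((-373 : ℝ) / 8) * (invS p q r) ^ 2 * (invF p q r) * (invS p' q' r') ^ 4
      + ((153 : ℝ) / 16) * (invS p q r) ^ 4 * (invF p' q' r') ^ 2
      + (40 : ℝ) * (invS p q r) ^ 4 * (invS p' q' r') * (invT p' q' r') ^ 2
      + ((-373 : ℝ) / 8) * (invS p q r) ^ 4 * (invS p' q' r') ^ 2 * (invF p' q' r')
      + ((865 : ℝ) / 16) * (invS p q r) ^ 4 * (invS p' q' r') ^ 4 := by
  rw [orb_wd8]
  simp only [m4_2_2_eq, m4_4_0_eq, m6_2_0_eq, m8_0_0_eq]; ring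

lemma orb_wd9 : sym (fun x y z => wd p q r x y z ^ 9) p' q' r' =
    (1120 : ℝ) * m3_3_3 p q r * m3_3_3 p' q' r'
      + (2016 : ℝ) * m5_3_1 p q r * m5_3_1 p' q' r'
      + (144 : ℝ) * m7_1_1 p q r * m7_1_1 p' q' r' := by
  simp only [sym_eq_sgn, sgn_wd, pws9, m3_3_3, m5_3_1, m7_1_1]; ring

lemma sym_wd9 : sym (fun x y z => wd p q r x y z ^ 9) p' q' r' =
    (63648 : ℝ) * (invT p q r) ^ 3 * (invT p' q' r') ^ 3
      + (-2808 : ℝ) * (invT p q r) ^ 3 * (invS p' q' r') * (invT p' q' r') * (invF p' q' r')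
      + (4536 : ℝ) * (invT p q r) ^ 3 * (invS p' q' r') ^ 3 * (invT p' q' r')
      + (-2808 : ℝ) * (invS p q r) * (invT p q r) * (invF p q r) * (invT p' q' r') ^ 3
      + (450 : ℝ) * (invS p q r) * (invT p q r) * (invF p q r) * (invS p' q' r') * (invT p' q' r') * (invF p' q' r')
      + (-882 : ℝ) * (invS p q r) * (invT p q r) * (invF p q r) * (invS p' q' r') ^ 3 * (invT p' q' r')
      + (4536 : ℝ) * (invS p q r) ^ 3 * (invT p q r) * (invT p' q' r') ^ 3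
      + (-882 : ℝ) * (invS p q r) ^ 3 * (invT p q r) * (invS p' q' r') * (invT p' q' r') * (invF p' q' r')
      + (1890 : ℝ) * (invS p q r) ^ 3 * (invT p q r) * (invS p' q' r') ^ 3 * (invT p' q' r') := by
  rw [orb_wd9]
  simp only [m3_3_3_eq, m5_3_1_eq, m7_1_1_eq]; ring

lemma orb_wd10 : sym (fun x y z => wd p q r x y z ^ 10) p' q' r' =
    (6300 : ℝ) * m4_4_2 p q r * m4_4_2 p' q' r'
      + (2520 : ℝ) * m6_2_2 p q r * m6_2_2 p' q' r'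
      + (840 : ℝ) * m6_4_0 p q r * m6_4_0 p' q' r'
      + (180 : ℝ) * m8_2_0 p q r * m8_2_0 p' q' r'
      + (2 : ℝ) * m10_0_0 p q r * m10_0_0 p' q' r' := by
  simp only [sym_eq_sgn, sgn_wd, pws10, m4_4_2, m6_2_2, m6_4_0, m8_2_0, m10_0_0]; ring

lemma sym_wd10 : sym (fun x y z => wd p q r x y z ^ 10) p' q' r' =
    ((17765 : ℝ) / 4) * (invT p q r) ^ 2 * (invF p q r) * (invT p' q' r') ^ 2 * (invF p' q' r')
      + ((-935 : ℝ) / 16) * (invT p q r) ^ 2 * (invF p q r) * (invS p' q' r') * (invF p' q' r') ^ 2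
      + ((-37345 : ℝ) / 4) * (invT p q r) ^ 2 * (invF p q r) * (invS p' q' r') ^ 2 * (invT p' q' r') ^ 2
      + ((1485 : ℝ) / 8) * (invT p q r) ^ 2 * (invF p q r) * (invS p' q' r') ^ 3 * (invF p' q' r')
      + ((-2195 : ℝ) / 16) * (invT p q r) ^ 2 * (invF p q r) * (invS p' q' r') ^ 5
      + ((-935 : ℝ) / 16) * (invS p q r) * (invF p q r) ^ 2 * (invT p' q' r') ^ 2 * (invF p' q' r')
      + ((665 : ℝ) / 64) * (invS p q r) * (invF p q r) ^ 2 * (invS p' q' r') * (invF p' q' r') ^ 2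
      + ((-5 : ℝ) / 16) * (invS p q r) * (invF p q r) ^ 2 * (invS p' q' r') ^ 2 * (invT p' q' r') ^ 2
      + ((-1035 : ℝ) / 32) * (invS p q r) * (invF p q r) ^ 2 * (invS p' q' r') ^ 3 * (invF p' q' r')
      + ((1565 : ℝ) / 64) * (invS p q r) * (invF p q r) ^ 2 * (invS p' q' r') ^ 5
      + ((-37345 : ℝ) / 4) * (invS p q r) ^ 2 * (invT p q r) ^ 2 * (invT p' q' r') ^ 2 * (invF p' q' r')
      + ((-5 : ℝ) / 16) * (invS p q r) ^ 2 * (invT p q r) ^ 2 * (invS p' q' r') * (invF p' q' r') ^ 2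
      + ((112205 : ℝ) / 4) * (invS p q r) ^ 2 * (invT p q r) ^ 2 * (invS p' q' r') ^ 2 * (invT p' q' r') ^ 2
      + ((-1305 : ℝ) / 8) * (invS p q r) ^ 2 * (invT p q r) ^ 2 * (invS p' q' r') ^ 3 * (invF p' q' r')
      + ((3415 : ℝ) / 16) * (invS p q r) ^ 2 * (invT p q r) ^ 2 * (invS p' q' r') ^ 5
      + ((1485 : ℝ) / 8) * (invS p q r) ^ 3 * (invF p q r) * (invT p' q' r') ^ 2 * (invF p' q' r')
      + ((-1035 : ℝ) / 32) * (invS p q r) ^ 3 * (invF p q r) * (invS p' q' r') * (invF p' q' r') ^ 2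
      + ((-1305 : ℝ) / 8) * (invS p q r) ^ 3 * (invF p q r) * (invS p' q' r') ^ 2 * (invT p' q' r') ^ 2
      + ((1785 : ℝ) / 16) * (invS p q r) ^ 3 * (invF p q r) * (invS p' q' r') ^ 3 * (invF p' q' r')
      + ((-3015 : ℝ) / 32) * (invS p q r) ^ 3 * (invF p q r) * (invS p' q' r') ^ 5
      + ((-2195 : ℝ) / 16) * (invS p q r) ^ 5 * (invT p' q' r') ^ 2 * (invF p' q' r')
      + ((1565 : ℝ) / 64) * (invS p q r) ^ 5 * (invS p' q' r') * (invF p' q' r') ^ 2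
      + ((3415 : ℝ) / 16) * (invS p q r) ^ 5 * (invS p' q' r') ^ 2 * (invT p' q' r') ^ 2
      + ((-3015 : ℝ) / 32) * (invS p q r) ^ 5 * (invS p' q' r') ^ 3 * (invF p' q' r')
      + ((5777 : ℝ) / 64) * (invS p q r) ^ 5 * (invS p' q' r') ^ 5 := by
  rw [orb_wd10]
  simp only [m4_4_2_eq, m6_2_2_eq, m6_4_0_eq, m8_2_0_eq, m10_0_0_eq]; ring

lemma orb_cd0 : sym (fun x y z => wd p q r x y z ^ 0 * cd p q r x y z) p' q' r' =
    0 := by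
  simp only [sym_eq_sgn, sgn_cd, pwl0]; ring

lemma sym_cd0 : sym (fun x y z => wd p q r x y z ^ 0 * cd p q r x y z) p' q' r' =
    0 := by
  rw [orb_cd0]

lemma orb_cd1 : sym (fun x y z => wd p q r x y z ^ 1 * cd p q r x y z) p' q' r' =
    (4 : ℝ) * m2_0_0 p q r * m1_1_1 p' q' r' := by
  simp only [sym_eq_sgn, sgn_cd, pwl1, m1_1_1, m2_0_0]; ring

lemma sym_cd1 : sym (fun x y z => wd p q r x y z ^ 1 * cd p q r x y z) p' q' r' =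
    (48 : ℝ) * (invS p q r) * (invT p' q' r') := by
  rw [orb_cd1]
  simp only [m1_1_1_eq, m2_0_0_eq]; ring

lemma orb_cd2 : sym (fun x y z => wd p q r x y z ^ 2 * cd p q r x y z) p' q' r' =
    (8 : ℝ) * m1_1_1 p q r * m2_2_0 p' q' r' := by
  simp only [sym_eq_sgn, sgn_cd, pwl2, m1_1_1, m2_2_0]; ring

lemma sym_cd2 : sym (fun x y z => wd p q r x y z ^ 2 * cd p q r x y z) p' q' r' =
    (24 : ℝ) * (invT p q r) * (invF p' q' r')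
      + (-24 : ℝ) * (invT p q r) * (invS p' q' r') ^ 2 := by
  rw [orb_cd2]
  simp only [m1_1_1_eq, m2_2_0_eq]; ring

lemma orb_cd3 : sym (fun x y z => wd p q r x y z ^ 3 * cd p q r x y z) p' q' r' =
    (24 : ℝ) * m2_2_0 p q r * m3_1_1 p' q' r'
      + (4 : ℝ) * m4_0_0 p q r * m3_1_1 p' q' r' := by
  simp only [sym_eq_sgn, sgn_cd, pwl3, m2_2_0, m3_1_1, m4_0_0]; ring

lemma sym_cd3 : sym (fun x y z => wd p q r x y z ^ 3 * cd p q r x y z) p' q' r' =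
    (16 : ℝ) * (invF p q r) * (invS p' q' r') * (invT p' q' r') := by
  rw [orb_cd3]
  simp only [m2_2_0_eq, m3_1_1_eq, m4_0_0_eq]; ring

lemma orb_cd4 : sym (fun x y z => wd p q r x y z ^ 4 * cd p q r x y z) p' q' r' =
    (48 : ℝ) * m3_1_1 p q r * m2_2_2 p' q' r'
      + (32 : ℝ) * m3_1_1 p q r * m4_2_0 p' q' r' := by
  simp only [sym_eq_sgn, sgn_cd, pwl4, m2_2_2, m3_1_1, m4_2_0]; ring

lemma sym_cd4 : sym (fun x y z => wd p q r x y z ^ 4 * cd p q r x y z) p' q' r' =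
    (384 : ℝ) * (invS p q r) * (invT p q r) * (invT p' q' r') ^ 2
      + (16 : ℝ) * (invS p q r) * (invT p q r) * (invS p' q' r') * (invF p' q' r')
      + (-16 : ℝ) * (invS p q r) * (invT p q r) * (invS p' q' r') ^ 3 := by
  rw [orb_cd4]
  simp only [m2_2_2_eq, m3_1_1_eq, m4_2_0_eq]; ring

lemma orb_cd5 : sym (fun x y z => wd p q r x y z ^ 5 * cd p q r x y z) p' q' r' =
    (120 : ℝ) * m2_2_2 p q r * m3_3_1 p' q' r'
      + (80 : ℝ) * m4_2_0 p q r * m3_3_1 p' q' r'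
      + (40 : ℝ) * m4_2_0 p q r * m5_1_1 p' q' r'
      + (4 : ℝ) * m6_0_0 p q r * m5_1_1 p' q' r' := by
  simp only [sym_eq_sgn, sgn_cd, pwl5, m2_2_2, m3_3_1, m4_2_0, m5_1_1, m6_0_0]; ring

lemma sym_cd5 : sym (fun x y z => wd p q r x y z ^ 5 * cd p q r x y z) p' q' r' =
    (336 : ℝ) * (invT p q r) ^ 2 * (invT p' q' r') * (invF p' q' r')
      + (-528 : ℝ) * (invT p q r) ^ 2 * (invS p' q' r') ^ 2 * (invT p' q' r')
      + (6 : ℝ) * (invS p q r) * (invF p q r) * (invT p' q' r') * (invF p' q' r')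
      + (2 : ℝ) * (invS p q r) * (invF p q r) * (invS p' q' r') ^ 2 * (invT p' q' r')
      + (-14 : ℝ) * (invS p q r) ^ 3 * (invT p' q' r') * (invF p' q' r')
      + (22 : ℝ) * (invS p q r) ^ 3 * (invS p' q' r') ^ 2 * (invT p' q' r') := by
  rw [orb_cd5]
  simp only [m2_2_2_eq, m3_3_1_eq, m4_2_0_eq, m5_1_1_eq, m6_0_0_eq]; ring

lemma orb_cd6 : sym (fun x y z => wd p q r x y z ^ 6 * cd p q r x y z) p' q' r' =
    (480 : ℝ) * m3_3_1 p q r * m4_2_2 p' q' r'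
      + (80 : ℝ) * m3_3_1 p q r * m4_4_0 p' q' r'
      + (120 : ℝ) * m5_1_1 p q r * m4_2_2 p' q' r'
      + (48 : ℝ) * m5_1_1 p q r * m6_2_0 p' q' r' := by
  simp only [sym_eq_sgn, sgn_cd, pwl6, m3_3_1, m4_2_2, m4_4_0, m5_1_1, m6_2_0]; ring

lemma sym_cd6 : sym (fun x y z => wd p q r x y z ^ 6 * cd p q r x y z) p' q' r' =
    (11 : ℝ) * (invT p q r) * (invF p q r) * (invF p' q' r') ^ 2
      + (128 : ℝ) * (invT p q r) * (invF p q r) * (invS p' q' r') * (invT p' q' r') ^ 2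
      + (-34 : ℝ) * (invT p q r) * (invF p q r) * (invS p' q' r') ^ 2 * (invF p' q' r')
      + (23 : ℝ) * (invT p q r) * (invF p q r) * (invS p' q' r') ^ 4
      + (-23 : ℝ) * (invS p q r) ^ 2 * (invT p q r) * (invF p' q' r') ^ 2
      + (256 : ℝ) * (invS p q r) ^ 2 * (invT p q r) * (invS p' q' r') * (invT p' q' r') ^ 2
      + (82 : ℝ) * (invS p q r) ^ 2 * (invT p q r) * (invS p' q' r') ^ 2 * (invF p' q' r')
      + (-59 : ℝ) * (invS p q r) ^ 2 * (invT p q r) * (invS p' q' r') ^ 4 := by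
  rw [orb_cd6]
  simp only [m3_3_1_eq, m4_2_2_eq, m4_4_0_eq, m5_1_1_eq, m6_2_0_eq]; ring

lemma orb_cd7 : sym (fun x y z => wd p q r x y z ^ 7 * cd p q r x y z) p' q' r' =
    (840 : ℝ) * m4_2_2 p q r * m3_3_3 p' q' r'
      + (840 : ℝ) * m4_2_2 p q r * m5_3_1 p' q' r'
      + (280 : ℝ) * m4_4_0 p q r * m5_3_1 p' q' r'
      + (168 : ℝ) * m6_2_0 p q r * m5_3_1 p' q' r'
      + (56 : ℝ) * m6_2_0 p q r * m7_1_1 p' q' r'
      + (4 : ℝ) * m8_0_0 p q r * m7_1_1 p' q' r' := by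
  simp only [sym_eq_sgn, sgn_cd, pwl7, m3_3_3, m4_2_2, m4_4_0, m5_3_1, m6_2_0, m7_1_1, m8_0_0]; ring

lemma sym_cd7 : sym (fun x y z => wd p q r x y z ^ 7 * cd p q r x y z) p' q' r' =
    (-78 : ℝ) * (invF p q r) ^ 2 * (invT p' q' r') ^ 3
      + ((25 : ℝ) / 2) * (invF p q r) ^ 2 * (invS p' q' r') * (invT p' q' r') * (invF p' q' r')
      + ((-49 : ℝ) / 2) * (invF p q r) ^ 2 * (invS p' q' r') ^ 3 * (invT p' q' r')
      + (8760 : ℝ) * (invS p q r) * (invT p q r) ^ 2 * (invT p' q' r') ^ 3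
      + (134 : ℝ) * (invS p q r) * (invT p q r) ^ 2 * (invS p' q' r') * (invT p' q' r') * (invF p' q' r')
      + (-182 : ℝ) * (invS p q r) * (invT p q r) ^ 2 * (invS p' q' r') ^ 3 * (invT p' q' r')
      + (66 : ℝ) * (invS p q r) ^ 2 * (invF p q r) * (invT p' q' r') ^ 3
      + ((-47 : ℝ) / 2) * (invS p q r) ^ 2 * (invF p q r) * (invS p' q' r') * (invT p' q' r') * (invF p' q' r')
      + ((119 : ℝ) / 2) * (invS p q r) ^ 2 * (invF p q r) * (invS p' q' r') ^ 3 * (invT p' q' r')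
      + (60 : ℝ) * (invS p q r) ^ 4 * (invT p' q' r') ^ 3
      + (-1 : ℝ) * (invS p q r) ^ 4 * (invS p' q' r') * (invT p' q' r') * (invF p' q' r')
      + (-7 : ℝ) * (invS p q r) ^ 4 * (invS p' q' r') ^ 3 * (invT p' q' r') := by
  rw [orb_cd7]
  simp only [m3_3_3_eq, m4_2_2_eq, m4_4_0_eq, m5_3_1_eq, m6_2_0_eq, m7_1_1_eq, m8_0_0_eq]; ring

lemma orb_cd8 : sym (fun x y z => wd p q r x y z ^ 8 * cd p q r x y z) p' q' r' =
    (2240 : ℝ) * m3_3_3 p q r * m4_4_2 p' q' r'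
      + (2240 : ℝ) * m5_3_1 p q r * m4_4_2 p' q' r'
      + (1344 : ℝ) * m5_3_1 p q r * m6_2_2 p' q' r'
      + (448 : ℝ) * m5_3_1 p q r * m6_4_0 p' q' r'
      + (224 : ℝ) * m7_1_1 p q r * m6_2_2 p' q' r'
      + (64 : ℝ) * m7_1_1 p q r * m8_2_0 p' q' r' := by
  simp only [sym_eq_sgn, sgn_cd, pwl8, m3_3_3, m4_4_2, m5_3_1, m6_2_2, m6_4_0, m7_1_1, m8_2_0]; ring

lemma sym_cd8 : sym (fun x y z => wd p q r x y z ^ 8 * cd p q r x y z) p' q' r' =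
    (6864 : ℝ) * (invT p q r) ^ 3 * (invT p' q' r') ^ 2 * (invF p' q' r')
      + (-156 : ℝ) * (invT p q r) ^ 3 * (invS p' q' r') * (invF p' q' r') ^ 2
      + (-9936 : ℝ) * (invT p q r) ^ 3 * (invS p' q' r') ^ 2 * (invT p' q' r') ^ 2
      + (408 : ℝ) * (invT p q r) ^ 3 * (invS p' q' r') ^ 3 * (invF p' q' r')
      + (-252 : ℝ) * (invT p q r) ^ 3 * (invS p' q' r') ^ 5
      + (132 : ℝ) * (invS p q r) * (invT p q r) * (invF p q r) * (invT p' q' r') ^ 2 * (invF p' q' r')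
      + (25 : ℝ) * (invS p q r) * (invT p q r) * (invF p q r) * (invS p' q' r') * (invF p' q' r') ^ 2
      + (-260 : ℝ) * (invS p q r) * (invT p q r) * (invF p q r) * (invS p' q' r') ^ 2 * (invT p' q' r') ^ 2
      + (-74 : ℝ) * (invS p q r) * (invT p q r) * (invF p q r) * (invS p' q' r') ^ 3 * (invF p' q' r')
      + (49 : ℝ) * (invS p q r) * (invT p q r) * (invF p q r) * (invS p' q' r') ^ 5
      + (-420 : ℝ) * (invS p q r) ^ 3 * (invT p q r) * (invT p' q' r') ^ 2 * (invF p' q' r')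
      + (-49 : ℝ) * (invS p q r) ^ 3 * (invT p q r) * (invS p' q' r') * (invF p' q' r') ^ 2
      + (1316 : ℝ) * (invS p q r) ^ 3 * (invT p q r) * (invS p' q' r') ^ 2 * (invT p' q' r') ^ 2
      + (154 : ℝ) * (invS p q r) ^ 3 * (invT p q r) * (invS p' q' r') ^ 3 * (invF p' q' r')
      + (-105 : ℝ) * (invS p q r) ^ 3 * (invT p q r) * (invS p' q' r') ^ 5 := by
  rw [orb_cd8]
  simp only [m3_3_3_eq, m4_4_2_eq, m5_3_1_eq, m6_2_2_eq, m6_4_0_eq, m7_1_1_eq, m8_2_0_eq]; ring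

lemma orb_cd9 : sym (fun x y z => wd p q r x y z ^ 9 * cd p q r x y z) p' q' r' =
    (10080 : ℝ) * m4_4_2 p q r * m5_3_3 p' q' r'
      + (2520 : ℝ) * m4_4_2 p q r * m5_5_1 p' q' r'
      + (3024 : ℝ) * m6_2_2 p q r * m5_3_3 p' q' r'
      + (2016 : ℝ) * m6_2_2 p q r * m7_3_1 p' q' r'
      + (1008 : ℝ) * m6_4_0 p q r * m5_5_1 p' q' r'
      + (672 : ℝ) * m6_4_0 p q r * m7_3_1 p' q' r'
      + (288 : ℝ) * m8_2_0 p q r * m7_3_1 p' q' r'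
      + (72 : ℝ) * m8_2_0 p q r * m9_1_1 p' q' r'
      + (4 : ℝ) * m10_0_0 p q r * m9_1_1 p' q' r' := by
  simp only [sym_eq_sgn, sgn_cd, pwl9, m4_4_2, m5_3_3, m5_5_1, m6_2_2, m6_4_0, m7_3_1, m8_2_0, m9_1_1, m10_0_0]; ring

lemma sym_cd9 : sym (fun x y z => wd p q r x y z ^ 9 * cd p q r x y z) p' q' r' =
    (374 : ℝ) * (invT p q r) ^ 2 * (invF p q r) * (invT p' q' r') * (invF p' q' r') ^ 2
      + (2464 : ℝ) * (invT p q r) ^ 2 * (invF p q r) * (invS p' q' r') * (invT p' q' r') ^ 3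
      + (-1364 : ℝ) * (invT p q r) ^ 2 * (invF p q r) * (invS p' q' r') ^ 2 * (invT p' q' r') * (invF p' q' r')
      + (1150 : ℝ) * (invT p q r) ^ 2 * (invF p q r) * (invS p' q' r') ^ 4 * (invT p' q' r')
      + ((53 : ℝ) / 8) * (invS p q r) * (invF p q r) ^ 2 * (invT p' q' r') * (invF p' q' r') ^ 2
      + (-328 : ℝ) * (invS p q r) * (invF p q r) ^ 2 * (invS p' q' r') * (invT p' q' r') ^ 3
      + ((23 : ℝ) / 4) * (invS p q r) * (invF p q r) ^ 2 * (invS p' q' r') ^ 2 * (invT p' q' r') * (invF p' q' r')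
      + ((-275 : ℝ) / 8) * (invS p q r) * (invF p q r) ^ 2 * (invS p' q' r') ^ 4 * (invT p' q' r')
      + (-934 : ℝ) * (invS p q r) ^ 2 * (invT p q r) ^ 2 * (invT p' q' r') * (invF p' q' r') ^ 2
      + (15040 : ℝ) * (invS p q r) ^ 2 * (invT p q r) ^ 2 * (invS p' q' r') * (invT p' q' r') ^ 3
      + (3148 : ℝ) * (invS p q r) ^ 2 * (invT p q r) ^ 2 * (invS p' q' r') ^ 2 * (invT p' q' r') * (invF p' q' r')
      + (-2438 : ℝ) * (invS p q r) ^ 2 * (invT p q r) ^ 2 * (invS p' q' r') ^ 4 * (invT p' q' r')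
      + ((-81 : ℝ) / 4) * (invS p q r) ^ 3 * (invF p q r) * (invT p' q' r') * (invF p' q' r') ^ 2
      + (648 : ℝ) * (invS p q r) ^ 3 * (invF p q r) * (invS p' q' r') * (invT p' q' r') ^ 3
      + ((9 : ℝ) / 2) * (invS p q r) ^ 3 * (invF p q r) * (invS p' q' r') ^ 2 * (invT p' q' r') * (invF p' q' r')
      + ((303 : ℝ) / 4) * (invS p q r) ^ 3 * (invF p q r) * (invS p' q' r') ^ 4 * (invT p' q' r')
      + ((125 : ℝ) / 8) * (invS p q r) ^ 5 * (invT p' q' r') * (invF p' q' r') ^ 2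
      + (-256 : ℝ) * (invS p q r) ^ 5 * (invS p' q' r') * (invT p' q' r') ^ 3
      + ((-121 : ℝ) / 4) * (invS p q r) ^ 5 * (invS p' q' r') ^ 2 * (invT p' q' r') * (invF p' q' r')
      + ((-59 : ℝ) / 8) * (invS p q r) ^ 5 * (invS p' q' r') ^ 4 * (invT p' q' r') := by
  rw [orb_cd9]
  simp only [m4_4_2_eq, m5_3_3_eq, m5_5_1_eq, m6_2_2_eq, m6_4_0_eq, m7_3_1_eq, m8_2_0_eq, m9_1_1_eq, m10_0_0_eq]; ring

lemma orb_ed0 : sym (fun x y z => wd p q r x y z ^ 0 * ed p q r x y z) p' q' r' =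
    0 := by
  simp only [sym_eq_sgn, sgn_ed, pwl0]; ring

lemma sym_ed0 : sym (fun x y z => wd p q r x y z ^ 0 * ed p q r x y z) p' q' r' =
    0 := by
  rw [orb_ed0]

lemma orb_ed1 : sym (fun x y z => wd p q r x y z ^ 1 * ed p q r x y z) p' q' r' =
    (2 : ℝ) * m1_1_1 p q r * m1_1_1 p' q' r' := by
  simp only [sym_eq_sgn, sgn_ed, pwl1, m1_1_1]; ring

lemma sym_ed1 : sym (fun x y z => wd p q r x y z ^ 1 * ed p q r x y z) p' q' r' =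
    (72 : ℝ) * (invT p q r) * (invT p' q' r') := by
  rw [orb_ed1]
  simp only [m1_1_1_eq]; ring

lemma orb_ed2 : sym (fun x y z => wd p q r x y z ^ 2 * ed p q r x y z) p' q' r' =
    (4 : ℝ) * m2_2_0 p q r * m2_2_0 p' q' r' := by
  simp only [sym_eq_sgn, sgn_ed, pwl2, m2_2_0]; ring

lemma sym_ed2 : sym (fun x y z => wd p q r x y z ^ 2 * ed p q r x y z) p' q' r' =
    (1 : ℝ) * (invF p q r) * (invF p' q' r')
      + (-1 : ℝ) * (invF p q r) * (invS p' q' r') ^ 2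
      + (-1 : ℝ) * (invS p q r) ^ 2 * (invF p' q' r')
      + (1 : ℝ) * (invS p q r) ^ 2 * (invS p' q' r') ^ 2 := by
  rw [orb_ed2]
  simp only [m2_2_0_eq]; ring

lemma orb_ed3 : sym (fun x y z => wd p q r x y z ^ 3 * ed p q r x y z) p' q' r' =
    (14 : ℝ) * m3_1_1 p q r * m3_1_1 p' q' r' := by
  simp only [sym_eq_sgn, sgn_ed, pwl3, m3_1_1]; ring

lemma sym_ed3 : sym (fun x y z => wd p q r x y z ^ 3 * ed p q r x y z) p' q' r' =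
    (56 : ℝ) * (invS p q r) * (invT p q r) * (invS p' q' r') * (invT p' q' r') := by
  rw [orb_ed3]
  simp only [m3_1_1_eq]; ring

lemma orb_ed4 : sym (fun x y z => wd p q r x y z ^ 4 * ed p q r x y z) p' q' r' =
    (24 : ℝ) * m2_2_2 p q r * m2_2_2 p' q' r'
      + (16 : ℝ) * m4_2_0 p q r * m4_2_0 p' q' r' := by
  simp only [sym_eq_sgn, sgn_ed, pwl4, m2_2_2, m4_2_0]; ring

lemma sym_ed4 : sym (fun x y z => wd p q r x y z ^ 4 * ed p q r x y z) p' q' r' =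
    (1008 : ℝ) * (invT p q r) ^ 2 * (invT p' q' r') ^ 2
      + (-12 : ℝ) * (invT p q r) ^ 2 * (invS p' q' r') * (invF p' q' r')
      + (12 : ℝ) * (invT p q r) ^ 2 * (invS p' q' r') ^ 3
      + (-12 : ℝ) * (invS p q r) * (invF p q r) * (invT p' q' r') ^ 2
      + (1 : ℝ) * (invS p q r) * (invF p q r) * (invS p' q' r') * (invF p' q' r')
      + (-1 : ℝ) * (invS p q r) * (invF p q r) * (invS p' q' r') ^ 3
      + (12 : ℝ) * (invS p q r) ^ 3 * (invT p' q' r') ^ 2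
      + (-1 : ℝ) * (invS p q r) ^ 3 * (invS p' q' r') * (invF p' q' r')
      + (1 : ℝ) * (invS p q r) ^ 3 * (invS p' q' r') ^ 3 := by
  rw [orb_ed4]
  simp only [m2_2_2_eq, m4_2_0_eq]; ring

lemma orb_ed5 : sym (fun x y z => wd p q r x y z ^ 5 * ed p q r x y z) p' q' r' =
    (100 : ℝ) * m3_3_1 p q r * m3_3_1 p' q' r'
      + (22 : ℝ) * m5_1_1 p q r * m5_1_1 p' q' r' := by
  simp only [sym_eq_sgn, sgn_ed, pwl5, m3_3_1, m5_1_1]; ring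

lemma sym_ed5 : sym (fun x y z => wd p q r x y z ^ 5 * ed p q r x y z) p' q' r' =
    (47 : ℝ) * (invT p q r) * (invF p q r) * (invT p' q' r') * (invF p' q' r')
      + (-91 : ℝ) * (invT p q r) * (invF p q r) * (invS p' q' r') ^ 2 * (invT p' q' r')
      + (-91 : ℝ) * (invS p q r) ^ 2 * (invT p q r) * (invT p' q' r') * (invF p' q' r')
      + (223 : ℝ) * (invS p q r) ^ 2 * (invT p q r) * (invS p' q' r') ^ 2 * (invT p' q' r') := by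
  rw [orb_ed5]
  simp only [m3_3_1_eq, m5_1_1_eq]; ring

lemma orb_ed6 : sym (fun x y z => wd p q r x y z ^ 6 * ed p q r x y z) p' q' r' =
    (300 : ℝ) * m4_2_2 p q r * m4_2_2 p' q' r'
      + (40 : ℝ) * m4_4_0 p q r * m4_4_0 p' q' r'
      + (24 : ℝ) * m6_2_0 p q r * m6_2_0 p' q' r' := by
  simp only [sym_eq_sgn, sgn_ed, pwl6, m4_2_2, m4_4_0, m6_2_0]; ring

lemma sym_ed6 : sym (fun x y z => wd p q r x y z ^ 6 * ed p q r x y z) p' q' r' =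
    (1 : ℝ) * (invF p q r) ^ 2 * (invF p' q' r') ^ 2
      + (-17 : ℝ) * (invF p q r) ^ 2 * (invS p' q' r') * (invT p' q' r') ^ 2
      + ((-11 : ℝ) / 4) * (invF p q r) ^ 2 * (invS p' q' r') ^ 2 * (invF p' q' r')
      + ((7 : ℝ) / 4) * (invF p q r) ^ 2 * (invS p' q' r') ^ 4
      + (-17 : ℝ) * (invS p q r) * (invT p q r) ^ 2 * (invF p' q' r') ^ 2
      + (1864 : ℝ) * (invS p q r) * (invT p q r) ^ 2 * (invS p' q' r') * (invT p' q' r') ^ 2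
      + (28 : ℝ) * (invS p q r) * (invT p q r) ^ 2 * (invS p' q' r') ^ 2 * (invF p' q' r')
      + (-11 : ℝ) * (invS p q r) * (invT p q r) ^ 2 * (invS p' q' r') ^ 4
      + ((-11 : ℝ) / 4) * (invS p q r) ^ 2 * (invF p q r) * (invF p' q' r') ^ 2
      + (28 : ℝ) * (invS p q r) ^ 2 * (invF p q r) * (invS p' q' r') * (invT p' q' r') ^ 2
      + ((17 : ℝ) / 2) * (invS p q r) ^ 2 * (invF p q r) * (invS p' q' r') ^ 2 * (invF p' q' r')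
      + ((-23 : ℝ) / 4) * (invS p q r) ^ 2 * (invF p q r) * (invS p' q' r') ^ 4
      + ((7 : ℝ) / 4) * (invS p q r) ^ 4 * (invF p' q' r') ^ 2
      + (-11 : ℝ) * (invS p q r) ^ 4 * (invS p' q' r') * (invT p' q' r') ^ 2
      + ((-23 : ℝ) / 4) * (invS p q r) ^ 4 * (invS p' q' r') ^ 2 * (invF p' q' r')
      + (4 : ℝ) * (invS p q r) ^ 4 * (invS p' q' r') ^ 4 := by
  rw [orb_ed6]
  simp only [m4_2_2_eq, m4_4_0_eq, m6_2_0_eq]; ring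

lemma orb_ed7 : sym (fun x y z => wd p q r x y z ^ 7 * ed p q r x y z) p' q' r' =
    (420 : ℝ) * m3_3_3 p q r * m3_3_3 p' q' r'
      + (644 : ℝ) * m5_3_1 p q r * m5_3_1 p' q' r'
      + (30 : ℝ) * m7_1_1 p q r * m7_1_1 p' q' r' := by
  simp only [sym_eq_sgn, sgn_ed, pwl7, m3_3_3, m5_3_1, m7_1_1]; ring

lemma sym_ed7 : sym (fun x y z => wd p q r x y z ^ 7 * ed p q r x y z) p' q' r' =
    (21996 : ℝ) * (invT p q r) ^ 3 * (invT p' q' r') ^ 3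
      + (-753 : ℝ) * (invT p q r) ^ 3 * (invS p' q' r') * (invT p' q' r') * (invF p' q' r')
      + (1113 : ℝ) * (invT p q r) ^ 3 * (invS p' q' r') ^ 3 * (invT p' q' r')
      + (-753 : ℝ) * (invS p q r) * (invT p q r) * (invF p q r) * (invT p' q' r') ^ 3
      + ((431 : ℝ) / 4) * (invS p q r) * (invT p q r) * (invF p q r) * (invS p' q' r') * (invT p' q' r') * (invF p' q' r')
      + ((-791 : ℝ) / 4) * (invS p q r) * (invT p q r) * (invF p q r) * (invS p' q' r') ^ 3 * (invT p' q' r')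
      + (1113 : ℝ) * (invS p q r) ^ 3 * (invT p q r) * (invT p' q' r') ^ 3
      + ((-791 : ℝ) / 4) * (invS p q r) ^ 3 * (invT p q r) * (invS p' q' r') * (invT p' q' r') * (invF p' q' r')
      + ((1631 : ℝ) / 4) * (invS p q r) ^ 3 * (invT p q r) * (invS p' q' r') ^ 3 * (invT p' q' r') := by
  rw [orb_ed7]
  simp only [m3_3_3_eq, m5_3_1_eq, m7_1_1_eq]; ring

lemma orb_ed8 : sym (fun x y z => wd p q r x y z ^ 8 * ed p q r x y z) p' q' r' =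
    (2240 : ℝ) * m4_4_2 p q r * m4_4_2 p' q' r'
      + (784 : ℝ) * m6_2_2 p q r * m6_2_2 p' q' r'
      + (224 : ℝ) * m6_4_0 p q r * m6_4_0 p' q' r'
      + (32 : ℝ) * m8_2_0 p q r * m8_2_0 p' q' r' := by
  simp only [sym_eq_sgn, sgn_ed, pwl8, m4_4_2, m6_2_2, m6_4_0, m8_2_0]; ring

lemma sym_ed8 : sym (fun x y z => wd p q r x y z ^ 8 * ed p q r x y z) p' q' r' =
    (1408 : ℝ) * (invT p q r) ^ 2 * (invF p q r) * (invT p' q' r') ^ 2 * (invF p' q' r')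
      + (-11 : ℝ) * (invT p q r) ^ 2 * (invF p q r) * (invS p' q' r') * (invF p' q' r') ^ 2
      + (-2904 : ℝ) * (invT p q r) ^ 2 * (invF p q r) * (invS p' q' r') ^ 2 * (invT p' q' r') ^ 2
      + (32 : ℝ) * (invT p q r) ^ 2 * (invF p q r) * (invS p' q' r') ^ 3 * (invF p' q' r')
      + (-21 : ℝ) * (invT p q r) ^ 2 * (invF p q r) * (invS p' q' r') ^ 5
      + (-11 : ℝ) * (invS p q r) * (invF p q r) ^ 2 * (invT p' q' r') ^ 2 * (invF p' q' r')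
      + (2 : ℝ) * (invS p q r) * (invF p q r) ^ 2 * (invS p' q' r') * (invF p' q' r') ^ 2
      + (-11 : ℝ) * (invS p q r) * (invF p q r) ^ 2 * (invS p' q' r') ^ 2 * (invT p' q' r') ^ 2
      + ((-11 : ℝ) / 2) * (invS p q r) * (invF p q r) ^ 2 * (invS p' q' r') ^ 3 * (invF p' q' r')
      + ((7 : ℝ) / 2) * (invS p q r) * (invF p q r) ^ 2 * (invS p' q' r') ^ 5
      + (-2904 : ℝ) * (invS p q r) ^ 2 * (invT p q r) ^ 2 * (invT p' q' r') ^ 2 * (invF p' q' r')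
      + (-11 : ℝ) * (invS p q r) ^ 2 * (invT p q r) ^ 2 * (invS p' q' r') * (invF p' q' r') ^ 2
      + (8464 : ℝ) * (invS p q r) ^ 2 * (invT p q r) ^ 2 * (invS p' q' r') ^ 2 * (invT p' q' r') ^ 2
      + (4 : ℝ) * (invS p q r) ^ 2 * (invT p q r) ^ 2 * (invS p' q' r') ^ 3 * (invF p' q' r')
      + (7 : ℝ) * (invS p q r) ^ 2 * (invT p q r) ^ 2 * (invS p' q' r') ^ 5
      + (32 : ℝ) * (invS p q r) ^ 3 * (invF p q r) * (invT p' q' r') ^ 2 * (invF p' q' r')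
      + ((-11 : ℝ) / 2) * (invS p q r) ^ 3 * (invF p q r) * (invS p' q' r') * (invF p' q' r') ^ 2
      + (4 : ℝ) * (invS p q r) ^ 3 * (invF p q r) * (invS p' q' r') ^ 2 * (invT p' q' r') ^ 2
      + (16 : ℝ) * (invS p q r) ^ 3 * (invF p q r) * (invS p' q' r') ^ 3 * (invF p' q' r')
      + ((-21 : ℝ) / 2) * (invS p q r) ^ 3 * (invF p q r) * (invS p' q' r') ^ 5
      + (-21 : ℝ) * (invS p q r) ^ 5 * (invT p' q' r') ^ 2 * (invF p' q' r')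
      + ((7 : ℝ) / 2) * (invS p q r) ^ 5 * (invS p' q' r') * (invF p' q' r') ^ 2
      + (7 : ℝ) * (invS p q r) ^ 5 * (invS p' q' r') ^ 2 * (invT p' q' r') ^ 2
      + ((-21 : ℝ) / 2) * (invS p q r) ^ 5 * (invS p' q' r') ^ 3 * (invF p' q' r')
      + (7 : ℝ) * (invS p q r) ^ 5 * (invS p' q' r') ^ 5 := by
  rw [orb_ed8]
  simp only [m4_4_2_eq, m6_2_2_eq, m6_4_0_eq, m8_2_0_eq]; ring

lemma orb_ed9 : sym (fun x y z => wd p q r x y z ^ 9 * ed p q r x y z) p' q' r' =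
    (6552 : ℝ) * m5_3_3 p q r * m5_3_3 p' q' r'
      + (1764 : ℝ) * m5_5_1 p q r * m5_5_1 p' q' r'
      + (1488 : ℝ) * m7_3_1 p q r * m7_3_1 p' q' r'
      + (38 : ℝ) * m9_1_1 p q r * m9_1_1 p' q' r' := by
  simp only [sym_eq_sgn, sgn_ed, pwl9, m5_3_3, m5_5_1, m7_3_1, m9_1_1]; ring

lemma sym_ed9 : sym (fun x y z => wd p q r x y z ^ 9 * ed p q r x y z) p' q' r' =
    ((851 : ℝ) / 16) * (invT p q r) * (invF p q r) ^ 2 * (invT p' q' r') * (invF p' q' r') ^ 2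
      + (-620 : ℝ) * (invT p q r) * (invF p q r) ^ 2 * (invS p' q' r') * (invT p' q' r') ^ 3
      + ((-1375 : ℝ) / 8) * (invT p q r) * (invF p q r) ^ 2 * (invS p' q' r') ^ 2 * (invT p' q' r') * (invF p' q' r')
      + ((2203 : ℝ) / 16) * (invT p q r) * (invF p q r) ^ 2 * (invS p' q' r') ^ 4 * (invT p' q' r')
      + (-620 : ℝ) * (invS p q r) * (invT p q r) ^ 3 * (invT p' q' r') * (invF p' q' r') ^ 2
      + (58352 : ℝ) * (invS p q r) * (invT p q r) ^ 3 * (invS p' q' r') * (invT p' q' r') ^ 3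
      + (260 : ℝ) * (invS p q r) * (invT p q r) ^ 3 * (invS p' q' r') ^ 2 * (invT p' q' r') * (invF p' q' r')
      + (968 : ℝ) * (invS p q r) * (invT p q r) ^ 3 * (invS p' q' r') ^ 4 * (invT p' q' r')
      + ((-1375 : ℝ) / 8) * (invS p q r) ^ 2 * (invT p q r) * (invF p q r) * (invT p' q' r') * (invF p' q' r') ^ 2
      + (260 : ℝ) * (invS p q r) ^ 2 * (invT p q r) * (invF p q r) * (invS p' q' r') * (invT p' q' r') ^ 3
      + ((2879 : ℝ) / 4) * (invS p q r) ^ 2 * (invT p q r) * (invF p q r) * (invS p' q' r') ^ 2 * (invT p' q' r') * (invF p' q' r')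
      + ((-5903 : ℝ) / 8) * (invS p q r) ^ 2 * (invT p q r) * (invF p q r) * (invS p' q' r') ^ 4 * (invT p' q' r')
      + ((2203 : ℝ) / 16) * (invS p q r) ^ 4 * (invT p q r) * (invT p' q' r') * (invF p' q' r') ^ 2
      + (968 : ℝ) * (invS p q r) ^ 4 * (invT p q r) * (invS p' q' r') * (invT p' q' r') ^ 3
      + ((-5903 : ℝ) / 8) * (invS p q r) ^ 4 * (invT p q r) * (invS p' q' r') ^ 2 * (invT p' q' r') * (invF p' q' r')
      + ((14771 : ℝ) / 16) * (invS p q r) ^ 4 * (invT p q r) * (invS p' q' r') ^ 4 * (invT p' q' r') := by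
  rw [orb_ed9]
  simp only [m5_3_3_eq, m5_5_1_eq, m7_3_1_eq, m9_1_1_eq]; ring

lemma orb_md0 : sym (fun x y z => wd p q r x y z ^ 0 * md p q r x y z) p' q' r' =
    0 := by
  simp only [sym_eq_sgn, sgn_md, pwl0]; ring

lemma sym_md0 : sym (fun x y z => wd p q r x y z ^ 0 * md p q r x y z) p' q' r' =
    0 := by
  rw [orb_md0]

lemma orb_md1 : sym (fun x y z => wd p q r x y z ^ 1 * md p q r x y z) p' q' r' =
    (4 : ℝ) * m1_1_1 p q r * m2_0_0 p' q' r' := by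
  simp only [sym_eq_sgn, sgn_md, pwl1, m1_1_1, m2_0_0]; ring

lemma sym_md1 : sym (fun x y z => wd p q r x y z ^ 1 * md p q r x y z) p' q' r' =
    (48 : ℝ) * (invT p q r) * (invS p' q' r') := by
  rw [orb_md1]
  simp only [m1_1_1_eq, m2_0_0_eq]; ring

lemma orb_md2 : sym (fun x y z => wd p q r x y z ^ 2 * md p q r x y z) p' q' r' =
    (8 : ℝ) * m2_2_0 p q r * m1_1_1 p' q' r' := by
  simp only [sym_eq_sgn, sgn_md, pwl2, m1_1_1, m2_2_0]; ring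

lemma sym_md2 : sym (fun x y z => wd p q r x y z ^ 2 * md p q r x y z) p' q' r' =
    (24 : ℝ) * (invF p q r) * (invT p' q' r')
      + (-24 : ℝ) * (invS p q r) ^ 2 * (invT p' q' r') := by
  rw [orb_md2]
  simp only [m1_1_1_eq, m2_2_0_eq]; ring

lemma orb_md3 : sym (fun x y z => wd p q r x y z ^ 3 * md p q r x y z) p' q' r' =
    (24 : ℝ) * m3_1_1 p q r * m2_2_0 p' q' r'
      + (4 : ℝ) * m3_1_1 p q r * m4_0_0 p' q' r' := by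
  simp only [sym_eq_sgn, sgn_md, pwl3, m2_2_0, m3_1_1, m4_0_0]; ring

lemma sym_md3 : sym (fun x y z => wd p q r x y z ^ 3 * md p q r x y z) p' q' r' =
    (16 : ℝ) * (invS p q r) * (invT p q r) * (invF p' q' r') := by
  rw [orb_md3]
  simp only [m2_2_0_eq, m3_1_1_eq, m4_0_0_eq]; ring

lemma orb_md4 : sym (fun x y z => wd p q r x y z ^ 4 * md p q r x y z) p' q' r' =
    (48 : ℝ) * m2_2_2 p q r * m3_1_1 p' q' r'
      + (32 : ℝ) * m4_2_0 p q r * m3_1_1 p' q' r' := by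
  simp only [sym_eq_sgn, sgn_md, pwl4, m2_2_2, m3_1_1, m4_2_0]; ring

lemma sym_md4 : sym (fun x y z => wd p q r x y z ^ 4 * md p q r x y z) p' q' r' =
    (384 : ℝ) * (invT p q r) ^ 2 * (invS p' q' r') * (invT p' q' r')
      + (16 : ℝ) * (invS p q r) * (invF p q r) * (invS p' q' r') * (invT p' q' r')
      + (-16 : ℝ) * (invS p q r) ^ 3 * (invS p' q' r') * (invT p' q' r') := by
  rw [orb_md4]
  simp only [m2_2_2_eq, m3_1_1_eq, m4_2_0_eq]; ring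

lemma orb_md5 : sym (fun x y z => wd p q r x y z ^ 5 * md p q r x y z) p' q' r' =
    (120 : ℝ) * m3_3_1 p q r * m2_2_2 p' q' r'
      + (80 : ℝ) * m3_3_1 p q r * m4_2_0 p' q' r'
      + (40 : ℝ) * m5_1_1 p q r * m4_2_0 p' q' r'
      + (4 : ℝ) * m5_1_1 p q r * m6_0_0 p' q' r' := by
  simp only [sym_eq_sgn, sgn_md, pwl5, m2_2_2, m3_3_1, m4_2_0, m5_1_1, m6_0_0]; ring

lemma sym_md5 : sym (fun x y z => wd p q r x y z ^ 5 * md p q r x y z) p' q' r' =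
    (336 : ℝ) * (invT p q r) * (invF p q r) * (invT p' q' r') ^ 2
      + (6 : ℝ) * (invT p q r) * (invF p q r) * (invS p' q' r') * (invF p' q' r')
      + (-14 : ℝ) * (invT p q r) * (invF p q r) * (invS p' q' r') ^ 3
      + (-528 : ℝ) * (invS p q r) ^ 2 * (invT p q r) * (invT p' q' r') ^ 2
      + (2 : ℝ) * (invS p q r) ^ 2 * (invT p q r) * (invS p' q' r') * (invF p' q' r')
      + (22 : ℝ) * (invS p q r) ^ 2 * (invT p q r) * (invS p' q' r') ^ 3 := by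
  rw [orb_md5]
  simp only [m2_2_2_eq, m3_3_1_eq, m4_2_0_eq, m5_1_1_eq, m6_0_0_eq]; ring

lemma orb_md6 : sym (fun x y z => wd p q r x y z ^ 6 * md p q r x y z) p' q' r' =
    (480 : ℝ) * m4_2_2 p q r * m3_3_1 p' q' r'
      + (120 : ℝ) * m4_2_2 p q r * m5_1_1 p' q' r'
      + (80 : ℝ) * m4_4_0 p q r * m3_3_1 p' q' r'
      + (48 : ℝ) * m6_2_0 p q r * m5_1_1 p' q' r' := by
  simp only [sym_eq_sgn, sgn_md, pwl6, m3_3_1, m4_2_2, m4_4_0, m5_1_1, m6_2_0]; ring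

lemma sym_md6 : sym (fun x y z => wd p q r x y z ^ 6 * md p q r x y z) p' q' r' =
    (11 : ℝ) * (invF p q r) ^ 2 * (invT p' q' r') * (invF p' q' r')
      + (-23 : ℝ) * (invF p q r) ^ 2 * (invS p' q' r') ^ 2 * (invT p' q' r')
      + (128 : ℝ) * (invS p q r) * (invT p q r) ^ 2 * (invT p' q' r') * (invF p' q' r')
      + (256 : ℝ) * (invS p q r) * (invT p q r) ^ 2 * (invS p' q' r') ^ 2 * (invT p' q' r')
      + (-34 : ℝ) * (invS p q r) ^ 2 * (invF p q r) * (invT p' q' r') * (invF p' q' r')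
      + (82 : ℝ) * (invS p q r) ^ 2 * (invF p q r) * (invS p' q' r') ^ 2 * (invT p' q' r')
      + (23 : ℝ) * (invS p q r) ^ 4 * (invT p' q' r') * (invF p' q' r')
      + (-59 : ℝ) * (invS p q r) ^ 4 * (invS p' q' r') ^ 2 * (invT p' q' r') := by
  rw [orb_md6]
  simp only [m3_3_1_eq, m4_2_2_eq, m4_4_0_eq, m5_1_1_eq, m6_2_0_eq]; ring

lemma orb_md7 : sym (fun x y z => wd p q r x y z ^ 7 * md p q r x y z) p' q' r' =
    (840 : ℝ) * m3_3_3 p q r * m4_2_2 p' q' r'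
      + (840 : ℝ) * m5_3_1 p q r * m4_2_2 p' q' r'
      + (280 : ℝ) * m5_3_1 p q r * m4_4_0 p' q' r'
      + (168 : ℝ) * m5_3_1 p q r * m6_2_0 p' q' r'
      + (56 : ℝ) * m7_1_1 p q r * m6_2_0 p' q' r'
      + (4 : ℝ) * m7_1_1 p q r * m8_0_0 p' q' r' := by
  simp only [sym_eq_sgn, sgn_md, pwl7, m3_3_3, m4_2_2, m4_4_0, m5_3_1, m6_2_0, m7_1_1, m8_0_0]; ring

lemma sym_md7 : sym (fun x y z => wd p q r x y z ^ 7 * md p q r x y z) p' q' r' =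
    (-78 : ℝ) * (invT p q r) ^ 3 * (invF p' q' r') ^ 2
      + (8760 : ℝ) * (invT p q r) ^ 3 * (invS p' q' r') * (invT p' q' r') ^ 2
      + (66 : ℝ) * (invT p q r) ^ 3 * (invS p' q' r') ^ 2 * (invF p' q' r')
      + (60 : ℝ) * (invT p q r) ^ 3 * (invS p' q' r') ^ 4
      + ((25 : ℝ) / 2) * (invS p q r) * (invT p q r) * (invF p q r) * (invF p' q' r') ^ 2
      + (134 : ℝ) * (invS p q r) * (invT p q r) * (invF p q r) * (invS p' q' r') * (invT p' q' r') ^ 2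
      + ((-47 : ℝ) / 2) * (invS p q r) * (invT p q r) * (invF p q r) * (invS p' q' r') ^ 2 * (invF p' q' r')
      + (-1 : ℝ) * (invS p q r) * (invT p q r) * (invF p q r) * (invS p' q' r') ^ 4
      + ((-49 : ℝ) / 2) * (invS p q r) ^ 3 * (invT p q r) * (invF p' q' r') ^ 2
      + (-182 : ℝ) * (invS p q r) ^ 3 * (invT p q r) * (invS p' q' r') * (invT p' q' r') ^ 2
      + ((119 : ℝ) / 2) * (invS p q r) ^ 3 * (invT p q r) * (invS p' q' r') ^ 2 * (invF p' q' r')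
      + (-7 : ℝ) * (invS p q r) ^ 3 * (invT p q r) * (invS p' q' r') ^ 4 := by
  rw [orb_md7]
  simp only [m3_3_3_eq, m4_2_2_eq, m4_4_0_eq, m5_3_1_eq, m6_2_0_eq, m7_1_1_eq, m8_0_0_eq]; ring

lemma orb_md8 : sym (fun x y z => wd p q r x y z ^ 8 * md p q r x y z) p' q' r' =
    (2240 : ℝ) * m4_4_2 p q r * m3_3_3 p' q' r'
      + (2240 : ℝ) * m4_4_2 p q r * m5_3_1 p' q' r'
      + (1344 : ℝ) * m6_2_2 p q r * m5_3_1 p' q' r'
      + (224 : ℝ) * m6_2_2 p q r * m7_1_1 p' q' r'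
      + (448 : ℝ) * m6_4_0 p q r * m5_3_1 p' q' r'
      + (64 : ℝ) * m8_2_0 p q r * m7_1_1 p' q' r' := by
  simp only [sym_eq_sgn, sgn_md, pwl8, m3_3_3, m4_4_2, m5_3_1, m6_2_2, m6_4_0, m7_1_1, m8_2_0]; ring

lemma sym_md8 : sym (fun x y z => wd p q r x y z ^ 8 * md p q r x y z) p' q' r' =
    (6864 : ℝ) * (invT p q r) ^ 2 * (invF p q r) * (invT p' q' r') ^ 3
      + (132 : ℝ) * (invT p q r) ^ 2 * (invF p q r) * (invS p' q' r') * (invT p' q' r') * (invF p' q' r')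
      + (-420 : ℝ) * (invT p q r) ^ 2 * (invF p q r) * (invS p' q' r') ^ 3 * (invT p' q' r')
      + (-156 : ℝ) * (invS p q r) * (invF p q r) ^ 2 * (invT p' q' r') ^ 3
      + (25 : ℝ) * (invS p q r) * (invF p q r) ^ 2 * (invS p' q' r') * (invT p' q' r') * (invF p' q' r')
      + (-49 : ℝ) * (invS p q r) * (invF p q r) ^ 2 * (invS p' q' r') ^ 3 * (invT p' q' r')
      + (-9936 : ℝ) * (invS p q r) ^ 2 * (invT p q r) ^ 2 * (invT p' q' r') ^ 3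
      + (-260 : ℝ) * (invS p q r) ^ 2 * (invT p q r) ^ 2 * (invS p' q' r') * (invT p' q' r') * (invF p' q' r')
      + (1316 : ℝ) * (invS p q r) ^ 2 * (invT p q r) ^ 2 * (invS p' q' r') ^ 3 * (invT p' q' r')
      + (408 : ℝ) * (invS p q r) ^ 3 * (invF p q r) * (invT p' q' r') ^ 3
      + (-74 : ℝ) * (invS p q r) ^ 3 * (invF p q r) * (invS p' q' r') * (invT p' q' r') * (invF p' q' r')
      + (154 : ℝ) * (invS p q r) ^ 3 * (invF p q r) * (invS p' q' r') ^ 3 * (invT p' q' r')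
      + (-252 : ℝ) * (invS p q r) ^ 5 * (invT p' q' r') ^ 3
      + (49 : ℝ) * (invS p q r) ^ 5 * (invS p' q' r') * (invT p' q' r') * (invF p' q' r')
      + (-105 : ℝ) * (invS p q r) ^ 5 * (invS p' q' r') ^ 3 * (invT p' q' r') := by
  rw [orb_md8]
  simp only [m3_3_3_eq, m4_4_2_eq, m5_3_1_eq, m6_2_2_eq, m6_4_0_eq, m7_1_1_eq, m8_2_0_eq]; ring

lemma orb_md9 : sym (fun x y z => wd p q r x y z ^ 9 * md p q r x y z) p' q' r' =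
    (10080 : ℝ) * m5_3_3 p q r * m4_4_2 p' q' r'
      + (3024 : ℝ) * m5_3_3 p q r * m6_2_2 p' q' r'
      + (2520 : ℝ) * m5_5_1 p q r * m4_4_2 p' q' r'
      + (1008 : ℝ) * m5_5_1 p q r * m6_4_0 p' q' r'
      + (2016 : ℝ) * m7_3_1 p q r * m6_2_2 p' q' r'
      + (672 : ℝ) * m7_3_1 p q r * m6_4_0 p' q' r'
      + (288 : ℝ) * m7_3_1 p q r * m8_2_0 p' q' r'
      + (72 : ℝ) * m9_1_1 p q r * m8_2_0 p' q' r'
      + (4 : ℝ) * m9_1_1 p q r * m10_0_0 p' q' r' := by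
  simp only [sym_eq_sgn, sgn_md, pwl9, m4_4_2, m5_3_3, m5_5_1, m6_2_2, m6_4_0, m7_3_1, m8_2_0, m9_1_1, m10_0_0]; ring

lemma sym_md9 : sym (fun x y z => wd p q r x y z ^ 9 * md p q r x y z) p' q' r' =
    (374 : ℝ) * (invT p q r) * (invF p q r) ^ 2 * (invT p' q' r') ^ 2 * (invF p' q' r')
      + ((53 : ℝ) / 8) * (invT p q r) * (invF p q r) ^ 2 * (invS p' q' r') * (invF p' q' r') ^ 2
      + (-934 : ℝ) * (invT p q r) * (invF p q r) ^ 2 * (invS p' q' r') ^ 2 * (invT p' q' r') ^ 2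
      + ((-81 : ℝ) / 4) * (invT p q r) * (invF p q r) ^ 2 * (invS p' q' r') ^ 3 * (invF p' q' r')
      + ((125 : ℝ) / 8) * (invT p q r) * (invF p q r) ^ 2 * (invS p' q' r') ^ 5
      + (2464 : ℝ) * (invS p q r) * (invT p q r) ^ 3 * (invT p' q' r') ^ 2 * (invF p' q' r')
      + (-328 : ℝ) * (invS p q r) * (invT p q r) ^ 3 * (invS p' q' r') * (invF p' q' r') ^ 2
      + (15040 : ℝ) * (invS p q r) * (invT p q r) ^ 3 * (invS p' q' r') ^ 2 * (invT p' q' r') ^ 2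
      + (648 : ℝ) * (invS p q r) * (invT p q r) ^ 3 * (invS p' q' r') ^ 3 * (invF p' q' r')
      + (-256 : ℝ) * (invS p q r) * (invT p q r) ^ 3 * (invS p' q' r') ^ 5
      + (-1364 : ℝ) * (invS p q r) ^ 2 * (invT p q r) * (invF p q r) * (invT p' q' r') ^ 2 * (invF p' q' r')
      + ((23 : ℝ) / 4) * (invS p q r) ^ 2 * (invT p q r) * (invF p q r) * (invS p' q' r') * (invF p' q' r') ^ 2
      + (3148 : ℝ) * (invS p q r) ^ 2 * (invT p q r) * (invF p q r) * (invS p' q' r') ^ 2 * (invT p' q' r') ^ 2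
      + ((9 : ℝ) / 2) * (invS p q r) ^ 2 * (invT p q r) * (invF p q r) * (invS p' q' r') ^ 3 * (invF p' q' r')
      + ((-121 : ℝ) / 4) * (invS p q r) ^ 2 * (invT p q r) * (invF p q r) * (invS p' q' r') ^ 5
      + (1150 : ℝ) * (invS p q r) ^ 4 * (invT p q r) * (invT p' q' r') ^ 2 * (invF p' q' r')
      + ((-275 : ℝ) / 8) * (invS p q r) ^ 4 * (invT p q r) * (invS p' q' r') * (invF p' q' r') ^ 2
      + (-2438 : ℝ) * (invS p q r) ^ 4 * (invT p q r) * (invS p' q' r') ^ 2 * (invT p' q' r') ^ 2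
      + ((303 : ℝ) / 4) * (invS p q r) ^ 4 * (invT p q r) * (invS p' q' r') ^ 3 * (invF p' q' r')
      + ((-59 : ℝ) / 8) * (invS p q r) ^ 4 * (invT p q r) * (invS p' q' r') ^ 5 := by
  rw [orb_md9]
  simp only [m4_4_2_eq, m5_3_3_eq, m5_5_1_eq, m6_2_2_eq, m6_4_0_eq, m7_3_1_eq, m8_2_0_eq, m9_1_1_eq, m10_0_0_eq]; ring

end Vale.Agent.P154.Four
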