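import Vale.Agent.P154.Moments

/-!
Normal forms in the three moments of a pair of centred vectors, their products and their
averages over the six arrangements.
-/

namespace Vale.Agent.P154

/-- Coefficients of `1, w, w ^ 2, ..., w ^ 5, p, R`. -/
structure OForm where
  /-- coefficient of one -/
  k0 : ℝ
  /-- coefficient of `w` -/
  k1 : ℝ
  /-- coefficient of `w ^ 2` -/
  k2 : ℝ
  /-- coefficient of `w ^ 3` -/
  k3 : ℝ
  /-- coefficient of `w ^ 4` -/
  k4 : ℝ
  /-- coefficient of `w ^ 5` -/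
  k5 : ℝ
  /-- coefficient of `p` -/
  kp : ℝ
  /-- coefficient of `R` -/
  kR : ℝ

namespace OForm

/-- Value of a normal form. -/
noncomputable def val (n : OForm) (a b x y : ℝ) : ℝ :=
  n.k0 + n.k1 * wM a b x y + n.k2 * wM a b x y ^ 2 + n.k3 * wM a b x y ^ 3
    + n.k4 * wM a b x y ^ 4 + n.k5 * wM a b x y ^ 5 + n.kp * pM a b x y + n.kR * rM a b x y

/-- Sum of two normal forms. -/
noncomputable def add (n m : OForm) : OForm :=
  ⟨n.k0 + m.k0, n.k1 + m.k1, n.k2 + m.k2, n.k3 + m.k3, n.k4 + m.k4, n.k5 + m.k5,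
    n.kp + m.kp, n.kR + m.kR⟩

/-- Multiple of a normal form. -/
noncomputable def smul (c : ℝ) (n : OForm) : OForm :=
  ⟨c * n.k0, c * n.k1, c * n.k2, c * n.k3, c * n.k4, c * n.k5, c * n.kp, c * n.kR⟩

/-- Product with `w`, the invariants being `S, T` and `P, Q`. -/
noncomputable def mulw (S T P Q : ℝ) (n : OForm) : OForm :=
  ⟨n.kp * (2 * T * P) + n.kR * (2 * S * Q)
      + n.k5 * (-4 * (S ^ 3 * Q ^ 2 + P ^ 3 * T ^ 2 - S ^ 3 * P ^ 3)),
    n.k0 + n.k5 * (-12 * (S * P) * (T * Q)), n.k1 + n.k5 * (-9 * (S * P) ^ 2),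
    n.k2 + n.k5 * (4 * (T * Q)), n.k3 + n.k5 * (6 * (S * P)), n.k4, n.kR * P, n.kp * S⟩

/-- Iterated product with `w`. -/
noncomputable def pw (S T P Q : ℝ) : ℕ → OForm → OForm
  | 0, n => n
  | k + 1, n => mulw S T P Q (pw S T P Q k n)

/-- Average of a normal form. -/
noncomputable def avg (S T P Q : ℝ) (n : OForm) : ℝ :=
  n.k0 + 2 * n.k2 * (S * P) + 2 * n.k3 * (T * Q) + 6 * n.k4 * (S * P) ^ 2
    + 10 * n.k5 * (S * P) * (T * Q)

/-- Product with `p`. -/
noncomputable def mulp (S T P Q : ℝ) (n : OForm) : OForm :=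
  let e : OForm := ⟨0, 0, 0, 0, 0, 0, 1, 0⟩
  add (smul n.k0 e) <| add (smul n.k1 (pw S T P Q 1 e)) <| add (smul n.k2 (pw S T P Q 2 e)) <|
    add (smul n.k3 (pw S T P Q 3 e)) <| add (smul n.k4 (pw S T P Q 4 e)) <|
    add (smul n.k5 (pw S T P Q 5 e)) <|
    add (smul n.kp ⟨4 * S ^ 2 * P, 0, -S, 0, 0, 0, 0, 2 * T⟩)
      (smul n.kR ⟨4 * T * Q, 4 * S * P, 0, -1, 0, 0, 0, 0⟩)

/-- Product with `R`. -/
noncomputable def mulR (S T P Q : ℝ) (n : OForm) : OForm :=
  let e : OForm := ⟨0, 0, 0, 0, 0, 0, 0, 1⟩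
  add (smul n.k0 e) <| add (smul n.k1 (pw S T P Q 1 e)) <| add (smul n.k2 (pw S T P Q 2 e)) <|
    add (smul n.k3 (pw S T P Q 3 e)) <| add (smul n.k4 (pw S T P Q 4 e)) <|
    add (smul n.k5 (pw S T P Q 5 e)) <|
    add (smul n.kp ⟨4 * T * Q, 4 * S * P, 0, -1, 0, 0, 0, 0⟩)
      (smul n.kR ⟨4 * S * P ^ 2, 0, -P, 0, 0, 0, 2 * Q, 0⟩)

/-- Product of two normal forms. -/
noncomputable def mul (S T P Q : ℝ) (n m : OForm) : OForm :=
  add (smul n.k0 m) <| add (smul n.k1 (pw S T P Q 1 m)) <| add (smul n.k2 (pw S T P Q 2 m)) <|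
    add (smul n.k3 (pw S T P Q 3 m)) <| add (smul n.k4 (pw S T P Q 4 m)) <|
    add (smul n.k5 (pw S T P Q 5 m)) <|
    add (smul n.kp (mulp S T P Q m)) (smul n.kR (mulR S T P Q m))

variable (a b x y : ℝ)

lemma val_add (n m : OForm) : (add n m).val a b x y = n.val a b x y + m.val a b x y := by
  simp only [add, val]; ring

lemma val_smul (c : ℝ) (n : OForm) : (smul c n).val a b x y = c * n.val a b x y := by
  simp only [smul, val]; ring

lemma val_mulw (n : OForm) : (mulw (sI a b) (tI a b) (sI x y) (tI x y) n).val a b x y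
    = wM a b x y * n.val a b x y := by
  simp only [mulw, val]
  linear_combination -n.kp * rel_wp a b x y - n.kR * rel_wR a b x y - n.k5 * rel_w6 a b x y

lemma val_pw (k : ℕ) (n : OForm) : (pw (sI a b) (tI a b) (sI x y) (tI x y) k n).val a b x y
    = wM a b x y ^ k * n.val a b x y := by
  induction k with
  | zero => simp [pw]
  | succ k ih => rw [pw, val_mulw, ih, pow_succ]; ring

lemma val_mulp (n : OForm) : (mulp (sI a b) (tI a b) (sI x y) (tI x y) n).val a b x y
    = pM a b x y * n.val a b x y := by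
  simp only [mulp, val_add, val_smul, val_pw]
  simp only [val]
  linear_combination -n.kp * rel_pp a b x y - n.kR * rel_pR a b x y

lemma val_mulR (n : OForm) : (mulR (sI a b) (tI a b) (sI x y) (tI x y) n).val a b x y
    = rM a b x y * n.val a b x y := by
  simp only [mulR, val_add, val_smul, val_pw]
  simp only [val]
  linear_combination -n.kp * rel_pR a b x y - n.kR * rel_RR a b x y

lemma val_mul (n m : OForm) : (mul (sI a b) (tI a b) (sI x y) (tI x y) n m).val a b x y
    = n.val a b x y * m.val a b x y := by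
  simp only [mul, val_add, val_smul, val_pw, val_mulp, val_mulR]
  simp only [val]
  ring

/-- A function given by a normal form averages to the average of that form. -/
theorem orbit_eq (f : ℝ → ℝ → ℝ) (a b c d : ℝ) (N : ℝ → ℝ → ℝ → ℝ → OForm)
    (h : ∀ x y, f x y = (N (sI a b) (tI a b) (sI x y) (tI x y)).val a b x y) :
    orbit c d f = 6 * avg (sI a b) (tI a b) (sI c d) (tI c d)
      (N (sI a b) (tI a b) (sI c d) (tI c d)) := by
  obtain ⟨s1, s2, s3, s4, s5⟩ := orbit_sI c d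
  obtain ⟨t1, t2, t3, t4, t5⟩ := orbit_tI c d
  have hf : orbit c d f
      = orbit c d (fun x y => (N (sI a b) (tI a b) (sI c d) (tI c d)).val a b x y) := by
    simp only [orbit, h, s1, s2, s3, s4, s5, t1, t2, t3, t4, t5]
  rw [hf]
  exact orbit_normal a b c d _ _ _ _ _ _ _ _

/-- Normal form of the squared distance of the joined vector. -/
noncomputable def joinS (S _T P _Q : ℝ) : OForm := ⟨S + P + S * P, 1, 0, 0, 0, 0, 1, 1⟩

/-- Normal form of the cubic invariant of the joined vector. -/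
noncomputable def joinT (S T P Q : ℝ) : OForm :=
  ⟨T + Q + 2 * T * Q + 6 * S * P, 3 / 2 * (S + P + S * P), 0, -(1 / 2), 0, 0,
    3 / 2 * (1 + P), 3 / 2 * (1 + S)⟩

end OForm

end Vale.Agent.P154
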