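import Vale.Agent.P154.UniCoord
import Vale.Agent.P154.OrbitForm

/-!
One-sided polynomial bounds for a potential of degree six after joining one child.
-/

open scoped BigOperators

namespace Vale.Agent.P154.Hinv

/-- The normal form of the same moments. -/
def conv (n : OForm) : NForm := ⟨n.k0, n.k1, n.k2, n.k3, n.k4, n.k5, n.kp, n.kR⟩

/-- Weighted sum of the two invariants of the joined vector. -/
noncomputable def joinQ (S T P Q : ℝ) : OForm :=
  OForm.add (OForm.add (OForm.joinS S T P Q) (OForm.mulw S T P Q (OForm.joinS S T P Q)))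
    (OForm.joinT S T P Q)

/-- The first numerator. -/
noncomputable def base1 (s t S T : ℝ) : NForm := conv (OForm.joinS s t S T)

/-- The second numerator. -/
noncomputable def base2 (s t S T : ℝ) : NForm := conv (joinQ s t S T)

/-- The third numerator. -/
noncomputable def base3 (s t S T : ℝ) : NForm :=
  conv (OForm.mul s t S T (OForm.joinS s t S T) (OForm.joinS s t S T))

/-- The fourth numerator. -/
noncomputable def base4 (s t S T : ℝ) : NForm :=
  conv (OForm.mul s t S T (OForm.joinS s t S T) (joinQ s t S T))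

/-- The fifth numerator. -/
noncomputable def base5 (s t S T : ℝ) : NForm :=
  conv (OForm.mul s t S T (OForm.joinT s t S T) (OForm.joinT s t S T))

/-- The combination of the five monomials `S, S + T, S ^ 2, S (S + T), T ^ 2`. -/
def comb5 (c1 c2 c3 c4 c5 s t : ℝ) : ℝ :=
  c1 * s + c2 * (s + t) + c3 * s ^ 2 + c4 * (s * (s + t)) + c5 * t ^ 2

/-- The averaged polynomial part. -/
noncomputable def avg5 (p1 p2 p3 p4 p5 : List ℝ) (s t S T : ℝ) : ℝ :=
  ((base1 s t S T).mulPoly s t S T p1).avg s t S T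
  + ((base2 s t S T).mulPoly s t S T p2).avg s t S T
  + ((base3 s t S T).mulPoly s t S T p3).avg s t S T
  + ((base4 s t S T).mulPoly s t S T p4).avg s t S T
  + ((base5 s t S T).mulPoly s t S T p5).avg s t S T

/-- A lower or an upper bound of `c / (1 + w) ^ k` on an interval. -/
def Bd (up : Bool) (wlo whi : ℝ) (k : ℕ) (c : ℝ) (p : List ℝ) : Prop :=
  ∀ w, wlo ≤ w → w ≤ whi →
    if up then c * (1 / (1 + w) ^ k) ≤ polyVal w p else polyVal w p ≤ c * (1 / (1 + w) ^ k)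

/-- The combination of the joined vector, times the weight. -/
noncomputable def joined5 (c1 c2 c3 c4 c5 a b x y : ℝ) : ℝ :=
  (1 + wM a b x y) * comb5 c1 c2 c3 c4 c5
    (sI (a + vA a b x y / (1 + wM a b x y)) (b + vB a b x y / (1 + wM a b x y)))
    (tI (a + vA a b x y / (1 + wM a b x y)) (b + vB a b x y / (1 + wM a b x y)))

section pointwise

variable (a b x y : ℝ)

lemma val_joinS :
    (OForm.joinS (sI a b) (tI a b) (sI x y) (tI x y)).val a b x y
      = sI (a * (1 + wM a b x y) + vA a b x y) (b * (1 + wM a b x y) + vB a b x y) := by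
  simp only [OForm.joinS, OForm.val, sI, wM, pM, rM, vA, vB]; ring

lemma val_joinT :
    (OForm.joinT (sI a b) (tI a b) (sI x y) (tI x y)).val a b x y
      = tI (a * (1 + wM a b x y) + vA a b x y) (b * (1 + wM a b x y) + vB a b x y) := by
  simp only [OForm.joinT, OForm.val, sI, tI, wM, pM, rM, vA, vB]; ring

lemma val_joinQ :
    (joinQ (sI a b) (tI a b) (sI x y) (tI x y)).val a b x y
      = (1 + wM a b x y) * sI (a * (1 + wM a b x y) + vA a b x y) (b * (1 + wM a b x y) + vB a b x y)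
        + tI (a * (1 + wM a b x y) + vA a b x y) (b * (1 + wM a b x y) + vB a b x y) := by
  rw [joinQ, OForm.val_add, OForm.val_add, OForm.val_mulw, val_joinS, val_joinT]; ring

lemma ev_conv (n : OForm) :
    (conv n).ev (wM a b x y) (pM a b x y) (rM a b x y) = n.val a b x y := rfl

lemma sI_scale {Z : ℝ} (hZ : Z ≠ 0) (u v : ℝ) :
    sI (a + u / Z) (b + v / Z) = sI (a * Z + u) (b * Z + v) / Z ^ 2 := by
  simp only [sI]; field_simp

lemma tI_scale {Z : ℝ} (hZ : Z ≠ 0) (u v : ℝ) :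
    tI (a + u / Z) (b + v / Z) = tI (a * Z + u) (b * Z + v) / Z ^ 3 := by
  simp only [tI]; field_simp

/-- The numerators and their signs. -/
lemma numerators (h : Dom (a + vA a b x y / (1 + wM a b x y)) (b + vB a b x y / (1 + wM a b x y)))
    (hZ : 0 < 1 + wM a b x y) :
    let s := sI a b; let t := tI a b; let S := sI x y; let T := tI x y
    let w := wM a b x y; let p := pM a b x y; let R := rM a b x y
    let N1 := (base1 s t S T).ev w p R; let N2 := (base2 s t S T).ev w p R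
    let N3 := (base3 s t S T).ev w p R; let N4 := (base4 s t S T).ev w p R
    let N5 := (base5 s t S T).ev w p R
    (0 ≤ N1 ∧ 0 ≤ N2 ∧ 0 ≤ N3 ∧ 0 ≤ N4 ∧ 0 ≤ N5) ∧
      ∀ c1 c2 c3 c4 c5, joined5 c1 c2 c3 c4 c5 a b x y
        = c1 * (1 / (1 + w) ^ 1) * N1 + c2 * (1 / (1 + w) ^ 2) * N2 + c3 * (1 / (1 + w) ^ 3) * N3
          + c4 * (1 / (1 + w) ^ 4) * N4 + c5 * (1 / (1 + w) ^ 5) * N5 := by
  intro s t S T w p R N1 N2 N3 N4 N5
  obtain ⟨h0, h1, hts, -⟩ := h.inv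
  simp only [N1, N2, N3, N4, N5, base1, base2, base3, base4, base5, ev_conv, s, t, S, T, w, p, R,
    OForm.val_mul, val_joinS, val_joinT, val_joinQ, joined5, comb5, sI_scale a b hZ.ne',
    tI_scale a b hZ.ne'] at *
  set Z := 1 + wM a b x y with hZdef
  set u := sI (a * Z + vA a b x y) (b * Z + vB a b x y)
  set v := tI (a * Z + vA a b x y) (b * Z + vB a b x y)
  have hu : 0 ≤ u := sI_nonneg _ _
  have habs : |v / Z ^ 3| ≤ u / Z ^ 2 := by
    refine abs_le_of_sq_le_sq ?_ h0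
    exact hts.trans (pow_le_pow_of_le_one h0 h1 (by norm_num))
  have hq : 0 ≤ Z * u + v := by
    have h2 : 0 ≤ (u / Z ^ 2 + v / Z ^ 3) * Z ^ 3 :=
      mul_nonneg (by linarith [(abs_le.mp habs).1]) (by positivity)
    have e : (u / Z ^ 2 + v / Z ^ 3) * Z ^ 3 = Z * u + v := by
      field_simp
    linarith
  refine ⟨⟨hu, hq, mul_nonneg hu hu, mul_nonneg hu hq, mul_self_nonneg _⟩, fun c1 c2 c3 c4 c5 => ?_⟩
  field_simp
  all_goals ring

end pointwise

/-- The combined vector of two points of the domain. -/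
lemma dom_joined {a b c d : ℝ} (hx : Dom a b) (hy : Dom c d) (hZ : 0 < 1 + wM a b c d) :
    Dom (a + vA a b c d / (1 + wM a b c d)) (b + vB a b c d / (1 + wM a b c d)) := by
  set Z := 1 + wM a b c d with hZdef
  have ea : a + vA a b c d / Z = (1 + a) * (1 + c) / Z - 1 := by
    simp only [vA]; field_simp; rw [hZdef]; ring
  have eb : b + vB a b c d / Z = (1 + b) * (1 + d) / Z - 1 := by
    simp only [vB]; field_simp; rw [hZdef]; ring
  have e3 : (1 - a - b) * (1 - c - d) / Z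
      = 3 - (1 + a) * (1 + c) / Z - (1 + b) * (1 + d) / Z := by
    field_simp; rw [hZdef]; simp only [wM]; ring
  rw [ea, eb]
  refine ⟨?_, ?_, ?_⟩
  · have : 0 ≤ (1 + a) * (1 + c) / Z :=
      div_nonneg (mul_nonneg (by linarith [hx.h0]) (by linarith [hy.h0])) hZ.le
    linarith
  · have : 0 ≤ (1 + b) * (1 + d) / Z :=
      div_nonneg (mul_nonneg (by linarith [hx.h1]) (by linarith [hy.h1])) hZ.le
    linarith
  · have : 0 ≤ (1 - a - b) * (1 - c - d) / Z :=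
      div_nonneg (mul_nonneg (by linarith [hx.h2]) (by linarith [hy.h2])) hZ.le
    linarith

/-- The image of a point of the domain. -/
lemma dom_img {c d l : ℝ} (h : Dom c d) (hl : -(1 / 2) ≤ l) (hu : l ≤ 1) :
    Dom (l * c) (l * d) := by
  obtain ⟨h0, h1, h2⟩ := h
  rcases le_total 0 l with hl' | hl' <;> refine ⟨?_, ?_, ?_⟩ <;> nlinarith

/-- The orbit of the joined combination against its averaged polynomial bound. -/
theorem orbit_bound {up : Bool} {c1 c2 c3 c4 c5 : ℝ} {p1 p2 p3 p4 p5 : List ℝ}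
    {l wlo whi : ℝ} (hl : -(1 / 2) ≤ l) (hl1 : l ≤ 1)
    (hrange : ∀ x, -1 ≤ x → x ≤ 2 → wlo ≤ l * x ∧ l * x ≤ whi) (hpos : -1 < wlo)
    (b1 : Bd up wlo whi 1 c1 p1) (b2 : Bd up wlo whi 2 c2 p2) (b3 : Bd up wlo whi 3 c3 p3)
    (b4 : Bd up wlo whi 4 c4 p4) (b5 : Bd up wlo whi 5 c5 p5)
    {a b z z' : ℝ} (hx : Dom a b) (hz : Dom z z') :
    if up then orbit z z' (fun x y => joined5 c1 c2 c3 c4 c5 a b (l * x) (l * y))
        ≤ 6 * avg5 p1 p2 p3 p4 p5 (sI a b) (tI a b) (l ^ 2 * sI z z') (l ^ 3 * tI z z')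
      else 6 * avg5 p1 p2 p3 p4 p5 (sI a b) (tI a b) (l ^ 2 * sI z z') (l ^ 3 * tI z z')
        ≤ orbit z z' (fun x y => joined5 c1 c2 c3 c4 c5 a b (l * x) (l * y)) := by
  have eS : ∀ x y, sI (l * x) (l * y) = l ^ 2 * sI x y := fun x y => by simp only [sI]; ring
  have eT : ∀ x y, tI (l * x) (l * y) = l ^ 3 * tI x y := fun x y => by simp only [tI]; ring
  have eW : ∀ x y, wM a b (l * x) (l * y) = l * wM a b x y := fun x y => by simp only [wM]; ring
  set c := l * z with hc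
  set d := l * z' with hd
  let Bs : List NForm :=
    [((base1 (sI a b) (tI a b) (sI c d) (tI c d)).mulPoly (sI a b) (tI a b) (sI c d) (tI c d) p1),
     ((base2 (sI a b) (tI a b) (sI c d) (tI c d)).mulPoly (sI a b) (tI a b) (sI c d) (tI c d) p2),
     ((base3 (sI a b) (tI a b) (sI c d) (tI c d)).mulPoly (sI a b) (tI a b) (sI c d) (tI c d) p3),
     ((base4 (sI a b) (tI a b) (sI c d) (tI c d)).mulPoly (sI a b) (tI a b) (sI c d) (tI c d) p4),
     ((base5 (sI a b) (tI a b) (sI c d) (tI c d)).mulPoly (sI a b) (tI a b) (sI c d) (tI c d) p5)]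
  let G : ℝ → ℝ → ℝ := fun u v => (Bs.map fun K => K.ev (wM a b u v) (pM a b u v) (rM a b u v)).sum
  have hstep : ∀ x y, Dom x y → sI (l * x) (l * y) = sI c d → tI (l * x) (l * y) = tI c d →
      if up then joined5 c1 c2 c3 c4 c5 a b (l * x) (l * y) ≤ G (l * x) (l * y)
        else G (l * x) (l * y) ≤ joined5 c1 c2 c3 c4 c5 a b (l * x) (l * y) := fun x y hxy es et => by
    have hp := hx.pairing hxy
    have hw := hrange _ hp.1 hp.2
    have hZ : 0 < 1 + wM a b (l * x) (l * y) := by rw [eW]; linarith [hw.1]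
    obtain ⟨⟨n1, n2, n3, n4, n5⟩, hj⟩ := numerators a b (l * x) (l * y)
      (dom_joined hx (dom_img hxy hl hl1) hZ) hZ
    have H := rels a b (l * x) (l * y)
    rw [← eW] at hw
    have q1 := b1 _ hw.1 hw.2
    have q2 := b2 _ hw.1 hw.2
    have q3 := b3 _ hw.1 hw.2
    have q4 := b4 _ hw.1 hw.2
    have q5 := b5 _ hw.1 hw.2
    simp only [G, Bs, List.map_cons, List.map_nil, List.sum_cons, List.sum_nil, ← es, ← et,
      ev_mulPoly H, hj, add_zero]
    cases up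
    · simp only [Bool.false_eq_true, if_false] at q1 q2 q3 q4 q5 ⊢
      linarith [mul_le_mul_of_nonneg_right q1 n1, mul_le_mul_of_nonneg_right q2 n2,
        mul_le_mul_of_nonneg_right q3 n3, mul_le_mul_of_nonneg_right q4 n4,
        mul_le_mul_of_nonneg_right q5 n5]
    · simp only [if_true] at q1 q2 q3 q4 q5 ⊢
      linarith [mul_le_mul_of_nonneg_right q1 n1, mul_le_mul_of_nonneg_right q2 n2,
        mul_le_mul_of_nonneg_right q3 n3, mul_le_mul_of_nonneg_right q4 n4,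
        mul_le_mul_of_nonneg_right q5 n5]
  have hG : orbit c d G = 6 * avg5 p1 p2 p3 p4 p5 (sI a b) (tI a b) (sI c d) (tI c d) := by
    simp only [avg5, mul_add, ← orbit_ev]
    simp only [orbit, G, Bs, List.map_cons, List.map_nil, List.sum_cons, List.sum_nil]
    ring
  have hflip : ∀ F : ℝ → ℝ → ℝ,
      orbit z z' (fun x y => F (l * x) (l * y)) = orbit c d F := fun F => by
    simp only [orbit, hc, hd, mul_sub, mul_neg]
  obtain ⟨s1, s2, s3, s4, s5⟩ := orbit_sI z z'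
  obtain ⟨t1, t2, t3, t4, t5⟩ := orbit_tI z z'
  have q0 := hstep z z' hz rfl rfl
  have q1 := hstep z' (-z - z') ⟨hz.h1, by linarith [hz.h2], by linarith [hz.h0]⟩
    (by rw [eS, s1, eS]) (by rw [eT, t1, eT])
  have q2 := hstep (-z - z') z ⟨by linarith [hz.h2], hz.h0, by linarith [hz.h1]⟩
    (by rw [eS, s2, eS]) (by rw [eT, t2, eT])
  have q3 := hstep z' z ⟨hz.h1, hz.h0, by linarith [hz.h2]⟩ (by rw [eS, s3, eS]) (by rw [eT, t3, eT])
  have q4 := hstep z (-z - z') ⟨hz.h0, by linarith [hz.h2], by linarith [hz.h1]⟩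
    (by rw [eS, s4, eS]) (by rw [eT, t4, eT])
  have q5 := hstep (-z - z') z' ⟨by linarith [hz.h2], hz.h1, by linarith [hz.h0]⟩
    (by rw [eS, s5, eS]) (by rw [eT, t5, eT])
  have e2 := hflip G
  rw [← eS, ← eT, ← hG, ← e2]
  clear hG e2 hflip
  cases up
  · simp only [Bool.false_eq_true, if_false] at q0 q1 q2 q3 q4 q5 ⊢
    simp only [orbit]
    linarith
  · simp only [if_true] at q0 q1 q2 q3 q4 q5 ⊢
    simp only [orbit]
    linarith

/-- Scaled integer normal forms evaluate to the averaged part. -/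
lemma avg5_eq {B1 B2 B3 B4 B5 : Uni.R8} {c1 c2 c3 c4 c5 : List ℤ}
    {l : List (ℤ × ℕ × ℕ × ℕ × ℕ)} {a e : ℝ} (he : e ≠ 0) (s t S T : ℝ)
    (h1 : B1.val (Uni.v4 s t S T) = Uni.scaleN a (base1 s t S T))
    (h2 : B2.val (Uni.v4 s t S T) = Uni.scaleN a (base2 s t S T))
    (h3 : B3.val (Uni.v4 s t S T) = Uni.scaleN a (base3 s t S T))
    (h4 : B4.val (Uni.v4 s t S T) = Uni.scaleN a (base4 s t S T))
    (h5 : B5.val (Uni.v4 s t S T) = Uni.scaleN a (base5 s t S T))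
    (hc : Uni.avgCheck B1 B2 B3 B4 B5 c1 c2 c3 c4 c5 l = true) :
    a * e * avg5 (Uni.pR e c1) (Uni.pR e c2) (Uni.pR e c3) (Uni.pR e c4) (Uni.pR e c5) s t S T
      = Uni.val4 s t S T l := by
  simp only [Uni.avgCheck, Uni.mulPolyK_eq] at hc
  have h := Uni.ev_eq_zero_of_isZero 4 _ hc (Uni.v4 s t S T)
  simp only [Bern.ev_add, Bern.ev_smul, Uni.ev_ofList, Uni.ev_avgR (Uni.val_mulPolyR he h1 c1),
    Uni.ev_avgR (Uni.val_mulPolyR he h2 c2), Uni.ev_avgR (Uni.val_mulPolyR he h3 c3),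
    Uni.ev_avgR (Uni.val_mulPolyR he h4 c4), Uni.ev_avgR (Uni.val_mulPolyR he h5 c5)] at h
  simp only [avg5]
  push_cast at h
  linarith

/-- A monomial list with the variables rescaled by the fractions `n / d`, up to the exponents `N`. -/
def scl (n d : ℤ × ℤ × ℤ × ℤ) (N : ℕ × ℕ × ℕ × ℕ) :
    List (ℤ × ℕ × ℕ × ℕ × ℕ) → List (ℤ × ℕ × ℕ × ℕ × ℕ)
  | [] => []
  | (e, i, j, k, m) :: r =>
    (e * (n.1 ^ i * d.1 ^ (N.1 - i)) * (n.2.1 ^ j * d.2.1 ^ (N.2.1 - j))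
      * (n.2.2.1 ^ k * d.2.2.1 ^ (N.2.2.1 - k)) * (n.2.2.2 ^ m * d.2.2.2 ^ (N.2.2.2 - m)),
      i, j, k, m) :: scl n d N r

/-- The exponents are within the bounds. -/
def within (N : ℕ × ℕ × ℕ × ℕ) (l : List (ℤ × ℕ × ℕ × ℕ × ℕ)) : Bool :=
  l.all fun x => decide (x.2.1 ≤ N.1) && decide (x.2.2.1 ≤ N.2.1)
    && decide (x.2.2.2.1 ≤ N.2.2.1) && decide (x.2.2.2.2 ≤ N.2.2.2)

lemma scale_pow {n d : ℤ} (hd : d ≠ 0) {i N : ℕ} (h : i ≤ N) (x : ℝ) :
    ((n : ℝ) / d * x) ^ i * (d : ℝ) ^ N = ((n ^ i * d ^ (N - i) : ℤ) : ℝ) * x ^ i := by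
  have hd' : (d : ℝ) ≠ 0 := Int.cast_ne_zero.mpr hd
  have e : (d : ℝ) ^ N = (d : ℝ) ^ i * (d : ℝ) ^ (N - i) := by rw [← pow_add, Nat.add_sub_cancel' h]
  push_cast
  rw [e, mul_pow, div_pow]
  field_simp

lemma val4_scl {n1 n2 n3 n4 d1 d2 d3 d4 : ℤ} {N1 N2 N3 N4 : ℕ} (h1 : d1 ≠ 0) (h2 : d2 ≠ 0)
    (h3 : d3 ≠ 0) (h4 : d4 ≠ 0) (a b c d : ℝ) : ∀ l, within (N1, N2, N3, N4) l = true →
    Uni.val4 ((n1 : ℝ) / d1 * a) ((n2 : ℝ) / d2 * b) ((n3 : ℝ) / d3 * c) ((n4 : ℝ) / d4 * d) l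
      * ((d1 : ℝ) ^ N1 * (d2 : ℝ) ^ N2 * (d3 : ℝ) ^ N3 * (d4 : ℝ) ^ N4)
      = Uni.val4 a b c d (scl (n1, n2, n3, n4) (d1, d2, d3, d4) (N1, N2, N3, N4) l)
  | [], _ => zero_mul _
  | (e, i, j, k, m) :: r, h => by
    simp only [within, List.all_cons, Bool.and_eq_true, decide_eq_true_eq] at h
    obtain ⟨⟨⟨⟨hi, hj⟩, hk⟩, hm⟩, hr⟩ := h
    simp only [Uni.val4, scl, ← val4_scl h1 h2 h3 h4 a b c d r hr]
    have q1 := scale_pow (n := n1) h1 hi a
    have q2 := scale_pow (n := n2) h2 hj b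
    have q3 := scale_pow (n := n3) h3 hk c
    have q4 := scale_pow (n := n4) h4 hm d
    push_cast at q1 q2 q3 q4 ⊢
    generalize (((n1 : ℝ) / d1 * a) ^ i) = A at q1 ⊢
    generalize (((n2 : ℝ) / d2 * b) ^ j) = B at q2 ⊢
    generalize (((n3 : ℝ) / d3 * c) ^ k) = C at q3 ⊢
    generalize (((n4 : ℝ) / d4 * d) ^ m) = D at q4 ⊢
    linear_combination (e : ℝ) * (B * (d2 : ℝ) ^ N2) * (C * (d3 : ℝ) ^ N3) * (D * (d4 : ℝ) ^ N4) * q1
      + (e : ℝ) * ((n1 : ℝ) ^ i * (d1 : ℝ) ^ (N1 - i) * a ^ i) * (C * (d3 : ℝ) ^ N3)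
          * (D * (d4 : ℝ) ^ N4) * q2
      + (e : ℝ) * ((n1 : ℝ) ^ i * (d1 : ℝ) ^ (N1 - i) * a ^ i)
          * ((n2 : ℝ) ^ j * (d2 : ℝ) ^ (N2 - j) * b ^ j) * (D * (d4 : ℝ) ^ N4) * q3
      + (e : ℝ) * ((n1 : ℝ) ^ i * (d1 : ℝ) ^ (N1 - i) * a ^ i)
          * ((n2 : ℝ) ^ j * (d2 : ℝ) ^ (N2 - j) * b ^ j)
          * ((n3 : ℝ) ^ k * (d3 : ℝ) ^ (N3 - k) * c ^ k) * q4

/-- The monomials of grouped data, the third exponent of a group being unused. -/
def flat : List ((ℕ × ℕ × ℕ) × List (ℤ × ℕ × ℕ)) → List (ℤ × ℕ × ℕ × ℕ × ℕ)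
  | [] => []
  | ((k, m, _), l) :: r => l.map (fun x => (x.1, x.2.1, x.2.2, k, m)) ++ flat r

lemma val4_append (a b c d : ℝ) : ∀ l l',
    Uni.val4 a b c d (l ++ l') = Uni.val4 a b c d l + Uni.val4 a b c d l'
  | [], l' => by simp [Uni.val4]
  | (e, i, j, k, m) :: r, l' => by
    simp only [List.cons_append, Uni.val4, val4_append a b c d r l']; ring

lemma val4_flat (p q p' q' : ℝ) : ∀ z, (z.all fun g => decide (g.1.2.2 = 0)) = true →
    Uni.val4 p q p' q' (flat z) = Uni.valZ p q p' q' 0 z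
  | [], _ => rfl
  | ((k, m, e), l) :: r, h => by
    simp only [List.all_cons, Bool.and_eq_true, decide_eq_true_eq] at h
    obtain ⟨rfl, hr⟩ := h
    simp only [flat, val4_append, Uni.valZ, val4_flat p q p' q' r hr, pow_zero, mul_one]
    congr 1
    induction l with
    | nil => simp [Uni.val4, Uni.valA]
    | cons x l ih =>
      obtain ⟨c, i, j⟩ := x
      simp only [List.map_cons, Uni.val4, Uni.valA, ih]
      ring

/-- An identity between scaled data and grouped data, tested on coefficients. -/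
def idCheck (k1 k3 : ℤ) (n d : ℤ × ℤ × ℤ × ℤ) (N : ℕ × ℕ × ℕ × ℕ)
    (l extra : List (ℤ × ℕ × ℕ × ℕ × ℕ)) (z : List ((ℕ × ℕ × ℕ) × List (ℤ × ℕ × ℕ))) : Bool :=
  within N l && (z.all fun g => decide (g.1.2.2 = 0)) &&
    Uni.isZero 4 (Bern.add 4 (Uni.ofList extra)
      (Bern.add 4 (Bern.smul 4 k1 (Uni.ofList (scl n d N l)))
        (Bern.smul 4 k3 (Uni.ofList (flat z)))))

lemma val_of_idCheck {k1 k3 n1 n2 n3 n4 d1 d2 d3 d4 : ℤ} {N1 N2 N3 N4 : ℕ}
    {l extra : List (ℤ × ℕ × ℕ × ℕ × ℕ)} {z : List ((ℕ × ℕ × ℕ) × List (ℤ × ℕ × ℕ))}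
    (h1 : d1 ≠ 0) (h2 : d2 ≠ 0) (h3 : d3 ≠ 0) (h4 : d4 ≠ 0)
    (h : idCheck k1 k3 (n1, n2, n3, n4) (d1, d2, d3, d4) (N1, N2, N3, N4) l extra z = true)
    (a b c d : ℝ) :
    Uni.val4 a b c d extra + (k1 : ℝ) *
      (Uni.val4 ((n1 : ℝ) / d1 * a) ((n2 : ℝ) / d2 * b) ((n3 : ℝ) / d3 * c) ((n4 : ℝ) / d4 * d) l
        * ((d1 : ℝ) ^ N1 * (d2 : ℝ) ^ N2 * (d3 : ℝ) ^ N3 * (d4 : ℝ) ^ N4))
      + (k3 : ℝ) * Uni.valZ a b c d 0 z = 0 := by
  simp only [idCheck, Bool.and_eq_true] at h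
  have e := Uni.ev_eq_zero_of_isZero 4 _ h.2 (Uni.v4 a b c d)
  simp only [Bern.ev_add, Bern.ev_smul, Uni.ev_ofList] at e
  rw [val4_flat a b c d z h.1.2] at e
  rw [val4_scl h1 h2 h3 h4 a b c d l h.1.1]
  linarith

/-- A one-sided bound from a nonnegative quotient. -/
lemma bd_up_of {k : ℕ} {c e M : ℝ} {cs : List ℤ} {u : List ℤ} {wlo whi : ℝ} (hwlo : -1 < wlo)
    (hlt : wlo < whi) (hu : Bern.Good 1 [] (Uni.uni u)) (hM : 0 < M) (sign : Bool)
    (hG : ∀ x, (if sign then (1 : ℝ) else -1) * ((1 + (wlo + (whi - wlo) * x)) ^ k *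
        polyVal (wlo + (whi - wlo) * x) (Uni.pR e cs) - c)
      = (wlo + (whi - wlo) * x) ^ 2 * (Uni.val1 x u / M)) :
    Bd sign wlo whi k c (Uni.pR e cs) := by
  intro w hw0 hw1
  set x := (w - wlo) / (whi - wlo) with hx
  have hd : 0 < whi - wlo := by linarith
  have ew : wlo + (whi - wlo) * x = w := by rw [hx]; field_simp; ring
  have hx0 : 0 ≤ x := div_nonneg (by linarith) hd.le
  have hx1 : x ≤ 1 := by rw [hx, div_le_one hd]; linarith
  have h := hG x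
  rw [ew] at h
  have hn : 0 ≤ w ^ 2 * (Uni.val1 x u / M) :=
    mul_nonneg (sq_nonneg _) (div_nonneg (Uni.val1_nonneg hu hx0 hx1) hM.le)
  have hp : 0 < (1 + w) ^ k := pow_pos (by linarith) k
  cases sign
  · simp only [Bool.false_eq_true, if_false] at h ⊢
    rw [mul_one_div, le_div_iff₀ hp]; linarith
  · simp only [if_true] at h ⊢
    rw [mul_one_div, div_le_iff₀ hp]; linarith

/-- The trivial bound. -/
lemma bd_zero (sign : Bool) (wlo whi : ℝ) (k : ℕ) (e : ℝ) : Bd sign wlo whi k 0 (Uni.pR e []) := by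
  intro w _ _
  cases sign <;> simp [Uni.pR, polyVal]

end Vale.Agent.P154.Hinv
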