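import Vale.Agent.P154.HinvDataA
import Vale.Agent.P154.HinvDataB

/-!
Generated data: normal forms, one-sided bounds and averaged parts.
-/
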