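import Vale.Agent.P154.HinvAlg

/-!
Generated data: normal forms of the basic monomials.
-/

namespace Vale.Agent.P154.Hinv

open Bern

/-- The scaled numerator 1. -/
def base1R : Uni.R8 := Uni.R8.mk'
  [(4, 0, 0, 1, 0), (4, 1, 0, 0, 0), (4, 1, 0, 1, 0)]
  [(4, 0, 0, 0, 0)]
  []
  []
  []
  []
  [(4, 0, 0, 0, 0)]
  [(4, 0, 0, 0, 0)]

lemma base1R_eq (s t S T : ℝ) :
    base1R.val (Uni.v4 s t S T) = Uni.scaleN (4 : ℝ) (base1 s t S T) := by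
  simp only [base1R, Uni.R8.val, Uni.R8.mk', Uni.ev_ofList, Uni.val4, Uni.scaleN, base1, conv,
    joinQ, OForm.joinS, OForm.joinT, OForm.add, OForm.mul, OForm.mulw, OForm.mulp, OForm.mulR, OForm.pw, OForm.smul,
    NForm.mk.injEq]
  push_cast
  and_intros <;> ring

/-- The scaled numerator 2. -/
def base2R : Uni.R8 := Uni.R8.mk'
  [(4, 0, 0, 0, 1), (4, 0, 0, 1, 0), (4, 0, 1, 0, 0), (8, 0, 1, 0, 1), (8, 0, 1, 1, 0),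
    (4, 1, 0, 0, 0), (8, 1, 0, 0, 1), (28, 1, 0, 1, 0)]
  [(4, 0, 0, 0, 0), (10, 0, 0, 1, 0), (10, 1, 0, 0, 0), (10, 1, 0, 1, 0)]
  [(4, 0, 0, 0, 0)]
  [((-2), 0, 0, 0, 0)]
  []
  []
  [(10, 0, 0, 0, 0), (10, 0, 0, 1, 0)]
  [(10, 0, 0, 0, 0), (10, 1, 0, 0, 0)]

lemma base2R_eq (s t S T : ℝ) :
    base2R.val (Uni.v4 s t S T) = Uni.scaleN (4 : ℝ) (base2 s t S T) := by
  simp only [base2R, Uni.R8.val, Uni.R8.mk', Uni.ev_ofList, Uni.val4, Uni.scaleN, base2, conv,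
    joinQ, OForm.joinS, OForm.joinT, OForm.add, OForm.mul, OForm.mulw, OForm.mulp, OForm.mulR, OForm.pw, OForm.smul,
    NForm.mk.injEq]
  push_cast
  and_intros <;> ring

/-- The scaled numerator 3. -/
def base3R : Uni.R8 := Uni.R8.mk'
  [(4, 0, 0, 2, 0), (32, 0, 1, 0, 1), (16, 0, 1, 1, 0), (16, 1, 0, 0, 1), (8, 1, 0, 1, 0),
    (24, 1, 0, 2, 0), (4, 2, 0, 0, 0), (24, 2, 0, 1, 0), (4, 2, 0, 2, 0)]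
  [(8, 0, 0, 1, 0), (8, 1, 0, 0, 0), (40, 1, 0, 1, 0)]
  [(4, 0, 0, 0, 0), ((-4), 0, 0, 1, 0), ((-4), 1, 0, 0, 0)]
  [((-8), 0, 0, 0, 0)]
  []
  []
  [(8, 0, 0, 0, 1), (16, 0, 0, 1, 0), (8, 1, 0, 0, 0), (8, 1, 0, 1, 0)]
  [(8, 0, 0, 1, 0), (8, 0, 1, 0, 0), (16, 1, 0, 0, 0), (8, 1, 0, 1, 0)]

lemma base3R_eq (s t S T : ℝ) :
    base3R.val (Uni.v4 s t S T) = Uni.scaleN (4 : ℝ) (base3 s t S T) := by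
  simp only [base3R, Uni.R8.val, Uni.R8.mk', Uni.ev_ofList, Uni.val4, Uni.scaleN, base3, conv,
    joinQ, OForm.joinS, OForm.joinT, OForm.add, OForm.mul, OForm.mulw, OForm.mulp, OForm.mulR, OForm.pw, OForm.smul,
    NForm.mk.injEq]
  push_cast
  and_intros <;> ring

/-- The scaled numerator 4. -/
def base4R : Uni.R8 := Uni.R8.mk'
  [(4, 0, 0, 1, 1), (4, 0, 0, 2, 0), (80, 0, 1, 0, 1), (32, 0, 1, 1, 0), (48, 0, 1, 1, 1),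
    (56, 0, 1, 2, 0), (32, 1, 0, 0, 1), (8, 1, 0, 1, 0), (32, 1, 0, 1, 1), (72, 1, 0, 2, 0),
    (4, 1, 1, 0, 0), (48, 1, 1, 0, 1), (32, 1, 1, 1, 0), (8, 1, 1, 1, 1), (24, 1, 1, 2, 0),
    (4, 2, 0, 0, 0), (56, 2, 0, 0, 1), (72, 2, 0, 1, 0), (24, 2, 0, 1, 1), (108, 2, 0, 2, 0)]
  [(4, 0, 0, 0, 1), (8, 0, 0, 1, 0), (10, 0, 0, 2, 0), (4, 0, 1, 0, 0), (8, 0, 1, 0, 1),
    (16, 0, 1, 1, 0), ((-4), 0, 1, 2, 0), (8, 1, 0, 0, 0), (16, 1, 0, 0, 1), (132, 1, 0, 1, 0),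
    (60, 1, 0, 2, 0), (10, 2, 0, 0, 0), ((-4), 2, 0, 0, 1), (60, 2, 0, 1, 0), (10, 2, 0, 2, 0)]
  [(4, 0, 0, 0, 0), (4, 0, 0, 1, 0), ((-4), 0, 1, 1, 0), (4, 1, 0, 0, 0), ((-4), 1, 0, 0, 1),
    ((-6), 1, 0, 1, 0)]
  [((-16), 0, 0, 0, 0), ((-12), 0, 0, 1, 0), ((-12), 1, 0, 0, 0), ((-2), 1, 0, 1, 0)]
  [((-2), 0, 0, 0, 0)]
  []
  [(24, 0, 0, 0, 1), (28, 0, 0, 1, 0), (20, 0, 0, 2, 0), (4, 0, 1, 0, 0), (8, 0, 1, 0, 1),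
    (8, 0, 1, 1, 0), (14, 1, 0, 0, 0), (28, 1, 0, 0, 1), (72, 1, 0, 1, 0), (18, 1, 0, 2, 0)]
  [(4, 0, 0, 0, 1), (14, 0, 0, 1, 0), (24, 0, 1, 0, 0), (8, 0, 1, 0, 1), (28, 0, 1, 1, 0),
    (28, 1, 0, 0, 0), (8, 1, 0, 0, 1), (72, 1, 0, 1, 0), (20, 2, 0, 0, 0), (18, 2, 0, 1, 0)]

lemma base4R_eq (s t S T : ℝ) :
    base4R.val (Uni.v4 s t S T) = Uni.scaleN (4 : ℝ) (base4 s t S T) := by
  simp only [base4R, Uni.R8.val, Uni.R8.mk', Uni.ev_ofList, Uni.val4, Uni.scaleN, base4, conv,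
    joinQ, OForm.joinS, OForm.joinT, OForm.add, OForm.mul, OForm.mulw, OForm.mulp, OForm.mulR, OForm.pw, OForm.smul,
    NForm.mk.injEq]
  push_cast
  and_intros <;> ring

/-- The scaled numerator 5. -/
def base5R : Uni.R8 := Uni.R8.mk'
  [(4, 0, 0, 0, 2), (80, 0, 1, 0, 1), (16, 0, 1, 0, 2), (72, 0, 1, 1, 1), (36, 0, 1, 2, 0),
    (36, 0, 1, 3, 0), (4, 0, 2, 0, 0), (16, 0, 2, 0, 1), (16, 0, 2, 0, 2), ((-4), 0, 2, 3, 0),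
    (84, 1, 0, 1, 1), (36, 1, 0, 2, 0), (72, 1, 1, 0, 1), (84, 1, 1, 1, 0), (168, 1, 1, 1, 1),
    (60, 1, 1, 2, 0), (24, 1, 1, 3, 0), (36, 2, 0, 0, 1), (36, 2, 0, 1, 0), (60, 2, 0, 1, 1),
    (288, 2, 0, 2, 0), (36, 2, 0, 3, 0), (36, 3, 0, 0, 1), ((-4), 3, 0, 0, 2), (24, 3, 0, 1, 1),
    (36, 3, 0, 2, 0), (4, 3, 0, 3, 0)]
  [(12, 0, 0, 1, 1), (12, 0, 1, 1, 0), (24, 0, 1, 1, 1), ((-12), 0, 1, 2, 0), (12, 1, 0, 0, 1),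
    (72, 1, 0, 1, 0), (12, 1, 0, 1, 1), (144, 1, 0, 2, 0), (12, 1, 1, 0, 0), (24, 1, 1, 0, 1),
    (12, 1, 1, 1, 0), (12, 1, 1, 1, 1), ((-12), 1, 1, 2, 0), ((-12), 2, 0, 0, 1),
    (144, 2, 0, 1, 0), ((-12), 2, 0, 1, 1), (144, 2, 0, 2, 0)]
  [((-9), 0, 0, 1, 0), (9, 0, 0, 2, 0), ((-12), 0, 1, 1, 0), ((-12), 0, 1, 2, 0),
    ((-9), 1, 0, 0, 0), ((-12), 1, 0, 0, 1), ((-18), 1, 0, 1, 0), (9, 1, 0, 2, 0), (9, 2, 0, 0, 0),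
    ((-12), 2, 0, 0, 1), (9, 2, 0, 1, 0)]
  [((-18), 0, 0, 0, 0), ((-4), 0, 0, 0, 1), ((-18), 0, 0, 1, 0), ((-4), 0, 1, 0, 0),
    ((-4), 0, 1, 0, 1), ((-18), 1, 0, 0, 0), ((-42), 1, 0, 1, 0)]
  [((-6), 0, 0, 1, 0), ((-6), 1, 0, 0, 0)]
  []
  [(30, 0, 0, 0, 1), (12, 0, 0, 1, 1), (18, 0, 0, 2, 0), (12, 0, 1, 0, 0), (24, 0, 1, 0, 1),
    (12, 0, 1, 1, 0), (24, 0, 1, 1, 1), (36, 1, 0, 0, 1), (90, 1, 0, 1, 0), (102, 1, 0, 2, 0),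
    (18, 2, 0, 0, 1), (18, 2, 0, 1, 0), (12, 2, 0, 2, 0)]
  [(12, 0, 0, 0, 1), (30, 0, 1, 0, 0), (24, 0, 1, 0, 1), (36, 0, 1, 1, 0), (18, 0, 1, 2, 0),
    (12, 1, 0, 0, 1), (90, 1, 0, 1, 0), (18, 1, 0, 2, 0), (12, 1, 1, 0, 0), (24, 1, 1, 0, 1),
    (18, 2, 0, 0, 0), (102, 2, 0, 1, 0), (12, 2, 0, 2, 0)]

lemma base5R_eq (s t S T : ℝ) :
    base5R.val (Uni.v4 s t S T) = Uni.scaleN (4 : ℝ) (base5 s t S T) := by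
  simp only [base5R, Uni.R8.val, Uni.R8.mk', Uni.ev_ofList, Uni.val4, Uni.scaleN, base5, conv,
    joinQ, OForm.joinS, OForm.joinT, OForm.add, OForm.mul, OForm.mulw, OForm.mulp, OForm.mulR, OForm.pw, OForm.smul,
    NForm.mk.injEq]
  push_cast
  and_intros <;> ring

end Vale.Agent.P154.Hinv
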