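import Vale.Agent.P154.UniPack

/-!
The packed nonnegativity test written with recursors and forward accumulation, which the kernel
evaluates faster, and its agreement with the test proved sound.
-/

namespace Vale.Agent.P154.Pack

open Bern

/-- The homogenised value of the values of a list, accumulated forwards. -/
noncomputable def horA {α : Type} (g : α → ℤ) (l w : ℕ) (L : List α) : ℤ → ℕ → ℤ :=
  List.rec (motive := fun _ => ℤ → ℕ → ℤ) (fun acc _ => acc)
    (fun c _ ih acc lp =>
      ih (Int.add (Int.mul acc (Int.ofNat w)) (Int.mul (g c) (Int.ofNat lp))) (Nat.mul lp l)) L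

/-- The same with the multiplier shifted by one, so that the intermediate numbers do not all share
their low bits when those of `l` vanish. -/
noncomputable def horS {α : Type} (g : α → ℤ) (l w : ℕ) (L : List α) : ℤ → ℕ → ℤ :=
  List.rec (motive := fun _ => ℤ → ℕ → ℤ) (fun acc _ => acc)
    (fun c _ ih acc lp =>
      ih (Int.sub (Int.add (Int.mul acc (Int.ofNat w))
        (Int.mul (g c) (Int.ofNat (Nat.add lp 1)))) (g c)) (Nat.mul lp l)) L

lemma horS_eq {α : Type} (g : α → ℤ) (l w : ℕ) : ∀ (L : List α) (acc : ℤ) (lp : ℕ),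
    horS g l w L acc lp = horA g l w L acc lp
  | [], _, _ => rfl
  | c :: r, acc, lp => by
    show horS g l w r (acc * (w : ℤ) + g c * ((lp + 1 : ℕ) : ℤ) - g c) (lp * l)
      = horA g l w r (acc * (w : ℤ) + g c * (lp : ℤ)) (lp * l)
    rw [horS_eq g l w r]
    congr 1
    push_cast
    ring

lemma horA_eq {α : Type} (g : α → ℤ) (l w : ℕ) : ∀ (L : List α) (acc : ℤ) (lp : ℕ),
    horA g l w L acc lp = acc * (w : ℤ) ^ L.length + (lp : ℤ) * horR (l : ℤ) (w : ℤ) (L.map g)
  | [], acc, lp => by
    show acc = _
    simp [horR]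
  | c :: r, acc, lp => by
    show horA g l w r (acc * (w : ℤ) + g c * (lp : ℤ)) (lp * l) = _
    rw [horA_eq g l w r]
    simp only [List.length_cons, List.map_cons, horR, List.length_map]
    push_cast
    ring

/-- The faster of the two accumulations. -/
noncomputable def horB {α : Type} (g : α → ℤ) (l w : ℕ) (L : List α) : ℤ :=
  bif Nat.beq (Nat.land l 18446744073709551615) 0 then horS g l w L 0 1 else horA g l w L 0 1

lemma horB_eq {α : Type} (g : α → ℤ) (l w : ℕ) (L : List α) :
    horB g l w L = horR (l : ℤ) (w : ℤ) (L.map g) := by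
  unfold horB
  cases Nat.beq (Nat.land l 18446744073709551615) 0 <;>
    simp only [cond_true, cond_false, horS_eq, horA_eq] <;> simp

/-- Fast evaluation of the transformed polynomial, with recursors. -/
noncomputable def pkR (f : ℤ → ℤ) : (n : ℕ) → List (ℕ × ℕ) → List ℕ → MP n → ℤ := fun n =>
  Nat.rec (motive := fun n => List (ℕ × ℕ) → List ℕ → MP n → ℤ) (fun _ _ a => f a)
    (fun m ih s ys a => horB (α := MP m) (ih s.tail ys.tail)
      (Nat.add (s.headD (0, 0)).2 (Nat.mul (Nat.add (s.headD (0, 0)).2 1) (ys.headD 0)))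
      (Nat.mul (Nat.pow 2 (s.headD (0, 0)).1) (Nat.add 1 (ys.headD 0))) a) n

lemma pkR_eq (f : ℤ → ℤ) : ∀ (n : ℕ) (s : List (ℕ × ℕ)) (ys : List ℕ) (a : MP n),
    pkR f n s ys a = pk f n s ys a
  | 0, _, _, _ => rfl
  | n + 1, s, ys, a => by
    suffices key : ∀ L : List (MP n), pkR f (n + 1) s ys L = pk f (n + 1) s ys L from key a
    intro L
    show horB (pkR f n s.tail ys.tail) _ _ L = hor _ _ _
    rw [horB_eq, hor_eq, List.map_congr_left fun c _ => pkR_eq f n s.tail ys.tail c]
    simp only [Int.ofNat_eq_natCast]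

/-- The shape test, with recursors. -/
noncomputable def rectR : (n : ℕ) → List ℕ → MP n → Bool := fun n =>
  Nat.rec (motive := fun n => List ℕ → MP n → Bool) (fun ds _ => ds.isEmpty)
    (fun m ih ds a => List.rec (motive := fun _ => Bool) false
      (fun d r _ => List.rec (motive := fun _ => ℕ → Bool) (fun k => Nat.beq k d)
        (fun c _ ihL k => ih r c && ihL (Nat.add k 1)) (show List (MP m) from a) 0) ds) n

lemma rect_of_rectR : ∀ (n : ℕ) (ds : List ℕ) (a : MP n),
    rectR n ds a = true → rect n ds a = true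
  | 0, _, _, h => h
  | _ + 1, [], _, h => h
  | n + 1, d :: ds, a, h => by
    revert h
    suffices key : ∀ (L : List (MP n)) (k : ℕ),
        (List.rec (motive := fun _ => ℕ → Bool) (fun k => Nat.beq k d)
          (fun c _ ihL k => rectR n ds c && ihL (Nat.add k 1)) L k) = true →
        k + L.length = d ∧ ∀ c ∈ L, rect n ds c = true by
      intro h
      obtain ⟨e, h'⟩ := key a 0 h
      show (decide (List.length (show List (MP n) from a) = d) &&
        List.all (show List (MP n) from a) (rect n ds)) = true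
      rw [Bool.and_eq_true, decide_eq_true_eq, List.all_eq_true]
      exact ⟨by simpa using e, h'⟩
    intro L
    induction L with
    | nil => exact fun k hk => ⟨by simpa using Nat.eq_of_beq_eq_true hk, by simp⟩
    | cons c r ih =>
      intro k hk
      simp only [Bool.and_eq_true] at hk
      obtain ⟨e, h'⟩ := ih _ hk.2
      simp only [Nat.add_eq] at e
      refine ⟨by simp only [List.length_cons]; omega, fun x hx => ?_⟩
      rcases List.mem_cons.mp hx with rfl | hx
      · exact rect_of_rectR n ds _ hk.1
      · exact h' x hx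

/-- The test of a box, with recursors. -/
noncomputable def checkR (n : ℕ) (ds : List ℕ) (W : ℕ) (s : List (ℕ × ℕ)) (a : MP n) : Bool :=
  rectR n ds a &&
    decide (Int.mul 2 (pkR absC n s (List.replicate n 1) a) < Int.ofNat (Nat.pow 2 (Nat.add W 1))) &&
    allNN (Nat.pow 2 (Nat.add W 1)) ds (pkR (fun c => c) n s (yl (Nat.pow 2 (Nat.add W 1)) ds) a)

/-- The fast test gives nonnegativity on the box. -/
theorem ok_leafR {n : ℕ} {ds : List ℕ} {W : ℕ} {s : List (ℕ × ℕ)} {a : MP n}
    (h : checkR n ds W s a = true) : Ok n s a := by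
  refine ok_leaf (ds := ds) (W := W) ?_
  simp only [checkR, pkR_eq, Bool.and_eq_true] at h
  simp only [check, Bool.and_eq_true]
  exact ⟨⟨rect_of_rectR n ds a h.1.1, h.1.2⟩, h.2⟩

end Vale.Agent.P154.Pack
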