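import Vale.Agent.P154.HinvCoefA
import Vale.Agent.P154.UniPackFast

/-!
Generated subdivision certificate, second part.
-/

namespace Vale.Agent.P154.Hinv.CertA

open Bern

theorem good6 : Pack.Ok 4 [(0, 0), (1, 0), (1, 1), (0, 0)] poly :=
  Pack.ok_leafR (ds := [16, 15, 14, 15]) (W := 121) (by decide +kernel)

theorem good7 : Pack.Ok 4 [(1, 0), (1, 1), (1, 1), (0, 0)] poly :=
  Pack.ok_leafR (ds := [16, 15, 14, 15]) (W := 133) (by decide +kernel)

theorem good8 : Pack.Ok 4 [(1, 1), (2, 2), (1, 1), (0, 0)] poly :=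
  Pack.ok_leafR (ds := [16, 15, 14, 15]) (W := 160) (by decide +kernel)

theorem good9 : Pack.Ok 4 [(1, 1), (2, 3), (1, 1), (0, 0)] poly :=
  Pack.ok_leafR (ds := [16, 15, 14, 15]) (W := 162) (by decide +kernel)

theorem good10 : Pack.Ok 4 [(1, 1), (1, 1), (1, 1), (0, 0)] poly :=
  Pack.ok_node 1 1 1 rfl good8 good9

theorem good11 : Pack.Ok 4 [(0, 0), (1, 1), (1, 1), (0, 0)] poly :=
  Pack.ok_node 0 0 0 rfl good7 good10

theorem good12 : Pack.Ok 4 [(0, 0), (0, 0), (1, 1), (0, 0)] poly :=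
  Pack.ok_node 1 0 0 rfl good6 good11

end Vale.Agent.P154.Hinv.CertA
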