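import Vale.Agent.P154.HinvTreeA0
import Vale.Agent.P154.HinvTreeA1

/-!
Generated subdivision certificate.
-/

namespace Vale.Agent.P154.Hinv.CertA

open Bern

theorem good13 : Pack.Ok 4 [(0, 0), (0, 0), (0, 0), (0, 0)] poly :=
  Pack.ok_node 2 0 0 rfl good5 good12

theorem good : Bern.Good 4 [] poly := Pack.good_of_ok (n := 4) good13

end Vale.Agent.P154.Hinv.CertA
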