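import Vale.Agent.P154.HinvCoefB
import Vale.Agent.P154.UniPackFast

/-!
Generated subdivision certificate.
-/

namespace Vale.Agent.P154.Hinv.CertB

open Bern

theorem good1 : Pack.Ok 4 [(1, 0), (1, 0), (0, 0), (0, 0)] poly :=
  Pack.ok_leafR (ds := [16, 15, 14, 15]) (W := 118) (by decide +kernel)

theorem good2 : Pack.Ok 4 [(1, 1), (1, 0), (1, 0), (0, 0)] poly :=
  Pack.ok_leafR (ds := [16, 15, 14, 15]) (W := 137) (by decide +kernel)

theorem good3 : Pack.Ok 4 [(1, 1), (1, 0), (1, 1), (0, 0)] poly :=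
  Pack.ok_leafR (ds := [16, 15, 14, 15]) (W := 141) (by decide +kernel)

theorem good4 : Pack.Ok 4 [(1, 1), (1, 0), (0, 0), (0, 0)] poly :=
  Pack.ok_node 2 0 0 rfl good2 good3

theorem good5 : Pack.Ok 4 [(0, 0), (1, 0), (0, 0), (0, 0)] poly :=
  Pack.ok_node 0 0 0 rfl good1 good4

theorem good6 : Pack.Ok 4 [(0, 0), (1, 1), (0, 0), (0, 0)] poly :=
  Pack.ok_leafR (ds := [16, 15, 14, 15]) (W := 109) (by decide +kernel)

theorem good7 : Pack.Ok 4 [(0, 0), (0, 0), (0, 0), (0, 0)] poly :=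
  Pack.ok_node 1 0 0 rfl good5 good6

theorem good : Bern.Good 4 [] poly := Pack.good_of_ok (n := 4) good7

end Vale.Agent.P154.Hinv.CertB
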