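import Vale.Agent.P154.Decay

/-!
Nonreconstruction from a potential whose defect is paid by a second functional, which is
almost invariant when one more child is joined.
-/

open scoped BigOperators ENNReal
open Filter

namespace Vale.Agent.P154.Hinv

/-- The average over the relabellings of a child of a function of the joined vector. -/
noncomputable def avgJoin (l : ℝ) (φ : (Spin → ℝ) → ℝ) (a y : Spin → ℝ) : ℝ :=
  (1 / 6 : ℝ) * ∑ σ : Equiv.Perm Spin,
    zw a (fun i => img l y (σ i)) * φ (comb a (fun i => img l y (σ i)))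

/-- A pair of potentials at edge parameter `l`. -/
structure Pot2 (l c C dl μ γ : ℝ) (φ ψ : (Spin → ℝ) → ℝ) : Prop where
  one : φ (fun _ => 1) = 0
  psi_one : ψ (fun _ => 1) = 0
  mu : 0 ≤ μ
  gam : 0 ≤ γ ∧ γ ≤ 1
  low : ∀ a, InS a → c * sq a ≤ φ a
  high : ∀ a, InS a → φ a ≤ C * sq a
  sub : ∀ a y, InS a → InS y →
    avgJoin l φ a y ≤ φ a + l ^ 2 * φ y - μ * (ψ a * sq y) - dl * l ^ 2 * sq a * sq y
  keep : ∀ a y, InS a → InS y → ψ a - γ * (sq y * ψ a) ≤ avgJoin l ψ a y

section join

variable {ι κ : Type} [Fintype ι] [Fintype κ] {l : ℝ}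

lemma sum_wt {f : ι → Spin → ℝ} (hf : Fam f) : ∑ j, wt (f j) = 1 := by
  simp only [wt, ← Finset.sum_div]
  rw [Finset.sum_comm, Fin.sum_univ_three, hf.mass, hf.mass, hf.mass]; norm_num

lemma expect_join_eq (φ : (Spin → ℝ) → ℝ) {f : ι → Spin → ℝ} {g : κ → Spin → ℝ} (hf : Fam f)
    (hg : Fam g) :
    expect φ (join l f g)
      = ∑ j, ∑ k, wt (f j) * wt (g k) * avgJoin l φ (post (f j)) (post (g k)) := by
  classical
  let F : (Spin → ℝ) → (Spin → ℝ) → ℝ := fun a b => zw a b * φ (comb a b)
  have h1 : expect φ (join l f g) = ∑ j, ∑ k, wt (f j) * wt (g k) *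
      F (post (f j)) (img l (post (g k))) := by
    simp only [expect, Fintype.sum_prod_type]
    exact Finset.sum_congr rfl fun j _ => Finset.sum_congr rfl fun k _ =>
      join_term φ (hf.nonneg j) (hg.nonneg k)
  have h2 : ∀ σ : Equiv.Perm Spin, ∀ j, ∑ k, wt (f j) * wt (g k) *
      F (post (f j)) (img l (post (g k))) = ∑ k, wt (f j) * wt (g k) *
      F (post (f j)) (fun i => img l (post (g k)) (σ i)) := fun σ j => by
    obtain ⟨e, he⟩ := hg.equiv σ
    rw [← Equiv.sum_comp e (fun k => wt (f j) * wt (g k) * F (post (f j)) (img l (post (g k))))]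
    refine Finset.sum_congr rfl fun k _ => ?_
    obtain ⟨hw, hp⟩ := post_perm σ (he k)
    have : img l (post (g (e k))) = fun i => img l (post (g k)) (σ i) := by
      funext i; simp [img, hp i]
    rw [hw, this]
  rw [h1]
  refine Finset.sum_congr rfl fun j _ => ?_
  have h6 : (Fintype.card (Equiv.Perm Spin) : ℝ) = 6 := by
    rw [Fintype.card_perm, Fintype.card_fin]; norm_num [Nat.factorial]
  calc ∑ k, wt (f j) * wt (g k) * F (post (f j)) (img l (post (g k)))
      = (1 / 6 : ℝ) * ∑ _σ : Equiv.Perm Spin,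
          ∑ k, wt (f j) * wt (g k) * F (post (f j)) (img l (post (g k))) := by
        rw [Finset.sum_const, Finset.card_univ, nsmul_eq_mul, h6]; ring
    _ = _ := by
        rw [Finset.sum_congr rfl fun σ _ => h2 σ j, Finset.sum_comm, Finset.mul_sum]
        refine Finset.sum_congr rfl fun k _ => ?_
        rw [← Finset.mul_sum, avgJoin]; ring

lemma sum_left (φ : (Spin → ℝ) → ℝ) {f : ι → Spin → ℝ} {g : κ → Spin → ℝ} (hg : Fam g) :
    ∑ j, ∑ k, wt (f j) * wt (g k) * φ (post (f j)) = expect φ f := by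
  refine Finset.sum_congr rfl fun j _ => ?_
  rw [← Finset.sum_mul, ← Finset.mul_sum, sum_wt hg, mul_one]

lemma sum_right (φ : (Spin → ℝ) → ℝ) {f : ι → Spin → ℝ} {g : κ → Spin → ℝ} (hf : Fam f) :
    ∑ j, ∑ k, wt (f j) * wt (g k) * φ (post (g k)) = expect φ g := by
  rw [Finset.sum_comm]
  refine Finset.sum_congr rfl fun k _ => ?_
  rw [← Finset.sum_mul, ← Finset.sum_mul, sum_wt hf, one_mul]

lemma sum_mul_both (φ ψ : (Spin → ℝ) → ℝ) (f : ι → Spin → ℝ) (g : κ → Spin → ℝ) :
    ∑ j, ∑ k, wt (f j) * wt (g k) * (φ (post (f j)) * ψ (post (g k)))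
      = expect φ f * expect ψ g := by
  rw [expect, expect, Finset.sum_mul_sum]
  exact Finset.sum_congr rfl fun j _ => Finset.sum_congr rfl fun k _ => by ring

variable {c C dl μ γ : ℝ} {φ ψ : (Spin → ℝ) → ℝ}

lemma expect_sq_le_one {f : ι → Spin → ℝ} (hf : Fam f) : expect sq f ≤ 1 := by
  calc expect sq f ≤ ∑ j, wt (f j) * 1 := by
        refine Finset.sum_le_sum fun j _ => mul_le_mul_of_nonneg_left ?_ (wt_nonneg (hf.nonneg j))
        obtain ⟨h0, hs⟩ := post_inS (hf.nonneg j)
        generalize post (f j) = a at h0 hs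
        simp only [sq]
        nlinarith [mul_nonneg (h0 0) (h0 1), mul_nonneg (h0 1) (h0 2), mul_nonneg (h0 0) (h0 2)]
    _ = 1 := by simp [sum_wt hf]

lemma expect_psi_join (hP : Pot2 l c C dl μ γ φ ψ) {f : ι → Spin → ℝ} {g : κ → Spin → ℝ}
    (hf : Fam f) (hg : Fam g) :
    expect ψ f * (1 - γ * expect sq g) ≤ expect ψ (join l f g) := by
  rw [expect_join_eq ψ hf hg]
  calc expect ψ f * (1 - γ * expect sq g)
      = expect ψ f - γ * (expect ψ f * expect sq g) := by ring
    _ = ∑ j, ∑ k, wt (f j) * wt (g k) *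
          (ψ (post (f j)) - γ * (sq (post (g k)) * ψ (post (f j)))) := by
        rw [← sum_mul_both ψ sq f g, ← sum_left ψ (f := f) hg]
        simp only [Finset.mul_sum, ← Finset.sum_sub_distrib]
        exact Finset.sum_congr rfl fun j _ => Finset.sum_congr rfl fun k _ => by ring
    _ ≤ _ := Finset.sum_le_sum fun j _ => Finset.sum_le_sum fun k _ =>
        mul_le_mul_of_nonneg_left (hP.keep _ _ (post_inS (hf.nonneg j)) (post_inS (hg.nonneg k)))
          (mul_nonneg (wt_nonneg (hf.nonneg j)) (wt_nonneg (hg.nonneg k)))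

lemma expect_join_le (hP : Pot2 l c C dl μ γ φ ψ) {f : ι → Spin → ℝ} {g : κ → Spin → ℝ}
    (hf : Fam f) (hg : Fam g) (hψ : 0 ≤ expect ψ f) :
    expect φ (join l f g) ≤ expect φ f + l ^ 2 * expect φ g
      - dl * l ^ 2 * expect sq f * expect sq g := by
  rw [expect_join_eq φ hf hg]
  calc _ ≤ ∑ j, ∑ k, wt (f j) * wt (g k) * (φ (post (f j)) + l ^ 2 * φ (post (g k))
        - μ * (ψ (post (f j)) * sq (post (g k)))
        - dl * l ^ 2 * sq (post (f j)) * sq (post (g k))) :=
        Finset.sum_le_sum fun j _ => Finset.sum_le_sum fun k _ =>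
          mul_le_mul_of_nonneg_left (hP.sub _ _ (post_inS (hf.nonneg j)) (post_inS (hg.nonneg k)))
            (mul_nonneg (wt_nonneg (hf.nonneg j)) (wt_nonneg (hg.nonneg k)))
    _ = expect φ f + l ^ 2 * expect φ g - μ * (expect ψ f * expect sq g)
          - dl * l ^ 2 * (expect sq f * expect sq g) := by
        rw [← sum_mul_both ψ sq f g, ← sum_mul_both sq sq f g, ← sum_left φ (f := f) hg,
          ← sum_right φ (g := g) hf]
        simp only [Finset.mul_sum, ← Finset.sum_add_distrib, ← Finset.sum_sub_distrib]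
        exact Finset.sum_congr rfl fun j _ => Finset.sum_congr rfl fun k _ => by ring
    _ ≤ _ := by
        have := mul_nonneg hP.mu (mul_nonneg hψ (expect_sq_nonneg hg))
        linarith

end join

section fold

variable {l : ℝ}

lemma expect_psi_kids {c C dl μ γ : ℝ} {φ ψ : (Spin → ℝ) → ℝ} (hl : -(1 / 2) ≤ l) (hu : l ≤ 1)
    (hP : Pot2 l c C dl μ γ φ ψ) : ∀ {k : ℕ} {ι : Fin k → Type}
    [∀ j, Fintype (ι j)] {g : ∀ j, ι j → Spin → ℝ}, (∀ j, Fam (g j)) →
      0 ≤ expect ψ (P154.kids l g) := by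
  intro k
  induction k with
  | zero =>
    intro ι _ g _
    simp [expect, kids_nil, post_one, hP.psi_one]
  | succ k ih =>
    intro ι _ g hg
    rw [← expect_reindex (splitFirst ι), kids_split]
    have h2 : γ * expect sq (g 0) ≤ 1 * 1 :=
      mul_le_mul hP.gam.2 (expect_sq_le_one (hg 0)) (expect_sq_nonneg (hg 0)) zero_le_one
    exact le_trans (mul_nonneg (ih fun j => hg j.succ) (by linarith))
      (expect_psi_join hP (Fam.kids hl hu fun j => hg j.succ) (hg 0))

lemma expect_kids_le {c C dl μ γ : ℝ} {φ ψ : (Spin → ℝ) → ℝ} (hl : -(1 / 2) ≤ l) (hu : l ≤ 1)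
    (hd : 0 ≤ dl) (hP : Pot2 l c C dl μ γ φ ψ) : ∀ {k : ℕ} {ι : Fin k → Type}
    [∀ j, Fintype (ι j)] {g : ∀ j, ι j → Spin → ℝ}, (∀ j, Fam (g j)) →
      expect φ (P154.kids l g) ≤ l ^ 2 * ∑ j, expect φ (g j) := by
  intro k
  induction k with
  | zero =>
    intro ι _ g _
    simp [expect, kids_nil, post_one, hP.one]
  | succ k ih =>
    intro ι _ g hg
    rw [← expect_reindex (splitFirst ι), kids_split, Fin.sum_univ_succ, mul_add]
    have h1 := expect_join_le hP (Fam.kids hl hu fun j => hg j.succ) (hg 0)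
      (expect_psi_kids hl hu hP fun j => hg j.succ)
    have h2 := ih fun j : Fin k => hg j.succ
    have h3 : ∀ {α : Type} [Fintype α] {f : α → Spin → ℝ}, Fam f → 0 ≤ expect sq f :=
      fun {α} _ {f} hf => Finset.sum_nonneg fun k _ => mul_nonneg (wt_nonneg (hf.nonneg k))
        (div_nonneg (add_nonneg (add_nonneg (sq_nonneg _) (sq_nonneg _)) (sq_nonneg _))
          (by norm_num))
    have h4 := mul_nonneg (mul_nonneg (mul_nonneg hd (sq_nonneg l))
      (h3 (Fam.kids hl hu fun j => hg j.succ))) (h3 (hg 0))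
    linarith

lemma expect_kids_le_gain {c C dl μ γ : ℝ} {φ ψ : (Spin → ℝ) → ℝ} (hl : -(1 / 2) ≤ l) (hu : l ≤ 1)
    (hd : 0 ≤ dl) (hP : Pot2 l c C dl μ γ φ ψ) : ∀ {k : ℕ} {ι : Fin (k + 2) → Type}
    [∀ j, Fintype (ι j)] {g : ∀ j, ι j → Spin → ℝ}, (∀ j, Fam (g j)) →
      expect φ (P154.kids l g) + dl * l ^ 4 * (expect sq (g (Fin.last k).castSucc) *
        expect sq (g (Fin.last (k + 1)))) ≤ l ^ 2 * ∑ j, expect φ (g j) := by
  intro k
  induction k with
  | zero =>
    intro ι _ g hg
    rw [← expect_reindex (splitFirst ι), kids_split, Fin.sum_univ_succ, mul_add]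
    have h1 := expect_join_le hP (Fam.kids hl hu fun j => hg j.succ) (hg 0)
      (expect_psi_kids hl hu hP fun j => hg j.succ)
    have h2 := expect_kids_le hl hu hd hP fun j : Fin 1 => hg j.succ
    rw [expect_sq_single hl hu fun j => hg j.succ] at h1
    have e1 : dl * l ^ 4 * (expect sq (g (Fin.last 0).castSucc) * expect sq (g (Fin.last 1)))
        = dl * l ^ 2 * (l ^ 2 * expect sq (g (Fin.succ 0))) * expect sq (g 0) := by
      rw [show ((Fin.last 0).castSucc : Fin 2) = 0 from rfl,
        show (Fin.last 1 : Fin 2) = Fin.succ 0 from rfl]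
      ring
    linarith
  | succ k ih =>
    intro ι _ g hg
    rw [← expect_reindex (splitFirst ι), kids_split, Fin.sum_univ_succ, mul_add]
    have h1 := expect_join_le hP (Fam.kids hl hu fun j => hg j.succ) (hg 0)
      (expect_psi_kids hl hu hP fun j => hg j.succ)
    have h2 := ih fun j : Fin (k + 2) => hg j.succ
    have h3 : ∀ {α : Type} [Fintype α] {f : α → Spin → ℝ}, Fam f → 0 ≤ expect sq f :=
      fun {α} _ {f} hf => Finset.sum_nonneg fun k _ => mul_nonneg (wt_nonneg (hf.nonneg k))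
        (div_nonneg (add_nonneg (add_nonneg (sq_nonneg _) (sq_nonneg _)) (sq_nonneg _))
          (by norm_num))
    have h4 := mul_nonneg (mul_nonneg (mul_nonneg hd (sq_nonneg l))
      (h3 (Fam.kids hl hu fun j => hg j.succ))) (h3 (hg 0))
    have e1 : ((Fin.last k).castSucc.succ : Fin (k + 3)) = (Fin.last (k + 1)).castSucc := rfl
    have e2 : ((Fin.last (k + 1)).succ : Fin (k + 3)) = Fin.last (k + 2) := rfl
    rw [e1, e2] at h2
    linarith

end fold

section main

variable {l c C dl μ γ : ℝ} {φ ψ : (Spin → ℝ) → ℝ}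

lemma expect_bounds (hP : Pot2 l c C dl μ γ φ ψ) {ι : Type} [Fintype ι] {f : ι → Spin → ℝ}
    (hf : Fam f) : c * expect sq f ≤ expect φ f ∧ expect φ f ≤ C * expect sq f := by
  constructor
  · rw [expect, Finset.mul_sum]
    refine Finset.sum_le_sum fun k _ => ?_
    rw [mul_left_comm]
    exact mul_le_mul_of_nonneg_left (hP.low _ (post_inS (hf.nonneg k))) (wt_nonneg (hf.nonneg k))
  · rw [expect, expect, Finset.mul_sum]
    refine Finset.sum_le_sum fun k _ => ?_
    rw [mul_left_comm]
    exact mul_le_mul_of_nonneg_left (hP.high _ (post_inS (hf.nonneg k))) (wt_nonneg (hf.nonneg k))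

lemma tendsto_tv_regular (hl : -(1 / 2) ≤ l) (hu : l ≤ 1) (hc : 0 < c) (hC : 0 < C) (hd : 0 < dl)
    (hP : Pot2 l c C dl μ γ φ ψ) {d : ℕ} (h2 : 2 ≤ d) (hdl : (d : ℝ) * l ^ 2 ≤ 1) :
    Tendsto (fun n => tv l n (regular d n)) atTop (nhds 0) := by
  obtain ⟨k, rfl⟩ : ∃ k, d = k + 2 := ⟨d - 2, by omega⟩
  set S : ℕ → ℝ := fun n => expect sq (lik l n (regular (k + 2) n)) with hS
  set X : ℕ → ℝ := fun n => expect φ (lik l n (regular (k + 2) n)) with hX
  have hS0 : ∀ n, 0 ≤ S n := fun n => expect_sq_nonneg (fam_lik hl hu n _)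
  have hX0 : ∀ n, 0 ≤ X n := fun n => le_trans (mul_nonneg hc.le (hS0 n))
    (expect_bounds hP (fam_lik hl hu n _)).1
  have hstep : ∀ n, X (n + 1) + dl * l ^ 4 / C ^ 2 * X n ^ 2 ≤ X n := fun n => by
    have h := @expect_kids_le_gain l c C dl μ γ φ ψ hl hu hd.le hP k
      (fun _ => Cfg n (regular (k + 2) n)) (fun _ => cfgFintype n _)
      (fun _ => lik l n (regular (k + 2) n)) (fun _ => fam_lik hl hu n _)
    rw [Finset.sum_const, Finset.card_univ, Fintype.card_fin, nsmul_eq_mul] at h
    have h' : X (n + 1) + dl * l ^ 4 * (S n * S n) ≤ l ^ 2 * ((k + 2 : ℕ) : ℝ) * X n := by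
      rw [mul_assoc (l ^ 2)]; exact h
    have hX2 : X n ^ 2 / C ^ 2 ≤ S n * S n := by
      rw [div_le_iff₀ (by positivity)]
      nlinarith [(expect_bounds hP (fam_lik hl hu n (regular (k + 2) n))).2, hX0 n]
    have := mul_le_mul_of_nonneg_left hX2 (mul_nonneg hd.le (by positivity : 0 ≤ l ^ 4))
    rw [div_mul_eq_mul_div]
    calc X (n + 1) + dl * l ^ 4 * X n ^ 2 / C ^ 2
        ≤ X (n + 1) + dl * l ^ 4 * (S n * S n) := by
          rw [mul_div_assoc]; linarith
      _ ≤ l ^ 2 * ((k + 2 : ℕ) : ℝ) * X n := h'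
      _ ≤ 1 * X n := mul_le_mul_of_nonneg_right (by linarith) (hX0 n)
      _ = X n := one_mul _
  have hXlim : Tendsto X atTop (nhds 0) := by
    by_cases hl0 : l = 0
    · refine (Filter.tendsto_add_atTop_iff_nat 1).mp (tendsto_const_nhds.congr fun n => ?_)
      have h := @expect_kids_le l c C dl μ γ φ ψ hl hu hd.le hP (k + 2)
        (fun _ => Cfg n (regular (k + 2) n)) (fun _ => cfgFintype n _)
        (fun _ => lik l n (regular (k + 2) n)) (fun _ => fam_lik hl hu n _)
      rw [hl0] at h; simp only [ne_eq, OfNat.ofNat_ne_zero, not_false_eq_true, zero_pow,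
        zero_mul] at h
      subst hl0
      exact (le_antisymm h (hX0 (n + 1))).symm
    · exact seq_decay (by positivity) hX0 hstep
  have hSlim : Tendsto S atTop (nhds 0) := by
    refine squeeze_zero hS0 (fun n => ?_) (by simpa using hXlim.div_const c)
    rw [le_div_iff₀' hc]; exact (expect_bounds hP (fam_lik hl hu n _)).1
  rw [Metric.tendsto_atTop] at hSlim ⊢
  intro ε hε
  obtain ⟨N, hN⟩ := hSlim (ε / 3 * (ε / 3)) (by positivity)
  refine ⟨N, fun n hn => ?_⟩
  have h1 := tv_le hl hu n (regular (k + 2) n) (by positivity : 0 < ε / 3)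
  have h2 := hN n hn
  rw [Real.dist_eq, sub_zero, abs_of_nonneg (hS0 n)] at h2
  have h3 : S n / (ε / 3) < ε / 3 := by rw [div_lt_iff₀ (by positivity)]; exact h2
  have h4 : 0 ≤ tv l n (regular (k + 2) n) := by
    refine Finset.sum_nonneg fun c _ => mul_nonneg ?_ (by positivity)
    exact Finset.sum_nonneg fun i _ => mul_nonneg (by norm_num) ((fam_lik hl hu n _).nonneg _ _)
  rw [Real.dist_eq, sub_zero, abs_of_nonneg h4]
  have : tv l n (regular (k + 2) n) ≤ ε / 3 + S n / (ε / 3) := h1
  linarith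

lemma tendsto_gwTV (hl : -(1 / 2) ≤ l) (hu : l ≤ 1) (hc : 0 < c) (hC : 0 < C) (hd : 0 < dl)
    (hl1 : l ^ 2 < 1) (hP : Pot2 l c C dl μ γ φ ψ) (p : ℕ → ℝ≥0∞) (hp : ∑' k, p k = 1)
    (hdl : ENNReal.ofReal (l ^ 2) * ∑' k : ℕ, (k : ℝ≥0∞) * p k ≤ 1) :
    Tendsto (gwTV p l) atTop (nhds 0) := by
  classical
  let u : ℕ → ℝ≥0∞ := fun n =>
    ∑' T : Tr n, treeWeight p n T * ENNReal.ofReal (expect φ (lik l n T))
  let v : ℕ → ℝ≥0∞ := fun n =>
    ∑' T : Tr n, treeWeight p n T * ENNReal.ofReal (expect sq (lik l n T))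
  let D : ℝ≥0∞ := ENNReal.ofReal (l ^ 2) * ∑' k : ℕ, (k : ℝ≥0∞) * p k
  let q : ℝ≥0∞ := ∑' k, if 2 ≤ k then p k else 0
  let K : ℝ≥0∞ := ENNReal.ofReal (dl * l ^ 4)
  have hφ0 : ∀ n (T : Tr n), 0 ≤ expect φ (lik l n T) := fun n T =>
    le_trans (mul_nonneg hc.le (expect_sq_nonneg (fam_lik hl hu n T)))
      (expect_bounds hP (fam_lik hl hu n T)).1
  have hrec : ∀ n, u (n + 1) + K * q * v n ^ 2 ≤ D * u n := fun n => by
    have hW := tsum_treeWeight p hp n
    have hk : ∀ k : ℕ, (∑' ch : Fin k → Tr n, (p k * ∏ j, treeWeight p n (ch j)) *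
          ENNReal.ofReal (expect φ (lik l (n + 1) (node n k ch))))
        + K * (if 2 ≤ k then p k else 0) * v n ^ 2
        ≤ ENNReal.ofReal (l ^ 2) * ((k : ℝ≥0∞) * p k) * u n := fun k => by
      have hsum : ∀ ch : Fin k → Tr n,
          ENNReal.ofReal (l ^ 2 * ∑ j, expect φ (lik l n (ch j)))
            = ENNReal.ofReal (l ^ 2) * ∑ j, ENNReal.ofReal (expect φ (lik l n (ch j))) :=
          fun ch => by
        rw [ENNReal.ofReal_mul (sq_nonneg l), ENNReal.ofReal_sum_of_nonneg fun j _ => hφ0 n _]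
      have hR : ∑' ch : Fin k → Tr n, (p k * ∏ j, treeWeight p n (ch j)) *
            ENNReal.ofReal (l ^ 2 * ∑ j, expect φ (lik l n (ch j)))
          = ENNReal.ofReal (l ^ 2) * ((k : ℝ≥0∞) * p k) * u n := by
        simp only [hsum]; simp only [Finset.mul_sum]
        rw [Summable.tsum_finsetSum fun i _ => ENNReal.summable]
        have : ∀ i : Fin k, ∑' ch : Fin k → Tr n, (p k * ∏ j, treeWeight p n (ch j)) *
            (ENNReal.ofReal (l ^ 2) * ENNReal.ofReal (expect φ (lik l n (ch i))))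
            = ENNReal.ofReal (l ^ 2) * p k * u n := fun i => by
          have h1 := tsum_pi_one (treeWeight p n)
            (fun T => ENNReal.ofReal (expect φ (lik l n T))) hW i
          calc _ = ∑' ch : Fin k → Tr n, (ENNReal.ofReal (l ^ 2) * p k) *
                ((∏ j, treeWeight p n (ch j)) * ENNReal.ofReal (expect φ (lik l n (ch i)))) :=
                tsum_congr fun ch => by ring
            _ = _ := by rw [ENNReal.tsum_mul_left, h1]
        simp only [this, Finset.sum_const, Finset.card_univ, Fintype.card_fin, nsmul_eq_mul]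
        ring
      rw [← hR]
      by_cases h2 : 2 ≤ k
      · obtain ⟨m, rfl⟩ : ∃ m, k = m + 2 := ⟨k - 2, by omega⟩
        have hne : (Fin.last m).castSucc ≠ Fin.last (m + 1) := (Fin.castSucc_lt_last _).ne
        rw [if_pos h2, ← tsum_pi_two (treeWeight p n)
          (fun T => ENNReal.ofReal (expect sq (lik l n T))) hW hne, ← ENNReal.tsum_mul_left,
          ← ENNReal.tsum_add]
        refine ENNReal.tsum_le_tsum fun ch => ?_
        have h := @expect_kids_le_gain l c C dl μ γ φ ψ hl hu hd.le hP m (fun j => Cfg n (ch j))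
          (fun j => cfgFintype n (ch j)) (fun j => lik l n (ch j)) (fun j => fam_lik hl hu n _)
        have hh : expect φ (lik l (n + 1) (node n (m + 2) ch)) + dl * l ^ 4 *
            (expect sq (lik l n (ch (Fin.last m).castSucc)) *
              expect sq (lik l n (ch (Fin.last (m + 1))))) ≤ l ^ 2 * ∑ j, expect φ (lik l n (ch j)) :=
          h
        have h' := ENNReal.ofReal_le_ofReal hh
        rw [ENNReal.ofReal_add (hφ0 (n + 1) (node n (m + 2) ch)) (mul_nonneg (by positivity)
          (mul_nonneg (expect_sq_nonneg (fam_lik hl hu n _))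
            (expect_sq_nonneg (fam_lik hl hu n _)))),
          ENNReal.ofReal_mul (by positivity), ENNReal.ofReal_mul
            (expect_sq_nonneg (fam_lik hl hu n _))] at h'
        refine le_trans (le_of_eq ?_) (mul_le_mul' (le_refl (p (m + 2) * ∏ j, treeWeight p n (ch j))) h')
        simp only [K]
        ring
      · rw [if_neg h2, mul_zero, zero_mul, add_zero]
        exact ENNReal.tsum_le_tsum fun ch => mul_le_mul' le_rfl (ENNReal.ofReal_le_ofReal
          (@expect_kids_le l c C dl μ γ φ ψ hl hu hd.le hP k (fun j => Cfg n (ch j))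
            (fun j => cfgFintype n (ch j)) (fun j => lik l n (ch j))
            (fun j => fam_lik hl hu n _)))
    calc u (n + 1) + K * q * v n ^ 2
        = ∑' k : ℕ, ((∑' ch : Fin k → Tr n, (p k * ∏ j, treeWeight p n (ch j)) *
            ENNReal.ofReal (expect φ (lik l (n + 1) (node n k ch))))
          + K * (if 2 ≤ k then p k else 0) * v n ^ 2) := by
          rw [ENNReal.tsum_add, ENNReal.tsum_mul_right, ENNReal.tsum_mul_left]
          congr 1
          exact ENNReal.tsum_sigma fun k (ch : Fin k → Tr n) =>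
            (p k * ∏ j, treeWeight p n (ch j)) *
              ENNReal.ofReal (expect φ (lik l (n + 1) (node n k ch)))
      _ ≤ ∑' k : ℕ, ENNReal.ofReal (l ^ 2) * ((k : ℝ≥0∞) * p k) * u n := ENNReal.tsum_le_tsum hk
      _ = D * u n := by simp only [D, ENNReal.tsum_mul_right, ENNReal.tsum_mul_left]
  have hu0 : u 0 ≠ ⊤ := by
    show ∑' T : Unit, _ ≠ ⊤
    simp [tsum_fintype, treeWeight]
  have hufin : ∀ n, u n ≠ ⊤ := fun n => by
    induction n with
    | zero => exact hu0
    | succ n ih =>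
      exact ne_top_of_le_ne_top (ENNReal.mul_ne_top (ne_top_of_le_ne_top ENNReal.one_ne_top hdl) ih)
        (le_trans le_self_add (hrec n))
  have hvu : ∀ n, ENNReal.ofReal c * v n ≤ u n := fun n => by
    rw [← ENNReal.tsum_mul_left]
    refine ENNReal.tsum_le_tsum fun T => ?_
    rw [mul_left_comm, ← ENNReal.ofReal_mul hc.le]
    exact mul_le_mul' le_rfl (ENNReal.ofReal_le_ofReal (expect_bounds hP (fam_lik hl hu n T)).1)
  have huv : ∀ n, u n ≤ ENNReal.ofReal C * v n := fun n => by
    rw [← ENNReal.tsum_mul_left]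
    refine ENNReal.tsum_le_tsum fun T => ?_
    rw [mul_left_comm, ← ENNReal.ofReal_mul hC.le]
    exact mul_le_mul' le_rfl (ENNReal.ofReal_le_ofReal (expect_bounds hP (fam_lik hl hu n T)).2)
  have hulim : Tendsto u atTop (nhds 0) := by
    by_cases hq : K * q = 0
    · have hD : D < 1 := by
        by_cases hl0 : l = 0
        · simp [D, hl0]
        · have hK : K ≠ 0 := by
            simp only [K, ne_eq, ENNReal.ofReal_eq_zero, not_le]; positivity
          have hq0 : q = 0 := (mul_eq_zero.mp hq).resolve_left hK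
          have hmean : ∑' k : ℕ, (k : ℝ≥0∞) * p k ≤ 1 := by
            rw [← hp]
            refine ENNReal.tsum_le_tsum fun k => ?_
            by_cases h2 : 2 ≤ k
            · have := ENNReal.tsum_eq_zero.mp hq0 k
              rw [if_pos h2] at this; simp [this]
            · interval_cases k <;> simp
          calc D ≤ ENNReal.ofReal (l ^ 2) * 1 := mul_le_mul' le_rfl hmean
            _ < 1 := by rw [mul_one]; exact (ENNReal.ofReal_lt_one).mpr hl1
      have hb : ∀ n, u n ≤ D ^ n * u 0 := fun n => by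
        induction n with
        | zero => simp
        | succ n ih =>
          calc u (n + 1) ≤ D * u n := le_trans le_self_add (hrec n)
            _ ≤ D * (D ^ n * u 0) := mul_le_mul' le_rfl ih
            _ = _ := by ring
      have h0 := ENNReal.Tendsto.mul_const
        (ENNReal.tendsto_pow_atTop_nhds_zero_of_lt_one hD) (Or.inr hu0)
      rw [zero_mul] at h0
      exact tendsto_of_tendsto_of_tendsto_of_le_of_le tendsto_const_nhds h0 (fun _ => bot_le) hb
    · have hqfin : q ≠ ⊤ := ne_top_of_le_ne_top ENNReal.one_ne_top (hp ▸ ENNReal.tsum_le_tsum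
        fun k => by by_cases h : 2 ≤ k <;> simp [h])
      have hKq : 0 < (K * q).toReal :=
        ENNReal.toReal_pos hq (ENNReal.mul_ne_top ENNReal.ofReal_ne_top hqfin)
      have hvfin : ∀ n, v n ≠ ⊤ := fun n hv => hufin n (top_le_iff.mp (le_trans (by
        rw [hv, ENNReal.mul_top (ENNReal.ofReal_pos.mpr hc).ne']) (hvu n)))
      have hstep : ∀ n, (u (n + 1)).toReal + (K * q).toReal / C ^ 2 * (u n).toReal ^ 2
          ≤ (u n).toReal := fun n => by
        have h := le_trans (hrec n) (mul_le_of_le_one_left bot_le hdl)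
        have h' := ENNReal.toReal_mono (hufin n) h
        rw [ENNReal.toReal_add (hufin _) (ENNReal.mul_ne_top
          (ENNReal.mul_ne_top ENNReal.ofReal_ne_top hqfin) (ENNReal.pow_ne_top (hvfin n))),
          ENNReal.toReal_mul, ENNReal.toReal_pow] at h'
        have hc2 := ENNReal.toReal_mono (ENNReal.mul_ne_top ENNReal.ofReal_ne_top (hvfin n)) (huv n)
        rw [ENNReal.toReal_mul, ENNReal.toReal_ofReal hC.le] at hc2
        have h4 : (u n).toReal ^ 2 ≤ C ^ 2 * (v n).toReal ^ 2 := by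
          rw [← mul_pow]; exact pow_le_pow_left₀ ENNReal.toReal_nonneg hc2 2
        have h5 : (K * q).toReal / C ^ 2 * (u n).toReal ^ 2 ≤ (K * q).toReal * (v n).toReal ^ 2 := by
          rw [div_mul_eq_mul_div, div_le_iff₀ (by positivity)]
          calc _ ≤ (K * q).toReal * (C ^ 2 * (v n).toReal ^ 2) :=
                mul_le_mul_of_nonneg_left h4 hKq.le
            _ = _ := by ring
        linarith
      have := seq_decay (x := fun n => (u n).toReal) (by positivity)
        (fun n => ENNReal.toReal_nonneg) hstep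
      exact (ENNReal.tendsto_toReal_iff hufin ENNReal.zero_ne_top).mp (by simpa using this)
  rw [ENNReal.tendsto_nhds_zero]
  intro ε hε
  rcases eq_or_ne ε ⊤ with rfl | hε'
  · exact Eventually.of_forall fun _ => le_top
  have he : (0 : ℝ) < ε.toReal := ENNReal.toReal_pos hε.ne' hε'
  set e : ℝ := ε.toReal / 2 with hedef
  have he2 : 0 < e := by positivity
  rw [ENNReal.tendsto_nhds_zero] at hulim
  filter_upwards [hulim (ENNReal.ofReal (c * e * e)) (by simpa using by positivity)] with n hn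
  have hv : v n ≤ ENNReal.ofReal (e * e) := by
    have := le_trans (hvu n) hn
    rw [mul_assoc, ENNReal.ofReal_mul hc.le] at this
    exact (ENNReal.mul_le_mul_iff_right (ENNReal.ofReal_pos.mpr hc).ne' ENNReal.ofReal_ne_top).mp this
  calc gwTV p l n
      ≤ ∑' T : Tr n, (treeWeight p n T * ENNReal.ofReal e + treeWeight p n T *
          ENNReal.ofReal (expect sq (lik l n T)) * ENNReal.ofReal (1 / e)) := by
        refine ENNReal.tsum_le_tsum fun T => ?_
        rw [mul_assoc, ← mul_add, ← ENNReal.ofReal_mul (expect_sq_nonneg (fam_lik hl hu n T)),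
          mul_one_div, ← ENNReal.ofReal_add he2.le
            (div_nonneg (expect_sq_nonneg (fam_lik hl hu n T)) he2.le)]
        exact mul_le_mul' le_rfl (ENNReal.ofReal_le_ofReal (tv_le hl hu n T he2))
    _ = ENNReal.ofReal e + v n * ENNReal.ofReal (1 / e) := by
        rw [ENNReal.tsum_add, ENNReal.tsum_mul_right, ENNReal.tsum_mul_right,
          tsum_treeWeight p hp, one_mul]
    _ ≤ ENNReal.ofReal e + ENNReal.ofReal (e * e) * ENNReal.ofReal (1 / e) := by gcongr
    _ = ε := by
        rw [← ENNReal.ofReal_mul (by positivity), show e * e * (1 / e) = e by field_simp,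
          ← ENNReal.ofReal_add he2.le he2.le, show e + e = ε.toReal by rw [hedef]; ring,
          ENNReal.ofReal_toReal hε']

end main

end Vale.Agent.P154.Hinv
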