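import Vale.Agent.P154.HinvData
import Vale.Agent.P154.HinvSliceA
import Vale.Agent.P154.HinvSliceB
import Vale.Agent.P154.HinvTreeA
import Vale.Agent.P154.HinvTreeB
import Vale.Agent.P154.HinvTrees

/-!
The pair of potentials at the edge parameter -28868/100000, and at every parameter between it
and zero.
-/

namespace Vale.Agent.P154.Hinv

/-- The coefficients of the first potential. -/
noncomputable def coefF : Coef :=
  ⟨(-153 : ℝ) / 2500 + 501 / 5000, (501 : ℝ) / 5000, 0, (993 : ℝ) / 10000⟩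

/-- The second functional, in the invariants. -/
noncomputable def hval (s t : ℝ) : ℝ :=
  comb5 ((-511 : ℝ) / 10000) (57 / 500) (-4469 / 10000) (1451 / 10000) 0 s t

/-- The second functional. -/
noncomputable def hfun (a : Spin → ℝ) : ℝ :=
  hval (sI (a 0 - 1) (a 1 - 1)) (tI (a 0 - 1) (a 1 - 1))

lemma coefF_val (s t : ℝ) :
    coefF.val s t = comb5 1 0 (-153 / 2500) (501 / 5000) (993 / 10000) s t := by
  simp only [coefF, Coef.val, comb5]; ring

/-- The edge parameter of the certificate. -/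
noncomputable def edge : ℝ := (-7217 : ℝ) / 25000

lemma sq_eq {a : Spin → ℝ} (ha : InS a) : sq a = sI (a 0 - 1) (a 1 - 1) := by
  have h2 : a 2 - 1 = -(a 0 - 1) - (a 1 - 1) := by linarith [ha.2]
  rw [sq, h2]; simp only [sI]; ring

lemma dom_of {a : Spin → ℝ} (ha : InS a) : Dom (a 0 - 1) (a 1 - 1) :=
  ⟨by linarith [ha.1 0], by linarith [ha.1 1], by linarith [ha.2, ha.1 2]⟩

/-- The average of a combination of the five monomials is an orbit sum. -/
lemma avgJoin_eq (c1 c2 c3 c4 c5 : ℝ) {a y : Spin → ℝ} (ha : InS a) (hy : InS y) :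
    6 * avgJoin edge
      (fun b => comb5 c1 c2 c3 c4 c5 (sI (b 0 - 1) (b 1 - 1)) (tI (b 0 - 1) (b 1 - 1))) a y
      = orbit (y 0 - 1) (y 1 - 1)
          (fun u v => joined5 c1 c2 c3 c4 c5 (a 0 - 1) (a 1 - 1) (edge * u) (edge * v)) := by
  set x := a 0 - 1 with hx
  set x' := a 1 - 1 with hx'
  set l := edge with hl
  have hterm : ∀ σ : Equiv.Perm Spin,
      zw a (fun i => img l y (σ i)) * comb5 c1 c2 c3 c4 c5
          (sI (comb a (fun i => img l y (σ i)) 0 - 1) (comb a (fun i => img l y (σ i)) 1 - 1))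
          (tI (comb a (fun i => img l y (σ i)) 0 - 1) (comb a (fun i => img l y (σ i)) 1 - 1))
        = joined5 c1 c2 c3 c4 c5 x x' (l * (y (σ 0) - 1)) (l * (y (σ 1) - 1)) := fun σ => by
    have hs : y (σ 0) + y (σ 1) + y (σ 2) = 3 := by
      have h := Equiv.sum_comp σ y
      rw [Fin.sum_univ_three, Fin.sum_univ_three] at h; linarith [hy.2]
    have h2 : a 2 = 3 - a 0 - a 1 := by linarith [ha.2]
    have h2' : y (σ 2) = 3 - y (σ 0) - y (σ 1) := by linarith
    have hz1 : zw a (fun i => img l y (σ i))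
        = 1 + wM x x' (l * (y (σ 0) - 1)) (l * (y (σ 1) - 1)) := by
      simp only [zw, img, wM, Fin.sum_univ_three, h2, h2', hx, hx']; ring
    have hp : 0 < 1 + wM x x' (l * (y (σ 0) - 1)) (l * (y (σ 1) - 1)) := by
      have hd : Dom (y (σ 0) - 1) (y (σ 1) - 1) :=
        ⟨by linarith [hy.1 (σ 0)], by linarith [hy.1 (σ 1)], by linarith [hy.1 (σ 2)]⟩
      have hpr := (dom_of ha).pairing hd
      have he : wM x x' (l * (y (σ 0) - 1)) (l * (y (σ 1) - 1))
          = l * wM x x' (y (σ 0) - 1) (y (σ 1) - 1) := by simp only [wM]; ring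
      rw [he, hl, edge]; linarith [hpr.2]
    have hc : ∀ i, comb a (fun i => img l y (σ i)) i - 1
        = (a i - 1) + (1 + (a i - 1)) * (l * (y (σ i) - 1)
          - wM x x' (l * (y (σ 0) - 1)) (l * (y (σ 1) - 1)))
          / (1 + wM x x' (l * (y (σ 0) - 1)) (l * (y (σ 1) - 1))) := fun i => by
      show a i * img l y (σ i) / zw a (fun i => img l y (σ i)) - 1 = _
      rw [hz1, img]; field_simp; ring
    rw [hc 0, hc 1, hz1]
    rfl
  rw [avgJoin, Finset.sum_congr rfl fun σ _ => hterm σ,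
    perm_sum fun i j => joined5 c1 c2 c3 c4 c5 x x' (l * (y i - 1)) (l * (y j - 1))]
  have h2 : y 2 - 1 = -(y 0 - 1) - (y 1 - 1) := by linarith [hy.2]
  simp only [orbit, h2]
  ring

lemma range_edge : ∀ x, -1 ≤ x → x ≤ 2 →
    (-7217 : ℝ) / 12500 ≤ edge * x ∧ edge * x ≤ (7217 : ℝ) / 25000 := fun x h0 h1 => by
  simp only [edge]; constructor <;> linarith

lemma avgA_eq (s t S T : ℝ) :
    4 * 10000000 * avg5 (Uni.pR 10000000 cA1) (Uni.pR 10000000 cA2) (Uni.pR 10000000 cA3)
      (Uni.pR 10000000 cA4) (Uni.pR 10000000 cA5) s t S T = Uni.val4 s t S T avgA :=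
  avg5_eq (by norm_num) s t S T (base1R_eq s t S T) (base2R_eq s t S T) (base3R_eq s t S T)
    (base4R_eq s t S T) (base5R_eq s t S T) avgCheckA

lemma avgB_eq (s t S T : ℝ) :
    4 * 10000000 * avg5 (Uni.pR 10000000 cB1) (Uni.pR 10000000 cB2) (Uni.pR 10000000 cB3)
      (Uni.pR 10000000 cB4) (Uni.pR 10000000 cB5) s t S T = Uni.val4 s t S T avgB :=
  avg5_eq (by norm_num) s t S T (base1R_eq s t S T) (base2R_eq s t S T) (base3R_eq s t S T)
    (base4R_eq s t S T) (base5R_eq s t S T) avgCheckB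

/-- The first pointwise inequality in the invariants. -/
lemma final_A {s t sz tz : ℝ} (hst : Inv s t) (hz : Inv sz tz) :
    avg5 (Uni.pR 10000000 cA1) (Uni.pR 10000000 cA2) (Uni.pR 10000000 cA3) (Uni.pR 10000000 cA4)
        (Uni.pR 10000000 cA5) s t (edge ^ 2 * sz) (edge ^ 3 * tz)
      ≤ coefF.val s t + edge ^ 2 * coefF.val sz tz - hval s t * sz
        - 1 / 2000 * edge ^ 2 * s * sz := by
  obtain ⟨r, w, hr, hw, es, et, -⟩ := Uni.exists_coord hst
  obtain ⟨r', w', hr', hw', es', et', -⟩ := Uni.exists_coord hz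
  have e := val_of_idCheck (by norm_num) (by norm_num) (by norm_num) (by norm_num) idCheckA
    (4 * s) (8 * t) (4 * sz) (8 * tz)
  have key := valZ_nonneg_fac CertA.fac_ok CertA.ident CertA.good hr hw hr' hw'
  rw [← es, ← et, ← es', ← et'] at key
  have z0 : ∀ h : ℝ, Uni.valZ (4 * s) (8 * t) (4 * sz) (8 * tz) h targetA
      = Uni.valZ (4 * s) (8 * t) (4 * sz) (8 * tz) 0 targetA := fun h => by
    simp only [targetA, Uni.valZ, pow_zero, mul_one]
  rw [z0] at key
  rw [← avgA_eq] at e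
  simp only [extraA, Uni.val4] at e
  push_cast at e
  rw [show (1 : ℝ) / 4 * (4 * s) = s by ring, show (1 : ℝ) / 8 * (8 * t) = t by ring,
    show (52085089 : ℝ) / 2500000000 * (4 * sz) = edge ^ 2 * sz by rw [edge]; ring,
    show (-375898087313 : ℝ) / 125000000000000 * (8 * tz) = edge ^ 3 * tz by rw [edge]; ring] at e
  generalize avg5 _ _ _ _ _ s t (edge ^ 2 * sz) (edge ^ 3 * tz) = A at e ⊢
  simp only [coefF, Coef.val, hval, comb5, edge]
  linarith

/-- The second pointwise inequality in the invariants. -/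
lemma final_B {s t sz tz : ℝ} (hst : Inv s t) (hz : Inv sz tz) :
    hval s t - 19 / 50 * (sz * hval s t)
      ≤ avg5 (Uni.pR 10000000 cB1) (Uni.pR 10000000 cB2) (Uni.pR 10000000 cB3)
        (Uni.pR 10000000 cB4) (Uni.pR 10000000 cB5) s t (edge ^ 2 * sz) (edge ^ 3 * tz) := by
  obtain ⟨r, w, hr, hw, es, et, -⟩ := Uni.exists_coord hst
  obtain ⟨r', w', hr', hw', es', et', -⟩ := Uni.exists_coord hz
  have e := val_of_idCheck (by norm_num) (by norm_num) (by norm_num) (by norm_num) idCheckB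
    (4 * s) (8 * t) (4 * sz) (8 * tz)
  have key := valZ_nonneg_fac CertB.fac_ok CertB.ident CertB.good hr hw hr' hw'
  rw [← es, ← et, ← es', ← et'] at key
  have z0 : ∀ h : ℝ, Uni.valZ (4 * s) (8 * t) (4 * sz) (8 * tz) h targetB
      = Uni.valZ (4 * s) (8 * t) (4 * sz) (8 * tz) 0 targetB := fun h => by
    simp only [targetB, Uni.valZ, pow_zero, mul_one]
  rw [z0] at key
  rw [← avgB_eq] at e
  simp only [extraB, Uni.val4] at e
  push_cast at e
  rw [show (1 : ℝ) / 4 * (4 * s) = s by ring, show (1 : ℝ) / 8 * (8 * t) = t by ring,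
    show (52085089 : ℝ) / 2500000000 * (4 * sz) = edge ^ 2 * sz by rw [edge]; ring,
    show (-375898087313 : ℝ) / 125000000000000 * (8 * tz) = edge ^ 3 * tz by rw [edge]; ring] at e
  generalize avg5 _ _ _ _ _ s t (edge ^ 2 * sz) (edge ^ 3 * tz) = A at e ⊢
  simp only [hval, comb5]
  linarith

/-- The first inequality at the edge parameter of the certificate. -/
lemma sub_edge {a y : Spin → ℝ} (ha : InS a) (hy : InS y) :
    avgJoin edge coefF.phi a y
      ≤ coefF.phi a + edge ^ 2 * coefF.phi y - hfun a * sq y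
        - 1 / 2000 * edge ^ 2 * sq a * sq y := by
  have hb := orbit_bound (up := true) (l := edge) (by norm_num [edge]) (by norm_num [edge]) range_edge
    (by norm_num) bdA1 bdA2 bdA3 bdA4 bdA5 (dom_of ha) (dom_of hy)
  simp only [if_true] at hb
  rw [← avgJoin_eq _ _ _ _ _ ha hy] at hb
  have hf := final_A (dom_of ha).inv (dom_of hy).inv
  have e : coefF.phi = fun b : Spin → ℝ => comb5 1 0 (-153 / 2500) (501 / 5000) (993 / 10000)
      (sI (b 0 - 1) (b 1 - 1)) (tI (b 0 - 1) (b 1 - 1)) := funext fun b => coefF_val _ _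
  rw [← e] at hb
  rw [sq_eq ha, sq_eq hy]
  simp only [hfun, Coef.phi] at hf hb ⊢
  linarith

/-- The second inequality at the edge parameter of the certificate. -/
lemma keep_edge {a y : Spin → ℝ} (ha : InS a) (hy : InS y) :
    hfun a - 19 / 50 * (sq y * hfun a) ≤ avgJoin edge hfun a y := by
  have hb := orbit_bound (up := false) (l := edge) (by norm_num [edge]) (by norm_num [edge]) range_edge
    (by norm_num) bdB1 bdB2 bdB3 bdB4 bdB5 (dom_of ha) (dom_of hy)
  simp only [Bool.false_eq_true, if_false] at hb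
  rw [← avgJoin_eq _ _ _ _ _ ha hy] at hb
  have hf := final_B (dom_of ha).inv (dom_of hy).inv
  have e : hfun = fun b : Spin → ℝ => comb5 (-511 / 10000) (57 / 500) (-4469 / 10000)
      (1451 / 10000) 0 (sI (b 0 - 1) (b 1 - 1)) (tI (b 0 - 1) (b 1 - 1)) := rfl
  rw [← e] at hb
  rw [sq_eq hy]
  simp only [hfun] at hf hb ⊢
  linarith

/-- The pair of potentials between the edge parameter and zero. -/
theorem pot2 {l : ℝ} (h0 : edge ≤ l) (h1 : l ≤ 0) :
    Pot2 l 1 2 (1 / 2000) ((l / edge) ^ 2) (19 / 50 * (l / edge) ^ 2) coefF.phi hfun := by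
  have he : edge < 0 := by norm_num [edge]
  set m := l / edge with hm
  have m0 : 0 ≤ m := div_nonneg_of_nonpos h1 he.le
  have m1 : m ≤ 1 := by rw [hm, div_le_one_of_neg he]; exact h0
  have hl : edge * m = l := by rw [hm, mul_div_cancel₀ _ he.ne]
  have c1 : 0 < coefF.e1 := by norm_num [coefF]
  have c3 : coefF.e3 = 0 := rfl
  have c4 : 0 ≤ coefF.e4 := by norm_num [coefF]
  have hc : 9 * coefF.e2 ^ 2 ≤ 32 * (coefF.e1 * coefF.e4) := by norm_num [coefF]
  have hc' : coefF.e2 ^ 2 ≤ 4 * (coefF.e1 * coefF.e4) := by norm_num [coefF]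
  have hC : coefF.e1 + |coefF.e2| + |coefF.e4| ≤ 1 := by norm_num [coefF]
  have himg : ∀ {y : Spin → ℝ}, InS y → InS (img m y) := fun {y} hy => by
    refine ⟨fun i => ?_, ?_⟩
    · have := mul_nonneg m0 (hy.1 i)
      simp only [img]; linarith
    · simp only [img]; linear_combination m * hy.2
  have hflip : ∀ (F : (Spin → ℝ) → ℝ) (a y : Spin → ℝ),
      avgJoin l F a y = avgJoin edge F a (img m y) := fun F a y => by
    have e1 : ∀ i, img edge (img m y) i = img l y i := fun i => by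
      simp only [img, ← hl]; ring
    simp only [avgJoin, e1]
  have e2 : ∀ y, sq (img m y) = m ^ 2 * sq y := fun y => by simp only [sq, img]; ring
  have e3 : ∀ y, coefF.phi (img m y) ≤ m ^ 2 * coefF.phi y := fun y => by
    have es : sI (img m y 0 - 1) (img m y 1 - 1) = m ^ 2 * sI (y 0 - 1) (y 1 - 1) := by
      simp only [sI, img]; ring
    have et : tI (img m y 0 - 1) (img m y 1 - 1) = m ^ 3 * tI (y 0 - 1) (y 1 - 1) := by
      simp only [tI, img]; ring
    rw [Coef.phi, es, et]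
    exact Uni.val_img_le coefF c1 c3 c4 hc m0 m1 _ _
  refine ⟨?_, ?_, sq_nonneg _, ⟨mul_nonneg (by norm_num) (sq_nonneg _), by
    linarith [pow_le_one₀ (n := 2) m0 m1]⟩, fun a ha => ?_, fun a ha => ?_,
    fun a y ha hy => ?_, fun a y ha hy => ?_⟩
  · simp [Coef.phi, Coef.val, sI, tI]
  · simp [hfun, hval, comb5, sI, tI]
  · rw [sq_eq ha]; exact (Uni.val_bounds coefF c1 c3 hc' hC (dom_of ha).inv).1
  · rw [sq_eq ha]; exact (Uni.val_bounds coefF c1 c3 hc' hC (dom_of ha).inv).2
  · have h := sub_edge ha (himg hy)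
    rw [hflip]
    rw [e2] at h
    have := mul_le_mul_of_nonneg_left (e3 y) (sq_nonneg edge)
    rw [← hl]
    linarith
  · have h := keep_edge ha (himg hy)
    rw [hflip]
    rw [e2] at h
    linarith

end Vale.Agent.P154.Hinv
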