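import Vale.Agent.P154.UniPoly

/-!
The identity of the target polynomial in coordinates, with the two factors of each group given
as literal coefficient lists in two variables.
-/

namespace Vale.Agent.P154.Hinv

open Bern Uni

/-- The integer is nonnegative. -/
def isNat : ℤ → Bool
  | Int.ofNat _ => true
  | Int.negSucc _ => false

/-- All coefficients are nonnegative. -/
def allNonneg : (n : ℕ) → MP n → Bool
  | 0, a => forceZ a isNat
  | n + 1, a => List.all a (allNonneg n)

lemma ev_nonneg_of_allNonneg : ∀ (n : ℕ) (a : MP n), allNonneg n a = true → ∀ x : ℕ → ℝ,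
    (∀ i, 0 ≤ x i) → 0 ≤ ev n a x
  | 0, a, h, x, _ => by
    replace h : forceZ (show ℤ from a) isNat = true := h
    rw [forceZ_eq] at h
    show (0 : ℝ) ≤ ((show ℤ from a) : ℝ)
    generalize (show ℤ from a) = z at h ⊢
    cases z with
    | ofNat m => exact Int.cast_nonneg (Int.natCast_nonneg m)
    | negSucc m => simp [isNat] at h
  | n + 1, a, h, x, hx => by
    replace h : List.all (show List (MP n) from a) (allNonneg n) = true := h
    show 0 ≤ ev (n + 1) a x
    induction a with
    | nil => exact le_of_eq (ev_succ_nil n x).symm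
    | cons c a ih =>
      rw [List.all_cons, Bool.and_eq_true] at h
      rw [ev_succ_cons]
      exact add_nonneg (ev_nonneg_of_allNonneg n c h.1 _ fun i => hx (i + 1))
        (mul_nonneg (hx 0) (ih h.2))

/-- The product of a polynomial in the first two variables and one in the last two. -/
def tens (A Y : List (List ℤ)) : MP 4 :=
  A.map fun r => r.map fun c : ℤ => smul 2 c (show MP 2 from Y)

/-- A polynomial in the first two variables. -/
def liftA (A : List (List ℤ)) : MP 4 :=
  A.map fun r => r.map fun c : ℤ => (show MP 2 from [[c]])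

/-- A polynomial in the last two variables. -/
def liftY (Y : List (List ℤ)) : MP 4 :=
  (show List (List (MP 2)) from [[(show MP 2 from Y)]])

/-- Multiplication by the square of the third variable, with a change of sign. -/
def negShift (P : MP 4) : MP 4 :=
  (show List (List (MP 2)) from P).map fun r =>
    r.map fun c => (show MP 2 from List.cons (zero 1) (List.cons (zero 1) (smul 2 (-1) c)))

/-- The sum of the products of the groups. -/
def gsum : List (List (List ℤ) × List (List ℤ)) → MP 4 → MP 4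
  | [], acc => acc
  | (A, Y) :: r, acc => add 4 (tens A Y) (gsum r acc)

/-- The literal factors agree with those of the groups. -/
def facCheck : List ((ℕ × ℕ × ℕ) × List (ℤ × ℕ × ℕ)) →
    List (List (List ℤ) × List (List ℤ)) → Bool
  | [], [] => true
  | ((k, m, e), l) :: z, (A, Y) :: g =>
    isZero 4 (add 4 (asum l) (smul 4 (-1) (liftA A))) &&
      isZero 4 (add 4 (ypart k m e) (smul 4 (-1) (liftY Y))) &&
      facCheck z g
  | _, _ => false

lemma ev_rows {α : Type} (f : α → MP 2) (g : α → ℝ) (x : ℕ → ℝ) (k : ℝ)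
    (h : ∀ c, ev 2 (f c) (fun i => x (i + 2)) = k * g c) : ∀ A : List (List α),
    ev 4 (show MP 4 from A.map fun r => r.map f) x = k * List.foldr
      (fun r s => List.foldr (fun c q => g c + x 1 * q) 0 r + x 0 * s) 0 A
  | [] => (ev_succ_nil 3 x).trans (mul_zero k).symm
  | r :: A => by
    have hr : ∀ r : List α, ev 3 (show MP 3 from r.map f) (fun i => x (i + 1))
        = k * List.foldr (fun c q => g c + x 1 * q) 0 r := fun r => by
      induction r with
      | nil => simp [ev_succ_nil]
      | cons c r ih =>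
        refine (ev_succ_cons 2 (f c) (r.map f) _).trans ?_
        rw [show ev 3 (r.map f) (fun i => x (i + 1)) = _ from ih]
        simp only [List.foldr_cons]
        rw [show (fun i => x (i + 1 + 1)) = fun i => x (i + 2) from rfl, h]
        ring
    refine (ev_succ_cons 3 (r.map f) (A.map fun r => r.map f) x).trans ?_
    rw [show ev 4 (A.map fun r => r.map f) x = _ from ev_rows f g x k h A,
      show ev 3 (r.map f) (fun i => x (i + 1)) = _ from hr r]
    simp only [List.foldr_cons]
    ring

lemma ev_tens (A Y : List (List ℤ)) (x : ℕ → ℝ) :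
    ev 4 (tens A Y) x = ev 4 (liftA A) x * ev 4 (liftY Y) x := by
  have e1 : ev 4 (liftY Y) x
      = ev 2 (show MP 2 from Y) (fun i => x (i + 2)) := by
    refine (ev_succ_cons 3 [(show MP 2 from Y)] [] x).trans ?_
    rw [ev_succ_nil, show ev 3 [(show MP 2 from Y)] (fun i => x (i + 1))
      = _ from ev_succ_cons 2 _ [] _, ev_succ_nil]
    simp
  have h1 := ev_rows (fun c : ℤ => smul 2 c (show MP 2 from Y)) (fun c : ℤ => (c : ℝ)) x
    (ev 2 (show MP 2 from Y) (fun i => x (i + 2))) (fun c => by rw [ev_smul]; ring) A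
  have h2 := ev_rows (fun c : ℤ => (show MP 2 from [[c]])) (fun c : ℤ => (c : ℝ)) x 1
    (fun c => by
      refine (ev_succ_cons 1 [c] [] _).trans ?_
      rw [ev_succ_nil, show ev 1 [c] _ = _ from ev_succ_cons 0 c [] _, ev_succ_nil]
      show ((c : ℤ) : ℝ) + _ * 0 + _ * 0 = _
      ring) A
  rw [e1, show ev 4 (tens A Y) x = _ from h1, show ev 4 (liftA A) x = _ from h2]
  ring

lemma ev_negShift (P : MP 4) (x : ℕ → ℝ) : ev 4 (negShift P) x = -(x 2) ^ 2 * ev 4 P x := by
  have h0 := ev_rows (fun c : MP 2 => c) (fun c => ev 2 c (fun i => x (i + 2))) x 1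
    (fun c => (one_mul _).symm) (show List (List (MP 2)) from P)
  have h1 := ev_rows
    (fun c : MP 2 => (show MP 2 from List.cons (zero 1) (List.cons (zero 1) (smul 2 (-1) c))))
    (fun c => ev 2 c (fun i => x (i + 2))) x (-(x 2) ^ 2) (fun c => by
      refine (ev_succ_cons 1 (zero 1) (List.cons (zero 1) (smul 2 (-1) c)) _).trans ?_
      rw [ev_zero, show ev 2 (List.cons (zero 1) (smul 2 (-1) c)) _ = _ from
        ev_succ_cons 1 (zero 1) _ _, ev_zero]
      simp only [ev_smul]
      push_cast
      ring) (show List (List (MP 2)) from P)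
  have hid : ∀ L : List (List (MP 2)), L.map (fun r => r.map fun c => c) = L := fun L => by simp
  rw [show ev 4 (negShift P) x = _ from h1, show ev 4 P x = _ from (congrArg (fun L : List (List (MP 2)) => ev 4 L x) (hid P).symm).trans h0]
  ring

lemma ev_gsum (x : ℕ → ℝ) : ∀ (z : List ((ℕ × ℕ × ℕ) × List (ℤ × ℕ × ℕ)))
    (g : List (List (List ℤ) × List (List ℤ))) (acc : MP 4), facCheck z g = true →
    ev 4 (gsum g acc) x = ev 4 (zsum z (zero 4)) x + ev 4 acc x
  | [], [], acc, _ => by simp [gsum, zsum, ev_zero]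
  | [], _ :: _, _, h => by simp [facCheck] at h
  | ((k, m, e), l) :: _, [], _, h => by simp [facCheck] at h
  | ((k, m, e), l) :: z, (A, Y) :: g, acc, h => by
    simp only [facCheck, Bool.and_eq_true] at h
    obtain ⟨⟨h1, h2⟩, h3⟩ := h
    have q1 := ev_eq_zero_of_isZero 4 _ h1 x
    have q2 := ev_eq_zero_of_isZero 4 _ h2 x
    rw [ev_add, ev_smul] at q1 q2
    push_cast at q1 q2
    have hz : ∀ (z : List ((ℕ × ℕ × ℕ) × List (ℤ × ℕ × ℕ))) (N : MP 4),
        ev 4 (zsum z N) x = ev 4 (zsum z (zero 4)) x + ev 4 N x := by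
      intro z
      induction z with
      | nil => intro N; simp [zsum, ev_zero]
      | cons hd tl ih =>
        obtain ⟨⟨k, m, e⟩, l⟩ := hd
        intro N
        simp only [zsum]
        rw [ih, ih (add 4 _ (zero 4)), ev_add, ev_add, ev_zero]
        ring
    simp only [gsum, zsum, ev_add, ev_gsum x z g acc h3, ev_tens]
    rw [hz z (add 4 _ (zero 4)), ev_add, ev_mul, ev_zero,
      show ev 4 (asum l) x = ev 4 (liftA A) x by linarith,
      show ev 4 (ypart k m e) x = ev 4 (liftY Y) x by linarith]
    ring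

/-- The literal factors give the nonnegativity of the value of the groups. -/
lemma valZ_nonneg_fac {z : List ((ℕ × ℕ × ℕ) × List (ℤ × ℕ × ℕ))}
    {g : List (List (List ℤ) × List (List ℤ))} {P : MP 4} {c : ℕ} (hf : facCheck z g = true)
    (hc : allNonneg 4 (gsum g (negShift (smul 4 (Int.ofNat c) P))) = true)
    (hP : Good 4 [] P) {r w r' w' : ℝ}
    (hr : 0 ≤ r ∧ r ≤ 1) (hw : 0 ≤ w ∧ w ≤ 1) (hr' : 0 ≤ r' ∧ r' ≤ 1) (hw' : 0 ≤ w' ∧ w' ≤ 1) :
    0 ≤ valZ (r ^ 2 * (4 - 6 * w + 3 * w ^ 2)) (r ^ 3 * (8 - 18 * w + 9 * w ^ 2))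
        (r' ^ 2 * (4 - 6 * w' + 3 * w' ^ 2)) (r' ^ 3 * (8 - 18 * w' + 9 * w' ^ 2))
        (r' * (2 - w')) z := by
  set x := v4 r w r' w' with hx
  have e := ev_nonneg_of_allNonneg 4 _ hc x (by
    rintro (_ | _ | _ | i)
    · exact hr.1
    · exact hw.1
    · exact hr'.1
    · exact hw'.1)
  rw [ev_gsum x z g _ hf, ev_negShift, ev_smul] at e
  have hN : 0 ≤ ev 4 P x := hP x (by
    rintro (_ | _ | _ | i)
    · exact hr
    · exact hw
    · exact hr'
    · exact hw')
  simp only [hx, ev_zsum, ev_zero, v4, add_zero] at e hN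
  have hC : (0 : ℝ) ≤ ((Int.ofNat c : ℤ) : ℝ) := by simp
  nlinarith [mul_nonneg (sq_nonneg r') (mul_nonneg hC hN)]

end Vale.Agent.P154.Hinv
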