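import Vale.Agent.P154.HinvCoefA
import Vale.Agent.P154.UniPackFast

/-!
Generated subdivision certificate, first part.
-/

namespace Vale.Agent.P154.Hinv.CertA

open Bern

theorem good1 : Pack.Ok 4 [(1, 0), (0, 0), (1, 0), (0, 0)] poly :=
  Pack.ok_leafR (ds := [16, 15, 14, 15]) (W := 116) (by decide +kernel)

theorem good2 : Pack.Ok 4 [(1, 1), (1, 0), (1, 0), (0, 0)] poly :=
  Pack.ok_leafR (ds := [16, 15, 14, 15]) (W := 137) (by decide +kernel)

theorem good3 : Pack.Ok 4 [(1, 1), (1, 1), (1, 0), (0, 0)] poly :=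
  Pack.ok_leafR (ds := [16, 15, 14, 15]) (W := 139) (by decide +kernel)

theorem good4 : Pack.Ok 4 [(1, 1), (0, 0), (1, 0), (0, 0)] poly :=
  Pack.ok_node 1 0 0 rfl good2 good3

theorem good5 : Pack.Ok 4 [(0, 0), (0, 0), (1, 0), (0, 0)] poly :=
  Pack.ok_node 0 0 0 rfl good1 good4

end Vale.Agent.P154.Hinv.CertA
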