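import Vale.Agent.P154.InvCertB

/-!
The first certificate is nonnegative on the half open unit cube: seven dyadic boxes, each tested
on one packed integer.
-/

namespace Vale.Agent.P154.Inv

/-- Packed elements with a binary denominator. -/
structure Dy where
  /-- The exponent of the denominator. -/
  e : ℕ
  /-- The numerator. -/
  p : Pk

/-- `a` represents `f` after clearing the denominator. -/
def DRep (a : Dy) (f : (ℕ → ℝ) → ℝ) : Prop := Rep a.p fun x => (2 : ℝ) ^ a.e * f x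

/-- The operations on elements with denominators. -/
def dops : Ops Dy where
  add a b := ⟨max a.e b.e, pops.add (pops.smul (2 ^ (max a.e b.e - a.e)) a.p)
    (pops.smul (2 ^ (max a.e b.e - b.e)) b.p)⟩
  mul a b := ⟨a.e + b.e, pops.mul a.p b.p⟩
  smul k a := ⟨a.e, pops.smul k a.p⟩
  con k := ⟨0, pops.con k⟩

lemma sound_dops : Sound dops DRep := by
  refine ⟨fun {a b f g} h h' => ?_, fun {a b f g} h h' => ?_, fun {a f} k h => ?_, fun k => ?_⟩
  · refine ((h.smul _).add (h'.smul _)).congr (funext fun x => ?_)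
    have e1 : max a.e b.e = max a.e b.e - a.e + a.e := by omega
    have e2 : max a.e b.e = max a.e b.e - b.e + b.e := by omega
    show _ = (2 : ℝ) ^ max a.e b.e * (f x + g x)
    rw [mul_add]
    nth_rewrite 3 [e1]
    nth_rewrite 4 [e2]
    push_cast [pow_add]
    ring
  · refine (h.mul h').congr (funext fun x => ?_)
    show _ = (2 : ℝ) ^ (a.e + b.e) * (f x * g x)
    rw [pow_add]; ring
  · refine (h.smul k).congr (funext fun x => ?_)
    show _ = (2 : ℝ) ^ a.e * ((k : ℝ) * f x)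
    ring
  · refine (rep_con k).congr (funext fun x => ?_)
    show _ = (2 : ℝ) ^ 0 * (k : ℝ)
    rw [pow_zero, one_mul]

/-- A dyadic interval `[lo, lo + 1] / 2 ^ e`. -/
structure Seg where
  /-- The exponent. -/
  e : ℕ
  /-- The left end, scaled. -/
  lo : ℤ

/-- A coordinate restricted to an interval. -/
def Seg.crd (i : Seg) (c : Pk) : Dy := ⟨i.e, pops.add (pops.con i.lo) c⟩

/-- The real map of the interval. -/
noncomputable def Seg.map (i : Seg) (w : ℝ) : ℝ := ((i.lo : ℝ) + w) / 2 ^ i.e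

lemma Seg.rep (i : Seg) {c : Pk} {f : (ℕ → ℝ) → ℝ} (h : Rep c f) :
    DRep (i.crd c) fun x => i.map (f x) := by
  refine ((rep_con i.lo).add h).congr (funext fun x => ?_)
  show _ = (2 : ℝ) ^ i.e * (((i.lo : ℝ) + f x) / 2 ^ i.e)
  field_simp

/-- The first certificate on a box. -/
def packA (odd : Bool) (S U T V : Seg) : Dy :=
  pair dops (certA dops) odd (S.crd crd0) (U.crd crd1) (T.crd crd2) (V.crd crd3)

lemma rep_packA (odd : Bool) (S U T V : Seg) :
    DRep (packA odd S U T V) fun x =>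
      pair rops (certA rops) odd (S.map (x 0)) (U.map (x 1)) (T.map (x 2)) (V.map (x 3)) := by
  obtain ⟨k0, k1, k2, k3⟩ := crd_rep
  have hS := sound_dops
  have hA := hS.sorted (S.rep k0) (U.rep k1)
  have hB := hS.sorted (T.rep k2) (V.rep k3)
  cases odd
  · exact hS.certA hA hB ⟨hB.2.1, hB.2.2, hB.1⟩ ⟨hB.2.2, hB.1, hB.2.1⟩
  · exact hS.certA hA ⟨hB.1, hB.2.2, hB.2.1⟩ ⟨hB.2.2, hB.2.1, hB.1⟩ ⟨hB.2.1, hB.1, hB.2.2⟩

/-- The whole interval. -/
def all1 : Seg := ⟨0, 0⟩
/-- The lower half. -/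
def low : Seg := ⟨1, 0⟩
/-- The upper half. -/
def up : Seg := ⟨1, 1⟩

theorem packA_1 : (packA false all1 low low all1).p.test = true := by decide +kernel

theorem packA_2 : (packA false low low up all1).p.test = true := by decide +kernel

theorem packA_3 : (packA false up low up low).p.test = true := by decide +kernel

theorem packA_4 : (packA false up low up up).p.test = true := by decide +kernel

theorem packA_5 : (packA false all1 up all1 low).p.test = true := by decide +kernel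

theorem packA_6 : (packA false all1 up all1 up).p.test = true := by decide +kernel

theorem packA_7 : (packA true all1 all1 all1 all1).p.test = true := by decide +kernel

lemma box_nonneg {odd : Bool} {S U T V : Seg} (h : (packA odd S U T V).p.test = true)
    {s u t v : ℝ} {x : ℕ → ℝ} (hx : ∀ i, 0 ≤ x i ∧ x i < 1) (h0 : S.map (x 0) = s)
    (h1 : U.map (x 1) = u) (h2 : T.map (x 2) = t) (h3 : V.map (x 3) = v) :
    0 ≤ pair rops (certA rops) odd s u t v := by
  have := nonneg_of_test (rep_packA odd S U T V) h hx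
  simp only [h0, h1, h2, h3] at this
  exact nonneg_of_mul_nonneg_right this (by positivity)

/-- The coordinate of a point in its half. -/
noncomputable def frac2 (w : ℝ) : ℝ := if w < 1 / 2 then 2 * w else 2 * w - 1

lemma frac2_spec {w : ℝ} (h : 0 ≤ w ∧ w < 1) :
    (0 ≤ frac2 w ∧ frac2 w < 1) ∧ (w < 1 / 2 → low.map (frac2 w) = w) ∧
      (¬w < 1 / 2 → up.map (frac2 w) = w) ∧ all1.map w = w := by
  refine ⟨?_, fun hw => ?_, fun hw => ?_, ?_⟩
  · unfold frac2; split_ifs with hw <;> constructor <;> linarith [h.1, h.2]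
  · simp only [frac2, Seg.map, low, if_pos hw]; push_cast; ring
  · simp only [frac2, Seg.map, up, if_neg hw]; push_cast; ring
  · simp [Seg.map, all1]

/-- The first certificate is nonnegative on the half open unit cube. -/
theorem certA_cube (odd : Bool) {x : ℕ → ℝ} (hx : ∀ i, 0 ≤ x i ∧ x i < 1) :
    0 ≤ pair rops (certA rops) odd (x 0) (x 1) (x 2) (x 3) := by
  obtain ⟨s0, sl, sh, sa⟩ := frac2_spec (hx 0)
  obtain ⟨u0, ul, uh, ua⟩ := frac2_spec (hx 1)
  obtain ⟨t0, tl, th, ta⟩ := frac2_spec (hx 2)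
  obtain ⟨v0', vl, vh, va⟩ := frac2_spec (hx 3)
  have mk : ∀ a b c d : ℝ, (0 ≤ a ∧ a < 1) → (0 ≤ b ∧ b < 1) → (0 ≤ c ∧ c < 1) →
      (0 ≤ d ∧ d < 1) → ∃ y : ℕ → ℝ, (∀ i, 0 ≤ y i ∧ y i < 1) ∧
        y 0 = a ∧ y 1 = b ∧ y 2 = c ∧ y 3 = d := fun a b c d ha hb hc hd =>
    ⟨fun i => if i = 0 then a else if i = 1 then b else if i = 2 then c else d,
      fun i => by simp only; split_ifs <;> assumption, by simp⟩
  cases odd
  · by_cases hu : x 1 < 1 / 2
    · by_cases ht : x 2 < 1 / 2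
      · obtain ⟨y, hy, e0, e1, e2, e3⟩ := mk _ _ _ _ (hx 0) u0 t0 (hx 3)
        exact box_nonneg packA_1 hy (e0 ▸ sa) (e1 ▸ ul hu) (e2 ▸ tl ht) (e3 ▸ va)
      · by_cases hs : x 0 < 1 / 2
        · obtain ⟨y, hy, e0, e1, e2, e3⟩ := mk _ _ _ _ s0 u0 t0 (hx 3)
          exact box_nonneg packA_2 hy (e0 ▸ sl hs) (e1 ▸ ul hu) (e2 ▸ th ht) (e3 ▸ va)
        · obtain ⟨y, hy, e0, e1, e2, e3⟩ := mk _ _ _ _ s0 u0 t0 v0'
          by_cases hv : x 3 < 1 / 2
          · exact box_nonneg packA_3 hy (e0 ▸ sh hs) (e1 ▸ ul hu) (e2 ▸ th ht) (e3 ▸ vl hv)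
          · exact box_nonneg packA_4 hy (e0 ▸ sh hs) (e1 ▸ ul hu) (e2 ▸ th ht) (e3 ▸ vh hv)
    · obtain ⟨y, hy, e0, e1, e2, e3⟩ := mk _ _ _ _ (hx 0) u0 (hx 2) v0'
      by_cases hv : x 3 < 1 / 2
      · exact box_nonneg packA_5 hy (e0 ▸ sa) (e1 ▸ uh hu) (e2 ▸ ta) (e3 ▸ vl hv)
      · exact box_nonneg packA_6 hy (e0 ▸ sa) (e1 ▸ uh hu) (e2 ▸ ta) (e3 ▸ vh hv)
  · exact box_nonneg packA_7 hx sa ua ta va

end Vale.Agent.P154.Inv
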