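import Vale.Agent.P154.InvCertB

/-!
The second certificate passes its test.
-/

namespace Vale.Agent.P154.Inv

theorem packB_false : (packB false).test = true := by decide +kernel

theorem packB_true : (packB true).test = true := by decide +kernel

/-- The second certificate is nonnegative on the half open unit cube. -/
theorem certB_cube (odd : Bool) {x : ℕ → ℝ} (hx : ∀ i, 0 ≤ x i ∧ x i < 1) :
    0 ≤ pair rops (certB rops) odd (x 0) (x 1) (x 2) (x 3) :=
  nonneg_of_test (rep_packB odd) (by cases odd; exact packB_false; exact packB_true) hx

end Vale.Agent.P154.Inv
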