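import Vale.Agent.P154.Basic
import Vale.Agent.P154.InvCheckA
import Vale.Agent.P154.InvCheckB

/-!
The two pointwise inequalities of the invariant method, on all pairs of posterior vectors.
-/

open scoped BigOperators
open Filter Topology

namespace Vale.Agent.P154.Inv

/-- The invariant functional, with nonnegative mean on ferromagnetic posterior laws. -/
noncomputable def ifun (a : Spin → ℝ) : ℝ := cub a - 13 / 20 * sq a ^ 2

/-- The average of a function of the joined posterior over relabellings of the second child. -/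
noncomputable def avgJoin (φ : (Spin → ℝ) → ℝ) (a b : Spin → ℝ) : ℝ :=
  (1 / 6 : ℝ) * ∑ σ : Equiv.Perm Spin, zw a (fun i => b (σ i)) * φ (comb a (fun i => b (σ i)))

/-- Invariance under relabelling. -/
def Sym (φ : (Spin → ℝ) → ℝ) : Prop :=
  ∀ (a : Spin → ℝ) (σ : Equiv.Perm Spin), φ (fun i => a (σ i)) = φ a

lemma sym_sq : Sym sq := fun a σ => by
  have h := Equiv.sum_comp σ fun i => (a i - 1) ^ 2
  simp only [Fin.sum_univ_three] at h
  simp only [P154.sq, h]

lemma sym_cub : Sym cub := fun a σ => by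
  have h := Equiv.prod_comp σ fun i => (a i - 1)
  simp only [Fin.prod_univ_three] at h
  simp only [P154.cub, h]

lemma sym_ifun : Sym ifun := fun a σ => by simp only [ifun, sym_sq a σ, sym_cub a σ]

lemma avgJoin_relabel {φ : (Spin → ℝ) → ℝ} (hφ : Sym φ) (a b : Spin → ℝ)
    (p q : Equiv.Perm Spin) :
    avgJoin φ (fun i => a (p i)) (fun i => b (q i)) = avgJoin φ a b := by
  simp only [avgJoin]
  congr 1
  rw [← ((Equiv.mulLeft q).trans (Equiv.mulRight p⁻¹)).sum_comp
    fun σ => zw a (fun i => b (σ i)) * φ (comb a fun i => b (σ i))]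
  refine Finset.sum_congr rfl fun σ _ => ?_
  simp only [Equiv.trans_apply, Equiv.coe_mulLeft, Equiv.coe_mulRight, Equiv.Perm.mul_apply]
  have hz : zw (fun i => a (p i)) (fun i => b (q (σ i))) =
      zw a (fun i => b (q (σ (p⁻¹ i)))) := by
    simp only [zw]
    congr 1
    rw [← Equiv.sum_comp p fun i => a i * b (q (σ (p⁻¹ i)))]
    simp
  rw [hz]
  congr 1
  rw [← hφ (comb a fun i => b (q (σ (p⁻¹ i)))) p]
  congr 1
  funext i
  simp only [comb, hz]
  simp

lemma avgJoin_symm {φ : (Spin → ℝ) → ℝ} (hφ : Sym φ) (a b : Spin → ℝ) :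
    avgJoin φ a b = avgJoin φ b a := by
  simp only [avgJoin]
  congr 1
  refine Fintype.sum_equiv (Equiv.inv (Equiv.Perm Spin)) _ _ fun σ => ?_
  simp only [Equiv.inv_apply]
  have hz : zw b (fun i => a (σ⁻¹ i)) = zw a (fun i => b (σ i)) := by
    simp only [zw]
    congr 1
    rw [← Equiv.sum_comp σ fun i => b i * a (σ⁻¹ i)]
    simp [mul_comm]
  rw [hz]
  congr 1
  rw [← hφ (comb b fun i => a (σ⁻¹ i)) σ]
  congr 1
  funext i
  simp only [comb, hz]
  simp [mul_comm]

lemma exists_sorted {a : Spin → ℝ} (h : InS a) :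
    ∃ p : Equiv.Perm Spin, a (p 1) ≤ a (p 0) ∧ a (p 2) ≤ a (p 1) ∧ InS fun i => a (p i) := by
  have hm := Tuple.monotone_sort fun i => -a i
  refine ⟨Tuple.sort fun i => -a i, ?_, ?_, fun i => h.1 _, ?_⟩
  · simpa using hm (show (0 : Spin) ≤ 1 by decide)
  · simpa using hm (show (1 : Spin) ≤ 2 by decide)
  · have hs := Equiv.sum_comp (Tuple.sort fun i => -a i) a
    simp only [Fin.sum_univ_three] at hs
    exact hs.trans h.2

lemma sum_spin_perm (F : Spin → Spin → Spin → ℝ) :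
    ∑ σ : Equiv.Perm Spin, F (σ 0) (σ 1) (σ 2) =
      F 0 1 2 + F 1 2 0 + F 2 0 1 + F 0 2 1 + F 2 1 0 + F 1 0 2 := by
  have h : (Finset.univ : Finset (Equiv.Perm Spin)) = {1, Equiv.swap 1 2, Equiv.swap 0 1,
      Equiv.swap 0 1 * Equiv.swap 1 2, Equiv.swap 0 2 * Equiv.swap 1 2, Equiv.swap 0 2} := by
    decide
  rw [h, Finset.sum_insert (by decide), Finset.sum_insert (by decide),
    Finset.sum_insert (by decide), Finset.sum_insert (by decide), Finset.sum_insert (by decide),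
    Finset.sum_singleton]
  simp [Equiv.swap_apply_def]
  ring

/-- A vector as a triple, doubled. -/
def dbl (a : Spin → ℝ) (i j k : Spin) : Vec ℝ := ⟨2 * a i, 2 * a j, 2 * a k⟩

/-! ### The certificates on the reals -/

/-- The point used to evaluate coefficient lists. -/
def point (s u t v : ℝ) : ℕ → ℝ
  | 0 => s
  | 1 => u
  | 2 => t
  | 3 => v
  | _ => 0

lemma point_mem {s u t v : ℝ} {p : ℝ → Prop} (h0 : p s) (h1 : p u) (h2 : p t) (h3 : p v)
    (h4 : p 0) : ∀ i, p (point s u t v i)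
  | 0 => h0
  | 1 => h1
  | 2 => h2
  | 3 => h3
  | _ + 4 => h4

set_option backward.isDefEq.respectTransparency false in
lemma ev_vars (s u t v : ℝ) :
    Bern.ev 4 v0 (point s u t v) = s ∧ Bern.ev 4 v1 (point s u t v) = u ∧
      Bern.ev 4 v2 (point s u t v) = t ∧ Bern.ev 4 v3 (point s u t v) = v := by
  simp [v0, v1, v2, v3, Bern.ev, point]

set_option backward.isDefEq.respectTransparency false in
lemma ev_con (k : ℤ) (x : ℕ → ℝ) : Bern.ev 4 (lops.con k) x = (k : ℝ) := by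
  simp [lops, Bern.ev]

lemma ev_polA (odd : Bool) (s u t v : ℝ) :
    Bern.ev 4 (polA odd) (point s u t v) = pair rops (certA rops) odd s u t v := by
  obtain ⟨h0, h1, h2, h3⟩ := ev_vars s u t v
  have ha : ∀ p q x, Bern.ev 4 (lops.add p q) x = Bern.ev 4 p x + Bern.ev 4 q x := Bern.ev_add 4
  have hm : ∀ p q x, Bern.ev 4 (lops.mul p q) x = Bern.ev 4 p x * Bern.ev 4 q x := Bern.ev_mul 4
  have hs : ∀ k p x, Bern.ev 4 (lops.smul k p) x = (k : ℝ) * Bern.ev 4 p x := Bern.ev_smul 4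
  cases odd <;>
    simp only [polA, pair, certA, sorted, pr, zq, cq, nx, rhsA, xq, iq, tq, if_true, if_false,
      Bool.false_eq_true, ha, hm, hs, ev_con, h0, h1, h2, h3] <;> rfl

lemma sorted_coord {a : Spin → ℝ} (h : InS a) (h01 : a 1 ≤ a 0) (h12 : a 2 ≤ a 1) :
    ∃ s u : ℝ, (0 ≤ s ∧ s ≤ 1) ∧ (0 ≤ u ∧ u ≤ 1) ∧ sorted rops s u = dbl a 0 1 2 := by
  obtain ⟨hp, hsum⟩ := h
  set s := 1 - a 2 with hs
  have hs0 : 0 ≤ s := by linarith
  set u := (a 0 - a 1) / (3 * s) with hu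
  have e : 3 * s * u = a 0 - a 1 := by
    rcases eq_or_lt_of_le hs0 with h0 | hpos
    · rw [← h0]; linarith
    · rw [hu]; field_simp
  refine ⟨s, u, ⟨hs0, by linarith [hp 2]⟩, ⟨div_nonneg (by linarith) (by linarith), ?_⟩, ?_⟩
  · exact div_le_one_of_le₀ (by linarith) (by linarith)
  · simp only [sorted, dbl, rops, Vec.mk.injEq]
    push_cast
    refine ⟨?_, ?_, ?_⟩ <;> linarith

lemma continuous_ev : ∀ (n : ℕ) (p : Bern.MP n), Continuous fun x : ℕ → ℝ => Bern.ev n p x
  | 0, _ => continuous_const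
  | n + 1, p => by
    show Continuous fun x : ℕ → ℝ =>
      List.foldr (fun c r => Bern.ev n c (fun i => x (i + 1)) + x 0 * r) 0 p
    induction p with
    | nil => exact continuous_const
    | cons c p ih =>
      simp only [List.foldr_cons]
      exact ((continuous_ev n c).comp (continuous_pi fun i => continuous_apply (i + 1))).add
        ((continuous_apply 0).mul ih)

/-- The second certificate as a coefficient list; it is never evaluated. -/
def polB (odd : Bool) : Bern.MP 4 := pair lops (certB lops) odd v0 v1 v2 v3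

lemma ev_polB (odd : Bool) (s u t v : ℝ) :
    Bern.ev 4 (polB odd) (point s u t v) = pair rops (certB rops) odd s u t v := by
  obtain ⟨h0, h1, h2, h3⟩ := ev_vars s u t v
  have ha : ∀ p q x, Bern.ev 4 (lops.add p q) x = Bern.ev 4 p x + Bern.ev 4 q x := Bern.ev_add 4
  have hm : ∀ p q x, Bern.ev 4 (lops.mul p q) x = Bern.ev 4 p x * Bern.ev 4 q x := Bern.ev_mul 4
  have hs : ∀ k p x, Bern.ev 4 (lops.smul k p) x = (k : ℝ) * Bern.ev 4 p x := Bern.ev_smul 4
  cases odd <;>
    simp only [polB, pair, certB, termB, mul3, sorted, pr, zq, cq, nx, nt, rhsB, xq, iq, tq,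
      if_true, if_false, Bool.false_eq_true, ha, hm, hs, ev_con, h0, h1, h2, h3] <;> rfl

lemma ev_limit (p : Bern.MP 4) (y : ℕ → ℝ)
    (h : ∀ e : ℝ, 0 < e → e < 1 → 0 ≤ Bern.ev 4 p fun i => e * y i) : 0 ≤ Bern.ev 4 p y := by
  have hF : Continuous fun e : ℝ => Bern.ev 4 p fun i => e * y i :=
    (continuous_ev 4 p).comp (continuous_pi fun i => continuous_id.mul continuous_const)
  have hlim := (hF.tendsto 1).mono_left (nhdsWithin_le_nhds (s := Set.Iio (1 : ℝ)))
  have hev : ∀ᶠ e in 𝓝[<] (1 : ℝ), 0 ≤ Bern.ev 4 p fun i => e * y i := by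
    filter_upwards [Ioo_mem_nhdsLT (zero_lt_one (α := ℝ))] with e he
    exact h e he.1 he.2
  have h1 := ge_of_tendsto hlim hev
  simpa only [one_mul] using h1

lemma point_smul (e s u t v : ℝ) :
    (fun i => e * point s u t v i) = point (e * s) (e * u) (e * t) (e * v) := by
  funext i; rcases i with _ | _ | _ | _ | i <;> simp [point]

lemma point_vals (s u t v : ℝ) :
    point s u t v 0 = s ∧ point s u t v 1 = u ∧ point s u t v 2 = t ∧ point s u t v 3 = v :=
  ⟨rfl, rfl, rfl, rfl⟩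

lemma certA_closed (odd : Bool) {s u t v : ℝ} (hs : 0 ≤ s ∧ s ≤ 1) (hu : 0 ≤ u ∧ u ≤ 1)
    (ht : 0 ≤ t ∧ t ≤ 1) (hv : 0 ≤ v ∧ v ≤ 1) :
    0 ≤ pair rops (certA rops) odd s u t v := by
  rw [← ev_polA]
  refine ev_limit _ _ fun e e0 e1 => ?_
  rw [point_smul, ev_polA]
  have key : ∀ {w : ℝ}, 0 ≤ w ∧ w ≤ 1 → 0 ≤ e * w ∧ e * w < 1 := fun {w} hw =>
    ⟨mul_nonneg e0.le hw.1, (mul_le_of_le_one_right e0.le hw.2).trans_lt e1⟩
  have h := certA_cube odd (point_mem (p := fun w => 0 ≤ w ∧ w < 1) (key hs) (key hu) (key ht)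
    (key hv) ⟨le_refl 0, zero_lt_one⟩)
  obtain ⟨q0, q1, q2, q3⟩ := point_vals (e * s) (e * u) (e * t) (e * v)
  rw [q0, q1, q2, q3] at h
  exact h

lemma certB_closed (odd : Bool) {s u t v : ℝ} (hs : 0 ≤ s ∧ s ≤ 1) (hu : 0 ≤ u ∧ u ≤ 1)
    (ht : 0 ≤ t ∧ t ≤ 1) (hv : 0 ≤ v ∧ v ≤ 1) :
    0 ≤ pair rops (certB rops) odd s u t v := by
  rw [← ev_polB]
  refine ev_limit _ _ fun e e0 e1 => ?_
  rw [point_smul, ev_polB]
  have key : ∀ {w : ℝ}, 0 ≤ w ∧ w ≤ 1 → 0 ≤ e * w ∧ e * w < 1 := fun {w} hw =>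
    ⟨mul_nonneg e0.le hw.1, (mul_le_of_le_one_right e0.le hw.2).trans_lt e1⟩
  have h := certB_cube odd (point_mem (p := fun w => 0 ≤ w ∧ w < 1) (key hs) (key hu) (key ht)
    (key hv) ⟨le_refl 0, zero_lt_one⟩)
  obtain ⟨q0, q1, q2, q3⟩ := point_vals (e * s) (e * u) (e * t) (e * v)
  rw [q0, q1, q2, q3] at h
  exact h

lemma cert_nonneg {a b : Spin → ℝ} (ha : InS a) (a1 : a 1 ≤ a 0) (a2 : a 2 ≤ a 1)
    (hb : InS b) (b1 : b 1 ≤ b 0) (b2 : b 2 ≤ b 1) :
    0 ≤ certA rops (dbl a 0 1 2) (dbl b 0 1 2) (dbl b 1 2 0) (dbl b 2 0 1) ∧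
    0 ≤ certA rops (dbl a 0 1 2) (dbl b 0 2 1) (dbl b 2 1 0) (dbl b 1 0 2) ∧
    0 ≤ certB rops (dbl a 0 1 2) (dbl b 0 1 2) (dbl b 1 2 0) (dbl b 2 0 1) ∧
    0 ≤ certB rops (dbl a 0 1 2) (dbl b 0 2 1) (dbl b 2 1 0) (dbl b 1 0 2) := by
  obtain ⟨s, u, hs, hu, eA⟩ := sorted_coord ha a1 a2
  obtain ⟨t, v, ht, hv, eB⟩ := sorted_coord hb b1 b2
  have f1 := certA_closed false hs hu ht hv
  have f2 := certA_closed true hs hu ht hv
  have f3 := certB_closed false hs hu ht hv
  have f4 := certB_closed true hs hu ht hv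
  simp only [pair, eA, eB, if_true, if_false, Bool.false_eq_true] at f1 f2 f3 f4
  exact ⟨f1, f2, f3, f4⟩

/-- The scaled weight as a function of the relabelling. -/
noncomputable def zt (a b : Spin → ℝ) (i j k : Spin) : ℝ :=
  zq rops (pr rops (dbl a 0 1 2) (dbl b i j k))

/-- The scaled centred squared norm as a function of the relabelling. -/
noncomputable def xt (a b : Spin → ℝ) (i j k : Spin) : ℝ :=
  nx rops (cq rops (pr rops (dbl a 0 1 2) (dbl b i j k)))

/-- The numerator of the joined invariant as a function of the relabelling. -/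
noncomputable def bt (a b : Spin → ℝ) (i j k : Spin) : ℝ :=
  termB rops (pr rops (dbl a 0 1 2) (dbl b i j k))

lemma term_eq (a b : Spin → ℝ) {i j k : Spin} (hz : 0 < zt a b i j k) :
    zw a ![b i, b j, b k] * sq (comb a ![b i, b j, b k]) = xt a b i j k / (72 * zt a b i j k) ∧
    zw a ![b i, b j, b k] * ifun (comb a ![b i, b j, b k])
      = bt a b i j k / (8640 * zt a b i j k ^ 3) := by
  have hw : zw a ![b i, b j, b k] = zt a b i j k / 12 := by
    simp [zw, zt, zq, pr, dbl, rops, Fin.sum_univ_three]; ring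
  have e0 : zt a b i j k = 2 * a 0 * (2 * b i) + 2 * a 1 * (2 * b j) + 2 * a 2 * (2 * b k) := rfl
  have ex : xt a b i j k = (3 * (2 * a 0 * (2 * b i)) - zt a b i j k) ^ 2 +
      (3 * (2 * a 1 * (2 * b j)) - zt a b i j k) ^ 2 +
      (3 * (2 * a 2 * (2 * b k)) - zt a b i j k) ^ 2 := by
    simp only [xt, nx, cq, zt, zq, pr, dbl, rops]; push_cast; ring
  have eb : bt a b i j k = 360 * (zt a b i j k * ((3 * (2 * a 0 * (2 * b i)) - zt a b i j k) *
      (3 * (2 * a 1 * (2 * b j)) - zt a b i j k) * (3 * (2 * a 2 * (2 * b k)) - zt a b i j k)))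
      - 13 * xt a b i j k ^ 2 := by
    simp only [bt, termB, nx, nt, cq, xt, zt, zq, pr, dbl, rops]; push_cast; ring
  have hne : zt a b i j k ≠ 0 := hz.ne'
  generalize zt a b i j k = z at hw hne ex eb
  have ei : ∀ q w : ℝ, q * w / (z / 12) - 1 = (3 * (2 * q * (2 * w)) - z) / z := fun q w => by
    field_simp; ring
  constructor
  · simp only [P154.sq, comb, hw, Matrix.cons_val_zero, Matrix.cons_val_one, Matrix.cons_val,
      ei, ex]
    field_simp
    ring
  · simp only [ifun, P154.sq, P154.cub, comb, hw, Matrix.cons_val_zero, Matrix.cons_val_one,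
      Matrix.cons_val, ei, eb, ex]
    field_simp
    ring

lemma zt_pos {a b : Spin → ℝ} (ha : InS a) (a1 : a 1 ≤ a 0) (hb : InS b) (b1 : b 1 ≤ b 0)
    (ha1 : 0 < a 1) (hb1 : 0 < b 1) (σ : Equiv.Perm Spin) : 0 < zt a b (σ 0) (σ 1) (σ 2) := by
  have e : zt a b (σ 0) (σ 1) (σ 2) = 4 * ∑ i, a i * b (σ i) := by
    simp [zt, zq, pr, dbl, rops, Fin.sum_univ_three]; ring
  rw [e]
  refine mul_pos (by norm_num) (Finset.sum_pos' (fun i _ => mul_nonneg (ha.1 i) (hb.1 _)) ?_)
  have key : ∀ j : Spin, j ≠ 2 → 0 < b j := fun j hj => by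
    fin_cases j
    · exact hb1.trans_le b1
    · exact hb1
    · simp at hj
  by_cases h : σ 0 = 2
  · refine ⟨1, Finset.mem_univ _, mul_pos ha1 (key _ fun h' => ?_)⟩
    exact absurd (σ.injective (h.trans h'.symm)) (by decide)
  · exact ⟨0, Finset.mem_univ _, mul_pos (ha1.trans_le a1) (key _ h)⟩

/-- The right side of the first inequality. -/
noncomputable def boundA (a b : Spin → ℝ) : ℝ :=
  sq a + sq b - 12 / 5 * (sq b * (1 - sq b) * ifun a + sq a * (1 - sq a) * ifun b)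
    - 1 / 720 * sq a * sq b

/-- The right side of the second inequality. -/
noncomputable def boundB (a b : Spin → ℝ) : ℝ :=
  (1 - sq b) ^ 2 * ifun a + (1 - sq a) ^ 2 * ifun b

lemma sq_nonneg' (a : Spin → ℝ) : 0 ≤ sq a := by unfold P154.sq; positivity

lemma sq_le_one {a : Spin → ℝ} (h : InS a) : sq a ≤ 1 := by
  obtain ⟨hp, hsum⟩ := h
  unfold P154.sq
  nlinarith [mul_nonneg (hp 0) (hp 1), mul_nonneg (hp 0) (hp 2), mul_nonneg (hp 1) (hp 2)]

lemma join_vertex {a b : Spin → ℝ} (ha : InS a) (h12 : a 2 ≤ a 1) (h1 : a 1 = 0) (hb : InS b) :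
    avgJoin sq a b ≤ boundA a b ∧ boundB a b ≤ avgJoin ifun a b := by
  have h2 : a 2 = 0 := le_antisymm (h1 ▸ h12) (ha.1 2)
  have h0 : a 0 = 3 := by linarith [ha.2]
  have hgen : ∀ φ : (Spin → ℝ) → ℝ, avgJoin φ a b = φ a := fun φ => by
    have e : ∀ σ : Equiv.Perm Spin,
        zw a (fun i => b (σ i)) * φ (comb a fun i => b (σ i)) = b (σ 0) * φ a := fun σ => by
      have hz : zw a (fun i => b (σ i)) = b (σ 0) := by
        simp [zw, Fin.sum_univ_three, h0, h1, h2]
      rw [hz]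
      by_cases h : b (σ 0) = 0
      · simp [h]
      congr 2
      funext i
      simp only [comb, hz]
      fin_cases i <;> simp [h0, h1, h2, h]
    simp only [avgJoin, e]
    rw [sum_spin_perm fun i _ _ => b i * φ a]
    linear_combination (φ a / 3) * hb.2
  have hs : sq a = 1 := by simp [P154.sq, h0, h1, h2]; norm_num
  have hi : ifun a = 7 / 20 := by simp [ifun, P154.cub, hs, h0, h1, h2]; norm_num
  have y0 := sq_nonneg' b
  have y1 := sq_le_one hb
  simp only [hgen, boundA, boundB, hs, hi]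
  constructor
  · nlinarith
  · nlinarith

lemma three_A {z z' z'' x x' x'' R : ℝ} (h : 0 < z) (h' : 0 < z') (h'' : 0 < z'')
    (hc : 0 ≤ z * (z' * (z'' * R + (-153600 : ℝ) * x'')) +
      (-153600 : ℝ) * (z'' * (z' * x + z * x'))) :
    x / (72 * z) + x' / (72 * z') + x'' / (72 * z'') ≤ R / 11059200 := by
  have e : R / 11059200 - (x / (72 * z) + x' / (72 * z') + x'' / (72 * z'')) =
      (z * (z' * (z'' * R + (-153600 : ℝ) * x'')) + (-153600 : ℝ) * (z'' * (z' * x + z * x')))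
        / (11059200 * (z * z' * z'')) := by
    field_simp
    ring
  have := div_nonneg hc (by positivity : (0 : ℝ) ≤ 11059200 * (z * z' * z''))
  linarith

lemma three_B {z z' z'' x x' x'' R : ℝ} (h : 0 < z) (h' : 0 < z') (h'' : 0 < z'')
    (hc : 0 ≤ (z * (z * (z * (z' * (z' * (z' *
        ((256 : ℝ) * x'' + (-1 : ℝ) * (z'' * (z'' * (z'' * R))))))))))
      + (256 : ℝ) * (z'' * (z'' * (z'' * (z' * (z' * (z' * x)) + z * (z * (z * x'))))))) :
    R / 2211840 ≤ x / (8640 * z ^ 3) + x' / (8640 * z' ^ 3) + x'' / (8640 * z'' ^ 3) := by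
  have e : x / (8640 * z ^ 3) + x' / (8640 * z' ^ 3) + x'' / (8640 * z'' ^ 3) - R / 2211840 =
      ((z * (z * (z * (z' * (z' * (z' *
        ((256 : ℝ) * x'' + (-1 : ℝ) * (z'' * (z'' * (z'' * R))))))))))
      + (256 : ℝ) * (z'' * (z'' * (z'' * (z' * (z' * (z' * x)) + z * (z * (z * x')))))))
        / (2211840 * (z * z' * z'') ^ 3) := by
    field_simp
    ring
  have := div_nonneg hc (by positivity : (0 : ℝ) ≤ 2211840 * (z * z' * z'') ^ 3)
  linarith

lemma join_sorted {a b : Spin → ℝ} (ha : InS a) (a1 : a 1 ≤ a 0) (a2 : a 2 ≤ a 1)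
    (hb : InS b) (b1 : b 1 ≤ b 0) (b2 : b 2 ≤ b 1) (ha1 : 0 < a 1) (hb1 : 0 < b 1) :
    avgJoin sq a b ≤ boundA a b ∧ boundB a b ≤ avgJoin ifun a b := by
  obtain ⟨c1, c2, c3, c4⟩ := cert_nonneg ha a1 a2 hb b1 b2
  have hp := zt_pos ha a1 hb b1 ha1 hb1
  have hpe : ∀ (σ : Equiv.Perm Spin) (i j k : Spin), σ 0 = i → σ 1 = j → σ 2 = k →
      0 < zt a b i j k := fun σ i j k e0 e1 e2 => e0 ▸ e1 ▸ e2 ▸ hp σ
  have p1 := hpe 1 0 1 2 rfl rfl rfl
  have p2 := hpe (Equiv.swap 0 1 * Equiv.swap 1 2) 1 2 0 (by decide) (by decide) (by decide)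
  have p3 := hpe (Equiv.swap 0 2 * Equiv.swap 1 2) 2 0 1 (by decide) (by decide) (by decide)
  have p4 := hpe (Equiv.swap 1 2) 0 2 1 (by decide) (by decide) (by decide)
  have p5 := hpe (Equiv.swap 0 2) 2 1 0 (by decide) (by decide) (by decide)
  have p6 := hpe (Equiv.swap 0 1) 1 0 2 (by decide) (by decide) (by decide)
  have hfun : ∀ σ : Equiv.Perm Spin, (fun i => b (σ i)) = ![b (σ 0), b (σ 1), b (σ 2)] :=
    fun σ => by funext i; fin_cases i <;> rfl
  have hs : ∀ i j k : Spin,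
      (b i - 1) ^ 2 + (b j - 1) ^ 2 + (b k - 1) ^ 2 = 6 * sq b →
      (b i - 1) * (b j - 1) * (b k - 1) = 2 * cub b →
      rhsA rops (dbl a 0 1 2) (dbl b i j k) = 33177600 * boundA a b ∧
      rhsB rops (dbl a 0 1 2) (dbl b i j k) = 6635520 * boundB a b := by
    intro i j k h2 h3
    have e2 : xq rops (dbl b i j k) = 24 * sq b := by
      simp only [xq, dbl, rops]; push_cast; linear_combination 4 * h2
    have e3 : tq rops (dbl b i j k) = 16 * cub b := by
      simp only [tq, dbl, rops]; push_cast; linear_combination 8 * h3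
    have e4 : xq rops (dbl a 0 1 2) = 24 * sq a := by
      simp only [xq, dbl, rops, P154.sq]; push_cast; ring
    have e5 : tq rops (dbl a 0 1 2) = 16 * cub a := by
      simp only [tq, dbl, rops, P154.cub]; push_cast; ring
    constructor
    · simp only [rhsA, iq, e2, e3, e4, e5, boundA, ifun]; simp only [rops]; push_cast; ring
    · simp only [rhsB, iq, e2, e3, e4, e5, boundB, ifun]; simp only [rops]; push_cast; ring
  obtain ⟨r1, r1'⟩ := hs 0 1 2 (by simp only [P154.sq]; ring) (by simp only [P154.cub]; ring)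
  obtain ⟨r2, r2'⟩ := hs 0 2 1 (by simp only [P154.sq]; ring) (by simp only [P154.cub]; ring)
  simp only [certA, r1, r2] at c1 c2
  simp only [certB, mul3, r1', r2'] at c3 c4
  simp only [avgJoin, hfun]
  rw [sum_spin_perm fun i j k => zw a ![b i, b j, b k] * sq (comb a ![b i, b j, b k]),
    sum_spin_perm fun i j k => zw a ![b i, b j, b k] * ifun (comb a ![b i, b j, b k]),
    (term_eq a b p1).1, (term_eq a b p2).1, (term_eq a b p3).1, (term_eq a b p4).1,
    (term_eq a b p5).1, (term_eq a b p6).1,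
    (term_eq a b p1).2, (term_eq a b p2).2, (term_eq a b p3).2, (term_eq a b p4).2,
    (term_eq a b p5).2, (term_eq a b p6).2]
  simp only [xt, bt, zt] at p1 p2 p3 p4 p5 p6 ⊢
  simp only [rops, Int.cast_neg, Int.cast_ofNat, Int.cast_one] at c1 c2 c3 c4 p1 p2 p3 p4 p5 p6 ⊢
  have q1 := three_A p1 p2 p3 c1
  have q2 := three_A p4 p5 p6 c2
  have q3 := three_B p1 p2 p3 c3
  have q4 := three_B p4 p5 p6 c4
  constructor <;> linarith

/-- The two inequalities on all pairs of posterior vectors. -/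
theorem join_bounds {a b : Spin → ℝ} (ha : InS a) (hb : InS b) :
    avgJoin sq a b ≤ boundA a b ∧ boundB a b ≤ avgJoin ifun a b := by
  obtain ⟨p, a1, a2, ha'⟩ := exists_sorted ha
  obtain ⟨q, b1, b2, hb'⟩ := exists_sorted hb
  have eA : boundA (fun i => a (p i)) (fun i => b (q i)) = boundA a b := by
    simp only [boundA, sym_sq a p, sym_sq b q, sym_ifun a p, sym_ifun b q]
  have eB : boundB (fun i => a (p i)) (fun i => b (q i)) = boundB a b := by
    simp only [boundB, sym_sq a p, sym_sq b q, sym_ifun a p, sym_ifun b q]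
  rw [← avgJoin_relabel sym_sq a b p q, ← avgJoin_relabel sym_ifun a b p q, ← eA, ← eB]
  rcases (ha'.1 1).eq_or_lt' with h | hpa
  · exact join_vertex ha' a2 h hb'
  rcases (hb'.1 1).eq_or_lt' with h | hpb
  · obtain ⟨h1, h2⟩ := join_vertex hb' b2 h ha'
    rw [avgJoin_symm sym_sq, avgJoin_symm sym_ifun]
    constructor
    · calc _ ≤ boundA (fun i => b (q i)) (fun i => a (p i)) := h1
        _ = _ := by simp only [boundA]; ring
    · calc boundB (fun i => a (p i)) (fun i => b (q i))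
          = boundB (fun i => b (q i)) (fun i => a (p i)) := by simp only [boundB]; ring
        _ ≤ _ := h2
  exact join_sorted ha' a1 a2 hb' b1 b2 hpa hpb

end Vale.Agent.P154.Inv
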