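import Vale.Agent.P154.InvPack

/-!
The certificates evaluated on packed homogenised coefficient lists.

A packed element records degree bounds, the packed integer and a bound on the coefficients.
It represents a function on the unit cube through the substitution `x = T / (1 + T)`.
-/

namespace Vale.Agent.P154.Inv

/-- A packed homogenised polynomial. -/
structure Pk where
  /-- Degree in the first variable. -/
  d0 : ℕ
  /-- Degree in the second variable. -/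
  d1 : ℕ
  /-- Degree in the third variable. -/
  d2 : ℕ
  /-- Degree in the fourth variable. -/
  d3 : ℕ
  /-- The packed integer. -/
  N : ℤ
  /-- A bound on the sum of the absolute coefficients. -/
  m : ℕ

/-- Bits per digit. -/
def bits : ℕ := 192

/-- The largest degree. -/
def dmax : ℕ := 13

/-- The degrees as a function. -/
def Pk.deg (p : Pk) : ℕ → ℕ
  | 0 => p.d0
  | 1 => p.d1
  | 2 => p.d2
  | 3 => p.d3
  | _ => 0

/-- An integer power by repeated multiplication. -/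
def ipow (z : ℤ) : ℕ → ℤ
  | 0 => 1
  | k + 1 => z * ipow z k

/-- The packed value of `(1 + T₀) ^ a * ⋯ * (1 + T₃) ^ d`. -/
def unit4 (a b c d : ℕ) : ℤ :=
  ipow (1 + (Bern.width bits dmax 3 : ℤ)) a * ipow (1 + (Bern.width bits dmax 2 : ℤ)) b *
    (ipow (1 + (Bern.width bits dmax 1 : ℤ)) c * ipow (1 + (Bern.width bits dmax 0 : ℤ)) d)

/-- Raising degrees. -/
def Pk.up (p : Pk) (a b c d : ℕ) : Pk where
  d0 := a + p.d0
  d1 := b + p.d1
  d2 := c + p.d2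
  d3 := d + p.d3
  N := unit4 a b c d * p.N
  m := 2 ^ (a + b + (c + d)) * p.m

/-- The operations on packed elements. -/
def pops : Ops Pk where
  add p q :=
    let p' := p.up (q.d0 - p.d0) (q.d1 - p.d1) (q.d2 - p.d2) (q.d3 - p.d3)
    let q' := q.up (p.d0 - q.d0) (p.d1 - q.d1) (p.d2 - q.d2) (p.d3 - q.d3)
    ⟨p'.d0, p'.d1, p'.d2, p'.d3, p'.N + q'.N, p'.m + q'.m⟩
  mul p q := ⟨p.d0 + q.d0, p.d1 + q.d1, p.d2 + q.d2, p.d3 + q.d3, p.N * q.N, p.m * q.m⟩
  smul k p := ⟨p.d0, p.d1, p.d2, p.d3, k * p.N, k.natAbs * p.m⟩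
  con k := ⟨0, 0, 0, 0, k, k.natAbs⟩

/-- The first coordinate. -/
def crd0 : Pk := ⟨1, 0, 0, 0, (Bern.width bits dmax 3 : ℤ), 1⟩
/-- The second coordinate. -/
def crd1 : Pk := ⟨0, 1, 0, 0, (Bern.width bits dmax 2 : ℤ), 1⟩
/-- The third coordinate. -/
def crd2 : Pk := ⟨0, 0, 1, 0, (Bern.width bits dmax 1 : ℤ), 1⟩
/-- The fourth coordinate. -/
def crd3 : Pk := ⟨0, 0, 0, 1, (Bern.width bits dmax 0 : ℤ), 1⟩

/-- The Boolean test on a packed element. -/
def Pk.test (p : Pk) : Bool :=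
  Nat.ble p.d0 dmax && Nat.ble p.d1 dmax && Nat.ble p.d2 dmax && Nat.ble p.d3 dmax &&
    Nat.blt (2 * p.m) (2 ^ bits) &&
    match p.N with
    | .ofNat N => Bern.chk bits dmax 4 N
    | .negSucc _ => false

/-- The homogenising factor. -/
noncomputable def scale (d : ℕ → ℕ) (T : ℕ → ℝ) : ℝ :=
  (1 + T 0) ^ d 0 * (1 + T 1) ^ d 1 * ((1 + T 2) ^ d 2 * (1 + T 3) ^ d 3)

/-- `p` represents `f` on the unit cube. -/
def Rep (p : Pk) (f : (ℕ → ℝ) → ℝ) : Prop :=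
  ∃ L : Bern.MP 4, Bern.Fit 4 p.deg L ∧ Bern.nm 4 L ≤ p.m ∧ Bern.pk bits dmax 4 L = p.N ∧
    ∀ T : ℕ → ℝ, (∀ i, 0 ≤ T i) →
      Bern.ev 4 L T = f (fun i => T i / (1 + T i)) * scale p.deg T

lemma pk_add (a b : Bern.MP 4) :
    Bern.pk bits dmax 4 (Bern.add 4 a b) = Bern.pk bits dmax 4 a + Bern.pk bits dmax 4 b := by
  have h := Bern.ev_add 4 a b (Bern.bases bits dmax 4)
  simp only [Bern.ev_bases] at h
  exact_mod_cast h

lemma pk_mul (a b : Bern.MP 4) :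
    Bern.pk bits dmax 4 (Bern.mul 4 a b) = Bern.pk bits dmax 4 a * Bern.pk bits dmax 4 b := by
  have h := Bern.ev_mul 4 a b (Bern.bases bits dmax 4)
  simp only [Bern.ev_bases] at h
  exact_mod_cast h

lemma pk_smul (k : ℤ) (a : Bern.MP 4) :
    Bern.pk bits dmax 4 (Bern.smul 4 k a) = k * Bern.pk bits dmax 4 a := by
  have h := Bern.ev_smul 4 k a (Bern.bases bits dmax 4)
  simp only [Bern.ev_bases] at h
  exact_mod_cast h

set_option backward.isDefEq.respectTransparency false in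
lemma rep_con (k : ℤ) : Rep (pops.con k) fun _ => (k : ℝ) := by
  refine ⟨lops.con k, ?_, ?_, ?_, fun T _ => ?_⟩
  · simp [lops, pops, Bern.Fit, Pk.deg]
  · simp [lops, pops, Bern.nm]
  · simp only [lops, pops, Bern.pk, List.foldr_cons, List.foldr_nil, mul_zero, add_zero]
  · simp [lops, pops, Bern.ev, scale, Pk.deg]

lemma Rep.smul {p : Pk} {f : (ℕ → ℝ) → ℝ} (h : Rep p f) (k : ℤ) :
    Rep (pops.smul k p) fun x => (k : ℝ) * f x := by
  obtain ⟨L, h1, h2, h3, h4⟩ := h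
  refine ⟨Bern.smul 4 k L, Bern.fit_smul 4 _ k L h1, ?_, ?_, fun T hT => ?_⟩
  · exact (Bern.nm_smul 4 k L).trans (Nat.mul_le_mul_left _ h2)
  · rw [pk_smul, h3]; rfl
  · rw [Bern.ev_smul, h4 T hT, show (pops.smul k p).deg = p.deg from rfl]; ring

lemma Rep.mul {p q : Pk} {f g : (ℕ → ℝ) → ℝ} (h : Rep p f) (h' : Rep q g) :
    Rep (pops.mul p q) fun x => f x * g x := by
  obtain ⟨L, h1, h2, h3, h4⟩ := h
  obtain ⟨M, g1, g2, g3, g4⟩ := h'
  have hd : (pops.mul p q).deg = fun i => p.deg i + q.deg i := by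
    funext i; rcases i with _ | _ | _ | _ | i <;> simp [pops, Pk.deg]
  refine ⟨Bern.mul 4 L M, hd ▸ Bern.fit_mul 4 _ _ L M h1 g1, ?_, ?_, fun T hT => ?_⟩
  · exact (Bern.nm_mul 4 L M).trans (Nat.mul_le_mul h2 g2)
  · rw [pk_mul, h3, g3]; rfl
  · rw [Bern.ev_mul, h4 T hT, g4 T hT, hd]; simp only [scale, pow_add]; ring

lemma div_one_add_mul {a : ℝ} (ha : 0 ≤ a) : a / (1 + a) * (1 + a) = a := by
  have : (1 + a) ≠ 0 := by positivity
  field_simp

set_option backward.isDefEq.respectTransparency false in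
lemma crd_rep : Rep crd0 (fun x => x 0) ∧ Rep crd1 (fun x => x 1) ∧ Rep crd2 (fun x => x 2) ∧
    Rep crd3 (fun x => x 3) := by
  refine ⟨⟨v0, ?_, ?_, ?_, fun T hT => ?_⟩, ⟨v1, ?_, ?_, ?_, fun T hT => ?_⟩,
    ⟨v2, ?_, ?_, ?_, fun T hT => ?_⟩, ⟨v3, ?_, ?_, ?_, fun T hT => ?_⟩⟩
  all_goals simp only [v0, v1, v2, v3, crd0, crd1, crd2, crd3, Bern.Fit, Bern.nm, Bern.pk, Bern.ev,
    scale, Pk.deg, List.mem_cons, List.not_mem_nil, List.length_cons, List.length_nil,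
    List.foldr_cons, List.foldr_nil, forall_eq_or_imp, false_implies, implies_true, or_false,
    forall_eq, and_true, pow_zero, pow_one, mul_one, one_mul, mul_zero, add_zero, zero_add,
    Nat.cast_zero, Nat.cast_one, Int.natAbs_one, Int.natAbs_zero, Int.cast_one, Int.cast_zero,
    le_refl, zero_le, and_self]
  all_goals first
    | (exact (div_one_add_mul (hT _)).symm)
    | omega
    | rfl

lemma Rep.congr {p : Pk} {f g : (ℕ → ℝ) → ℝ} (h : Rep p f) (e : f = g) : Rep p g := e ▸ h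

/-- A power of a represented element. -/
def Pk.pw (p : Pk) : ℕ → Pk
  | 0 => pops.con 1
  | k + 1 => pops.mul p (p.pw k)

lemma Rep.pw {p : Pk} {f : (ℕ → ℝ) → ℝ} (h : Rep p f) :
    ∀ k, Rep (p.pw k) fun x => f x ^ k
  | 0 => (rep_con 1).congr (by funext x; simp)
  | k + 1 => (h.mul (h.pw k)).congr (by funext x; rw [pow_succ, mul_comm])

set_option backward.isDefEq.respectTransparency false in
lemma one_rep : Rep ⟨1, 0, 0, 0, 1 + (Bern.width bits dmax 3 : ℤ), 2⟩ (fun _ => 1) ∧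
    Rep ⟨0, 1, 0, 0, 1 + (Bern.width bits dmax 2 : ℤ), 2⟩ (fun _ => 1) ∧
    Rep ⟨0, 0, 1, 0, 1 + (Bern.width bits dmax 1 : ℤ), 2⟩ (fun _ => 1) ∧
    Rep ⟨0, 0, 0, 1, 1 + (Bern.width bits dmax 0 : ℤ), 2⟩ (fun _ => 1) := by
  refine ⟨⟨([[[[1]]], [[[1]]]] : List (List (List (List ℤ)))), ?_, ?_, ?_, fun T hT => ?_⟩,
    ⟨([[[[1]], [[1]]]] : List (List (List (List ℤ)))), ?_, ?_, ?_, fun T hT => ?_⟩,
    ⟨([[[[1], [1]]]] : List (List (List (List ℤ)))), ?_, ?_, ?_, fun T hT => ?_⟩,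
    ⟨([[[[1, 1]]]] : List (List (List (List ℤ)))), ?_, ?_, ?_, fun T hT => ?_⟩⟩
  all_goals simp only [Bern.Fit, Bern.nm, Bern.pk, Bern.ev, scale, Pk.deg, List.mem_cons,
    List.not_mem_nil, List.length_cons, List.length_nil, List.foldr_cons, List.foldr_nil,
    forall_eq_or_imp, false_implies, implies_true, or_false, forall_eq, and_true, pow_zero,
    pow_one, mul_one, one_mul, mul_zero, add_zero, zero_add, Int.natAbs_one, Int.cast_one,
    le_refl, zero_le, and_self]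
  all_goals first
    | omega
    | rfl

lemma pw_fields (u : Pk) (k : ℕ) : (u.pw k).N = ipow u.N k ∧ (u.pw k).m = u.m ^ k ∧
    (u.pw k).d0 = k * u.d0 ∧ (u.pw k).d1 = k * u.d1 ∧ (u.pw k).d2 = k * u.d2 ∧
    (u.pw k).d3 = k * u.d3 := by
  induction k with
  | zero => simp [Pk.pw, pops, ipow]
  | succ k ih =>
    obtain ⟨i1, i2, i3, i4, i5, i6⟩ := ih
    simp only [Pk.pw, pops, ipow, i1, i2, i3, i4, i5, i6, pow_succ, Nat.succ_mul]
    refine ⟨trivial, Nat.mul_comm _ _, ?_, ?_, ?_, ?_⟩ <;> omega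

lemma Rep.up {p : Pk} {f : (ℕ → ℝ) → ℝ} (h : Rep p f) (a b c d : ℕ) :
    Rep (p.up a b c d) f := by
  obtain ⟨r0, r1, r2, r3⟩ := one_rep
  have key := ((((r0.pw a).mul (r1.pw b)).mul ((r2.pw c).mul (r3.pw d))).mul h).congr
    (g := f) (by funext x; simp only [one_pow, one_mul])
  have e : ∀ (u v w z : Pk), u.d0 = 1 → u.d1 = 0 → u.d2 = 0 → u.d3 = 0 → v.d0 = 0 → v.d1 = 1 →
      v.d2 = 0 → v.d3 = 0 → w.d0 = 0 → w.d1 = 0 → w.d2 = 1 → w.d3 = 0 → z.d0 = 0 → z.d1 = 0 →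
      z.d2 = 0 → z.d3 = 1 → u.m = 2 → v.m = 2 → w.m = 2 → z.m = 2 →
      pops.mul (pops.mul (pops.mul (u.pw a) (v.pw b)) (pops.mul (w.pw c) (z.pw d))) p =
        ⟨a + p.d0, b + p.d1, c + p.d2, d + p.d3,
          ipow u.N a * ipow v.N b * (ipow w.N c * ipow z.N d) * p.N,
          2 ^ (a + b + (c + d)) * p.m⟩ := by
    intro u v w z
    intros
    obtain ⟨a1, a2, a3, a4, a5, a6⟩ := pw_fields u a
    obtain ⟨b1, b2, b3, b4, b5, b6⟩ := pw_fields v b
    obtain ⟨c1, c2, c3, c4, c5, c6⟩ := pw_fields w c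
    obtain ⟨g1, g2, g3, g4, g5, g6⟩ := pw_fields z d
    simp [pops, pow_add, *]
  rw [e _ _ _ _ rfl rfl rfl rfl rfl rfl rfl rfl rfl rfl rfl rfl rfl rfl rfl rfl rfl rfl rfl rfl]
    at key
  exact key

lemma Rep.add {p q : Pk} {f g : (ℕ → ℝ) → ℝ} (h : Rep p f) (h' : Rep q g) :
    Rep (pops.add p q) fun x => f x + g x := by
  obtain ⟨L, h1, h2, h3, h4⟩ := h.up (q.d0 - p.d0) (q.d1 - p.d1) (q.d2 - p.d2) (q.d3 - p.d3)
  obtain ⟨M, g1, g2, g3, g4⟩ := h'.up (p.d0 - q.d0) (p.d1 - q.d1) (p.d2 - q.d2) (p.d3 - q.d3)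
  have hd : (q.up (p.d0 - q.d0) (p.d1 - q.d1) (p.d2 - q.d2) (p.d3 - q.d3)).deg =
      (pops.add p q).deg := by
    funext i; rcases i with _ | _ | _ | _ | i <;> simp [pops, Pk.deg, Pk.up] <;> omega
  rw [hd] at g1 g4
  refine ⟨Bern.add 4 L M, Bern.fit_add 4 _ L M h1 g1, ?_, ?_, fun T hT => ?_⟩
  · exact (Bern.nm_add 4 L M).trans (Nat.add_le_add h2 g2)
  · rw [pk_add, h3, g3]; rfl
  · rw [Bern.ev_add, h4 T hT, g4 T hT]
    show _ = _
    rw [show (pops.add p q).deg =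
      (p.up (q.d0 - p.d0) (q.d1 - p.d1) (q.d2 - p.d2) (q.d3 - p.d3)).deg from by
        funext i; rcases i with _ | _ | _ | _ | i <;> rfl]
    ring

/-- The operations are sound for a representation relation. -/
structure Sound {α : Type} (o : Ops α) (R : α → ((ℕ → ℝ) → ℝ) → Prop) : Prop where
  add : ∀ {p q f g}, R p f → R q g → R (o.add p q) fun x => f x + g x
  mul : ∀ {p q f g}, R p f → R q g → R (o.mul p q) fun x => f x * g x
  smul : ∀ {p f} (k : ℤ), R p f → R (o.smul k p) fun x => (k : ℝ) * f x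
  con : ∀ k : ℤ, R (o.con k) fun _ => (k : ℝ)

lemma sound_pops : Sound pops Rep :=
  ⟨Rep.add, Rep.mul, fun k h => h.smul k, rep_con⟩

section structural

variable {α : Type} {o : Ops α} {R : α → ((ℕ → ℝ) → ℝ) → Prop}

/-- A vector of represented elements. -/
def RVec (R : α → ((ℕ → ℝ) → ℝ) → Prop) (P : Vec α) (F : (ℕ → ℝ) → Vec ℝ) : Prop :=
  R P.c0 (fun x => (F x).c0) ∧ R P.c1 (fun x => (F x).c1) ∧ R P.c2 (fun x => (F x).c2)

variable {A B B' B'' : Vec α} {f g g' g'' : (ℕ → ℝ) → Vec ℝ}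

lemma Sound.sorted (hS : Sound o R) {p q : α} {u v : (ℕ → ℝ) → ℝ} (hp : R p u) (hq : R q v) :
    RVec R (Inv.sorted o p q) fun x => Inv.sorted rops (u x) (v x) :=
  ⟨hS.add (hS.add (hS.con 2) hp) (hS.smul 3 (hS.mul hp hq)),
    hS.add (hS.add (hS.con 2) hp) (hS.smul (-3) (hS.mul hp hq)),
    hS.add (hS.con 2) (hS.smul (-2) hp)⟩

lemma Sound.xq (hS : Sound o R) (h : RVec R A f) :
    R (Inv.xq o A) fun x => Inv.xq rops (f x) :=
  let m0 := hS.add h.1 (hS.con (-2))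
  let m1 := hS.add h.2.1 (hS.con (-2))
  let m2 := hS.add h.2.2 (hS.con (-2))
  hS.add (hS.add (hS.mul m0 m0) (hS.mul m1 m1)) (hS.mul m2 m2)

lemma Sound.tq (hS : Sound o R) (h : RVec R A f) :
    R (Inv.tq o A) fun x => Inv.tq rops (f x) :=
  hS.mul (hS.mul (hS.add h.1 (hS.con (-2))) (hS.add h.2.1 (hS.con (-2))))
    (hS.add h.2.2 (hS.con (-2)))

lemma Sound.iq (hS : Sound o R) (h : RVec R A f) :
    R (Inv.iq o A) fun x => Inv.iq rops (f x) :=
  hS.add (hS.smul 720 (hS.tq h)) (hS.smul (-13) (hS.mul (hS.xq h) (hS.xq h)))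

lemma Sound.pr (hS : Sound o R) (h : RVec R A f) (h' : RVec R B g) :
    RVec R (Inv.pr o A B) fun x => Inv.pr rops (f x) (g x) :=
  ⟨hS.mul h.1 h'.1, hS.mul h.2.1 h'.2.1, hS.mul h.2.2 h'.2.2⟩

lemma Sound.zq (hS : Sound o R) (h : RVec R A f) :
    R (Inv.zq o A) fun x => Inv.zq rops (f x) :=
  hS.add (hS.add h.1 h.2.1) h.2.2

lemma Sound.cq (hS : Sound o R) (h : RVec R A f) :
    RVec R (Inv.cq o A) fun x => Inv.cq rops (f x) :=
  ⟨hS.add (hS.smul 3 h.1) (hS.smul (-1) (hS.zq h)),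
    hS.add (hS.smul 3 h.2.1) (hS.smul (-1) (hS.zq h)),
    hS.add (hS.smul 3 h.2.2) (hS.smul (-1) (hS.zq h))⟩

lemma Sound.nx (hS : Sound o R) (h : RVec R A f) :
    R (Inv.nx o A) fun x => Inv.nx rops (f x) :=
  hS.add (hS.add (hS.mul h.1 h.1) (hS.mul h.2.1 h.2.1)) (hS.mul h.2.2 h.2.2)

lemma Sound.nt (hS : Sound o R) (h : RVec R A f) :
    R (Inv.nt o A) fun x => Inv.nt rops (f x) :=
  hS.mul (hS.mul h.1 h.2.1) h.2.2

lemma Sound.rhsA (hS : Sound o R) (h : RVec R A f) (h' : RVec R B g) :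
    R (Inv.rhsA o A B) fun x => Inv.rhsA rops (f x) (g x) :=
  let x' := hS.xq h
  let y' := hS.xq h'
  hS.add (hS.smul 1382400 (hS.add x' y'))
    (hS.add
      (hS.smul (-12) (hS.add (hS.mul (hS.mul y' (hS.add (hS.con 24) (hS.smul (-1) y'))) (hS.iq h))
        (hS.mul (hS.mul x' (hS.add (hS.con 24) (hS.smul (-1) x'))) (hS.iq h'))))
      (hS.smul (-80) (hS.mul x' y')))

lemma Sound.rhsB (hS : Sound o R) (h : RVec R A f) (h' : RVec R B g) :
    R (Inv.rhsB o A B) fun x => Inv.rhsB rops (f x) (g x) :=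
  let x' := hS.add (hS.con 24) (hS.smul (-1) (hS.xq h))
  let y' := hS.add (hS.con 24) (hS.smul (-1) (hS.xq h'))
  hS.add (hS.mul (hS.mul y' y') (hS.iq h)) (hS.mul (hS.mul x' x') (hS.iq h'))

lemma Sound.termB (hS : Sound o R) (h : RVec R A f) :
    R (Inv.termB o A) fun x => Inv.termB rops (f x) :=
  let m := hS.cq h
  hS.add (hS.smul 360 (hS.mul (hS.zq h) (hS.nt m))) (hS.smul (-13) (hS.mul (hS.nx m) (hS.nx m)))

lemma Sound.mul3 (hS : Sound o R) {p q : α} {u v : (ℕ → ℝ) → ℝ} (h : R p u) (h' : R q v) :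
    R (Inv.mul3 o p q) fun x => Inv.mul3 rops (u x) (v x) :=
  hS.mul h (hS.mul h (hS.mul h h'))

lemma Sound.certA (hS : Sound o R) (h : RVec R A f) (h1 : RVec R B g) (h2 : RVec R B' g')
    (h3 : RVec R B'' g'') :
    R (Inv.certA o A B B' B'') fun x => Inv.certA rops (f x) (g x) (g' x) (g'' x) :=
  let n := hS.pr h h1
  let n' := hS.pr h h2
  let n'' := hS.pr h h3
  hS.add
    (hS.mul (hS.zq n) (hS.mul (hS.zq n') (hS.add (hS.mul (hS.zq n'') (hS.rhsA h h1))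
      (hS.smul (-153600) (hS.nx (hS.cq n''))))))
    (hS.smul (-153600) (hS.mul (hS.zq n'') (hS.add (hS.mul (hS.zq n') (hS.nx (hS.cq n)))
      (hS.mul (hS.zq n) (hS.nx (hS.cq n'))))))

lemma Sound.certB (hS : Sound o R) (h : RVec R A f) (h1 : RVec R B g) (h2 : RVec R B' g')
    (h3 : RVec R B'' g'') :
    R (Inv.certB o A B B' B'') fun x => Inv.certB rops (f x) (g x) (g' x) (g'' x) :=
  let n := hS.pr h h1
  let n' := hS.pr h h2
  let n'' := hS.pr h h3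
  let z := hS.zq n
  let z' := hS.zq n'
  let z'' := hS.zq n''
  hS.add
    (hS.mul3 z (hS.mul3 z' (hS.add (hS.smul 256 (hS.termB n''))
      (hS.smul (-1) (hS.mul3 z'' (hS.rhsB h h1))))))
    (hS.smul 256 (hS.mul3 z'' (hS.add (hS.mul3 z' (hS.termB n)) (hS.mul3 z (hS.termB n')))))

end structural

/-- The second certificate, packed. -/
def packB (odd : Bool) : Pk := pair pops (certB pops) odd crd0 crd1 crd2 crd3

lemma rep_packB (odd : Bool) :
    Rep (packB odd) fun x => pair rops (certB rops) odd (x 0) (x 1) (x 2) (x 3) := by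
  obtain ⟨k0, k1, k2, k3⟩ := crd_rep
  have hS := sound_pops
  have hA := hS.sorted k0 k1
  have hB := hS.sorted k2 k3
  cases odd
  · exact hS.certB hA hB ⟨hB.2.1, hB.2.2, hB.1⟩ ⟨hB.2.2, hB.1, hB.2.1⟩
  · exact hS.certB hA ⟨hB.1, hB.2.2, hB.2.1⟩ ⟨hB.2.2, hB.2.1, hB.1⟩ ⟨hB.2.1, hB.1, hB.2.2⟩

/-- A successful test gives nonnegativity on the half open cube. -/
lemma nonneg_of_test {p : Pk} {f : (ℕ → ℝ) → ℝ} (h : Rep p f) (ht : p.test = true)
    {x : ℕ → ℝ} (hx : ∀ i, 0 ≤ x i ∧ x i < 1) : 0 ≤ f x := by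
  obtain ⟨L, h1, h2, h3, h4⟩ := h
  simp only [Pk.test, Bool.and_eq_true, Nat.ble_eq] at ht
  obtain ⟨⟨⟨⟨⟨a, b⟩, c⟩, d⟩, hm⟩, hN⟩ := ht
  have hm : 2 * p.m < 2 ^ bits := by simpa [Nat.blt] using hm
  have hdeg : ∀ i, p.deg i ≤ dmax := by
    rintro (_ | _ | _ | _ | i) <;> simp [Pk.deg, a, b, c, d]
  rcases hp : p.N with N | N
  · rw [hp] at hN h3
    have hpos := Bern.pos_of_chk bits dmax 4 L p.deg N hdeg h1 (by omega) hN (by simpa using h3)
    set T : ℕ → ℝ := fun i => x i / (1 - x i) with hT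
    have hT0 : ∀ i, 0 ≤ T i := fun i => div_nonneg (hx i).1 (by linarith [(hx i).2])
    have e : (fun i => T i / (1 + T i)) = x := by
      funext i
      have : (1 : ℝ) - x i ≠ 0 := by linarith [(hx i).2]
      rw [hT]; field_simp; ring
    have hv := Bern.ev_nonneg_of_pos 4 L hpos T hT0
    rw [h4 T hT0, e] at hv
    have hs : 0 < scale p.deg T := by
      have h1' : ∀ i, 0 < 1 + T i := fun i => by linarith [hT0 i]
      exact mul_pos (mul_pos (pow_pos (h1' 0) _) (pow_pos (h1' 1) _))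
        (mul_pos (pow_pos (h1' 2) _) (pow_pos (h1' 3) _))
    exact nonneg_of_mul_nonneg_left hv hs
  · rw [hp] at hN
    exact absurd hN (by simp)

end Vale.Agent.P154.Inv
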