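import Vale.Agent.P154.InvPoly

/-!
Kronecker packing: a polynomial in four variables with bounded degrees and coefficients is
determined by one integer, so nonnegativity of all its coefficients can be read off the digits.
-/

namespace Vale.Agent.P154.Bern

/-- The sum of the absolute values of the coefficients. -/
def nm : (n : ℕ) → MP n → ℕ
  | 0, a => (show ℤ from a).natAbs
  | n + 1, a => List.foldr (fun c r => nm n c + r) 0 a

/-- Degree bounds, one for each variable. -/
def Fit : (n : ℕ) → (ℕ → ℕ) → MP n → Prop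
  | 0, _, _ => True
  | n + 1, d, a => List.length a ≤ d 0 + 1 ∧
      ∀ c ∈ (show List (MP n) from a), Fit n (fun i => d (i + 1)) c

/-- All coefficients are nonnegative. -/
def Pos : (n : ℕ) → MP n → Prop
  | 0, a => (0 : ℤ) ≤ (show ℤ from a)
  | n + 1, a => ∀ c ∈ (show List (MP n) from a), Pos n c

lemma fit_zero : ∀ (n : ℕ) (d : ℕ → ℕ), Fit n d (zero n)
  | 0, _ => trivial
  | _ + 1, _ => ⟨Nat.zero_le _, fun _ h => absurd h List.not_mem_nil⟩

lemma nm_zero : ∀ n, nm n (zero n) = 0
  | 0 => rfl
  | _ + 1 => rfl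

lemma length_zipPad {α : Type} (f : α → α → α) : ∀ a b : List α,
    (zipPad f a b).length = max a.length b.length
  | [], b => by simp [zipPad]
  | _ :: _, [] => by simp [zipPad]
  | x :: a, y :: b => by simp [zipPad, length_zipPad f a b]

lemma mem_zipPad {α : Type} {f : α → α → α} {P : α → Prop}
    (hf : ∀ x y, P x → P y → P (f x y)) : ∀ a b : List α, (∀ x ∈ a, P x) → (∀ x ∈ b, P x) →
      ∀ x ∈ zipPad f a b, P x
  | [], b, _, hb => by cases b <;> simpa [zipPad] using hb
  | _ :: _, [], ha, _ => by simpa [zipPad] using ha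
  | u :: a, v :: b, ha, hb => by
    intro x hx
    simp only [zipPad, List.mem_cons] at hx
    rcases hx with rfl | hx
    · exact hf u v (ha u (List.mem_cons_self ..)) (hb v (List.mem_cons_self ..))
    · exact mem_zipPad hf a b (fun y hy => ha y (List.mem_cons_of_mem _ hy))
        (fun y hy => hb y (List.mem_cons_of_mem _ hy)) x hx

lemma fit_add : ∀ (n : ℕ) (d : ℕ → ℕ) (a b : MP n), Fit n d a → Fit n d b → Fit n d (add n a b)
  | 0, _, _, _, _, _ => trivial
  | n + 1, d, a, b, ha, hb =>
    ⟨(length_zipPad (add n) a b).trans_le (max_le ha.1 hb.1),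
      mem_zipPad (fun u v => fit_add n _ u v) a b ha.2 hb.2⟩

lemma fit_smul : ∀ (n : ℕ) (d : ℕ → ℕ) (k : ℤ) (a : MP n), Fit n d a → Fit n d (smul n k a)
  | 0, _, _, _, _ => trivial
  | n + 1, d, k, a, ha => by
    refine ⟨(List.length_map (as := (show List (MP n) from a)) (smul n k)).trans_le ha.1,
      fun c hc => ?_⟩
    obtain ⟨e, he, rfl⟩ := List.mem_map.mp hc
    exact fit_smul n _ k e (ha.2 e he)

lemma fit_mulList {n : ℕ} {f : MP n → MP n → MP n} {d e g : ℕ → ℕ}
    (hf : ∀ c c', Fit n d c → Fit n e c' → Fit n g (f c c')) {j : ℕ} :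
    ∀ {i : ℕ} (a b : List (MP n)), a.length ≤ i + 1 → b.length ≤ j + 1 →
      (∀ c ∈ a, Fit n d c) → (∀ c ∈ b, Fit n e c) →
      (mulList n f a b).length ≤ i + j + 1 ∧ ∀ c ∈ mulList n f a b, Fit n g c
  | _, [], b, _, _, _, _ => by simp [mulList]
  | i, c :: a, b, ha, hb, hd, he => by
    have hm : ∀ x ∈ List.map (f c) b, Fit n g x := fun x hx => by
      obtain ⟨y, hy, rfl⟩ := List.mem_map.mp hx
      exact hf c y (hd c (List.mem_cons_self ..)) (he y hy)
    rw [List.length_cons] at ha
    have hrest : (zero n :: mulList n f a b).length ≤ i + j + 1 ∧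
        ∀ x ∈ mulList n f a b, Fit n g x := by
      cases a with
      | nil => simp [mulList]
      | cons c' a' =>
        obtain ⟨i', rfl⟩ : ∃ i', i = i' + 1 := ⟨i - 1, by simp at ha; omega⟩
        obtain ⟨h1, h2⟩ := fit_mulList hf (c' :: a') b (i := i') (by omega) hb
          (fun x hx => hd x (List.mem_cons_of_mem _ hx)) he
        exact ⟨by rw [List.length_cons]; omega, h2⟩
    refine ⟨(length_zipPad (add n) _ _).trans_le (max_le ?_ hrest.1),
      mem_zipPad (fun u v => fit_add n g u v) _ _ hm fun x hx => ?_⟩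
    · rw [List.length_map]; omega
    · rcases List.mem_cons.mp hx with rfl | hx
      · exact fit_zero n g
      · exact hrest.2 x hx

lemma fit_mul : ∀ (n : ℕ) (d e : ℕ → ℕ) (a b : MP n), Fit n d a → Fit n e b →
    Fit n (fun i => d i + e i) (mul n a b)
  | 0, _, _, _, _, _, _ => trivial
  | n + 1, d, e, a, b, ha, hb => by
    obtain ⟨h1, h2⟩ := fit_mulList (fun c c' => fit_mul n _ _ c c') a b ha.1 hb.1 ha.2 hb.2
    exact ⟨h1, h2⟩

lemma fit_mono : ∀ (n : ℕ) (d e : ℕ → ℕ) (a : MP n), (∀ i, d i ≤ e i) → Fit n d a → Fit n e a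
  | 0, _, _, _, _, _ => trivial
  | n + 1, d, e, a, h, ha =>
    ⟨ha.1.trans (by have := h 0; omega),
      fun c hc => fit_mono n _ _ c (fun i => h (i + 1)) (ha.2 c hc)⟩

lemma nm_zipPad {n : ℕ} (h : ∀ a b, nm n (add n a b) ≤ nm n a + nm n b) : ∀ a b : List (MP n),
    nm (n + 1) (zipPad (add n) a b) ≤ nm (n + 1) a + nm (n + 1) b
  | [], b => by cases b <;> simp [zipPad, nm]
  | _ :: _, [] => by simp [zipPad, nm]
  | c :: a, e :: b => by
    have h1 := h c e
    have h2 := nm_zipPad h a b
    simp only [zipPad, nm, List.foldr_cons] at h2 ⊢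
    omega

lemma nm_add : ∀ (n : ℕ) (a b : MP n), nm n (add n a b) ≤ nm n a + nm n b
  | 0, a, b => Int.natAbs_add_le (show ℤ from a) (show ℤ from b)
  | n + 1, a, b => nm_zipPad (nm_add n) a b

lemma nm_smul : ∀ (n : ℕ) (k : ℤ) (a : MP n), nm n (smul n k a) ≤ k.natAbs * nm n a
  | 0, k, a => (Int.natAbs_mul k (show ℤ from a)).le
  | n + 1, k, a => by
    show nm (n + 1) (List.map (smul n k) a) ≤ _
    induction a with
    | nil => simp [nm]
    | cons c a ih =>
      have h1 := nm_smul n k c
      simp only [List.map_cons, nm, List.foldr_cons, Nat.mul_add] at ih ⊢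
      omega

lemma nm_mulList {n : ℕ} {f : MP n → MP n → MP n}
    (hf : ∀ c c', nm n (f c c') ≤ nm n c * nm n c') : ∀ a b : List (MP n),
      nm (n + 1) (mulList n f a b) ≤ nm (n + 1) a * nm (n + 1) b
  | [], b => by simp [mulList, nm]
  | c :: a, b => by
    have hm : ∀ b : List (MP n), nm (n + 1) (List.map (f c) b) ≤ nm n c * nm (n + 1) b := by
      intro b
      induction b with
      | nil => simp [nm]
      | cons e b ih =>
        have h1 := hf c e
        simp only [List.map_cons, nm, List.foldr_cons, Nat.mul_add] at ih ⊢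
        omega
    have h1 := nm_zipPad (nm_add n) (List.map (f c) b) (zero n :: mulList n f a b)
    have h2 := nm_mulList hf a b
    have h3 := hm b
    simp only [mulList]
    simp only [nm, List.foldr_cons, Nat.add_mul] at h1 h2 h3 ⊢
    have h0 := nm_zero n
    try simp only [nm] at h0
    omega

lemma nm_mul : ∀ (n : ℕ) (a b : MP n), nm n (mul n a b) ≤ nm n a * nm n b
  | 0, a, b => (Int.natAbs_mul (show ℤ from a) (show ℤ from b)).le
  | n + 1, a, b => nm_mulList (nm_mul n) a b

lemma ev_nonneg_of_pos : ∀ (n : ℕ) (a : MP n), Pos n a → ∀ x : ℕ → ℝ, (∀ i, 0 ≤ x i) →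
    0 ≤ ev n a x
  | 0, a, h, _, _ => by
    show (0 : ℝ) ≤ ((show ℤ from a) : ℝ)
    exact Int.cast_nonneg h
  | n + 1, a, h, x, hx => by
    show 0 ≤ List.foldr (fun c r => ev n c (fun i => x (i + 1)) + x 0 * r) 0 a
    induction a with
    | nil => simp
    | cons c a ih =>
      rw [List.foldr_cons]
      exact add_nonneg (ev_nonneg_of_pos n c (h c (List.mem_cons_self ..)) _ fun i => hx _)
        (mul_nonneg (hx 0) (ih fun e he => h e (List.mem_cons_of_mem _ he)))

/-! ### Packing -/

/-- The base of level `n`, with digits of `K` bits and at most `D + 1` digits per level. -/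
def width (K D n : ℕ) : ℕ := 2 ^ (K * (D + 1) ^ n)

/-- The packed value. -/
def pk (K D : ℕ) : (n : ℕ) → MP n → ℤ
  | 0, a => a
  | n + 1, a => List.foldr (fun c r => pk K D n c + (width K D n : ℤ) * r) 0 a

/-- Reads `j` digits. -/
def scan (w : ℕ) (good : ℕ → Bool) : ℕ → ℕ → Bool
  | 0, N => Nat.beq N 0
  | j + 1, N => good (N % w) && Nat.blt (2 * (N % w)) w && scan w good j (N / w)

/-- All digits are less than half the base. -/
def chk (K D : ℕ) : ℕ → ℕ → Bool
  | 0, _ => true
  | n + 1, N => scan (width K D n) (chk K D n) (D + 1) N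

lemma width_succ (K D n : ℕ) : width K D (n + 1) = width K D n ^ (D + 1) := by
  rw [width, width, ← pow_mul, pow_succ, mul_assoc]

lemma pk_bound (K D : ℕ) : ∀ (n : ℕ) (a : MP n) (d : ℕ → ℕ), (∀ i, d i ≤ D) → Fit n d a →
    (pk K D n a).natAbs * 2 ^ K ≤ nm n a * width K D n
  | 0, a, _, _, _ => by simp [pk, nm, width]
  | n + 1, a, d, hd, ha => by
    obtain ⟨hlen, helts⟩ := ha
    have hlen : (show List (MP n) from a).length ≤ D + 1 := hlen.trans (by have := hd 0; omega)
    have key : ∀ (L : List (MP n)) (j : ℕ), L.length ≤ j →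
        (∀ c ∈ L, Fit n (fun i => d (i + 1)) c) →
        (pk K D (n + 1) L).natAbs * 2 ^ K ≤ nm (n + 1) L * width K D n ^ j := by
      intro L
      induction L with
      | nil => intro j _ _; simp [pk]
      | cons c L ih =>
        intro j hj hfit
        obtain ⟨j, rfl⟩ : ∃ j', j = j' + 1 := ⟨j - 1, by simp at hj; omega⟩
        have h1 := pk_bound K D n c _ (fun i => hd (i + 1)) (hfit c (List.mem_cons_self ..))
        have h2 := ih j (by simp at hj; omega) fun e he => hfit e (List.mem_cons_of_mem _ he)
        have hw : 1 ≤ width K D n := Nat.one_le_two_pow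
        have h3 : width K D n ≤ width K D n ^ (j + 1) := Nat.le_self_pow (by omega) _
        simp only [pk, nm, List.foldr_cons] at h2 ⊢
        generalize List.foldr (fun c r => pk K D n c + (width K D n : ℤ) * r) 0 L = r at h2 ⊢
        have h4 := Int.natAbs_add_le (pk K D n c) ((width K D n : ℤ) * r)
        rw [Int.natAbs_mul, Int.natAbs_natCast] at h4
        calc _ ≤ ((pk K D n c).natAbs + width K D n * r.natAbs) * 2 ^ K :=
              Nat.mul_le_mul_right _ h4
          _ = (pk K D n c).natAbs * 2 ^ K + width K D n * (r.natAbs * 2 ^ K) := by ring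
          _ ≤ nm n c * width K D n + width K D n * (List.foldr (fun c r => nm n c + r) 0 L *
                width K D n ^ j) := Nat.add_le_add h1 (Nat.mul_le_mul_left _ h2)
          _ ≤ nm n c * width K D n ^ (j + 1) + width K D n *
                (List.foldr (fun c r => nm n c + r) 0 L * width K D n ^ j) :=
              Nat.add_le_add_right (Nat.mul_le_mul_left _ h3) _
          _ = _ := by ring
    rw [width_succ]
    exact key a (D + 1) hlen helts

lemma pos_of_chk (K D : ℕ) : ∀ (n : ℕ) (a : MP n) (d : ℕ → ℕ) (N : ℕ), (∀ i, d i ≤ D) →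
    Fit n d a → 2 * nm n a < 2 ^ K → chk K D n N = true → pk K D n a = (N : ℤ) → Pos n a
  | 0, a, _, N, _, _, _, _, he => by
    show (0 : ℤ) ≤ a
    rw [show (show ℤ from a) = (N : ℤ) from he]
    exact Int.natCast_nonneg N
  | n + 1, a, d, N, hd, ha, hm, hc, he => by
    obtain ⟨hlen, helts⟩ := ha
    have hlen : (show List (MP n) from a).length ≤ D + 1 := hlen.trans (by have := hd 0; omega)
    have key : ∀ (L : List (MP n)) (j M : ℕ), L.length ≤ j →
        (∀ c ∈ L, Fit n (fun i => d (i + 1)) c) → 2 * nm (n + 1) L < 2 ^ K →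
        scan (width K D n) (chk K D n) j M = true → pk K D (n + 1) L = (M : ℤ) →
        ∀ c ∈ L, Pos n c := by
      intro L
      induction L with
      | nil => intro j M _ _ _ _ _ c hc; simp at hc
      | cons c L ih =>
        intro j M hj hfit hm hs he
        obtain ⟨j, rfl⟩ : ∃ j', j = j' + 1 := ⟨j - 1, by simp at hj; omega⟩
        simp only [scan, Bool.and_eq_true] at hs
        obtain ⟨⟨hgood, hlt⟩, hrest⟩ := hs
        have hlt : 2 * (M % width K D n) < width K D n := by simpa [Nat.blt] using hlt
        simp only [nm, List.foldr_cons] at hm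
        have hb := pk_bound K D n c _ (fun i => hd (i + 1)) (hfit c (List.mem_cons_self ..))
        have hbc : 2 * (pk K D n c).natAbs < width K D n := by
          refine Nat.lt_of_mul_lt_mul_right (a := 2 ^ K) ?_
          calc 2 * (pk K D n c).natAbs * 2 ^ K ≤ 2 * (nm n c * width K D n) := by
                rw [Nat.mul_assoc]; exact Nat.mul_le_mul_left 2 hb
            _ = 2 * nm n c * width K D n := by ring
            _ < 2 ^ K * width K D n :=
                Nat.mul_lt_mul_of_pos_right (by omega) Nat.one_le_two_pow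
            _ = _ := Nat.mul_comm _ _
        have he' : pk K D n c + (width K D n : ℤ) * pk K D (n + 1) L = (M : ℤ) := by
          simpa [pk] using he
        have hdiv := Nat.div_add_mod M (width K D n)
        have hdvd : (width K D n : ℤ) ∣ pk K D n c - ((M % width K D n : ℕ) : ℤ) := by
          refine ⟨(M / width K D n : ℕ) - pk K D (n + 1) L, ?_⟩
          have h := congrArg (fun k : ℕ => (k : ℤ)) hdiv
          push_cast at h ⊢
          linear_combination he' - h
        have h0 : pk K D n c = ((M % width K D n : ℕ) : ℤ) := by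
          have := Int.eq_zero_of_dvd_of_natAbs_lt_natAbs hdvd (by
            have h5 := Int.natAbs_sub_le (pk K D n c) ((M % width K D n : ℕ) : ℤ)
            rw [Int.natAbs_natCast] at h5
            rw [Int.natAbs_natCast]
            omega)
          omega
        have h1 : pk K D (n + 1) L = ((M / width K D n : ℕ) : ℤ) := by
          have h := congrArg (fun k : ℕ => (k : ℤ)) hdiv
          push_cast at h h0 ⊢
          have hw : (width K D n : ℤ) ≠ 0 := by
            exact_mod_cast (Nat.two_pow_pos _).ne'
          exact mul_left_cancel₀ hw (by linear_combination he' - h - h0)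
        intro e hmem
        rcases List.mem_cons.mp hmem with rfl | hmem
        · exact pos_of_chk K D n e _ _ (fun i => hd (i + 1))
            (hfit e (List.mem_cons_self ..)) (by omega) hgood h0
        · exact ih j _ (by simp at hj; omega)
            (fun x hx => hfit x (List.mem_cons_of_mem _ hx))
            (by simp only [nm]; omega) hrest h1 e hmem
    exact key a (D + 1) N hlen helts hm hc he

/-- The point at which packing is evaluation. -/
noncomputable def bases (K D : ℕ) : (n : ℕ) → ℕ → ℝ
  | 0, _ => 0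
  | n + 1, 0 => (width K D n : ℝ)
  | n + 1, i + 1 => bases K D n i

lemma ev_bases (K D : ℕ) : ∀ (n : ℕ) (a : MP n), ev n a (bases K D n) = (pk K D n a : ℝ)
  | 0, _ => rfl
  | n + 1, a => by
    show List.foldr (fun c r => ev n c (fun i => bases K D (n + 1) (i + 1)) +
      bases K D (n + 1) 0 * r) 0 a = _
    induction a with
    | nil => simp [pk]
    | cons c a ih =>
      simp only [List.foldr_cons, pk] at ih ⊢
      rw [ih, show (fun i => bases K D (n + 1) (i + 1)) = bases K D n from rfl, ev_bases K D n c]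
      push_cast [bases]
      ring

end Vale.Agent.P154.Bern
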