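import Vale.Agent.P154.BinBern

/-!
Polynomial arithmetic for the two certificates of the invariant method.

The inequalities are written once over an arbitrary carrier; the instance on coefficient lists
is checked by the Bernstein test, and the instance on the reals is the one used in the proof.
-/

namespace Vale.Agent.P154.Bern

/-- Schoolbook product of coefficient lists, given the product of coefficients. -/
def mulList (n : ℕ) (f : MP n → MP n → MP n) : List (MP n) → List (MP n) → List (MP n)
  | [], _ => []
  | c :: a, b => zipPad (add n) (List.map (f c) b) (zero n :: mulList n f a b)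

/-- The product of two polynomials. -/
def mul : (n : ℕ) → MP n → MP n → MP n
  | 0, a, b => (Int.mul a b : ℤ)
  | n + 1, a, b => mulList n (mul n) a b

lemma ev_map_mul (n : ℕ) (f : MP n → MP n → MP n) (c : MP n) (x : ℕ → ℝ)
    (hf : ∀ e, ev n (f c e) (fun i => x (i + 1)) =
      ev n c (fun i => x (i + 1)) * ev n e (fun i => x (i + 1))) :
    ∀ b : List (MP n),
      ev (n + 1) (List.map (f c) b) x = ev n c (fun i => x (i + 1)) * ev (n + 1) b x
  | [] => by simp [ev_succ_nil]
  | e :: b => by
    simp only [List.map_cons, ev_succ_cons, hf, ev_map_mul n f c x hf b]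
    ring

lemma ev_mulList (n : ℕ) (f : MP n → MP n → MP n) (x : ℕ → ℝ)
    (hf : ∀ c e, ev n (f c e) (fun i => x (i + 1)) =
      ev n c (fun i => x (i + 1)) * ev n e (fun i => x (i + 1))) :
    ∀ a b : List (MP n),
      ev (n + 1) (mulList n f a b) x = ev (n + 1) a x * ev (n + 1) b x
  | [], b => by simp [mulList, ev_succ_nil]
  | c :: a, b => by
    have e := ev_add (n + 1) (List.map (f c) b) (zero n :: mulList n f a b) x
    simp only [add] at e
    simp only [mulList]
    rw [e, ev_map_mul n f c x (hf c), ev_succ_cons, ev_zero, ev_mulList n f x hf a b, ev_succ_cons]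
    ring

lemma ev_mul : ∀ (n : ℕ) (a b : MP n) (x : ℕ → ℝ), ev n (mul n a b) x = ev n a x * ev n b x
  | 0, a, b, x => by
    show (((Int.mul a b : ℤ)) : ℝ) = _
    exact Int.cast_mul a b
  | n + 1, a, b, x => ev_mulList n (mul n) x (fun c e => ev_mul n c e _) a b

end Vale.Agent.P154.Bern

namespace Vale.Agent.P154.Inv

/-- The operations used by the certificates. -/
structure Ops (α : Type) where
  /-- Sum. -/
  add : α → α → α
  /-- Product. -/
  mul : α → α → α
  /-- Integer multiple. -/
  smul : ℤ → α → α
  /-- An integer constant. -/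
  con : ℤ → α

variable {α : Type} (o : Ops α)

/-- A vector in three coordinates. -/
structure Vec (α : Type) where
  /-- First coordinate. -/
  c0 : α
  /-- Second coordinate. -/
  c1 : α
  /-- Third coordinate. -/
  c2 : α

/-- Twice a sorted posterior vector, in square coordinates. -/
def sorted (s u : α) : Vec α :=
  ⟨o.add (o.add (o.con 2) s) (o.smul 3 (o.mul s u)),
    o.add (o.add (o.con 2) s) (o.smul (-3) (o.mul s u)),
    o.add (o.con 2) (o.smul (-2) s)⟩

/-- `Σ (A i - 2) ^ 2`. -/
def xq (A : Vec α) : α :=
  let m := fun c => o.add c (o.con (-2))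
  o.add (o.add (o.mul (m A.c0) (m A.c0)) (o.mul (m A.c1) (m A.c1))) (o.mul (m A.c2) (m A.c2))

/-- `Π (A i - 2)`. -/
def tq (A : Vec α) : α :=
  let m := fun c => o.add c (o.con (-2))
  o.mul (o.mul (m A.c0) (m A.c1)) (m A.c2)

/-- The scaled invariant `720 tq - 13 xq ^ 2`. -/
def iq (A : Vec α) : α := o.add (o.smul 720 (tq o A)) (o.smul (-13) (o.mul (xq o A) (xq o A)))

/-- The pointwise product. -/
def pr (A B : Vec α) : Vec α := ⟨o.mul A.c0 B.c0, o.mul A.c1 B.c1, o.mul A.c2 B.c2⟩

/-- The scaled weight of a pair. -/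
def zq (n : Vec α) : α := o.add (o.add n.c0 n.c1) n.c2

/-- The scaled centred product. -/
def cq (n : Vec α) : Vec α :=
  let z := o.smul (-1) (zq o n)
  ⟨o.add (o.smul 3 n.c0) z, o.add (o.smul 3 n.c1) z, o.add (o.smul 3 n.c2) z⟩

/-- `Σ m i ^ 2`. -/
def nx (m : Vec α) : α := o.add (o.add (o.mul m.c0 m.c0) (o.mul m.c1 m.c1)) (o.mul m.c2 m.c2)

/-- `Π m i`. -/
def nt (m : Vec α) : α := o.mul (o.mul m.c0 m.c1) m.c2

/-- The right side of the first inequality. -/
def rhsA (A B : Vec α) : α :=
  let x := xq o A
  let y := xq o B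
  o.add (o.smul 1382400 (o.add x y))
    (o.add
      (o.smul (-12) (o.add (o.mul (o.mul y (o.add (o.con 24) (o.smul (-1) y))) (iq o A))
        (o.mul (o.mul x (o.add (o.con 24) (o.smul (-1) x))) (iq o B))))
      (o.smul (-80) (o.mul x y)))

/-- The right side of the second inequality. -/
def rhsB (A B : Vec α) : α :=
  let x := o.add (o.con 24) (o.smul (-1) (xq o A))
  let y := o.add (o.con 24) (o.smul (-1) (xq o B))
  o.add (o.mul (o.mul y y) (iq o A)) (o.mul (o.mul x x) (iq o B))

/-- First certificate for three relabellings `B`, `B'`, `B''` of the second child. -/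
def certA (A B B' B'' : Vec α) : α :=
  let n := pr o A B
  let n' := pr o A B'
  let n'' := pr o A B''
  let z := zq o n
  let z' := zq o n'
  let z'' := zq o n''
  o.add
    (o.mul z (o.mul z' (o.add (o.mul z'' (rhsA o A B)) (o.smul (-153600) (nx o (cq o n''))))))
    (o.smul (-153600) (o.mul z'' (o.add (o.mul z' (nx o (cq o n))) (o.mul z (nx o (cq o n'))))))

/-- Three successive products with the same small factor. -/
def mul3 (z a : α) : α := o.mul z (o.mul z (o.mul z a))

/-- One summand of the second certificate. -/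
def termB (n : Vec α) : α :=
  let m := cq o n
  o.add (o.smul 360 (o.mul (zq o n) (nt o m))) (o.smul (-13) (o.mul (nx o m) (nx o m)))

/-- Second certificate for three relabellings `B`, `B'`, `B''` of the second child. -/
def certB (A B B' B'' : Vec α) : α :=
  let n := pr o A B
  let n' := pr o A B'
  let n'' := pr o A B''
  let z := zq o n
  let z' := zq o n'
  let z'' := zq o n''
  o.add
    (mul3 o z (mul3 o z' (o.add (o.smul 256 (termB o n''))
      (o.smul (-1) (mul3 o z'' (rhsB o A B))))))
    (o.smul 256 (mul3 o z'' (o.add (mul3 o z' (termB o n)) (mul3 o z (termB o n')))))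

/-- The certificates for the two classes of relabellings of a sorted pair. -/
def pair (f : Vec α → Vec α → Vec α → Vec α → α) (odd : Bool) (s u t v : α) : α :=
  let A := sorted o s u
  let B := sorted o t v
  if odd then f A ⟨B.c0, B.c2, B.c1⟩ ⟨B.c2, B.c1, B.c0⟩ ⟨B.c1, B.c0, B.c2⟩
  else f A B ⟨B.c1, B.c2, B.c0⟩ ⟨B.c2, B.c0, B.c1⟩

/-- Coefficient lists in four variables. -/
def lops : Ops (Bern.MP 4) where
  add := Bern.add 4
  mul := Bern.mul 4
  smul := Bern.smul 4
  con k := ([[[[k]]]] : List (List (List (List ℤ))))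

/-- The reals. -/
noncomputable def rops : Ops ℝ where
  add := (· + ·)
  mul := (· * ·)
  smul k x := (k : ℝ) * x
  con k := (k : ℝ)

/-- First variable. -/
def v0 : Bern.MP 4 := ([[], [[[1]]]] : List (List (List (List ℤ))))
/-- Second variable. -/
def v1 : Bern.MP 4 := ([[[], [[1]]]] : List (List (List (List ℤ))))
/-- Third variable. -/
def v2 : Bern.MP 4 := ([[[[], [1]]]] : List (List (List (List ℤ))))
/-- Fourth variable. -/
def v3 : Bern.MP 4 := ([[[[0, 1]]]] : List (List (List (List ℤ))))

/-- The first certificate as a coefficient list. -/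
def polA (odd : Bool) : Bern.MP 4 := pair lops (certA lops) odd v0 v1 v2 v3

end Vale.Agent.P154.Inv
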