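import Vale.Agent.P154.Decay
import Vale.Agent.P154.InvAlg
import Vale.Agent.P154.Monotone

/-!
Propagation of the invariant along trees and the resulting decay of the second moment, for every
ferromagnetic edge parameter.
-/

open scoped BigOperators ENNReal
open Filter

namespace Vale.Agent.P154.Inv

section join

variable {ι κ : Type} [Fintype ι] [Fintype κ]

/-- The joined expectation is the averaged pointwise one. -/
lemma expect_join_eq {l : ℝ} (φ : (Spin → ℝ) → ℝ) {f : ι → Spin → ℝ} {g : κ → Spin → ℝ}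
    (hf : Fam f) (hg : Fam g) :
    expect φ (join l f g) = ∑ j, ∑ k, wt (f j) * wt (g k) *
      avgJoin φ (post (f j)) (img l (post (g k))) := by
  classical
  have hwf : ∑ j, wt (f j) = 1 := by
    simp only [wt, ← Finset.sum_div]; rw [Finset.sum_comm, Fin.sum_univ_three, hf.mass, hf.mass,
      hf.mass]; norm_num
  have hwg : ∑ j, wt (g j) = 1 := by
    simp only [wt, ← Finset.sum_div]; rw [Finset.sum_comm, Fin.sum_univ_three, hg.mass, hg.mass,
      hg.mass]; norm_num
  let F : (Spin → ℝ) → (Spin → ℝ) → ℝ := fun a b => zw a b * φ (comb a b)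
  have h1 : expect φ (join l f g) = ∑ j, ∑ k, wt (f j) * wt (g k) *
      F (post (f j)) (img l (post (g k))) := by
    simp only [expect, Fintype.sum_prod_type]
    exact Finset.sum_congr rfl fun j _ => Finset.sum_congr rfl fun k _ =>
      join_term φ (hf.nonneg j) (hg.nonneg k)
  have h2 : ∀ σ : Equiv.Perm Spin, ∀ j, ∑ k, wt (f j) * wt (g k) *
      F (post (f j)) (img l (post (g k))) = ∑ k, wt (f j) * wt (g k) *
      F (post (f j)) (fun i => img l (post (g k)) (σ i)) := fun σ j => by
    obtain ⟨e, he⟩ := hg.equiv σ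
    rw [← Equiv.sum_comp e (fun k => wt (f j) * wt (g k) * F (post (f j)) (img l (post (g k))))]
    refine Finset.sum_congr rfl fun k _ => ?_
    obtain ⟨hw, hp⟩ := post_perm σ (he k)
    have : img l (post (g (e k))) = fun i => img l (post (g k)) (σ i) := by
      funext i; simp [img, hp i]
    rw [hw, this]
  have h3 : ∀ j, ∑ k, wt (f j) * wt (g k) * F (post (f j)) (img l (post (g k)))
      = ∑ k, wt (f j) * wt (g k) * ((1 / 6 : ℝ) * ∑ σ : Equiv.Perm Spin,
          F (post (f j)) (fun i => img l (post (g k)) (σ i))) := fun j => by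
    have h6 : (Fintype.card (Equiv.Perm Spin) : ℝ) = 6 := by
      rw [Fintype.card_perm, Fintype.card_fin]; norm_num [Nat.factorial]
    calc ∑ k, wt (f j) * wt (g k) * F (post (f j)) (img l (post (g k)))
        = (1 / 6 : ℝ) * ∑ _σ : Equiv.Perm Spin,
            ∑ k, wt (f j) * wt (g k) * F (post (f j)) (img l (post (g k))) := by
          rw [Finset.sum_const, Finset.card_univ, nsmul_eq_mul, h6]; ring
      _ = _ := by
          rw [Finset.sum_congr rfl fun σ _ => h2 σ j, Finset.sum_comm, Finset.mul_sum]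
          refine Finset.sum_congr rfl fun k _ => ?_
          rw [← Finset.mul_sum]; ring
  rw [h1, Finset.sum_congr rfl fun j _ => h3 j]
  rfl

lemma sum_wt {f : ι → Spin → ℝ} (hf : Fam f) : ∑ j, wt (f j) = 1 := by
  simp only [wt, ← Finset.sum_div]
  rw [Finset.sum_comm, Fin.sum_univ_three, hf.mass, hf.mass, hf.mass]
  norm_num

lemma sum_split (f : ι → Spin → ℝ) (g : κ → Spin → ℝ) (φ ψ : (Spin → ℝ) → ℝ) :
    ∑ j, ∑ k, wt (f j) * wt (g k) * (φ (post (f j)) * ψ (post (g k))) =
      expect φ f * expect ψ g := by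
  rw [expect, expect, Finset.sum_mul_sum]
  exact Finset.sum_congr rfl fun j _ => Finset.sum_congr rfl fun k _ => by ring

lemma sum_left {f : ι → Spin → ℝ} {g : κ → Spin → ℝ} (hg : Fam g) (φ : (Spin → ℝ) → ℝ) :
    ∑ j, ∑ k, wt (f j) * wt (g k) * φ (post (f j)) = expect φ f := by
  refine Finset.sum_congr rfl fun j _ => ?_
  rw [← Finset.sum_mul, ← Finset.mul_sum, sum_wt hg, mul_one]

lemma sum_right {f : ι → Spin → ℝ} {g : κ → Spin → ℝ} (hf : Fam f) (ψ : (Spin → ℝ) → ℝ) :
    ∑ j, ∑ k, wt (f j) * wt (g k) * ψ (post (g k)) = expect ψ g := by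
  rw [Finset.sum_comm]
  refine Finset.sum_congr rfl fun k _ => ?_
  rw [← Finset.sum_mul, ← Finset.sum_mul, sum_wt hf, one_mul]

lemma expect_nonneg {f : ι → Spin → ℝ} (hf : Fam f) {φ : (Spin → ℝ) → ℝ}
    (h : ∀ a, InS a → 0 ≤ φ a) : 0 ≤ expect φ f :=
  Finset.sum_nonneg fun j _ => mul_nonneg (wt_nonneg (hf.nonneg j)) (h _ (post_inS (hf.nonneg j)))

lemma img_inS {l : ℝ} (h0 : 0 ≤ l) (h1 : l ≤ 1) {y : Spin → ℝ} (hy : InS y) : InS (img l y) := by
  refine ⟨fun i => ?_, ?_⟩
  · have := mul_nonneg h0 (hy.1 i)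
    simp only [img]; linarith
  · simp only [img]; linear_combination l * hy.2

lemma sq_img (l : ℝ) (y : Spin → ℝ) : sq (img l y) = l ^ 2 * sq y := by
  simp only [P154.sq, img]; ring

lemma ifun_img {l : ℝ} (h0 : 0 ≤ l) (h1 : l ≤ 1) (y : Spin → ℝ) :
    l ^ 3 * ifun y ≤ ifun (img l y) := by
  have e : cub (img l y) = l ^ 3 * cub y := by simp only [P154.cub, img]; ring
  have := mul_nonneg (mul_nonneg (pow_nonneg h0 3) (sub_nonneg.2 h1)) (sq_nonneg (sq y))
  simp only [ifun, sq_img, e]
  linarith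

/-- The expected invariant after the edge. -/
lemma expect_ifun_img {l : ℝ} (h0 : 0 ≤ l) (h1 : l ≤ 1) (g : κ → Spin → ℝ) (hg : Fam g)
    (h : 0 ≤ expect ifun g) : 0 ≤ expect (fun y => ifun (img l y)) g := by
  refine le_trans (mul_nonneg (pow_nonneg h0 3) h) ?_
  rw [expect, Finset.mul_sum]
  refine Finset.sum_le_sum fun k _ => ?_
  rw [mul_left_comm]
  exact mul_le_mul_of_nonneg_left (ifun_img h0 h1 _) (wt_nonneg (hg.nonneg k))

/-- One child joins: the second moment is subadditive and the invariant is preserved. -/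
theorem join_step {l : ℝ} (h0 : 0 ≤ l) (h1 : l ≤ 1) {f : ι → Spin → ℝ} {g : κ → Spin → ℝ}
    (hf : Fam f) (hg : Fam g) (If : 0 ≤ expect ifun f) (Ig : 0 ≤ expect ifun g) :
    expect sq (join l f g) ≤ expect sq f + l ^ 2 * expect sq g
        - 1 / 720 * l ^ 2 * expect sq f * expect sq g ∧
      0 ≤ expect ifun (join l f g) := by
  have hw : ∀ j k, 0 ≤ wt (f j) * wt (g k) := fun j k =>
    mul_nonneg (wt_nonneg (hf.nonneg j)) (wt_nonneg (hg.nonneg k))
  have hb : ∀ j k, avgJoin sq (post (f j)) (img l (post (g k))) ≤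
        boundA (post (f j)) (img l (post (g k))) ∧
      boundB (post (f j)) (img l (post (g k))) ≤
        avgJoin ifun (post (f j)) (img l (post (g k))) := fun j k =>
    join_bounds (post_inS (hf.nonneg j)) (img_inS h0 h1 (post_inS (hg.nonneg k)))
  have Ii := expect_ifun_img h0 h1 g hg Ig
  have s0 : ∀ a, InS a → 0 ≤ sq a * (1 - sq a) := fun a ha =>
    mul_nonneg (sq_nonneg' a) (sub_nonneg.2 (sq_le_one ha))
  have g0 : ∀ {a}, InS a → 0 ≤ sq (img l a) * (1 - sq (img l a)) := fun ha =>
    s0 _ (img_inS h0 h1 ha)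
  refine ⟨?_, ?_⟩
  · rw [expect_join_eq sq hf hg]
    refine le_trans (Finset.sum_le_sum fun j _ => Finset.sum_le_sum fun k _ =>
      mul_le_mul_of_nonneg_left (hb j k).1 (hw j k)) (le_of_eq_of_le (b :=
        expect sq f + l ^ 2 * expect sq g - 12 / 5 * (expect ifun f *
          expect (fun y => sq (img l y) * (1 - sq (img l y))) g +
          expect (fun a => sq a * (1 - sq a)) f * expect (fun y => ifun (img l y)) g)
        - 1 / 720 * l ^ 2 * expect sq f * expect sq g) ?_ ?_)
    · rw [mul_assoc (1 / 720 * l ^ 2), ← sum_split f g sq sq,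
        ← sum_split f g ifun (fun y => sq (img l y) * (1 - sq (img l y))),
        ← sum_split f g (fun a => sq a * (1 - sq a)) (fun y => ifun (img l y)),
        ← sum_left hg sq, ← sum_right hf sq]
      simp only [Finset.mul_sum, ← Finset.sum_add_distrib, ← Finset.sum_sub_distrib]
      refine Finset.sum_congr rfl fun j _ => Finset.sum_congr rfl fun k _ => ?_
      simp only [boundA, sq_img]
      ring
    · have t1 := mul_nonneg If (expect_nonneg hg
        (φ := fun y => sq (img l y) * (1 - sq (img l y))) fun a ha => g0 ha)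
      have t2 := mul_nonneg (expect_nonneg hf (φ := fun a => sq a * (1 - sq a)) s0) Ii
      linarith
  · rw [expect_join_eq ifun hf hg]
    refine le_trans ?_ (Finset.sum_le_sum fun j _ => Finset.sum_le_sum fun k _ =>
      mul_le_mul_of_nonneg_left (hb j k).2 (hw j k))
    have e : ∑ j, ∑ k, wt (f j) * wt (g k) * boundB (post (f j)) (img l (post (g k))) =
        expect ifun f * expect (fun y => (1 - sq (img l y)) ^ 2) g +
          expect (fun a => (1 - sq a) ^ 2) f * expect (fun y => ifun (img l y)) g := by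
      rw [← sum_split f g ifun (fun y => (1 - sq (img l y)) ^ 2),
        ← sum_split f g (fun a => (1 - sq a) ^ 2) (fun y => ifun (img l y)),
        ← Finset.sum_add_distrib]
      refine Finset.sum_congr rfl fun j _ => ?_
      rw [← Finset.sum_add_distrib]
      refine Finset.sum_congr rfl fun k _ => ?_
      simp only [boundB]
      ring
    rw [e]
    exact add_nonneg (mul_nonneg If (expect_nonneg hg fun a _ => sq_nonneg _))
      (mul_nonneg (expect_nonneg hf fun a _ => sq_nonneg _) Ii)

end join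

section fold

variable {l : ℝ}

lemma kids_step (hl : 0 ≤ l) (hu : l ≤ 1) : ∀ {k : ℕ} {ι : Fin k → Type}
    [∀ j, Fintype (ι j)] {g : ∀ j, ι j → Spin → ℝ},
    (∀ j, Fam (g j) ∧ 0 ≤ expect ifun (g j)) →
      expect sq (P154.kids l g) ≤ l ^ 2 * ∑ j, expect sq (g j) ∧
        0 ≤ expect ifun (P154.kids l g) := by
  intro k
  induction k with
  | zero =>
    intro ι _ g _
    simp [expect, kids_nil, post_one, P154.sq, ifun, P154.cub]
  | succ k ih =>
    intro ι _ g hg
    rw [← expect_reindex (splitFirst ι) _ sq, ← expect_reindex (splitFirst ι) _ ifun, kids_split,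
      Fin.sum_univ_succ, mul_add]
    obtain ⟨h2, h3⟩ := ih fun j : Fin k => hg j.succ
    have hF : Fam (P154.kids l fun j => g j.succ) :=
      Fam.kids (by linarith) hu fun j => (hg j.succ).1
    obtain ⟨h1, h4⟩ := join_step hl hu hF (hg 0).1 h3 (hg 0).2
    refine ⟨?_, h4⟩
    have h5 := mul_nonneg (mul_nonneg (by positivity : (0 : ℝ) ≤ 1 / 720 * l ^ 2)
      (expect_sq_nonneg hF)) (expect_sq_nonneg (hg 0).1)
    linarith

lemma kids_gain (hl : 0 ≤ l) (hu : l ≤ 1) : ∀ {k : ℕ} {ι : Fin (k + 2) → Type}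
    [∀ j, Fintype (ι j)] {g : ∀ j, ι j → Spin → ℝ},
    (∀ j, Fam (g j) ∧ 0 ≤ expect ifun (g j)) →
      expect sq (P154.kids l g) + 1 / 720 * l ^ 4 * (expect sq (g (Fin.last k).castSucc) *
        expect sq (g (Fin.last (k + 1)))) ≤ l ^ 2 * ∑ j, expect sq (g j) := by
  intro k
  induction k with
  | zero =>
    intro ι _ g hg
    rw [← expect_reindex (splitFirst ι), kids_split, Fin.sum_univ_succ, mul_add]
    have hF : Fam (P154.kids l fun j : Fin 1 => g j.succ) :=
      Fam.kids (by linarith) hu fun j => (hg j.succ).1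
    obtain ⟨h2, h3⟩ := kids_step hl hu fun j : Fin 1 => hg j.succ
    obtain ⟨h1, -⟩ := join_step hl hu hF (hg 0).1 h3 (hg 0).2
    rw [expect_sq_single (by linarith) hu fun j : Fin 1 => (hg j.succ).1] at h1
    have e1 : 1 / 720 * l ^ 4 * (expect sq (g (Fin.last 0).castSucc) * expect sq (g (Fin.last 1)))
        = 1 / 720 * l ^ 2 * (l ^ 2 * expect sq (g (Fin.succ 0))) * expect sq (g 0) := by
      rw [show ((Fin.last 0).castSucc : Fin 2) = 0 from rfl,
        show (Fin.last 1 : Fin 2) = Fin.succ 0 from rfl]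
      ring
    rw [expect_sq_single (by linarith) hu fun j : Fin 1 => (hg j.succ).1] at h2
    linarith
  | succ k ih =>
    intro ι _ g hg
    rw [← expect_reindex (splitFirst ι), kids_split, Fin.sum_univ_succ, mul_add]
    have hF : Fam (P154.kids l fun j : Fin (k + 2) => g j.succ) :=
      Fam.kids (by linarith) hu fun j => (hg j.succ).1
    obtain ⟨-, h3⟩ := kids_step hl hu fun j : Fin (k + 2) => hg j.succ
    obtain ⟨h1, -⟩ := join_step hl hu hF (hg 0).1 h3 (hg 0).2
    have h2 := ih fun j : Fin (k + 2) => hg j.succ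
    have h5 := mul_nonneg (mul_nonneg (by positivity : (0 : ℝ) ≤ 1 / 720 * l ^ 2)
      (expect_sq_nonneg hF)) (expect_sq_nonneg (hg 0).1)
    have e1 : ((Fin.last k).castSucc.succ : Fin (k + 3)) = (Fin.last (k + 1)).castSucc := rfl
    have e2 : ((Fin.last (k + 1)).succ : Fin (k + 3)) = Fin.last (k + 2) := rfl
    rw [e1, e2] at h2
    linarith

lemma single_leaf (c : Spin) :
    0 ≤ ifun (post fun i => if i = c then (1 : ℝ) else 0) := by
  have hw : wt (fun i => if i = c then (1 : ℝ) else 0) = 1 / 3 := by simp [wt]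
  have hp : (post fun i => if i = c then (1 : ℝ) else 0) = fun i => if i = c then 3 else 0 := by
    funext i
    rw [post, if_neg (by rw [hw]; norm_num)]
    simp only [hw]
    split_ifs <;> norm_num
  rw [hp]
  fin_cases c <;> simp [ifun, P154.sq, P154.cub] <;> norm_num

/-- The invariant has nonnegative mean on every tree. -/
theorem ifun_lik (hl : 0 ≤ l) (hu : l ≤ 1) :
    ∀ (n : ℕ) (T : Tr n), 0 ≤ expect ifun (lik l n T)
  | 0, T => Finset.sum_nonneg fun c _ => mul_nonneg
      (wt_nonneg ((fam_lik (by linarith) hu 0 T).nonneg c)) (single_leaf c)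
  | n + 1, T => by
    rw [lik_succ]
    exact (@kids_step l hl hu T.1 (fun j => Cfg n (T.2 j)) (fun j => cfgFintype n (T.2 j))
      (fun j => lik l n (T.2 j))
      fun j => ⟨fam_lik (by linarith) hu n (T.2 j), ifun_lik hl hu n (T.2 j)⟩).2

end fold

section main

variable {l : ℝ}

lemma tv_nonneg {l : ℝ} (hl : -(1 / 2) ≤ l) (hu : l ≤ 1) (n : ℕ) (T : Tr n) :
    0 ≤ tv l n T := by
  rw [tv_eq hl hu]
  exact Finset.sum_nonneg fun c _ => by positivity

/-- Nonreconstruction on the `d`-ary tree for every `l ≥ 0` with `d l² ≤ 1`. -/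
theorem tendsto_tv_regular (hl0' : 0 ≤ l) (hu : l ≤ 1) {d : ℕ} (h2 : 2 ≤ d)
    (hdl : (d : ℝ) * l ^ 2 ≤ 1) :
    Tendsto (fun n => tv l n (regular d n)) atTop (nhds 0) := by
  have hl : -(1 / 2) ≤ l := by linarith
  obtain ⟨k, rfl⟩ : ∃ k, d = k + 2 := ⟨d - 2, by omega⟩
  set X : ℕ → ℝ := fun n => expect sq (lik l n (regular (k + 2) n)) with hX
  have hX0 : ∀ n, 0 ≤ X n := fun n => expect_sq_nonneg (fam_lik hl hu n _)
  have hstep : ∀ n, X (n + 1) + 1 / 720 * l ^ 4 * X n ^ 2 ≤ X n := fun n => by
    have h := @kids_gain l hl0' hu k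
      (fun _ => Cfg n (regular (k + 2) n)) (fun _ => cfgFintype n _)
      (fun _ => lik l n (regular (k + 2) n))
      (fun _ => ⟨fam_lik hl hu n _, ifun_lik hl0' hu n _⟩)
    rw [Finset.sum_const, Finset.card_univ, Fintype.card_fin, nsmul_eq_mul] at h
    have h' : X (n + 1) + 1 / 720 * l ^ 4 * (X n * X n) ≤ l ^ 2 * (((k + 2 : ℕ) : ℝ) * X n) := h
    have := mul_le_mul_of_nonneg_right hdl (hX0 n)
    nlinarith
  have hXlim : Tendsto X atTop (nhds 0) := by
    by_cases hl0 : l = 0
    · refine (Filter.tendsto_add_atTop_iff_nat 1).mp (tendsto_const_nhds.congr fun n => ?_)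
      have h := (@kids_step l hl0' hu (k + 2)
        (fun _ => Cfg n (regular (k + 2) n)) (fun _ => cfgFintype n _)
        (fun _ => lik l n (regular (k + 2) n))
        (fun _ => ⟨fam_lik hl hu n _, ifun_lik hl0' hu n _⟩)).1
      subst hl0
      have h' : X (n + 1) ≤ 0 := by
        refine le_trans h (le_of_eq ?_)
        simp
      exact (le_antisymm h' (hX0 (n + 1))).symm
    · exact seq_decay (by positivity) hX0 hstep
  rw [Metric.tendsto_atTop] at hXlim ⊢
  intro ε hε
  obtain ⟨N, hN⟩ := hXlim (ε / 3 * (ε / 3)) (by positivity)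
  refine ⟨N, fun n hn => ?_⟩
  have h1 := tv_le hl hu n (regular (k + 2) n) (by positivity : 0 < ε / 3)
  have h2 := hN n hn
  rw [Real.dist_eq, sub_zero, abs_of_nonneg (hX0 n)] at h2
  have h3 : X n / (ε / 3) < ε / 3 := by rw [div_lt_iff₀ (by positivity)]; exact h2
  rw [Real.dist_eq, sub_zero, abs_of_nonneg (tv_nonneg hl hu n _)]
  linarith

/-- Nonreconstruction on Galton-Watson trees for every `l ≥ 0` with mean times `l²` at most one,
apart from the line `l = 1` with at most one child almost surely. -/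
theorem tendsto_gwTV (hl0' : 0 ≤ l) (hu : l ≤ 1) (p : ℕ → ℝ≥0∞) (hp : ∑' k, p k = 1)
    (hdl : ENNReal.ofReal (l ^ 2) * ∑' k : ℕ, (k : ℝ≥0∞) * p k ≤ 1)
    (hns : l < 1 ∨ ∃ k, 2 ≤ k ∧ p k ≠ 0) :
    Tendsto (gwTV p l) atTop (nhds 0) := by
  classical
  have hl : -(1 / 2) ≤ l := by linarith
  have hd : (0 : ℝ) < 1 / 720 := by norm_num
  let u : ℕ → ℝ≥0∞ := fun n =>
    ∑' T : Tr n, treeWeight p n T * ENNReal.ofReal (expect sq (lik l n T))
  let D : ℝ≥0∞ := ENNReal.ofReal (l ^ 2) * ∑' k : ℕ, (k : ℝ≥0∞) * p k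
  let q : ℝ≥0∞ := ∑' k, if 2 ≤ k then p k else 0
  let K : ℝ≥0∞ := ENNReal.ofReal ((1 / 720 : ℝ) * l ^ 4)
  have hφ0 : ∀ n (T : Tr n), 0 ≤ expect sq (lik l n T) := fun n T =>
    expect_sq_nonneg (fam_lik hl hu n T)
  have hrec : ∀ n, u (n + 1) + K * q * u n ^ 2 ≤ D * u n := fun n => by
    have hW := tsum_treeWeight p hp n
    have hk : ∀ k : ℕ, (∑' ch : Fin k → Tr n, (p k * ∏ j, treeWeight p n (ch j)) *
          ENNReal.ofReal (expect sq (lik l (n + 1) (node n k ch))))
        + K * (if 2 ≤ k then p k else 0) * u n ^ 2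
        ≤ ENNReal.ofReal (l ^ 2) * ((k : ℝ≥0∞) * p k) * u n := fun k => by
      have hsum : ∀ ch : Fin k → Tr n,
          ENNReal.ofReal (l ^ 2 * ∑ j, expect sq (lik l n (ch j)))
            = ENNReal.ofReal (l ^ 2) * ∑ j, ENNReal.ofReal (expect sq (lik l n (ch j))) :=
          fun ch => by
        rw [ENNReal.ofReal_mul (sq_nonneg l), ENNReal.ofReal_sum_of_nonneg fun j _ => hφ0 n _]
      have hR : ∑' ch : Fin k → Tr n, (p k * ∏ j, treeWeight p n (ch j)) *
            ENNReal.ofReal (l ^ 2 * ∑ j, expect sq (lik l n (ch j)))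
          = ENNReal.ofReal (l ^ 2) * ((k : ℝ≥0∞) * p k) * u n := by
        simp only [hsum]; simp only [Finset.mul_sum]
        rw [Summable.tsum_finsetSum fun i _ => ENNReal.summable]
        have : ∀ i : Fin k, ∑' ch : Fin k → Tr n, (p k * ∏ j, treeWeight p n (ch j)) *
            (ENNReal.ofReal (l ^ 2) * ENNReal.ofReal (expect sq (lik l n (ch i))))
            = ENNReal.ofReal (l ^ 2) * p k * u n := fun i => by
          have h1 := tsum_pi_one (treeWeight p n)
            (fun T => ENNReal.ofReal (expect sq (lik l n T))) hW i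
          calc _ = ∑' ch : Fin k → Tr n, (ENNReal.ofReal (l ^ 2) * p k) *
                ((∏ j, treeWeight p n (ch j)) * ENNReal.ofReal (expect sq (lik l n (ch i)))) :=
                tsum_congr fun ch => by ring
            _ = _ := by rw [ENNReal.tsum_mul_left, h1]
        simp only [this, Finset.sum_const, Finset.card_univ, Fintype.card_fin, nsmul_eq_mul]
        ring
      rw [← hR]
      by_cases h2 : 2 ≤ k
      · obtain ⟨m, rfl⟩ : ∃ m, k = m + 2 := ⟨k - 2, by omega⟩
        have hne : (Fin.last m).castSucc ≠ Fin.last (m + 1) := (Fin.castSucc_lt_last _).ne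
        rw [if_pos h2, ← tsum_pi_two (treeWeight p n)
          (fun T => ENNReal.ofReal (expect sq (lik l n T))) hW hne, ← ENNReal.tsum_mul_left,
          ← ENNReal.tsum_add]
        refine ENNReal.tsum_le_tsum fun ch => ?_
        have h := @kids_gain l hl0' hu m (fun j => Cfg n (ch j))
          (fun j => cfgFintype n (ch j)) (fun j => lik l n (ch j)) (fun j => ⟨fam_lik hl hu n _, ifun_lik hl0' hu n _⟩)
        have hh : expect sq (lik l (n + 1) (node n (m + 2) ch)) + (1 / 720 : ℝ) * l ^ 4 *
            (expect sq (lik l n (ch (Fin.last m).castSucc)) *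
              expect sq (lik l n (ch (Fin.last (m + 1))))) ≤ l ^ 2 * ∑ j, expect sq (lik l n (ch j)) :=
          h
        have h' := ENNReal.ofReal_le_ofReal hh
        rw [ENNReal.ofReal_add (hφ0 (n + 1) (node n (m + 2) ch)) (mul_nonneg (by positivity)
          (mul_nonneg (expect_sq_nonneg (fam_lik hl hu n _))
            (expect_sq_nonneg (fam_lik hl hu n _)))),
          ENNReal.ofReal_mul (by positivity), ENNReal.ofReal_mul
            (expect_sq_nonneg (fam_lik hl hu n _))] at h'
        refine le_trans (le_of_eq ?_) (mul_le_mul' (le_refl (p (m + 2) * ∏ j, treeWeight p n (ch j))) h')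
        simp only [K]
        ring
      · rw [if_neg h2, mul_zero, zero_mul, add_zero]
        exact ENNReal.tsum_le_tsum fun ch => mul_le_mul' le_rfl (ENNReal.ofReal_le_ofReal
          (@kids_step l hl0' hu k (fun j => Cfg n (ch j))
            (fun j => cfgFintype n (ch j)) (fun j => lik l n (ch j))
            (fun j => ⟨fam_lik hl hu n _, ifun_lik hl0' hu n _⟩)).1)
    calc u (n + 1) + K * q * u n ^ 2
        = ∑' k : ℕ, ((∑' ch : Fin k → Tr n, (p k * ∏ j, treeWeight p n (ch j)) *
            ENNReal.ofReal (expect sq (lik l (n + 1) (node n k ch))))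
          + K * (if 2 ≤ k then p k else 0) * u n ^ 2) := by
          rw [ENNReal.tsum_add, ENNReal.tsum_mul_right, ENNReal.tsum_mul_left]
          congr 1
          exact ENNReal.tsum_sigma fun k (ch : Fin k → Tr n) =>
            (p k * ∏ j, treeWeight p n (ch j)) *
              ENNReal.ofReal (expect sq (lik l (n + 1) (node n k ch)))
      _ ≤ ∑' k : ℕ, ENNReal.ofReal (l ^ 2) * ((k : ℝ≥0∞) * p k) * u n := ENNReal.tsum_le_tsum hk
      _ = D * u n := by simp only [D, ENNReal.tsum_mul_right, ENNReal.tsum_mul_left]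
  have hu0 : u 0 ≠ ⊤ := by
    show ∑' T : Unit, _ ≠ ⊤
    simp [tsum_fintype, treeWeight]
  have hufin : ∀ n, u n ≠ ⊤ := fun n => by
    induction n with
    | zero => exact hu0
    | succ n ih =>
      exact ne_top_of_le_ne_top (ENNReal.mul_ne_top (ne_top_of_le_ne_top ENNReal.one_ne_top hdl) ih)
        (le_trans le_self_add (hrec n))
  have hulim : Tendsto u atTop (nhds 0) := by
    by_cases hq : K * q = 0
    · have hD : D < 1 := by
        by_cases hl0 : l = 0
        · simp [D, hl0]
        · have hK : K ≠ 0 := by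
            simp only [K, ne_eq, ENNReal.ofReal_eq_zero, not_le]; positivity
          have hq0 : q = 0 := (mul_eq_zero.mp hq).resolve_left hK
          have hlt : l < 1 := hns.resolve_right fun ⟨k, hk, hne⟩ => by
            have := ENNReal.tsum_eq_zero.mp hq0 k
            rw [if_pos hk] at this
            exact hne this
          have hmean : ∑' k : ℕ, (k : ℝ≥0∞) * p k ≤ 1 := by
            rw [← hp]
            refine ENNReal.tsum_le_tsum fun k => ?_
            by_cases h2 : 2 ≤ k
            · have := ENNReal.tsum_eq_zero.mp hq0 k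
              rw [if_pos h2] at this; simp [this]
            · interval_cases k <;> simp
          calc D ≤ ENNReal.ofReal (l ^ 2) * 1 := mul_le_mul' le_rfl hmean
            _ < 1 := by rw [mul_one]; exact (ENNReal.ofReal_lt_one).mpr (by nlinarith)
      have hb : ∀ n, u n ≤ D ^ n * u 0 := fun n => by
        induction n with
        | zero => simp
        | succ n ih =>
          calc u (n + 1) ≤ D * u n := le_trans le_self_add (hrec n)
            _ ≤ D * (D ^ n * u 0) := mul_le_mul' le_rfl ih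
            _ = _ := by ring
      have h0 := ENNReal.Tendsto.mul_const
        (ENNReal.tendsto_pow_atTop_nhds_zero_of_lt_one hD) (Or.inr hu0)
      rw [zero_mul] at h0
      exact tendsto_of_tendsto_of_tendsto_of_le_of_le tendsto_const_nhds h0 (fun _ => bot_le) hb
    · have hqfin : q ≠ ⊤ := ne_top_of_le_ne_top ENNReal.one_ne_top (hp ▸ ENNReal.tsum_le_tsum
        fun k => by by_cases h : 2 ≤ k <;> simp [h])
      have hKq : 0 < (K * q).toReal :=
        ENNReal.toReal_pos hq (ENNReal.mul_ne_top ENNReal.ofReal_ne_top hqfin)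
      have hstep : ∀ n, (u (n + 1)).toReal + (K * q).toReal * (u n).toReal ^ 2
          ≤ (u n).toReal := fun n => by
        have h := le_trans (hrec n) (mul_le_of_le_one_left bot_le hdl)
        have h' := ENNReal.toReal_mono (hufin n) h
        rw [ENNReal.toReal_add (hufin _) (ENNReal.mul_ne_top
          (ENNReal.mul_ne_top ENNReal.ofReal_ne_top hqfin) (ENNReal.pow_ne_top (hufin n))),
          ENNReal.toReal_mul, ENNReal.toReal_pow] at h'
        exact h'
      have := seq_decay (x := fun n => (u n).toReal) hKq (fun n => ENNReal.toReal_nonneg) hstep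
      exact (ENNReal.tendsto_toReal_iff hufin ENNReal.zero_ne_top).mp (by simpa using this)
  rw [ENNReal.tendsto_nhds_zero]
  intro ε hε
  rcases eq_or_ne ε ⊤ with rfl | hε'
  · exact Eventually.of_forall fun _ => le_top
  have he : (0 : ℝ) < ε.toReal := ENNReal.toReal_pos hε.ne' hε'
  set e : ℝ := ε.toReal / 2 with hedef
  have he2 : 0 < e := by positivity
  rw [ENNReal.tendsto_nhds_zero] at hulim
  filter_upwards [hulim (ENNReal.ofReal (e * e)) (by simpa using by positivity)] with n hn
  calc gwTV p l n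
      ≤ ∑' T : Tr n, (treeWeight p n T * ENNReal.ofReal e + treeWeight p n T *
          ENNReal.ofReal (expect sq (lik l n T)) * ENNReal.ofReal (1 / e)) := by
        refine ENNReal.tsum_le_tsum fun T => ?_
        rw [mul_assoc, ← mul_add, ← ENNReal.ofReal_mul (expect_sq_nonneg (fam_lik hl hu n T)),
          mul_one_div, ← ENNReal.ofReal_add he2.le
            (div_nonneg (expect_sq_nonneg (fam_lik hl hu n T)) he2.le)]
        exact mul_le_mul' le_rfl (ENNReal.ofReal_le_ofReal (tv_le hl hu n T he2))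
    _ = ENNReal.ofReal e + u n * ENNReal.ofReal (1 / e) := by
        rw [ENNReal.tsum_add, ENNReal.tsum_mul_right, ENNReal.tsum_mul_right,
          tsum_treeWeight p hp, one_mul]
    _ ≤ ENNReal.ofReal e + ENNReal.ofReal (e * e) * ENNReal.ofReal (1 / e) := by gcongr
    _ = ε := by
        rw [← ENNReal.ofReal_mul (by positivity), show e * e * (1 / e) = e by field_simp,
          ← ENNReal.ofReal_add he2.le he2.le, show e + e = ε.toReal by rw [hedef]; ring,
          ENNReal.ofReal_toReal hε']

/-- Nonreconstruction on Poisson Galton-Watson trees for every mean `d > 0` and every `l ≥ 0`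
with `d l² ≤ 1`. -/
theorem tendsto_gwTV_poisson {d : ℝ} (hd : 0 < d) (hl0' : 0 ≤ l) (hu : l ≤ 1)
    (hdl : d * l ^ 2 ≤ 1) : Tendsto (gwTV (poissonLaw d) l) atTop (nhds 0) := by
  refine tendsto_gwTV hl0' hu _ (poissonLaw_sum hd.le) ?_ (Or.inr ⟨2, le_refl 2, ?_⟩)
  · rw [poissonLaw_mean hd.le, ← ENNReal.ofReal_mul (sq_nonneg l)]
    exact ENNReal.ofReal_le_one.mpr (by linarith)
  · rw [poissonLaw, ne_eq, ENNReal.ofReal_eq_zero, not_le]
    positivity

end main

end Vale.Agent.P154.Inv
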