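import Vale.Agent.P154.Decay

/-!
The Kesten-Stigum converse: above the second-moment threshold the census of the leaves
reconstructs the root spin, for any number of states, on regular and on Galton-Watson trees.
-/

open scoped BigOperators ENNReal
open Filter

namespace Vale.Agent.P154.KS

/-- The transition probability of the Potts channel with `q` states. -/
noncomputable def chanQ (q : ℕ) (l : ℝ) (i j : Fin q) : ℝ :=
  (if i = j then l else 0) + (1 - l) / (q : ℝ)

/-- Spin configurations with `q` states on the vertices at distance `n` from the root. -/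
def CfgQ (q : ℕ) : (n : ℕ) → Tr n → Type
  | 0, _ => Fin q
  | n + 1, T => (j : Fin T.1) → CfgQ q n (T.2 j)

noncomputable instance cfgQFintype (q : ℕ) : ∀ (n : ℕ) (T : Tr n), Fintype (CfgQ q n T)
  | 0, _ => inferInstanceAs (Fintype (Fin q))
  | n + 1, T =>
    haveI : ∀ j, Fintype (CfgQ q n (T.2 j)) := fun j => cfgQFintype q n (T.2 j)
    inferInstanceAs (Fintype ((j : Fin T.1) → CfgQ q n (T.2 j)))

/-- The probability of a leaf configuration given the root spin. -/
noncomputable def likQ (q : ℕ) (l : ℝ) : (n : ℕ) → (T : Tr n) → CfgQ q n T → Fin q → ℝ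
  | 0, _, c => fun i => let c' : Fin q := c; if i = c' then 1 else 0
  | n + 1, T, c => fun i => ∏ j, ∑ s, chanQ q l i s * likQ q l n (T.2 j) (c j) s

/-- Probability of a leaf configuration, the root spin being uniform. -/
noncomputable def probQ (q : ℕ) (l : ℝ) (n : ℕ) (T : Tr n) (c : CfgQ q n T) : ℝ :=
  ∑ i, (1 / (q : ℝ)) * likQ q l n T c i

/-- Expected total variation distance between the root posterior and the uniform law. -/
noncomputable def tvQ (q : ℕ) (l : ℝ) (n : ℕ) (T : Tr n) : ℝ :=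
  ∑ c, probQ q l n T c * ((1 / 2 : ℝ) *
    ∑ i, |(1 / (q : ℝ)) * likQ q l n T c i / probQ q l n T c - 1 / (q : ℝ)|)

/-- The averaged total variation distance on the Galton-Watson tree. -/
noncomputable def gwTVQ (q : ℕ) (p : ℕ → ℝ≥0∞) (l : ℝ) (n : ℕ) : ℝ≥0∞ :=
  ∑' T : Tr n, treeWeight p n T * ENNReal.ofReal (tvQ q l n T)

/-- The number of leaves at height `n`. -/
def leaves : (n : ℕ) → Tr n → ℕ
  | 0, _ => 1
  | n + 1, T => ∑ j, leaves n (T.2 j)

/-- A bound for the second moment of the census. -/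
noncomputable def spread (l : ℝ) : (n : ℕ) → Tr n → ℝ
  | 0, _ => 1
  | n + 1, T => ∑ j, spread l n (T.2 j) + (l ^ 2) ^ (n + 1) * (leaves (n + 1) T : ℝ) ^ 2

section fixed

variable (q : ℕ) [NeZero q]

/-- The centred indicator of the first spin. -/
noncomputable def ind (i : Fin q) : ℝ := (if i = 0 then 1 else 0) - 1 / (q : ℝ)

/-- The census of the first spin among the leaves. -/
noncomputable def census : (n : ℕ) → (T : Tr n) → CfgQ q n T → ℝ
  | 0, _, c => ind q c
  | n + 1, T, c => ∑ j, census n (T.2 j) (c j)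

lemma cast_q_pos : (0 : ℝ) < (q : ℝ) := Nat.cast_pos.2 (Nat.pos_of_ne_zero (NeZero.ne q))

lemma sum_ind : ∑ i, ind q i = 0 := by
  have := (cast_q_pos q).ne'
  simp [ind, Finset.sum_sub_distrib]

lemma sum_ind_sq : ∑ i, ind q i ^ 2 = 1 - 1 / (q : ℝ) := by
  have hq := (cast_q_pos q).ne'
  have e : ∀ i : Fin q, ind q i ^ 2
      = (if i = 0 then 1 - 2 / (q : ℝ) else 0) + 1 / (q : ℝ) ^ 2 := fun i => by
    simp only [ind]; split_ifs <;> ring
  rw [Finset.sum_congr rfl fun i _ => e i, Finset.sum_add_distrib, Finset.sum_ite_eq',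
    if_pos (Finset.mem_univ _), Finset.sum_const, Finset.card_univ, Fintype.card_fin,
    nsmul_eq_mul]
  field_simp
  ring

lemma ind_sq_le (i : Fin q) : ind q i ^ 2 ≤ 1 := by
  have h1 : 1 / (q : ℝ) ≤ 1 := by
    rw [div_le_one (cast_q_pos q)]; exact_mod_cast Nat.one_le_iff_ne_zero.2 (NeZero.ne q)
  have h0 : 0 ≤ 1 / (q : ℝ) := by positivity
  simp only [ind]; split_ifs <;> nlinarith

omit [NeZero q] in
lemma sum_pi_one {k : ℕ} {ι : Fin k → Type} [∀ j, Fintype (ι j)] (g f : ∀ j, ι j → ℝ)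
    (hg : ∀ j, ∑ x, g j x = 1) (j₀ : Fin k) :
    ∑ c : ∀ j, ι j, (∏ j, g j (c j)) * f j₀ (c j₀) = ∑ x, g j₀ x * f j₀ x := by
  classical
  have e : ∀ c : ∀ j, ι j, (∏ j, g j (c j)) * f j₀ (c j₀)
      = ∏ j, g j (c j) * (if j = j₀ then f j (c j) else 1) := fun c => by
    rw [Finset.prod_mul_distrib, Finset.prod_ite_eq' Finset.univ j₀ fun j => f j (c j)]; simp
  rw [Finset.sum_congr rfl fun c _ => e c,
    ← Fintype.prod_sum fun j x => g j x * (if j = j₀ then f j x else 1),
    Finset.prod_eq_single j₀]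
  · simp
  · intro j _ hj; simp [hj, hg]
  · simp

omit [NeZero q] in
lemma sum_pi_two {k : ℕ} {ι : Fin k → Type} [∀ j, Fintype (ι j)] (g f : ∀ j, ι j → ℝ)
    (hg : ∀ j, ∑ x, g j x = 1) {a b : Fin k} (h : a ≠ b) :
    ∑ c : ∀ j, ι j, (∏ j, g j (c j)) * (f a (c a) * f b (c b))
      = (∑ x, g a x * f a x) * ∑ x, g b x * f b x := by
  classical
  have e : ∀ c : ∀ j, ι j, (∏ j, g j (c j)) * (f a (c a) * f b (c b))
      = ∏ j, g j (c j) * ((if j = a then f j (c j) else 1) * if j = b then f j (c j) else 1) :=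
      fun c => by
    rw [Finset.prod_mul_distrib, Finset.prod_mul_distrib,
      Finset.prod_ite_eq' Finset.univ a fun j => f j (c j),
      Finset.prod_ite_eq' Finset.univ b fun j => f j (c j)]
    simp
  rw [Finset.sum_congr rfl fun c _ => e c,
    ← Fintype.prod_sum fun j x =>
      g j x * ((if j = a then f j x else 1) * if j = b then f j x else 1),
    Finset.prod_eq_mul a b h]
  · simp [h, h.symm]
  · intro j _ hj; simp [hj.1, hj.2, hg]
  · simp
  · simp

variable {q} {l : ℝ}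

omit [NeZero q] in
lemma chanQ_nonneg (hq : 2 ≤ q) (hl : -(1 / ((q : ℝ) - 1)) ≤ l) (hu : l ≤ 1) (i j : Fin q) :
    0 ≤ chanQ q l i j := by
  have h2 : (2 : ℝ) ≤ q := by exact_mod_cast hq
  have h := mul_le_mul_of_nonneg_right hl (by linarith : (0 : ℝ) ≤ (q : ℝ) - 1)
  rw [neg_mul, one_div_mul_cancel (by linarith : (q : ℝ) - 1 ≠ 0)] at h
  unfold chanQ
  split_ifs
  · have : l + (1 - l) / (q : ℝ) = (1 + l * ((q : ℝ) - 1)) / q := by field_simp; ring
    rw [this]
    exact div_nonneg (by linarith) (by linarith)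
  · rw [zero_add]; exact div_nonneg (by linarith) (by linarith)

omit [NeZero q] in
lemma sum_chanQ_mul (i : Fin q) (g : Fin q → ℝ) :
    ∑ s, chanQ q l i s * g s = l * g i + (1 - l) / (q : ℝ) * ∑ s, g s := by
  simp [chanQ, add_mul, Finset.sum_add_distrib, ite_mul, Finset.mul_sum]

lemma sum_chanQ (i : Fin q) : ∑ s, chanQ q l i s = 1 := by
  have := sum_chanQ_mul (l := l) i (fun _ => 1)
  simp only [mul_one] at this
  rw [this, Finset.sum_const, Finset.card_univ, Fintype.card_fin, nsmul_eq_mul, mul_one,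
    div_mul_cancel₀ _ (cast_q_pos q).ne']
  ring

omit [NeZero q] in
lemma likQ_nonneg (hq : 2 ≤ q) (hl : -(1 / ((q : ℝ) - 1)) ≤ l) (hu : l ≤ 1) :
    ∀ (n : ℕ) (T : Tr n) (c : CfgQ q n T) (i : Fin q), 0 ≤ likQ q l n T c i
  | 0, _, _, _ => by simp only [likQ]; split_ifs <;> norm_num
  | n + 1, T, c, i => Finset.prod_nonneg fun j _ => Finset.sum_nonneg fun s _ =>
      mul_nonneg (chanQ_nonneg hq hl hu i s) (likQ_nonneg hq hl hu n (T.2 j) (c j) s)

lemma sum_likQ : ∀ (n : ℕ) (T : Tr n) (i : Fin q), ∑ c, likQ q l n T c i = 1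
  | 0, _, i => by
    show ∑ c : Fin q, (if i = c then (1 : ℝ) else 0) = 1
    simp
  | n + 1, T, i => by
    show ∑ c : (j : Fin T.1) → CfgQ q n (T.2 j),
      ∏ j, ∑ s, chanQ q l i s * likQ q l n (T.2 j) (c j) s = 1
    rw [← Fintype.prod_sum fun j x => ∑ s, chanQ q l i s * likQ q l n (T.2 j) x s]
    refine Finset.prod_eq_one fun j _ => ?_
    rw [Finset.sum_comm]
    simp [← Finset.mul_sum, sum_likQ n (T.2 j), sum_chanQ]

lemma sum_child (n : ℕ) (T : Tr n) (i : Fin q) :
    ∑ x, ∑ s, chanQ q l i s * likQ q l n T x s = 1 := by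
  rw [Finset.sum_comm]
  simp [← Finset.mul_sum, sum_likQ n T, sum_chanQ]

omit [NeZero q] in
lemma sum_child_mul (n : ℕ) (T : Tr n) (i : Fin q) (f : CfgQ q n T → ℝ) :
    ∑ x, (∑ s, chanQ q l i s * likQ q l n T x s) * f x
      = ∑ s, chanQ q l i s * ∑ x, likQ q l n T x s * f x := by
  simp only [Finset.sum_mul, Finset.mul_sum, mul_assoc]
  exact Finset.sum_comm

/-- The conditional mean of the census. -/
lemma census_mean : ∀ (n : ℕ) (T : Tr n) (i : Fin q),
    ∑ c, likQ q l n T c i * census q n T c = l ^ n * (leaves n T : ℝ) * ind q i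
  | 0, _, i => by
    show ∑ c : Fin q, (if i = c then (1 : ℝ) else 0) * ind q c = _
    simp [leaves]
  | n + 1, T, i => by
    show ∑ c : (j : Fin T.1) → CfgQ q n (T.2 j),
      (∏ j, ∑ s, chanQ q l i s * likQ q l n (T.2 j) (c j) s) *
        ∑ j, census q n (T.2 j) (c j) = _
    have hone : ∀ j, ∑ x, (∑ s, chanQ q l i s * likQ q l n (T.2 j) x s) * census q n (T.2 j) x
        = l ^ (n + 1) * (leaves n (T.2 j) : ℝ) * ind q i := fun j => by
      rw [sum_child_mul, Finset.sum_congr rfl fun s _ => by rw [census_mean n (T.2 j) s],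
        sum_chanQ_mul, ← Finset.mul_sum, sum_ind]
      ring
    simp only [Finset.mul_sum]
    rw [Finset.sum_comm, Finset.sum_congr rfl fun j _ =>
      sum_pi_one (fun j x => ∑ s, chanQ q l i s * likQ q l n (T.2 j) x s)
        (fun j x => census q n (T.2 j) x) (fun j => sum_child n _ i) j]
    rw [Finset.sum_congr rfl fun j _ => hone j, ← Finset.sum_mul, ← Finset.mul_sum]
    simp [leaves]

/-- The conditional second moment of the census. -/
lemma census_sq_le (hq : 2 ≤ q) (hl : -(1 / ((q : ℝ) - 1)) ≤ l) (hu : l ≤ 1) :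
    ∀ (n : ℕ) (T : Tr n) (i : Fin q),
    ∑ c, likQ q l n T c i * census q n T c ^ 2 ≤ spread l n T
  | 0, _, i => by
    show ∑ c : Fin q, (if i = c then (1 : ℝ) else 0) * ind q c ^ 2 ≤ 1
    simpa using ind_sq_le q i
  | n + 1, T, i => by
    classical
    let g : ∀ j : Fin T.1, CfgQ q n (T.2 j) → ℝ :=
      fun j x => ∑ s, chanQ q l i s * likQ q l n (T.2 j) x s
    let f : ∀ j : Fin T.1, CfgQ q n (T.2 j) → ℝ := fun j x => census q n (T.2 j) x
    let m : Fin T.1 → ℝ := fun j => ∑ x, g j x * f j x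
    show ∑ c : (j : Fin T.1) → CfgQ q n (T.2 j), (∏ j, g j (c j)) * (∑ j, f j (c j)) ^ 2
      ≤ ∑ j, spread l n (T.2 j) + (l ^ 2) ^ (n + 1) * (leaves (n + 1) T : ℝ) ^ 2
    have hg : ∀ j, ∑ x, g j x = 1 := fun j => sum_child n _ i
    have hm : ∑ j, m j = l ^ (n + 1) * (leaves (n + 1) T : ℝ) * ind q i := by
      have h := census_mean (l := l) (n + 1) T i
      rw [← h]
      show _ = ∑ c : (j : Fin T.1) → CfgQ q n (T.2 j), (∏ j, g j (c j)) * ∑ j, f j (c j)
      simp only [Finset.mul_sum]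
      rw [Finset.sum_comm]
      exact Finset.sum_congr rfl fun j _ => (sum_pi_one g f hg j).symm
    have hsq : ∀ a b, ∑ c : (j : Fin T.1) → CfgQ q n (T.2 j),
        (∏ j, g j (c j)) * (f a (c a) * f b (c b))
        = m a * m b + if a = b then (∑ x, g a x * f a x ^ 2) - m a ^ 2 else 0 := fun a b => by
      by_cases h : a = b
      · subst h
        rw [if_pos rfl, sum_pi_one g (fun j x => f j x * f j x) hg a]
        simp only [m, ← pow_two]
        ring
      · rw [if_neg h, add_zero, sum_pi_two g f hg h]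
    have hB : ∀ a, (∑ x, g a x * f a x ^ 2) ≤ spread l n (T.2 a) := fun a => by
      simp only [g, f]
      rw [sum_child_mul]
      calc _ ≤ ∑ s, chanQ q l i s * spread l n (T.2 a) := Finset.sum_le_sum fun s _ =>
            mul_le_mul_of_nonneg_left (census_sq_le hq hl hu n _ s) (chanQ_nonneg hq hl hu i s)
        _ = _ := by rw [← Finset.sum_mul, sum_chanQ, one_mul]
    calc ∑ c : (j : Fin T.1) → CfgQ q n (T.2 j), (∏ j, g j (c j)) * (∑ j, f j (c j)) ^ 2
        = ∑ a, ∑ b, ∑ c : (j : Fin T.1) → CfgQ q n (T.2 j),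
            (∏ j, g j (c j)) * (f a (c a) * f b (c b)) := by
          simp only [pow_two, Finset.sum_mul_sum]
          simp only [Finset.mul_sum]
          rw [Finset.sum_comm]
          exact Finset.sum_congr rfl fun a _ => Finset.sum_comm
      _ = (∑ a, m a) ^ 2 + ∑ a, ((∑ x, g a x * f a x ^ 2) - m a ^ 2) := by
          simp only [hsq, Finset.sum_add_distrib, Finset.sum_ite_eq, Finset.mem_univ, if_true,
            pow_two, Finset.sum_mul_sum]
      _ ≤ (∑ a, m a) ^ 2 + ∑ a, spread l n (T.2 a) := by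
          gcongr with a
          linarith [hB a, sq_nonneg (m a)]
      _ ≤ _ := by
          have h1 : (∑ a, m a) ^ 2 ≤ (l ^ 2) ^ (n + 1) * (leaves (n + 1) T : ℝ) ^ 2 := by
            rw [hm, mul_pow, mul_pow, ← pow_mul, ← pow_mul, mul_comm (n + 1) 2]
            exact mul_le_of_le_one_right
              (mul_nonneg (by rw [pow_mul]; positivity) (sq_nonneg _)) (ind_sq_le q i)
          linarith

omit [NeZero q] in
lemma probQ_nonneg (hq : 2 ≤ q) (hl : -(1 / ((q : ℝ) - 1)) ≤ l) (hu : l ≤ 1) (n : ℕ) (T : Tr n)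
    (c : CfgQ q n T) : 0 ≤ probQ q l n T c :=
  Finset.sum_nonneg fun i _ => mul_nonneg (by positivity) (likQ_nonneg hq hl hu n T c i)

omit [NeZero q] in
lemma tvQ_nonneg (hq : 2 ≤ q) (hl : -(1 / ((q : ℝ) - 1)) ≤ l) (hu : l ≤ 1) (n : ℕ) (T : Tr n) :
    0 ≤ tvQ q l n T :=
  Finset.sum_nonneg fun c _ => mul_nonneg (probQ_nonneg hq hl hu n T c) (by positivity)

/-- The census test against the root: a bound for every multiplier `t`. -/
lemma census_test (hq : 2 ≤ q) (hl : -(1 / ((q : ℝ) - 1)) ≤ l) (hu : l ≤ 1) (n : ℕ) (T : Tr n)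
    (t : ℝ) : t * (1 - 1 / (q : ℝ)) * (l ^ n * (leaves n T : ℝ))
      ≤ (q : ℝ) * tvQ q l n T + t ^ 2 * (q : ℝ) / 2 * spread l n T := by
  have hq0 := cast_q_pos q
  let x : CfgQ q n T → ℝ := fun c => likQ q l n T c 0 - probQ q l n T c
  have hL : (1 - 1 / (q : ℝ)) * (l ^ n * (leaves n T : ℝ)) = ∑ c, census q n T c * x c := by
    calc (1 - 1 / (q : ℝ)) * (l ^ n * (leaves n T : ℝ))
        = ∑ i, ind q i * (l ^ n * (leaves n T : ℝ) * ind q i) := by
          rw [← sum_ind_sq q, Finset.sum_mul]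
          exact Finset.sum_congr rfl fun i _ => by ring
      _ = ∑ c, census q n T c * ∑ i, ind q i * likQ q l n T c i := by
          simp only [← census_mean (l := l) n T, Finset.mul_sum]
          rw [Finset.sum_comm]
          exact Finset.sum_congr rfl fun c _ => Finset.sum_congr rfl fun i _ => by ring
      _ = _ := by
          refine Finset.sum_congr rfl fun c _ => ?_
          congr 1
          simp [x, ind, probQ, sub_mul, Finset.sum_sub_distrib, ite_mul]
  have hw : ∑ c, probQ q l n T c * census q n T c ^ 2 ≤ spread l n T := by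
    simp only [probQ, Finset.sum_mul, mul_assoc]
    rw [Finset.sum_comm]
    calc _ ≤ ∑ _i : Fin q, (1 / (q : ℝ)) * spread l n T := Finset.sum_le_sum fun i _ => by
          rw [← Finset.mul_sum]
          exact mul_le_mul_of_nonneg_left (census_sq_le hq hl hu n T i) (by positivity)
      _ = spread l n T := by
          rw [Finset.sum_const, Finset.card_univ, Fintype.card_fin, nsmul_eq_mul]
          field_simp
  have hpt : ∀ c, t * (census q n T c * x c) ≤ (q : ℝ) * (probQ q l n T c * ((1 / 2 : ℝ) *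
      ∑ i, |(1 / (q : ℝ)) * likQ q l n T c i / probQ q l n T c - 1 / (q : ℝ)|))
      + t ^ 2 * (q : ℝ) / 2 * (probQ q l n T c * census q n T c ^ 2) := fun c => by
    have hp := probQ_nonneg hq hl hu n T c
    have h0 := likQ_nonneg hq hl hu n T c
    have hsum : (q : ℝ) * probQ q l n T c = ∑ i, likQ q l n T c i := by
      simp only [probQ, ← Finset.mul_sum]; field_simp
    have hle : likQ q l n T c 0 ≤ (q : ℝ) * probQ q l n T c :=
      hsum ▸ Finset.single_le_sum (fun i _ => h0 i) (Finset.mem_univ 0)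
    have hq1 : (1 : ℝ) ≤ q := by exact_mod_cast le_trans one_le_two hq
    have hxq : |x c| ≤ (q : ℝ) * probQ q l n T c := abs_le.2
      ⟨by simp only [x]; nlinarith [h0 0], by simp only [x]; linarith⟩
    have hA : |x c| ≤ ∑ i, |likQ q l n T c i - probQ q l n T c| :=
      Finset.single_le_sum (f := fun i => |likQ q l n T c i - probQ q l n T c|)
        (fun i _ => abs_nonneg _) (Finset.mem_univ 0)
    have hr : (q : ℝ) * (probQ q l n T c * ((1 / 2 : ℝ) * ∑ i,
        |(1 / (q : ℝ)) * likQ q l n T c i / probQ q l n T c - 1 / (q : ℝ)|)) ≥ |x c| / 2 := by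
      rcases hp.eq_or_lt' with hz | hpos
      · rw [hz] at hxq
        simp only [hz, zero_mul, mul_zero, ge_iff_le] at hxq ⊢
        linarith
      · have e : ∀ i, |likQ q l n T c i - probQ q l n T c| = (q : ℝ) * probQ q l n T c *
            |(1 / (q : ℝ)) * likQ q l n T c i / probQ q l n T c - 1 / (q : ℝ)| := fun i => by
          rw [← abs_of_pos (mul_pos hq0 hpos), ← abs_mul]
          congr 1
          field_simp
        simp only [e, ← Finset.mul_sum] at hA
        linarith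
    have h1 : t * (census q n T c * x c) ≤ |x c| / 2 + (t * census q n T c) ^ 2 * |x c| / 2 := by
      rcases abs_cases (x c) with ⟨ha, hb⟩ | ⟨ha, hb⟩ <;> rw [ha]
      · nlinarith [mul_nonneg hb (sq_nonneg (1 - t * census q n T c))]
      · nlinarith [mul_nonneg (neg_pos.2 hb).le (sq_nonneg (1 + t * census q n T c))]
    have h2 := mul_le_mul_of_nonneg_left hxq (sq_nonneg (t * census q n T c))
    calc t * (census q n T c * x c) ≤ |x c| / 2 + (t * census q n T c) ^ 2 * |x c| / 2 := h1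
      _ ≤ _ + (t * census q n T c) ^ 2 * ((q : ℝ) * probQ q l n T c) / 2 :=
          add_le_add hr.le (by linarith)
      _ = _ := by ring
  rw [mul_assoc, hL, Finset.mul_sum]
  refine (Finset.sum_le_sum fun c _ => hpt c).trans ?_
  rw [Finset.sum_add_distrib, ← Finset.mul_sum, ← Finset.mul_sum]
  exact add_le_add le_rfl (mul_le_mul_of_nonneg_left hw (by positivity))

end fixed

lemma leaves_regular (d : ℕ) : ∀ n, leaves n (regular d n) = d ^ n
  | 0 => by simp [leaves]
  | n + 1 => by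
    show ∑ _j : Fin d, leaves n (regular d n) = d ^ (n + 1)
    simp [leaves_regular d n, pow_succ']

lemma spread_regular {d : ℕ} {l : ℝ} (h : 1 < (d : ℝ) * l ^ 2) : ∀ n,
    spread l n (regular d n)
      ≤ (d : ℝ) * l ^ 2 / ((d : ℝ) * l ^ 2 - 1) * (((d : ℝ) * l) ^ 2) ^ n
  | 0 => by
    show (1 : ℝ) ≤ _
    rw [pow_zero, mul_one, le_div_iff₀ (by linarith)]
    linarith
  | n + 1 => by
    show ∑ _j : Fin d, spread l n (regular d n) +
      (l ^ 2) ^ (n + 1) * (leaves (n + 1) (regular d (n + 1)) : ℝ) ^ 2 ≤ _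
    rw [leaves_regular, Finset.sum_const, Finset.card_univ, Fintype.card_fin, nsmul_eq_mul]
    refine (add_le_add (mul_le_mul_of_nonneg_left (spread_regular h n) (Nat.cast_nonneg d))
      le_rfl).trans (le_of_eq ?_)
    have hne : (d : ℝ) * l ^ 2 - 1 ≠ 0 := by linarith
    push_cast
    rw [show (l ^ 2) ^ (n + 1) * ((d : ℝ) ^ (n + 1)) ^ 2
      = (((d : ℝ) * l) ^ 2) ^ n * ((d : ℝ) * l) ^ 2 by ring, pow_succ]
    field_simp
    ring

/-- Reconstruction above the Kesten-Stigum threshold on the regular tree. -/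
theorem tvQ_regular_ge {q d : ℕ} {l : ℝ} (hq : 2 ≤ q) (hl : -(1 / ((q : ℝ) - 1)) ≤ l)
    (hu : l ≤ 1) (h : 1 < (d : ℝ) * l ^ 2) :
    ∃ c : ℝ, 0 < c ∧ ∀ n, c ≤ tvQ q l n (regular d n) := by
  have : NeZero q := ⟨by omega⟩
  set C : ℝ := (d : ℝ) * l ^ 2 / ((d : ℝ) * l ^ 2 - 1) with hC
  have hC0 : 0 < C := div_pos (by linarith) (by linarith)
  have hqR : (2 : ℝ) ≤ q := by exact_mod_cast hq
  set a : ℝ := 1 - 1 / (q : ℝ) with ha
  have ha0 : 0 < a := by
    rw [ha, sub_pos, div_lt_one (by linarith)]; linarith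
  have hdl : (d : ℝ) * l ≠ 0 := fun e => by
    have : (d : ℝ) * l ^ 2 = 0 := by rw [pow_two, ← mul_assoc, e, zero_mul]
    linarith
  refine ⟨a ^ 2 / (2 * (q : ℝ) ^ 2 * C), by positivity, fun n => ?_⟩
  have hY : ((d : ℝ) * l) ^ n ≠ 0 := pow_ne_zero n hdl
  have h1 := census_test hq hl hu n (regular d n) (a / ((q : ℝ) * C * ((d : ℝ) * l) ^ n))
  have h2 := mul_le_mul_of_nonneg_left (spread_regular h n)
    (by positivity : 0 ≤ (a / ((q : ℝ) * C * ((d : ℝ) * l) ^ n)) ^ 2 * (q : ℝ) / 2)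
  rw [← hC] at h2
  rw [← ha, leaves_regular, Nat.cast_pow, ← mul_pow, mul_comm l] at h1
  have e1 : a / ((q : ℝ) * C * ((d : ℝ) * l) ^ n) * a * ((d : ℝ) * l) ^ n
      = a ^ 2 / ((q : ℝ) * C) := by field_simp
  have e2 : (a / ((q : ℝ) * C * ((d : ℝ) * l) ^ n)) ^ 2 * (q : ℝ) / 2 *
      (C * (((d : ℝ) * l) ^ 2) ^ n) = a ^ 2 / ((q : ℝ) * C) / 2 := by
    rw [pow_right_comm]; field_simp
  rw [e1] at h1
  rw [e2] at h2
  have e3 : (q : ℝ) * (a ^ 2 / (2 * (q : ℝ) ^ 2 * C)) = a ^ 2 / ((q : ℝ) * C) / 2 := by field_simp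
  exact le_of_mul_le_mul_left (by rw [e3]; linarith) (by linarith : (0 : ℝ) < q)

end Vale.Agent.P154.KS
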