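import Vale.Agent.P154.BinAvg

/-!
Further permutation averages of joining numerators, in the invariants of the two arguments.
-/

namespace Vale.Agent.P154.Kit

open Bin

/-- Invariant form of the cubic numerator, index 6. -/
noncomputable def iQ6 (S T S2 T2 : ℝ) : ℝ :=
  (8:ℝ) * (T^2 * T2^3)
    + (8:ℝ) * (T^2 * S2 * T2^2)
    + (-4:ℝ) * (T^2 * S2^3 * T2)
    + (-4:ℝ) * (T^2 * S2^4)
    + (8:ℝ) * (T^3 * T2^2)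
    + (16:ℝ) * (T^3 * S2 * T2^2)
    + (-4:ℝ) * (T^3 * S2^3)
    + (4:ℝ) * (T^3 * S2^3 * T2)
    + (-8:ℝ) * (T^3 * S2^4)
    + (8:ℝ) * (S * T^2 * T2^2)
    + (16:ℝ) * (S * T^2 * T2^3)
    + (120:ℝ) * (S * T^2 * S2 * T2^2)
    + (60:ℝ) * (S * T^2 * S2^2 * T2)
    + (-4:ℝ) * (S * T^2 * S2^3)
    + (52:ℝ) * (S * T^2 * S2^3 * T2)
    + (-60:ℝ) * (S * T^2 * S2^4)
    + (60:ℝ) * (S^2 * T * S2 * T2^2)
    + (42:ℝ) * (S^2 * T * S2^2 * T2)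
    + (105:ℝ) * (S^2 * T * S2^3 * T2)
    + (45:ℝ) * (S^2 * T * S2^4)
    + (-4:ℝ) * (S^3 * T2^3)
    + (-4:ℝ) * (S^3 * S2 * T2^2)
    + (22:ℝ) * (S^3 * S2^3 * T2)
    + (22:ℝ) * (S^3 * S2^4)
    + (-4:ℝ) * (S^3 * T * T2^2)
    + (4:ℝ) * (S^3 * T * T2^3)
    + (52:ℝ) * (S^3 * T * S2 * T2^2)
    + (105:ℝ) * (S^3 * T * S2^2 * T2)
    + (22:ℝ) * (S^3 * T * S2^3)
    + (56:ℝ) * (S^3 * T * S2^3 * T2)
    + (89:ℝ) * (S^3 * T * S2^4)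
    + (-4:ℝ) * (S^4 * T2^2)
    + (-8:ℝ) * (S^4 * T2^3)
    + (-60:ℝ) * (S^4 * S2 * T2^2)
    + (45:ℝ) * (S^4 * S2^2 * T2)
    + (22:ℝ) * (S^4 * S2^3)
    + (89:ℝ) * (S^4 * S2^3 * T2)
    + (240:ℝ) * (S^4 * S2^4)

theorem avg_Q6 (a b c d : ℝ) : avg6 (fun u v w => ((1 + zf a b u v w) * nS a b u v w + nT a b u v w) * zf a b u v w ^ 6) c d =
    iQ6 (iS a b) (iT a b) (iS c d) (iT c d) := by
  rw [avg6_Q]
  simp only [iQ6, OForm.avg, OForm.pw, OForm.mulw, OForm.mulp, OForm.mulR, OForm.mul, OForm.add, OForm.smul, OForm.joinS, OForm.joinT]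
  ring

/-- Invariant form of the squared numerator, index 0. -/
noncomputable def iF0 (S T S2 T2 : ℝ) : ℝ :=
  (1:ℝ) * (S2^2)
    + (4:ℝ) * (T * T2)
    + (4:ℝ) * (T * S2)
    + (4:ℝ) * (S * T2)
    + (4:ℝ) * (S * S2)
    + (4:ℝ) * (S * S2^2)
    + (1:ℝ) * (S^2)
    + (4:ℝ) * (S^2 * S2)
    + (1:ℝ) * (S^2 * S2^2)

theorem avg_F0 (a b c d : ℝ) : avg6 (fun u v w => nS a b u v w ^ 2 * zf a b u v w ^ 0) c d =
    iF0 (iS a b) (iT a b) (iS c d) (iT c d) := by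
  rw [avg6_F]
  simp only [iF0, OForm.avg, OForm.pw, OForm.mulw, OForm.mulp, OForm.mulR, OForm.mul, OForm.add, OForm.smul, OForm.joinS, OForm.joinT]
  ring

/-- Invariant form of the squared numerator, index 1. -/
noncomputable def iF1 (S T S2 T2 : ℝ) : ℝ :=
  (2:ℝ) * (T * T2)
    + (2:ℝ) * (T * S2 * T2)
    + (8:ℝ) * (T * S2^2)
    + (4:ℝ) * (S * S2 * T2)
    + (4:ℝ) * (S * S2^2)
    + (2:ℝ) * (S * T * T2)
    + (4:ℝ) * (S * T * S2)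
    + (4:ℝ) * (S * T * S2^2)
    + (8:ℝ) * (S^2 * T2)
    + (4:ℝ) * (S^2 * S2)
    + (4:ℝ) * (S^2 * S2 * T2)
    + (8:ℝ) * (S^2 * S2^2)

theorem avg_F1 (a b c d : ℝ) : avg6 (fun u v w => nS a b u v w ^ 2 * zf a b u v w ^ 1) c d =
    iF1 (iS a b) (iT a b) (iS c d) (iT c d) := by
  rw [avg6_F]
  simp only [iF1, OForm.avg, OForm.pw, OForm.mulw, OForm.mulp, OForm.mulR, OForm.mul, OForm.add, OForm.smul, OForm.joinS, OForm.joinT]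
  ring

/-- Invariant form of the squared numerator, index 2. -/
noncomputable def iF2 (S T S2 T2 : ℝ) : ℝ :=
  (4:ℝ) * (T * S2 * T2)
    + (4:ℝ) * (T * S2^3)
    + (4:ℝ) * (T^2 * S2^2)
    + (2:ℝ) * (S * S2^3)
    + (4:ℝ) * (S * T * T2)
    + (16:ℝ) * (S * T * S2 * T2)
    + (16:ℝ) * (S * T * S2^2)
    + (4:ℝ) * (S * T * S2^3)
    + (4:ℝ) * (S^2 * T2^2)
    + (16:ℝ) * (S^2 * S2 * T2)
    + (10:ℝ) * (S^2 * S2^2)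
    + (6:ℝ) * (S^2 * S2^3)
    + (4:ℝ) * (S^3 * T2)
    + (2:ℝ) * (S^3 * S2)
    + (4:ℝ) * (S^3 * S2 * T2)
    + (6:ℝ) * (S^3 * S2^2)
    + (2:ℝ) * (S^3 * S2^3)

theorem avg_F2 (a b c d : ℝ) : avg6 (fun u v w => nS a b u v w ^ 2 * zf a b u v w ^ 2) c d =
    iF2 (iS a b) (iT a b) (iS c d) (iT c d) := by
  rw [avg6_F]
  simp only [iF2, OForm.avg, OForm.pw, OForm.mulw, OForm.mulp, OForm.mulR, OForm.mul, OForm.add, OForm.smul, OForm.joinS, OForm.joinT]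
  ring

/-- Invariant form of the squared numerator, index 3. -/
noncomputable def iF3 (S T S2 T2 : ℝ) : ℝ :=
  (2:ℝ) * (T * S2^2 * T2)
    + (8:ℝ) * (T^2 * S2 * T2)
    + (8:ℝ) * (T^2 * S2^3)
    + (8:ℝ) * (S * T * T2^2)
    + (14:ℝ) * (S * T * S2 * T2)
    + (14:ℝ) * (S * T * S2^2 * T2)
    + (24:ℝ) * (S * T * S2^3)
    + (12:ℝ) * (S^2 * S2^2 * T2)
    + (12:ℝ) * (S^2 * S2^3)
    + (2:ℝ) * (S^2 * T * T2)
    + (14:ℝ) * (S^2 * T * S2 * T2)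
    + (12:ℝ) * (S^2 * T * S2^2)
    + (2:ℝ) * (S^2 * T * S2^2 * T2)
    + (12:ℝ) * (S^2 * T * S2^3)
    + (8:ℝ) * (S^3 * T2^2)
    + (24:ℝ) * (S^3 * S2 * T2)
    + (12:ℝ) * (S^3 * S2^2)
    + (12:ℝ) * (S^3 * S2^2 * T2)
    + (16:ℝ) * (S^3 * S2^3)

theorem avg_F3 (a b c d : ℝ) : avg6 (fun u v w => nS a b u v w ^ 2 * zf a b u v w ^ 3) c d =
    iF3 (iS a b) (iT a b) (iS c d) (iT c d) := by
  rw [avg6_F]
  simp only [iF3, OForm.avg, OForm.pw, OForm.mulw, OForm.mulp, OForm.mulR, OForm.mul, OForm.add, OForm.smul, OForm.joinS, OForm.joinT]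
  ring

/-- Invariant form of the squared numerator, index 4. -/
noncomputable def iF4 (S T S2 T2 : ℝ) : ℝ :=
  (8:ℝ) * (T^2 * T2^2)
    + (16:ℝ) * (T^2 * S2^2 * T2)
    + (-4:ℝ) * (T^2 * S2^3)
    + (4:ℝ) * (T^2 * S2^4)
    + (8:ℝ) * (S * T * S2 * T2^2)
    + (20:ℝ) * (S * T * S2^2 * T2)
    + (12:ℝ) * (S * T * S2^4)
    + (8:ℝ) * (S * T^2 * S2 * T2)
    + (8:ℝ) * (S * T^2 * S2^2 * T2)
    + (16:ℝ) * (S * T^2 * S2^3)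
    + (6:ℝ) * (S^2 * S2^4)
    + (16:ℝ) * (S^2 * T * T2^2)
    + (20:ℝ) * (S^2 * T * S2 * T2)
    + (8:ℝ) * (S^2 * T * S2 * T2^2)
    + (64:ℝ) * (S^2 * T * S2^2 * T2)
    + (48:ℝ) * (S^2 * T * S2^3)
    + (12:ℝ) * (S^2 * T * S2^4)
    + (-4:ℝ) * (S^3 * T2^2)
    + (16:ℝ) * (S^3 * S2 * T2^2)
    + (48:ℝ) * (S^3 * S2^2 * T2)
    + (34:ℝ) * (S^3 * S2^3)
    + (14:ℝ) * (S^3 * S2^4)
    + (4:ℝ) * (S^4 * T2^2)
    + (12:ℝ) * (S^4 * S2 * T2)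
    + (6:ℝ) * (S^4 * S2^2)
    + (12:ℝ) * (S^4 * S2^2 * T2)
    + (14:ℝ) * (S^4 * S2^3)
    + (6:ℝ) * (S^4 * S2^4)

theorem avg_F4 (a b c d : ℝ) : avg6 (fun u v w => nS a b u v w ^ 2 * zf a b u v w ^ 4) c d =
    iF4 (iS a b) (iT a b) (iS c d) (iT c d) := by
  rw [avg6_F]
  simp only [iF4, OForm.avg, OForm.pw, OForm.mulw, OForm.mulp, OForm.mulR, OForm.mul, OForm.add, OForm.smul, OForm.joinS, OForm.joinT]
  ring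

end Vale.Agent.P154.Kit
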