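import Vale.Agent.P154.BinMain
import Vale.Agent.P154.KitAvg

/-!
Potentials `c·KL + (1 - c)·sq + r·sq² + (c/3)·cub`, and the inequality for joining one more child
reduced to polynomial inequalities in the invariants.
-/

open scoped BigOperators
open Real Set

namespace Vale.Agent.P154.Kit

open Bin

/-- Evaluation of a coefficient list. -/
def pv : List ℝ → ℝ → ℝ
  | [], _ => 0
  | a :: p, x => a + x * pv p x

/-- Sum of coefficient lists. -/
def padd : List ℝ → List ℝ → List ℝ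
  | [], b => b
  | a, [] => a
  | x :: a, y :: b => (x + y) :: padd a b

/-- The derivative of a coefficient list. -/
def pd : List ℝ → List ℝ
  | [] => []
  | _ :: p => padd p (0 :: pd p)

lemma pv_padd : ∀ (a b : List ℝ) (x : ℝ), pv (padd a b) x = pv a x + pv b x
  | [], b, x => by simp [padd, pv]
  | _ :: _, [], x => by simp [padd, pv]
  | u :: a, v :: b, x => by simp only [padd, pv, pv_padd a b x]; ring

lemma hasDerivAt_pv : ∀ (p : List ℝ) (x : ℝ), HasDerivAt (pv p) (pv (pd p) x) x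
  | [], x => by simpa [pv, pd] using hasDerivAt_const x (0 : ℝ)
  | a :: p, x => by
    have h := ((hasDerivAt_id x).mul (hasDerivAt_pv p x)).const_add a
    refine (h.congr_of_eventuallyEq (Filter.Eventually.of_forall fun y => ?_)).congr_deriv ?_
    · simp [pv]
    · simp only [pd, pv_padd, pv, id]; ring

/-- `(1 + u) log (1 + u) - u`. -/
noncomputable def glog (u : ℝ) : ℝ := (1 + u) * log (1 + u) - u

lemma continuous_glog (l : ℝ) : Continuous fun u => glog (l * u) := by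
  have e := Real.continuous_mul_log
  unfold glog
  exact (e.comp (by fun_prop : Continuous fun u : ℝ => 1 + l * u)).sub (by fun_prop)

/-- A polynomial lies below a combination of two `glog`s if this holds for second derivatives. -/
theorem pv_le_glog {P : List ℝ} {α β l lo hi : ℝ} (hlo : -1 ≤ lo) (hlo0 : lo < 0) (hhi : 0 < hi)
    (hl : ∀ u ∈ Ioo lo hi, 0 < 1 + l * u) (h0 : pv P 0 = 0) (h1 : pv (pd P) 0 = 0)
    (h2 : ∀ u ∈ Ioo lo hi, 0 ≤ α / (1 + u) - β * l ^ 2 / (1 + l * u) - pv (pd (pd P)) u) :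
    ∀ u ∈ Icc lo hi, pv P u ≤ α * glog u - β * glog (l * u) := by
  set f := fun u => α * glog u - β * glog (l * u) - pv P u with hf
  set f1 := fun u => α * log (1 + u) - β * (l * log (1 + l * u)) - pv (pd P) u with hf1
  have hd : ∀ u ∈ Ioo lo hi, HasDerivAt f (f1 u) u := fun u hu => by
    have hu0 : 0 < 1 + u := by linarith [hu.1]
    have a := ((Real.hasDerivAt_mul_log hu0.ne').comp u ((hasDerivAt_id u).const_add 1)).sub
      (hasDerivAt_id u)
    have b := ((Real.hasDerivAt_mul_log (hl u hu).ne').comp u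
      (((hasDerivAt_id u).const_mul l).const_add 1)).sub ((hasDerivAt_id u).const_mul l)
    refine (((a.const_mul α).sub (b.const_mul β)).sub (hasDerivAt_pv P u)).congr_of_eventuallyEq
      (Filter.Eventually.of_forall fun y => ?_) |>.congr_deriv ?_
    · simp [hf, glog, Function.comp_def]
    · simp only [hf1]; ring
  have hd1 : ∀ u ∈ Ioo lo hi,
      HasDerivAt f1 (α / (1 + u) - β * l ^ 2 / (1 + l * u) - pv (pd (pd P)) u) u := fun u hu => by
    have a := ((hasDerivAt_id u).const_add 1).log (by simp; linarith [hu.1])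
    have b := (((hasDerivAt_id u).const_mul l).const_add 1).log (by simpa using (hl u hu).ne')
    refine (((a.const_mul α).sub ((b.const_mul l).const_mul β)).sub
      (hasDerivAt_pv (pd P) u)).congr_of_eventuallyEq
      (Filter.Eventually.of_forall fun y => ?_) |>.congr_deriv ?_
    · simp [hf1]
    · simp; ring
  have m : MonotoneOn f1 (Ioo lo hi) := monotoneOn_of_hasDerivWithinAt_nonneg (convex_Ioo _ _)
    (fun u hu => (hd1 u hu).continuousAt.continuousWithinAt)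
    (fun u hu => (hd1 u (interior_subset hu)).hasDerivWithinAt) fun u hu => h2 u (interior_subset hu)
  have z1 : f1 0 = 0 := by simp [hf1, h1]
  have z0 : f 0 = 0 := by simp [hf, glog, h0]
  have hc : Continuous f := by
    have e := continuous_glog 1
    simp only [one_mul] at e
    exact ((e.const_smul α).sub ((continuous_glog l).const_smul β)).sub
      (continuous_iff_continuousAt.2 fun u => (hasDerivAt_pv P u).continuousAt)
  intro u hu
  suffices 0 ≤ f u by simp only [hf] at this; linarith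
  rw [← z0]
  rcases le_total u 0 with h | h
  · refine antitoneOn_of_hasDerivWithinAt_nonpos (convex_Icc lo 0) hc.continuousOn (f' := f1)
      ?_ ?_ ⟨hu.1, h⟩ (right_mem_Icc.2 hlo0.le) h
    · intro x hx; rw [interior_Icc] at hx
      exact (hd x ⟨hx.1, hx.2.trans hhi⟩).hasDerivWithinAt
    · intro x hx; rw [interior_Icc] at hx
      exact z1 ▸ m ⟨hx.1, hx.2.trans hhi⟩ ⟨hlo0, hhi⟩ hx.2.le
  · refine monotoneOn_of_hasDerivWithinAt_nonneg (convex_Icc 0 hi) hc.continuousOn (f' := f1)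
      ?_ ?_ (left_mem_Icc.2 hhi.le) ⟨h, hu.2⟩ h
    · intro x hx; rw [interior_Icc] at hx
      exact (hd x ⟨hlo0.trans hx.1, hx.2⟩).hasDerivWithinAt
    · intro x hx; rw [interior_Icc] at hx
      exact z1 ▸ m ⟨hlo0, hhi⟩ ⟨hlo0.trans hx.1, hx.2⟩ hx.1.le

/-- The potential. -/
noncomputable def kpot (c r : ℝ) (a : Spin → ℝ) : ℝ :=
  c * ent a + (1 - c) * sq a + r * sq a ^ 2 + c / 3 * cub a

/-- The relative entropy as a sum of `glog`s. -/
lemma ent_eq {a : Spin → ℝ} (h : a 0 + a 1 + a 2 = 3) :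
    ent a = (glog (a 0 - 1) + glog (a 1 - 1) + glog (a 2 - 1)) / 3 := by
  simp only [ent, vlog, glog, add_sub_cancel]
  linarith

/-- The polynomial bound of one joined term. -/
noncomputable def kbound (c : ℝ) (e f g : List ℝ) (a b u v w : ℝ) : ℝ :=
  c * (-zf a b u v w - zf a b u v w ^ 2 / 2 + zf a b u v w ^ 3 / 6)
    + nS a b u v w * pv e (zf a b u v w)
    + ((1 + zf a b u v w) * nS a b u v w + nT a b u v w) * pv f (zf a b u v w)
    + nS a b u v w ^ 2 * pv g (zf a b u v w)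

/-- Conditions on the three lists of coefficients at one value of the excess weight. -/
def RecOK (c r : ℝ) (e f g : List ℝ) (z : ℝ) : Prop :=
  1 - 4 * c / 3 ≤ pv e z * (1 + z) ∧ c / 3 ≤ pv f z * (1 + z) ^ 2 ∧ r ≤ pv g z * (1 + z) ^ 3

/-- One joined term. -/
lemma kpot_term {c r : ℝ} {e f g : List ℝ} {a b : Spin → ℝ} (hc : 0 ≤ c)
    (ha : ∀ i, 0 ≤ a i) (hb : ∀ i, 0 < b i)
    (ha3 : a 0 + a 1 + a 2 = 3) (hb3 : b 0 + b 1 + b 2 = 3) (hZ0 : 0 < zw a b)
    (hrec : RecOK c r e f g (zw a b - 1)) :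
    zw a b * kpot c r (comb a b) ≤
      c * ((a 0 * b 0 * log (a 0) + a 1 * b 1 * log (a 1) + a 2 * b 2 * log (a 2)) / 3 +
        (a 0 * b 0 * log (b 0) + a 1 * b 1 * log (b 1) + a 2 * b 2 * log (b 2)) / 3) +
      kbound c e f g (a 0 - 1) (a 1 - 1) (b 0 - 1) (b 1 - 1) (b 2 - 1) := by
  obtain ⟨he, hf, hg⟩ := hrec
  set Z := zw a b with hZ
  have hZe : Z = (a 0 * b 0 + a 1 * b 1 + a 2 * b 2) / 3 := by
    rw [hZ, zw, Fin.sum_univ_three]
  set z := zf (a 0 - 1) (a 1 - 1) (b 0 - 1) (b 1 - 1) (b 2 - 1) with hz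
  have ea2 : a 2 = 3 - a 0 - a 1 := by linarith
  have eb2 : b 2 = 3 - b 0 - b 1 := by linarith
  have ez : Z = 1 + z := by rw [hZe, hz, zf, ea2, eb2]; ring
  rw [show Z - 1 = z by linarith] at he hf hg
  rw [← ez] at he hf hg
  have hl : ∀ i, a i * b i / Z * log (a i * b i / Z) * Z =
      a i * b i * log (a i) + a i * b i * log (b i) - a i * b i * log Z := fun i => by
    rcases eq_or_lt_of_le (ha i) with h | h
    · simp [← h]
    rw [log_div (mul_pos h (hb i)).ne' hZ0.ne', log_mul h.ne' (hb i).ne']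
    field_simp
  have hent : Z * ent (comb a b) =
      (a 0 * b 0 * log (a 0) + a 1 * b 1 * log (a 1) + a 2 * b 2 * log (a 2)) / 3 +
      (a 0 * b 0 * log (b 0) + a 1 * b 1 * log (b 1) + a 2 * b 2 * log (b 2)) / 3 - Z * log Z := by
    simp only [ent, vlog, comb, ← hZ]
    linear_combination (1 / 3 : ℝ) * hl 0 + (1 / 3 : ℝ) * hl 1 + (1 / 3 : ℝ) * hl 2
      + log Z * hZe
  have hzlog : -(Z * log Z) ≤ -z - z ^ 2 / 2 + z ^ 3 / 6 := by
    rw [ez]
    exact pot_term.zlog_bound (by linarith)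
  set N := nS (a 0 - 1) (a 1 - 1) (b 0 - 1) (b 1 - 1) (b 2 - 1) with hN
  set N3 := nT (a 0 - 1) (a 1 - 1) (b 0 - 1) (b 1 - 1) (b 2 - 1) with hN3
  have hsq : Z * sq (comb a b) = N / Z := by
    rw [hN, nS]
    simp only [← hz]
    rw [show z = Z - 1 by linarith]
    simp only [P154.sq, comb, ← hZ]
    rw [ea2, eb2]
    field_simp
    ring
  have hcu : Z * cub (comb a b) = N3 / Z ^ 2 := by
    rw [hN3, nT]
    simp only [← hz]
    rw [show z = Z - 1 by linarith]
    simp only [cub, comb, ← hZ]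
    rw [ea2, eb2]
    field_simp
    ring
  have hcomb : InS (comb a b) := by
    refine ⟨fun i => div_nonneg (mul_nonneg (ha i) (hb i).le) hZ0.le, ?_⟩
    simp only [comb, ← hZ]
    rw [← add_div, ← add_div, div_eq_iff hZ0.ne', hZe]
    ring
  obtain ⟨hs0, -, -, hsc, -⟩ := inS_facts hcomb
  have hN0 : 0 ≤ N := by rw [hN, nS]; positivity
  have hQ0 : 0 ≤ Z * N + N3 := by
    have e : Z * N + N3 = Z ^ 2 * (Z * (sq (comb a b) + cub (comb a b))) := by
      rw [mul_add Z, hsq, hcu]; field_simp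
    rw [e]
    exact mul_nonneg (sq_nonneg _) (mul_nonneg hZ0.le (by linarith [(abs_le.1 hsc).1]))
  have h1 : (1 - 4 * c / 3) * (N / Z) ≤ N * pv e z := by
    rw [mul_div_assoc', div_le_iff₀ hZ0]
    calc (1 - 4 * c / 3) * N ≤ pv e z * Z * N := mul_le_mul_of_nonneg_right he hN0
      _ = _ := by ring
  have h2 : c / 3 * ((Z * N + N3) / Z ^ 2) ≤ (Z * N + N3) * pv f z := by
    rw [mul_div_assoc', div_le_iff₀ (by positivity)]
    calc c / 3 * (Z * N + N3) ≤ pv f z * Z ^ 2 * (Z * N + N3) := mul_le_mul_of_nonneg_right hf hQ0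
      _ = _ := by ring
  have hsq2 : Z * sq (comb a b) ^ 2 = N ^ 2 / Z ^ 3 := by
    have : sq (comb a b) = N / Z ^ 2 := by
      rw [pow_two, ← div_div, ← hsq, mul_div_cancel_left₀ _ hZ0.ne']
    rw [this]; field_simp
  have h3 : r * (N ^ 2 / Z ^ 3) ≤ N ^ 2 * pv g z := by
    rw [mul_div_assoc', div_le_iff₀ (by positivity)]
    calc r * N ^ 2 ≤ pv g z * Z ^ 3 * N ^ 2 := mul_le_mul_of_nonneg_right hg (sq_nonneg N)
      _ = _ := by ring
  have hsplit : (Z * N + N3) / Z ^ 2 = N / Z + N3 / Z ^ 2 := by field_simp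
  rw [hsplit] at h2
  have hc' := mul_le_mul_of_nonneg_left hzlog hc
  simp only [kbound, ← hz, ← hN, ← hN3, ← ez]
  calc Z * kpot c r (comb a b)
      = c * (Z * ent (comb a b)) + (1 - c) * (Z * sq (comb a b)) + r * (Z * sq (comb a b) ^ 2)
          + c / 3 * (Z * cub (comb a b)) := by rw [kpot]; ring
    _ ≤ _ := by rw [hent, hsq, hcu, hsq2]; linarith

/-- The averaged bound, in the invariants. -/
noncomputable def kavg (c : ℝ) (e0 e1 e2 e3 e4 f0 f1 f2 f3 f4 f5 f6 g0 g1 g2 g3 g4 : ℝ)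
    (S T S2 T2 : ℝ) : ℝ :=
  c * (-(S * S2) + T * T2 / 3)
    + (e0 * iB0 S T S2 T2 + e1 * iB1 S T S2 T2 + e2 * iB2 S T S2 T2 + e3 * iB3 S T S2 T2
      + e4 * iB4 S T S2 T2)
    + (f0 * iQ0 S T S2 T2 + f1 * iQ1 S T S2 T2 + f2 * iQ2 S T S2 T2 + f3 * iQ3 S T S2 T2
      + f4 * iQ4 S T S2 T2 + f5 * iQ5 S T S2 T2 + f6 * iQ6 S T S2 T2)
    + (g0 * iF0 S T S2 T2 + g1 * iF1 S T S2 T2 + g2 * iF2 S T S2 T2 + g3 * iF3 S T S2 T2
      + g4 * iF4 S T S2 T2)

theorem avg_kbound (c e0 e1 e2 e3 e4 f0 f1 f2 f3 f4 f5 f6 g0 g1 g2 g3 g4 a b p q : ℝ) :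
    avg6 (kbound c [e0, e1, e2, e3, e4] [f0, f1, f2, f3, f4, f5, f6] [g0, g1, g2, g3, g4] a b) p q =
      kavg c e0 e1 e2 e3 e4 f0 f1 f2 f3 f4 f5 f6 g0 g1 g2 g3 g4
        (iS a b) (iT a b) (iS p q) (iT p q) := by
  simp only [kavg, ← avg_zlog, ← avg_B0, ← avg_B1, ← avg_B2, ← avg_B3, ← avg_B4, ← avg_Q0,
    ← avg_Q1, ← avg_Q2, ← avg_Q3, ← avg_Q4, ← avg_Q5, ← avg_Q6, ← avg_F0, ← avg_F1, ← avg_F2,
    ← avg_F3, ← avg_F4, avg6, kbound, pv]
  ring

/-- One more child, reduced to scalar inequalities. -/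
theorem kstep {l c r c' r' cd rd δ : ℝ} {e f g hA hB : List ℝ} {U : ℝ → ℝ → ℝ → ℝ → ℝ}
    (hl0 : 0 < l) (hl1 : l < 1) (hc' : 0 ≤ c')
    (havg : ∀ a b p q, avg6 (kbound c' e f g a b) p q = U (iS a b) (iT a b) (iS p q) (iT p q))
    {a y : Spin → ℝ} (ha : InS a) (hy : InS y)
    (hrec : ∀ b, InS b → RecOK c' r' e f g (zw a (img l b) - 1))
    (hhA : ∀ i, pv hA (a i - 1) ≤ (c - c') * glog (a i - 1))
    (hhB : ∀ i, c' * glog (l * (y i - 1)) - l ^ 2 * cd * glog (y i - 1) ≤ pv hB (y i - 1))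
    (hcert : U (sq a) (cub a) (l ^ 2 * sq y) (l ^ 3 * cub y)
        + (pv hB (y 0 - 1) + pv hB (y 1 - 1) + pv hB (y 2 - 1)) / 3
        - l ^ 2 * ((1 - cd) * sq y + rd * sq y ^ 2 + cd / 3 * cub y) + δ * sq a * sq y
      ≤ (pv hA (a 0 - 1) + pv hA (a 1 - 1) + pv hA (a 2 - 1)) / 3
        + (1 - c) * sq a + r * sq a ^ 2 + c / 3 * cub a) :
    (1 / 6 : ℝ) * ∑ σ : Equiv.Perm Spin, zw a (fun i => img l y (σ i)) *
        kpot c' r' (comb a (fun i => img l y (σ i)))
      ≤ kpot c r a + l ^ 2 * kpot cd rd y - δ * sq a * sq y := by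
  have hfun : ∀ σ : Equiv.Perm Spin, (fun i => img l y (σ i)) =
      ![img l y (σ 0), img l y (σ 1), img l y (σ 2)] := fun σ => by
    funext i; fin_cases i <;> rfl
  simp only [hfun]
  rw [sum_perm_spin (fun i j k => zw a ![img l y i, img l y j, img l y k] *
    kpot c' r' (comb a ![img l y i, img l y j, img l y k]))]
  have hbpos : ∀ {b : Spin → ℝ}, InS b → ∀ i, 0 < img l b i := fun {b} hb i => by
    simp only [img]; nlinarith [hb.1 i]
  have hbsum : ∀ {b : Spin → ℝ}, InS b → img l b 0 + img l b 1 + img l b 2 = 3 := fun {b} hb => by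
    simp only [img]; linear_combination l * hb.2
  have t : ∀ i j k : Spin, y i + y j + y k = 3 →
      zw a ![img l y i, img l y j, img l y k] * kpot c' r' (comb a ![img l y i, img l y j, img l y k])
      ≤ c' * ((a 0 * img l y i * log (a 0) + a 1 * img l y j * log (a 1)
            + a 2 * img l y k * log (a 2)) / 3
          + (a 0 * img l y i * log (img l y i) + a 1 * img l y j * log (img l y j)
            + a 2 * img l y k * log (img l y k)) / 3)
        + kbound c' e f g (a 0 - 1) (a 1 - 1) (img l y i - 1) (img l y j - 1) (img l y k - 1) := by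
    intro i j k h
    have e' : img l ![y i, y j, y k] = ![img l y i, img l y j, img l y k] := by
      funext t; fin_cases t <;> rfl
    have hy' := inS_perm hy h
    have hZ : 0 < zw a (img l ![y i, y j, y k]) := by
      have hm : ∀ m, (1 - l) * a m ≤ a m * img l ![y i, y j, y k] m := fun m => by
        rw [mul_comm]
        refine mul_le_mul_of_nonneg_left ?_ (ha.1 m)
        simp only [img]; nlinarith [hy'.1 m]
      have h3 : 0 < (1 - l) * (a 0 + a 1 + a 2) := by rw [ha.2]; linarith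
      rw [zw, Fin.sum_univ_three]
      linarith [hm 0, hm 1, hm 2]
    have := kpot_term (c := c') (r := r') (e := e) (f := f) (g := g) hc' ha.1 (hbpos hy') ha.2
      (hbsum hy') hZ (hrec _ hy')
    rw [e'] at this
    simpa using this
  have hy3 := hy.2
  have s1 := t 0 1 2 (by linarith); have s2 := t 0 2 1 (by linarith)
  have s3 := t 1 0 2 (by linarith); have s4 := t 1 2 0 (by linarith)
  have s5 := t 2 0 1 (by linarith); have s6 := t 2 1 0 (by linarith)
  have hterm := havg (a 0 - 1) (a 1 - 1) (img l y 0 - 1) (img l y 1 - 1)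
  obtain ⟨-, -, -, -, ea, ea'⟩ := inS_facts ha
  obtain ⟨-, -, -, -, ey, ey'⟩ := inS_facts hy
  have i1 : iS (img l y 0 - 1) (img l y 1 - 1) = l ^ 2 * sq y := by
    rw [ey]; simp only [img, iS]; ring
  have i2 : iT (img l y 0 - 1) (img l y 1 - 1) = l ^ 3 * cub y := by
    rw [ey']; simp only [img, iT]; ring
  rw [i1, i2, ← ea, ← ea'] at hterm
  simp only [avg6] at hterm
  rw [show -(img l y 0 - 1) - (img l y 1 - 1) = img l y 2 - 1 by linarith [hbsum hy]] at hterm
  have hA' : (2 * (img l y 0 + img l y 1 + img l y 2)) *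
      (a 0 * log (a 0) + a 1 * log (a 1) + a 2 * log (a 2)) / 18 = ent a := by
    rw [hbsum hy]; simp only [ent, vlog]; ring
  have hB' : (2 * (a 0 + a 1 + a 2)) * (img l y 0 * log (img l y 0) +
      img l y 1 * log (img l y 1) + img l y 2 * log (img l y 2)) / 18 = ent (img l y) := by
    rw [ha.2]; simp only [ent, vlog]; ring
  have g1 : (c - c') * ent a =
      ((c - c') * glog (a 0 - 1) + (c - c') * glog (a 1 - 1) + (c - c') * glog (a 2 - 1)) / 3 := by
    rw [ent_eq ha.2]; ring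
  have g2 : c' * ent (img l y) - l ^ 2 * cd * ent y =
      ((c' * glog (l * (y 0 - 1)) - l ^ 2 * cd * glog (y 0 - 1))
        + (c' * glog (l * (y 1 - 1)) - l ^ 2 * cd * glog (y 1 - 1))
        + (c' * glog (l * (y 2 - 1)) - l ^ 2 * cd * glog (y 2 - 1))) / 3 := by
    rw [ent_eq hy.2, ent_eq (hbsum hy)]
    simp only [img, add_sub_cancel_left]
    ring
  have := hhA 0; have := hhA 1; have := hhA 2
  have := hhB 0; have := hhB 1; have := hhB 2
  have eA : c' * ent a = c' * ((2 * (img l y 0 + img l y 1 + img l y 2)) *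
      (a 0 * log (a 0) + a 1 * log (a 1) + a 2 * log (a 2)) / 18) := by rw [hA']
  have eB : c' * ent (img l y) = c' * ((2 * (a 0 + a 1 + a 2)) * (img l y 0 * log (img l y 0) +
      img l y 1 * log (img l y 1) + img l y 2 * log (img l y 2)) / 18) := by rw [hB']
  simp only [kpot] at s1 s2 s3 s4 s5 s6 ⊢
  linarith

/-- A polynomial inequality in invariants, from the chart where the first pair dominates. -/
theorem chart_nonneg {M : ℝ → ℝ → ℝ → ℝ → ℝ} (hM : ∀ w t r s, 0 ≤ w → w ≤ 1 → 0 ≤ t → t ≤ 1 →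
      0 ≤ r → r ≤ 1 → 0 ≤ s → s ≤ 1 →
      0 ≤ M (w ^ 2) (w ^ 3 * (2 * t - 1)) (r ^ 2 * w ^ 2) (r ^ 3 * w ^ 3 * (2 * s - 1)))
    {S T S2 T2 : ℝ} (h0 : 0 ≤ S) (h1 : S ≤ 1) (hT : T ^ 2 ≤ S ^ 3)
    (g0 : 0 ≤ S2) (gT : T2 ^ 2 ≤ S2 ^ 3) (hle : S2 ≤ S) : 0 ≤ M S T S2 T2 := by
  obtain ⟨w, hw0, rfl⟩ : ∃ w, 0 ≤ w ∧ S = w ^ 2 :=
    ⟨√S, Real.sqrt_nonneg _, (Real.sq_sqrt h0).symm⟩
  obtain ⟨v, hv0, rfl⟩ : ∃ v, 0 ≤ v ∧ S2 = v ^ 2 :=
    ⟨√S2, Real.sqrt_nonneg _, (Real.sq_sqrt g0).symm⟩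
  have hw1 : w ≤ 1 := (sq_le_one_iff₀ hw0).1 h1
  have hvw : v ≤ w := (pow_le_pow_iff_left₀ hv0 hw0 two_ne_zero).1 hle
  have key : ∀ {T v : ℝ}, 0 ≤ v → T ^ 2 ≤ (v ^ 2) ^ 3 →
      ∃ t, 0 ≤ t ∧ t ≤ 1 ∧ T = v ^ 3 * (2 * t - 1) := fun {T v} hv h => by
    have hb : |T| ≤ v ^ 3 := abs_le_of_sq_le_sq (by linarith [h]) (pow_nonneg hv 3)
    rcases eq_or_lt_of_le (pow_nonneg hv 3) with hz | hz
    · refine ⟨0, le_rfl, zero_le_one, ?_⟩
      rw [← hz] at hb ⊢; simpa using hb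
    · obtain ⟨b1, b2⟩ := abs_le.1 hb
      have hv' : v ≠ 0 := fun h0 => by simp [h0] at hz
      refine ⟨(T / v ^ 3 + 1) / 2, ?_, ?_, by field_simp; ring⟩
      · have := (le_div_iff₀ hz).2 (by linarith : (-1 : ℝ) * v ^ 3 ≤ T); linarith
      · have := (div_le_one hz).2 b2; linarith
  obtain ⟨t, ht0, ht1, rfl⟩ := key hw0 hT
  obtain ⟨s, hs0, hs1, rfl⟩ := key hv0 gT
  rcases eq_or_lt_of_le hw0 with rfl | hw
  · obtain rfl : v = 0 := le_antisymm hvw hv0
    have := hM 0 t 0 s le_rfl zero_le_one ht0 ht1 le_rfl zero_le_one hs0 hs1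
    simpa using this
  · have hr : v / w * w = v := div_mul_cancel₀ _ hw.ne'
    have := hM w t (v / w) s hw0 hw1 ht0 ht1 (by positivity) ((div_le_one hw).2 hvw) hs0 hs1
    rwa [← mul_pow, ← mul_pow, hr] at this

end Vale.Agent.P154.Kit
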