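import Vale.Agent.P154.LyBandChk

/-!
Drops whose polynomial split between the two forms depends on the largest coordinate of the
posterior: regions `lo ≤ den * max u ≤ hi`, each with its own split.
-/

open scoped BigOperators

namespace Vale.Agent.P154.Ly

open Box (Ex)

variable {m N : ℕ}

/-- `hi - den * a_i` in roots. -/
def hiExp (N : ℕ) (R den hi : ℤ) (i : Spin) : Ex :=
  .add (.smul hi (h3e N R)) (.smul (-3 * den) (epow (tvar R i) N))

/-- `den * a_0 - lo` in roots. -/
def loExp (N : ℕ) (R den lo : ℤ) : Ex :=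
  .add (.smul (3 * den) (epow (tvar R 0) N)) (.smul (-lo) (h3e N R))

/-- The guards of a region for the posterior form. -/
def uReg (N : ℕ) (R den lo hi : ℤ) : List Ex :=
  [loExp N R den lo, hiExp N R den hi 0, hiExp N R den hi 1]

/-- `den * (1 + s) - v * s` times the mean, in roots. -/
def lineExp (N : ℕ) (R Q den v : ℤ) : Ex :=
  .mul (.add (.con (den * Q)) (.smul (den - v) (.var 0))) (h3e N R)

/-- The guards of a region for the image form: bounds on the smallest coordinate. -/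
def wReg (N : ℕ) (R Q den lo hi : ℤ) : List Ex :=
  [.add (.smul (3 * den * Q) (epow (tvar R 2) N)) (.smul (-1) (lineExp N R Q den hi)),
    .add (lineExp N R Q den lo) (.smul (-(3 * den * Q)) (epow (tvar R 2) N))]

lemma Charted.le_top {a : Spin → ℝ} {R : ℤ} {y : ℕ → ℝ} {C : ℝ} {σ : Equiv.Perm Spin}
    (hC : 0 < C) (b0 : 0 ≤ y 2) (b1 : y 2 ≤ y 1) (b2 : y 1 ≤ R)
    (e : ∀ x, a (σ x) = C * tpt R y x ^ N) (k : Spin) : a k ≤ a (σ 0) ∧ a (σ 2) ≤ a k := by
  obtain ⟨x, rfl⟩ := σ.surjective k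
  have h1 : (0 : ℝ) ≤ y 1 := b0.trans b1
  have hR : (0 : ℝ) ≤ R := h1.trans b2
  rw [e, e, e]
  constructor <;> refine mul_le_mul_of_nonneg_left (pow_le_pow_left₀ ?_ ?_ N) hC.le <;>
    fin_cases x <;> simp [tpt] <;> first | linarith | exact_mod_cast hR

/-- The guards of a region hold in the chart of a point of the region. -/
lemma uReg_nonneg {R den lo hi : ℤ} (hd : 0 < den) {a : Spin → ℝ}
    (hlo : ∃ k, (lo : ℝ) ≤ den * a k) (hhi : ∀ k, (den : ℝ) * a k ≤ hi) {y : ℕ → ℝ}
    (hy : Charted a N R y) : ∀ e ∈ uReg N R den lo hi, 0 ≤ e.eval y := by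
  obtain ⟨C, σ, hC, b0, b1, b2, eσ, eh⟩ := hy
  obtain ⟨k, hk⟩ := hlo
  have hd' : (0 : ℝ) < den := by exact_mod_cast hd
  have h0 : (lo : ℝ) ≤ den * a (σ 0) :=
    hk.trans (mul_le_mul_of_nonneg_left (Charted.le_top hC b0 b1 b2 eσ k).1 hd'.le)
  have key : ∀ (i : Spin) (v : ℝ), C * (v * hpow N (tpt R y) - den * tpt R y i ^ N)
      = v - den * a (σ i) := fun i v => by
    rw [eσ i]; linear_combination (-v) * eh
  intro e he
  simp only [uReg, List.mem_cons, List.not_mem_nil, or_false] at he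
  rcases he with rfl | rfl | rfl
  · simp only [loExp, Ex.eval, h3e_eval, epow_eval, tvar_eval]
    push_cast
    nlinarith [key 0 lo]
  all_goals
    simp only [hiExp, Ex.eval, h3e_eval, epow_eval, tvar_eval]
    push_cast
  · nlinarith [key 0 hi, hhi (σ 0)]
  · nlinarith [key 1 hi, hhi (σ 1)]

/-- The guards of a region hold in the chart of the image of a point of the region. -/
lemma wReg_nonneg {R Q den lo hi : ℤ} (hd : 0 < den) (hQ : 0 < Q) {s : ℝ} (hs : 0 ≤ s)
    {u : Spin → ℝ} (hlo : ∃ k, (lo : ℝ) ≤ den * u k) (hhi : ∀ k, (den : ℝ) * u k ≤ hi)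
    {y : ℕ → ℝ} (hy0 : y 0 = s * Q) (hy : Charted (img (-s) u) N R y) :
    ∀ e ∈ wReg N R Q den lo hi, 0 ≤ e.eval y := by
  obtain ⟨C, σ, hC, b0, b1, b2, eσ, eh⟩ := hy
  obtain ⟨k, hk⟩ := hlo
  have hd' : (0 : ℝ) < den := by exact_mod_cast hd
  have hQ' : (0 : ℝ) < Q := by exact_mod_cast hQ
  have himg : ∀ x, img (-s) u x = 1 + s - s * u x := fun x => by simp only [img]; ring
  have h2 : (den : ℝ) * img (-s) u (σ 2) ≤ den * (1 + s) - s * lo := by
    have := mul_le_mul_of_nonneg_left (Charted.le_top hC b0 b1 b2 eσ k).2 hd'.le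
    rw [himg k] at this
    nlinarith [mul_le_mul_of_nonneg_left hk hs]
  have h3 : (den : ℝ) * (1 + s) - s * hi ≤ den * img (-s) u (σ 2) := by
    rw [himg]
    nlinarith [mul_le_mul_of_nonneg_left (hhi (σ 2)) hs]
  have key : ∀ v : ℝ, C * ((den * (1 + s) - s * v) * hpow N (tpt R y) - den * tpt R y 2 ^ N)
      = den * (1 + s) - s * v - den * img (-s) u (σ 2) := fun v => by
    rw [eσ 2]; linear_combination (-(den * (1 + s) - s * v)) * eh
  intro e he
  simp only [wReg, List.mem_cons, List.not_mem_nil, or_false] at he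
  rcases he with rfl | rfl
  all_goals
    simp only [lineExp, Ex.eval, h3e_eval, epow_eval, tvar_eval, hy0]
    push_cast
  · have : 0 ≤ den * tpt R y 2 ^ N - (den * (1 + s) - s * hi) * hpow N (tpt R y) :=
      nonneg_of_mul_nonneg_right (a := C) (by nlinarith [key hi]) hC
    nlinarith [mul_nonneg hQ'.le this]
  · have : 0 ≤ (den * (1 + s) - s * lo) * hpow N (tpt R y) - den * tpt R y 2 ^ N :=
      nonneg_of_mul_nonneg_right (a := C) (by nlinarith [key lo]) hC
    nlinarith [mul_nonneg hQ'.le this]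

/-- A region with its split. -/
structure Reg where
  /-- lower end of `den * max u` -/
  lo : ℤ
  /-- upper end of `den * max u` -/
  hi : ℤ
  /-- polynomial part of the posterior form -/
  q : P4
  /-- certificate of the image form -/
  cw : Cert
  /-- certificate of the posterior form -/
  cu : Cert

/-- The polynomial part of the image form of a region. -/
def Step.regP (S : Step m) (q : P4) : P4 :=
  ⟨S.p.c0 + S.q.c0 - q.c0, S.p.c1 + S.q.c1 - q.c1, S.p.c2 + S.q.c2 - q.c2,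
    S.p.c3 + S.q.c3 - q.c3⟩

/-- Both forms of one region. -/
def Step.regTest (S : Step m) (N : ℕ) (B : Band) (ks : Fin m → Tri) (den : ℤ) (r : Reg) : Bool :=
  decide (0 < r.cw.R) && decide (0 < r.cu.R) && okTri N (pairs ks S.e)
    && okTri N (pairs ks fun j => -S.c j)
    && r.cw.T.chkM r.cw.K r.cw.D (wGuard N r.cw.R B.Q ++ wReg N r.cw.R B.Q den r.lo r.hi)
      (wExp N r.cw.R B.Q (pairs ks S.e) (S.regP r.q)) (wBox r.cw.R B.P0 B.P1)
    && r.cu.T.chkM r.cu.K r.cu.D (ordExp :: uReg N r.cu.R den r.lo r.hi)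
      (uExp N r.cu.R (pairs ks fun j => -S.c j) r.q) (uBox r.cu.R)

/-- The regions cover `[x, 3 * den]`. -/
def regCover (den : ℤ) : List Reg → ℤ → Bool
  | [], _ => false
  | r :: rs, x => decide (r.lo ≤ x) && (decide (3 * den ≤ r.hi) || regCover den rs r.hi)

lemma exists_reg {den : ℤ} : ∀ {rs : List Reg} {x : ℤ}, regCover den rs x = true → ∀ {M : ℝ},
    (x : ℝ) ≤ M → M ≤ 3 * den → ∃ r ∈ rs, (r.lo : ℝ) ≤ M ∧ M ≤ r.hi
  | [], x, h, M, _, _ => by simp [regCover] at h
  | r :: rs, x, h, M, hx, h3 => by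
    simp only [regCover, Bool.and_eq_true, Bool.or_eq_true, decide_eq_true_eq] at h
    rcases le_or_gt M r.hi with hM | hM
    · exact ⟨r, List.mem_cons_self, le_trans (by exact_mod_cast h.1) hx, hM⟩
    · rcases h.2 with h2 | h2
      · exact absurd (h3.trans (by exact_mod_cast h2)) (not_le.2 hM)
      · obtain ⟨q, hq, hq'⟩ := exists_reg h2 hM.le h3
        exact ⟨q, List.mem_cons_of_mem _ hq, hq'⟩

/-- The check of all regions of a step. -/
def Step.regsTest (S : Step m) (N : ℕ) (B : Band) (ks : Fin m → Tri) (den : ℤ)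
    (rs : List Reg) : Bool :=
  decide (0 < den) && regCover den rs den && rs.all (S.regTest N B ks den)

/-- One drop from its checks, with regions. -/
theorem Step.drop_of_regions (S : Step m) {B : Band} {ks : Fin m → Tri} {dh : ℕ}
    {H : Fin (m + 1) → ℤ} {Fs : List (Facet m)} {r n K : ℕ} {T : STree m} {den : ℤ}
    {rs : List Reg} (hN : 0 < N) (hk : ∀ j, ∑ i, tri (ks j) i = N) (hok : S.ok dh H = true)
    (hr : S.regsTest N B ks den rs = true)
    (hF : ∀ f ∈ Fs, ∃ c, facetTest N B ks f c = true)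
    (hsc : S.scalarChk dh H Fs r n K T = true) {s : ℝ} (hs : B.Mem s) :
    DropGain (-s) (1 / s ^ 2) (coord N ks s) (fun i => (H i : ℝ) / dh) S.a ((S.L : ℝ) / dh) := by
  refine S.dropGain_of_sum hN hk hs.le_half hs.pos hok (fun u hu => ?_)
    (xf_of_forms hN hk hs.le_half hs.pos (facets_sound hs hF)) (S.scalar_of_chk hsc)
  simp only [Step.regsTest, Bool.and_eq_true, decide_eq_true_eq, List.all_eq_true] at hr
  obtain ⟨⟨hd, hcov⟩, hall⟩ := hr
  obtain ⟨i, hi⟩ := Finite.exists_max u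
  have hd' : (0 : ℝ) < den := by exact_mod_cast hd
  have h1 : 1 ≤ u i := by linarith [hu.2, hi 0, hi 1, hi 2]
  have h3 : u i ≤ 3 := inS_le hu i
  obtain ⟨q, hq, hlo, hhi⟩ := exists_reg hcov (M := den * u i)
    (le_mul_of_one_le_right hd'.le h1) (by nlinarith)
  have hmax : ∀ k, (den : ℝ) * u k ≤ q.hi := fun k =>
    (mul_le_mul_of_nonneg_left (hi k) hd'.le).trans hhi
  have ht := hall q hq
  simp only [Step.regTest, Bool.and_eq_true, decide_eq_true_eq] at ht
  obtain ⟨⟨⟨⟨⟨r1, r2⟩, o1⟩, o2⟩, cw⟩, cu⟩ := ht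
  obtain ⟨hok', h0, h1'⟩ := id hs
  simp only [Band.ok, Bool.and_eq_true, decide_eq_true_eq] at hok'
  have hW := wChk_gen r1 hok'.1.2 hok'.1.1 o1 cw h0 h1' hu hs.le_half
    fun y hy0 hy => wReg_nonneg hd hok'.1.2 hs.pos.le ⟨i, hlo⟩ hmax hy0 hy
  have hU := uChk_gen r2 o2 cu hu fun y hy => uReg_nonneg hd ⟨i, hlo⟩ hmax hy
  have e : (S.regP q.q).val u + q.q.val u = S.p.val u + S.q.val u := by
    simp only [P4.val, Step.regP]; push_cast; ring
  linarith

end Vale.Agent.P154.Ly
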