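import Vale.Agent.P154.LyBand
import Vale.Agent.P154.LyRegion

/-!
Band A of the Poisson chain: data.
-/

open scoped BigOperators

namespace Vale.Agent.P154.Ly.BA

/-- exponents -/
def ks : Fin 6 → Tri := ![(5, 1, 0), (4, 2, 0), (4, 1, 1), (3, 3, 0), (3, 2, 1), (2, 2, 2)]

/-- the band -/
def band : Band := ⟨1140, 1615, 4000⟩

/-- the facets -/
def Fs : List (Facet 6) := [⟨![0, 0, 0, 0, 0, 100000000], (-155105876), 33166934⟩,
  ⟨![100000000, 0, 0, 0, 0, (-38637380)], 0, 10020⟩,
  ⟨![(-100000000), 0, 0, 0, 0, 33631668], 8509442, 10020⟩,
  ⟨![100000000, 0, 0, 0, 0, 0], (-38698416), 10020⟩,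
  ⟨![(-100000000), 0, 0, 0, 0, 38470627], 0, 2117672⟩,
  ⟨![0, 0, 0, 0, 0, 100000000], (-89763536), 10020⟩,
  ⟨![(-100000000), 0, 0, 0, 0, 43111510], 0, 10020⟩]

/-- the bounds before each drop -/
def H : ℕ → Fin 7 → ℤ
  | 0 => ![10000000, 123114805, 123114805, 123114805, 123114805, 123114805, 34362887]
  | 1 => ![10000000, 123114805, 123114805, 123114805, 123114805, 123114805, 8999211]
  | 2 => ![5950000, 123114805, 123114805, 123114805, 123114805, 123114805, 8999211]
  | 3 => ![5950000, 123114805, 123114805, 123114805, 123114805, 123114805, 5896346]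
  | 4 => ![4320853, 123114805, 123114805, 123114805, 123114805, 123114805, 5896346]
  | 5 => ![4320853, 123114805, 123114805, 123114805, 123114805, 123114805, 4700452]
  | 6 => ![4320853, 123114805, 123114805, 123114805, 123114805, 123114805, 3747109]
  | 7 => ![3163267, 123114805, 123114805, 123114805, 123114805, 123114805, 3747109]
  | 8 => ![3163267, 123114805, 123114805, 123114805, 123114805, 123114805, 3143591]
  | 9 => ![2590328, 123114805, 123114805, 123114805, 123114805, 123114805, 3143591]
  | 10 => ![2590328, 123114805, 123114805, 123114805, 123114805, 123114805, 2637276]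
  | 11 => ![2590328, 123114805, 123114805, 123114805, 123114805, 123114805, 2212510]
  | 12 => ![2011633, 123114805, 123114805, 123114805, 123114805, 123114805, 2212510]
  | 13 => ![2011633, 123114805, 123114805, 123114805, 123114805, 123114805, 1856158]
  | 14 => ![1601461, 123114805, 123114805, 123114805, 123114805, 123114805, 1856158]
  | 15 => ![1601461, 123114805, 123114805, 123114805, 123114805, 123114805, 1557200]
  | 16 => ![1336442, 123114805, 123114805, 123114805, 123114805, 123114805, 1557200]
  | 17 => ![1336442, 123114805, 123114805, 123114805, 123114805, 123114805, 1306394]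
  | 18 => ![1336442, 123114805, 123114805, 123114805, 123114805, 123114805, 1095983]
  | 19 => ![1037872, 123114805, 123114805, 123114805, 123114805, 123114805, 1095983]
  | 20 => ![1037872, 123114805, 123114805, 123114805, 123114805, 123114805, 919461]
  | 21 => ![840475, 123114805, 123114805, 123114805, 123114805, 123114805, 919461]
  | 22 => ![840475, 123114805, 123114805, 123114805, 123114805, 123114805, 771371]
  | _ => ![694578, 123114805, 123114805, 123114805, 123114805, 123114805, 771371]

/-- the bounds before each start facet -/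
def Hpre : ℕ → Fin 7 → ℤ
  | 0 => ![10000000, 123114805, 123114805, 123114805, 123114805, 123114805, 123114805]
  | _ => ![10000000, 123114805, 123114805, 123114805, 123114805, 123114805, 34362887]

lemma ks_sum : ∀ j, ∑ i, tri (ks j) i = 6 := by decide +kernel

end Vale.Agent.P154.Ly.BA
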