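import Vale.Agent.P154.LyBA

/-!
Band A: drops 0 to 22.
-/

open scoped BigOperators

namespace Vale.Agent.P154.Ly.BA

/-- step 0 -/
def S0 : Step 6 := ⟨1000000000000000, 6, 8999211, ![0, 0, 0, 697574050000000, 0, (-302425950000000)], 417118400000000, ![0, 0, 0, 0, (-335070990000000), 0, 44644030000000], ![0, 0, 0, 0, 0, 0, 0], 0, 779930000000, ![0, 0, 0, (-335070990000000), 0, 44644030000000], ⟨19240530000000, 143540510000000, 29540180000000, 117357120000000⟩, ⟨397097940000000, (-143540510000000), (-29540180000000), (-117357120000000)⟩⟩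

theorem drop0 (hF : ∀ f ∈ Fs, ∃ c, facetTest 6 band ks f c = true) {s : ℝ}
    (hs : band.Mem s) : DropGain (-s) (1 / s ^ 2) (coord 6 ks s)
      (fun i => (H 0 i : ℝ) / (10000000 : ℕ)) S0.a ((S0.L : ℝ) / (10000000 : ℕ)) :=
  S0.drop_of_tests (r := 16) (n := 20) (K := 40) (T := (.leaf [] [0, 0, 0, 117322600]))
    (cw := ⟨64, 304, 24, (.cut 2 32 (.out 0) (.cut 1 32 (.out 0) (.cut 2 48 (.cut 1 48 (.out 0) (.cut 1 56 (.out 0) (.cut 2 40 (.out 2) (.cut 1 60 (.out 0) (.cut 0 1378 (.out 2) (.cut 2 44 (.out 2) (.mult []))))))) (.cut 1 48 (.cut 2 56 (.out 0) (.out 3)) (.mult [])))))⟩)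
    (cu := ⟨16, 205, 24, (.cut 2 8 (.cut 1 8 (.mult []) (.cut 1 12 (.mult []) (.mult []))) (.cut 1 8 (.cut 2 12 (.mult []) (.out 0)) (.cut 2 12 (.mult []) (.mult []))))⟩)
    (by norm_num) ks_sum (by decide +kernel) (by decide +kernel) (by decide +kernel) hF
    (by decide +kernel) hs

/-- step 1 -/
def S1 : Step 6 := ⟨1000000000000000, 0, 5950000, ![0, 0, 56502940000000, 615181240000000, 0, (-328315820000000)], 324780620000000, ![0, 0, 0, (-30542430000000), (-354597830000000), 0, 156390560000000], ![0, 0, 0, 0, 0, 0, 0], 78613450000000, 550350000000, ![0, 0, (-30542430000000), (-354597830000000), 0, 156390560000000], ⟨9990660000000, 101387700000000, 19844600000000, 48135970000000⟩, ⟨361014612750000, (-180001150000000), (-19844600000000), (-48135970000000)⟩⟩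

theorem drop1 (hF : ∀ f ∈ Fs, ∃ c, facetTest 6 band ks f c = true) {s : ℝ}
    (hs : band.Mem s) : DropGain (-s) (1 / s ^ 2) (coord 6 ks s)
      (fun i => (H 1 i : ℝ) / (10000000 : ℕ)) S1.a ((S1.L : ℝ) / (10000000 : ℕ)) :=
  S1.drop_of_tests (r := 16) (n := 20) (K := 40) (T := (.cut 6 94449710 (.leaf [6763989266703480985768427520] []) (.leaf [] [0, 0, 98428129, 88149224])))
    (cw := ⟨64, 303, 24, (.cut 2 32 (.out 0) (.cut 1 32 (.out 0) (.cut 2 48 (.cut 1 48 (.out 0) (.cut 1 56 (.out 0) (.cut 2 40 (.out 2) (.mult [(2, 6277101735386680763835789423207666416102355444464034512896)])))) (.cut 1 48 (.cut 2 56 (.out 0) (.out 3)) (.mult [(0, 392318858461667547739736838950479151006397215279002157056)])))))⟩)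
    (cu := ⟨16, 205, 24, (.cut 2 8 (.cut 1 8 (.mult []) (.cut 1 12 (.mult []) (.mult []))) (.cut 1 8 (.cut 2 12 (.mult []) (.out 0)) (.cut 2 12 (.cut 1 12 (.mult []) (.mult [])) (.mult []))))⟩)
    (by norm_num) ks_sum (by decide +kernel) (by decide +kernel) (by decide +kernel) hF
    (by decide +kernel) hs

/-- step 2 -/
def S2 : Step 6 := ⟨1000000000000000, 6, 5896346, ![(-141190080000000), 0, 189564740000000, 385981250000000, 0, (-283263930000000)], 155150420000000, ![0, 105656990000000, 0, (-115844030000000), (-243217170000000), 0, 135045220000000], ![0, 0, 0, 0, 0, 0, 0], 0, 60590000000, ![105656990000000, 0, (-115844030000000), (-243217170000000), 0, 135045220000000], ⟨3846360000000, 73051650000000, 14339980000000, 32815720000000⟩, ⟨151243470000000, (-73051650000000), (-14339980000000), (-32815720000000)⟩⟩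

theorem drop2 (hF : ∀ f ∈ Fs, ∃ c, facetTest 6 band ks f c = true) {s : ℝ}
    (hs : band.Mem s) : DropGain (-s) (1 / s ^ 2) (coord 6 ks s)
      (fun i => (H 2 i : ℝ) / (10000000 : ℕ)) S2.a ((S2.L : ℝ) / (10000000 : ℕ)) :=
  S2.drop_of_tests (r := 16) (n := 20) (K := 40) (T := (.cut 1 58512215 (.cut 1 36376551 (.leaf [0, 4243908725012017532693905408] []) (.leaf [0, 0, 6742503539887631] [0, 0, 78797742, 73893447])) (.leaf [0, 0, 4243908725856714591953747968] [])))
    (cw := ⟨256, 351, 24, (.cut 2 128 (.out 0) (.cut 1 128 (.out 0) (.cut 2 192 (.cut 1 192 (.out 0) (.cut 1 224 (.out 0) (.cut 2 160 (.out 0) (.cut 1 240 (.out 0) (.cut 0 1378 (.out 0) (.cut 2 176 (.out 0) (.cut 1 248 (.out 0) (.mult [(2, 185349633336660648588335728723259960881255367904966435807587320463360)])))))))) (.cut 1 192 (.cut 2 224 (.out 0) (.out 3)) (.cut 2 224 (.mult []) (.cut 1 224 (.mult []) (.mult [(0, 6739986666787659948666753771754907668409286105635143120275902562304)])))))))⟩)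
    (cu := ⟨16, 205, 24, (.cut 2 8 (.cut 1 8 (.mult []) (.cut 1 12 (.mult []) (.cut 2 4 (.cut 1 14 (.mult []) (.mult [])) (.mult [])))) (.cut 1 8 (.cut 2 12 (.mult []) (.out 0)) (.cut 2 12 (.cut 1 12 (.mult []) (.mult [])) (.cut 1 12 (.mult []) (.mult [])))))⟩)
    (by norm_num) ks_sum (by decide +kernel) (by decide +kernel) (by decide +kernel) hF
    (by decide +kernel) hs

/-- step 3 -/
def S3 : Step 6 := ⟨1000000000000000, 0, 4320853, ![(-205632080000000), 0, 250691980000000, 284687150000000, 0, (-258988790000000)], 61942920000000, ![0, 167132990000000, 0, (-166920000000000), (-189240530000000), 0, 159135500000000], ![0, 0, 0, 0, 0, 0, 0], 29279130000000, 43460000000, ![167132990000000, 0, (-166920000000000), (-189240530000000), 0, 159135500000000], ⟨382650000000, 37084930000000, 2840350000000, 4855130000000⟩, ⟨74167891669789, (-66364060000000), (-2840350000000), (-4855130000000)⟩⟩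

theorem drop3 (hF : ∀ f ∈ Fs, ∃ c, facetTest 6 band ks f c = true) {s : ℝ}
    (hs : band.Mem s) : DropGain (-s) (1 / s ^ 2) (coord 6 ks s)
      (fun i => (H 3 i : ℝ) / (10000000 : ℕ)) S3.a ((S3.L : ℝ) / (10000000 : ℕ)) :=
  S3.drop_of_tests (r := 16) (n := 20) (K := 40) (T := (.cut 1 41651894 (.cut 1 26695940 (.leaf [0, 0, 0, 3130168317278852423075495936, 0, 401663165749798720] []) (.cut 6 61946431 (.leaf [0, 0, 0, 0, 10854465993945316, 3130168317641333369206734848] []) (.cut 1 37912905 (.leaf [] [0, 0, 65073657, 65339521]) (.leaf [0, 0, 0, 0, 74381613145633568] [0, 0, 65073657, 65339521])))) (.leaf [0, 0, 0, 0, 3130168318727140134298320896] [])))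
    (cw := ⟨64, 301, 24, (.cut 2 32 (.out 0) (.cut 1 32 (.out 0) (.cut 2 48 (.mult []) (.cut 1 48 (.mult []) (.mult [(0, 49039857307708443467467104868809893875799651909875269632)])))))⟩)
    (cu := ⟨16, 205, 24, (.cut 2 8 (.cut 1 8 (.mult []) (.cut 1 12 (.mult []) (.cut 2 4 (.mult []) (.mult [])))) (.cut 1 8 (.cut 2 12 (.mult []) (.out 0)) (.cut 2 12 (.cut 1 12 (.mult []) (.mult [])) (.cut 1 12 (.mult []) (.mult [])))))⟩)
    (by norm_num) ks_sum (by decide +kernel) (by decide +kernel) (by decide +kernel) hF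
    (by decide +kernel) hs

/-- step 4 -/
def S4 : Step 6 := ⟨1000000000000000, 6, 4700452, ![(-198533250000000), 0, 265039480000000, 269469990000000, 0, (-266957290000000)], 70725070000000, ![0, 161212870000000, 0, (-183182780000000), (-187496920000000), 0, 157251220000000], ![0, 0, 0, 0, 0, 0, 0], 0, 48910000000, ![161212870000000, 0, (-183182780000000), (-187496920000000), 0, 157251220000000], ⟨1178870000000, 47851510000000, 6846900000000, 14676610000000⟩, ⟨69497290000000, (-47851510000000), (-6846900000000), (-14676610000000)⟩⟩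

theorem drop4 (hF : ∀ f ∈ Fs, ∃ c, facetTest 6 band ks f c = true) {s : ℝ}
    (hs : band.Mem s) : DropGain (-s) (1 / s ^ 2) (coord 6 ks s)
      (fun i => (H 4 i : ℝ) / (10000000 : ℕ)) S4.a ((S4.L : ℝ) / (10000000 : ℕ)) :=
  S4.drop_of_tests (r := 16) (n := 20) (K := 40) (T := (.cut 1 39597390 (.cut 1 29002472 (.leaf [0, 2962853873640755908315185152] []) (.cut 1 36948660 (.leaf [] [0, 0, 59103095, 58031138]) (.leaf [0, 0, 54044441591823920] [0, 0, 59103095, 58031138]))) (.leaf [0, 0, 2962853875048108251880095744] [])))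
    (cw := ⟨64, 303, 24, (.cut 2 32 (.out 0) (.cut 1 32 (.out 0) (.cut 2 48 (.cut 1 48 (.out 0) (.cut 1 56 (.out 0) (.cut 2 40 (.out 2) (.cut 1 60 (.out 0) (.cut 0 1378 (.out 2) (.cut 2 44 (.out 2) (.mult [(2, 1569275433846670190958947355801916604025588861116008628224)]))))))) (.cut 1 48 (.cut 2 56 (.out 0) (.out 3)) (.cut 2 56 (.mult []) (.cut 1 56 (.mult []) (.mult [])))))))⟩)
    (cu := ⟨16, 205, 24, (.cut 1 8 (.cut 1 4 (.mult []) (.cut 2 8 (.mult []) (.mult []))) (.cut 2 8 (.cut 2 4 (.mult []) (.mult [])) (.cut 1 12 (.cut 2 12 (.mult []) (.mult [])) (.cut 2 12 (.mult []) (.mult [])))))⟩)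
    (by norm_num) ks_sum (by decide +kernel) (by decide +kernel) (by decide +kernel) hF
    (by decide +kernel) hs

/-- step 5 -/
def S5 : Step 6 := ⟨1000000000000000, 6, 3747109, ![(-200813070000000), 0, 285315640000000, 244644560000000, 0, (-269226730000000)], 60997960000000, ![0, 169466680000000, 0, (-211689950000000), (-181404850000000), 0, 176541240000000], ![0, 0, 0, 0, 0, 0, 0], 0, 11050000000, ![169466680000000, 0, (-211689950000000), (-181404850000000), 0, 176541240000000], ⟨560580000000, 44158140000000, 5131890000000, 11108680000000⟩, ⟨60426330000000, (-44158140000000), (-5131890000000), (-11108680000000)⟩⟩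

theorem drop5 (hF : ∀ f ∈ Fs, ∃ c, facetTest 6 band ks f c = true) {s : ℝ}
    (hs : band.Mem s) : DropGain (-s) (1 / s ^ 2) (coord 6 ks s)
      (fun i => (H 5 i : ℝ) / (10000000 : ℕ)) S5.a ((S5.L : ℝ) / (10000000 : ℕ)) :=
  S5.drop_of_tests (r := 16) (n := 20) (K := 40) (T := (.cut 1 33162205 (.cut 1 23115359 (.leaf [0, 3137078637856087229958455296] []) (.cut 1 30650493 (.leaf [] [0, 0, 47755740, 47852017]) (.leaf [0, 0, 54501618058108344] [0, 0, 47755740, 47852017]))) (.leaf [0, 0, 3137078639378555142416629760] [])))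
    (cw := ⟨64, 303, 24, (.cut 2 32 (.out 0) (.cut 1 32 (.out 0) (.cut 2 48 (.cut 1 48 (.out 0) (.cut 1 56 (.out 0) (.cut 2 40 (.out 2) (.cut 1 60 (.out 0) (.cut 0 1378 (.out 2) (.cut 2 44 (.out 2) (.cut 1 62 (.out 0) (.cut 0 1497 (.mult []) (.cut 2 46 (.mult [(2, 3138550867693340381917894711603833208051177722232017256448)]) (.mult [])))))))))) (.cut 1 48 (.cut 2 56 (.out 0) (.out 3)) (.cut 2 56 (.mult []) (.cut 1 56 (.mult []) (.cut 2 60 (.cut 1 60 (.mult []) (.mult [])) (.cut 1 60 (.mult []) (.mult [])))))))))⟩)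
    (cu := ⟨16, 205, 24, (.cut 2 8 (.cut 1 8 (.mult []) (.cut 1 12 (.mult []) (.cut 2 4 (.mult []) (.cut 1 14 (.mult []) (.cut 2 6 (.mult []) (.mult [])))))) (.cut 1 8 (.cut 2 12 (.mult []) (.out 0)) (.cut 2 12 (.cut 1 12 (.mult []) (.mult [])) (.cut 1 12 (.mult []) (.mult [])))))⟩)
    (by norm_num) ks_sum (by decide +kernel) (by decide +kernel) (by decide +kernel) hF
    (by decide +kernel) hs

/-- step 6 -/
def S6 : Step 6 := ⟨1000000000000000, 0, 3163267, ![(-212933850000000), 0, 282099430000000, 244994760000000, 0, (-259971950000000)], 50162740000000, ![0, 184760440000000, 0, (-212259540000000), (-186578060000000), 0, 187092490000000], ![0, 0, 0, 0, 0, 0, 7840590000000], 28663220000000, 45890000000, ![184760440000000, 0, (-212259540000000), (-186578060000000), 0, 194933080000000], ⟨183590000000, 27317600000000, (-659510000000), 626210000000⟩, ⟨56062247258543, (-55980820000000), 659510000000, (-626210000000)⟩⟩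

theorem drop6 (hF : ∀ f ∈ Fs, ∃ c, facetTest 6 band ks f c = true) {s : ℝ}
    (hs : band.Mem s) : DropGain (-s) (1 / s ^ 2) (coord 6 ks s)
      (fun i => (H 6 i : ℝ) / (10000000 : ℕ)) S6.a ((S6.L : ℝ) / (10000000 : ℕ)) :=
  S6.drop_of_tests (r := 16) (n := 20) (K := 40) (T := (.cut 1 27832835 (.cut 1 19542280 (.leaf [0, 0, 0, 3101716034912256834163179520, 0, 326843812817342400] []) (.cut 6 45355377 (.leaf [0, 0, 0, 0, 0, 3101716035166460623970107392, 12180308049428572] []) (.cut 1 25760196 (.leaf [] [0, 0, 45511972, 43581939]) (.leaf [0, 0, 0, 0, 0, 0, 51245897686427112] [0, 0, 45511972, 43581939])))) (.leaf [0, 0, 0, 0, 0, 0, 3101716036609189204402896896] [])))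
    (cw := ⟨64, 302, 24, (.cut 2 32 (.out 0) (.cut 1 32 (.out 0) (.cut 2 48 (.mult [(0, 1569275433846670190958947355801916604025588861116008628224)]) (.cut 1 48 (.mult [(0, 392318858461667547739736838950479151006397215279002157056)]) (.cut 2 56 (.cut 1 56 (.out 0) (.mult [(0, 49039857307708443467467104868809893875799651909875269632)])) (.mult [(0, 49039857307708443467467104868809893875799651909875269632)]))))))⟩)
    (cu := ⟨16, 205, 24, (.cut 1 8 (.cut 2 8 (.mult []) (.cut 2 12 (.mult []) (.out 0))) (.cut 2 8 (.cut 2 4 (.mult []) (.mult [])) (.cut 1 12 (.cut 2 12 (.mult []) (.mult [])) (.cut 2 12 (.mult []) (.mult [])))))⟩)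
    (by norm_num) ks_sum (by decide +kernel) (by decide +kernel) (by decide +kernel) hF
    (by decide +kernel) hs

/-- step 7 -/
def S7 : Step 6 := ⟨1000000000000000, 6, 3143591, ![(-203244410000000), 0, 301716070000000, 224716540000000, 0, (-270322980000000)], 53628930000000, ![0, 177193870000000, 0, (-234636540000000), (-176586170000000), 0, 191566360000000], ![0, 0, 0, 0, 0, 0, 0], 0, 10100000000, ![177193870000000, 0, (-234636540000000), (-176586170000000), 0, 191566360000000], ⟨307000000000, 40870080000000, 3853380000000, 8563130000000⟩, ⟨53311830000000, (-40870080000000), (-3853380000000), (-8563130000000)⟩⟩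

theorem drop7 (hF : ∀ f ∈ Fs, ∃ c, facetTest 6 band ks f c = true) {s : ℝ}
    (hs : band.Mem s) : DropGain (-s) (1 / s ^ 2) (coord 6 ks s)
      (fun i => (H 7 i : ℝ) / (10000000 : ℕ)) S7.a ((S7.L : ℝ) / (10000000 : ℕ)) :=
  S7.drop_of_tests (r := 16) (n := 20) (K := 40) (T := (.cut 1 26456136 (.cut 1 19391129 (.leaf [0, 3317403272675096469855797248] []) (.cut 1 24486298 (.leaf [] [0, 0, 40231797, 38564930]) (.leaf [0, 0, 42439557200899592] [0, 0, 40231797, 38564930]))) (.leaf [0, 0, 3317403274311101602265563136] [])))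
    (cw := ⟨64, 303, 24, (.cut 2 32 (.out 0) (.cut 1 32 (.out 0) (.cut 2 48 (.cut 1 48 (.out 0) (.cut 1 56 (.out 0) (.cut 2 40 (.out 2) (.cut 1 60 (.out 0) (.cut 0 1378 (.out 2) (.cut 2 44 (.out 2) (.cut 1 62 (.out 0) (.cut 0 1497 (.mult []) (.cut 2 46 (.mult [(2, 3138550867693340381917894711603833208051177722232017256448)]) (.mult [])))))))))) (.cut 1 48 (.cut 2 56 (.out 0) (.out 3)) (.cut 2 56 (.mult []) (.cut 1 56 (.mult []) (.cut 2 60 (.mult []) (.mult []))))))))⟩)
    (cu := ⟨16, 205, 24, (.cut 2 8 (.cut 1 8 (.mult []) (.cut 1 12 (.mult []) (.cut 2 4 (.mult []) (.cut 1 14 (.mult []) (.cut 2 6 (.mult []) (.mult [])))))) (.cut 1 8 (.cut 2 12 (.mult []) (.out 0)) (.cut 2 12 (.cut 1 12 (.mult []) (.mult [])) (.cut 1 12 (.mult []) (.mult [])))))⟩)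
    (by norm_num) ks_sum (by decide +kernel) (by decide +kernel) (by decide +kernel) hF
    (by decide +kernel) hs

/-- step 8 -/
def S8 : Step 6 := ⟨1000000000000000, 0, 2590328, ![(-209205610000000), 0, 304905030000000, 219213050000000, 0, (-266676300000000)], 46478540000000, ![0, 186217080000000, 0, (-244193740000000), (-175455780000000), 0, 202935570000000], ![0, 0, 0, 0, 0, 0, 0], 10052310000000, 5900000000, ![186217080000000, 0, (-244193740000000), (-175455780000000), 0, 202935570000000], ⟨95020000000, 33581600000000, 1583310000000, 3749540000000⟩, ⟨48981498005768, (-43633910000000), (-1583310000000), (-3749540000000)⟩⟩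

theorem drop8 (hF : ∀ f ∈ Fs, ∃ c, facetTest 6 band ks f c = true) {s : ℝ}
    (hs : band.Mem s) : DropGain (-s) (1 / s ^ 2) (coord 6 ks s)
      (fun i => (H 8 i : ℝ) / (10000000 : ℕ)) S8.a ((S8.L : ℝ) / (10000000 : ℕ)) :=
  S8.drop_of_tests (r := 16) (n := 20) (K := 40) (T := (.cut 1 23208566 (.cut 1 15999411 (.leaf [0, 0, 0, 3352466258665393985643610112, 0, 284689188205889536] []) (.cut 6 37136388 (.leaf [0, 0, 12321115533649726, 0, 0, 3352466258905183178010394624] []) (.cut 1 21238727 (.cut 6 40426655 (.leaf [0, 0, 0, 163712914265382, 0, 69747634347300528] [0, 0, 35526148, 35625127]) (.leaf [] [0, 0, 35526148, 35625127])) (.leaf [0, 0, 45527870727559880] [0, 0, 35526148, 35625127])))) (.leaf [0, 0, 3352466260407846137273253888] [])))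
    (cw := ⟨256, 350, 24, (.cut 2 128 (.out 0) (.cut 1 128 (.out 0) (.cut 2 192 (.cut 1 192 (.out 0) (.cut 1 224 (.out 0) (.cut 2 160 (.out 0) (.cut 1 240 (.out 0) (.cut 0 1378 (.out 0) (.cut 2 176 (.out 0) (.mult [(2, 13479973333575319897333507543509815336818572211270286240551805124608)]))))))) (.cut 1 192 (.cut 2 224 (.out 0) (.out 3)) (.cut 2 224 (.mult []) (.cut 1 224 (.mult []) (.mult [])))))))⟩)
    (cu := ⟨16, 206, 24, (.cut 2 8 (.cut 1 8 (.mult []) (.cut 1 12 (.mult []) (.cut 2 4 (.mult []) (.cut 1 14 (.mult []) (.cut 2 6 (.mult []) (.mult [])))))) (.cut 1 8 (.cut 2 12 (.mult []) (.out 0)) (.cut 2 12 (.cut 1 12 (.mult []) (.mult [])) (.cut 1 12 (.mult []) (.cut 2 14 (.cut 1 14 (.mult []) (.mult [])) (.mult []))))))⟩)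
    (by norm_num) ks_sum (by decide +kernel) (by decide +kernel) (by decide +kernel) hF
    (by decide +kernel) hs

/-- step 9 -/
def S9 : Step 6 := ⟨1000000000000000, 6, 2637276, ![(-205037790000000), 0, 311576550000000, 212760860000000, 0, (-270624800000000)], 49223480000000, ![0, 182798420000000, 0, (-251643770000000), (-173913180000000), 0, 202714150000000], ![0, 0, 0, 0, 0, 0, 0], 0, 5410000000, ![182798420000000, 0, (-251643770000000), (-173913180000000), 0, 202714150000000], ⟨199820000000, 38698660000000, 3103470000000, 7202600000000⟩, ⟨49018250000000, (-38698660000000), (-3103470000000), (-7202600000000)⟩⟩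

theorem drop9 (hF : ∀ f ∈ Fs, ∃ c, facetTest 6 band ks f c = true) {s : ℝ}
    (hs : band.Mem s) : DropGain (-s) (1 / s ^ 2) (coord 6 ks s)
      (fun i => (H 9 i : ℝ) / (10000000 : ℕ)) S9.a ((S9.L : ℝ) / (10000000 : ℕ)) :=
  S9.drop_of_tests (r := 16) (n := 20) (K := 40) (T := (.cut 1 22428503 (.cut 1 16265127 (.leaf [0, 3425820396807024582414303232] []) (.cut 1 20464830 (.leaf [] [0, 0, 34180892, 32258016]) (.leaf [0, 0, 3425820396711573778983813120] []))) (.leaf [0, 0, 3425820398522198400314638336] [])))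
    (cw := ⟨64, 303, 24, (.cut 2 32 (.out 0) (.cut 1 32 (.out 0) (.cut 2 48 (.cut 1 48 (.out 0) (.cut 1 56 (.out 0) (.cut 2 40 (.out 2) (.cut 1 60 (.out 0) (.cut 0 1378 (.out 2) (.cut 2 44 (.out 2) (.cut 1 62 (.out 0) (.cut 0 1497 (.mult []) (.cut 2 46 (.mult [(2, 1569275433846670190958947355801916604025588861116008628224)]) (.mult [])))))))))) (.cut 1 48 (.cut 2 56 (.out 0) (.out 3)) (.cut 2 56 (.mult []) (.cut 1 56 (.mult []) (.cut 2 60 (.cut 1 60 (.mult []) (.mult [])) (.cut 1 60 (.mult []) (.mult [])))))))))⟩)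
    (cu := ⟨16, 206, 24, (.cut 1 8 (.cut 2 8 (.mult []) (.cut 2 12 (.mult []) (.out 0))) (.cut 2 8 (.cut 1 12 (.mult []) (.cut 1 14 (.mult []) (.cut 2 4 (.mult []) (.cut 2 6 (.mult []) (.mult []))))) (.cut 1 12 (.cut 2 12 (.mult []) (.cut 2 14 (.mult []) (.out 0))) (.cut 2 12 (.cut 1 14 (.mult []) (.mult [])) (.cut 1 14 (.cut 2 14 (.mult []) (.mult [])) (.mult []))))))⟩)
    (by norm_num) ks_sum (by decide +kernel) (by decide +kernel) (by decide +kernel) hF
    (by decide +kernel) hs

/-- step 10 -/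
def S10 : Step 6 := ⟨1000000000000000, 6, 2212510, ![(-206475790000000), 0, 320561960000000, 202034690000000, 0, (-270927560000000)], 45596460000000, ![0, 187183920000000, 0, (-268107880000000), (-169929580000000), 0, 212605300000000], ![0, 0, 0, 0, 0, 0, 0], 0, 3120000000, ![187183920000000, 0, (-268107880000000), (-169929580000000), 0, 212605300000000], ⟨132560000000, 36732040000000, 2491250000000, 6229680000000⟩, ⟨45460780000000, (-36732040000000), (-2491250000000), (-6229680000000)⟩⟩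

theorem drop10 (hF : ∀ f ∈ Fs, ∃ c, facetTest 6 band ks f c = true) {s : ℝ}
    (hs : band.Mem s) : DropGain (-s) (1 / s ^ 2) (coord 6 ks s)
      (fun i => (H 10 i : ℝ) / (10000000 : ℕ)) S10.a ((S10.L : ℝ) / (10000000 : ℕ)) :=
  S10.drop_of_tests (r := 16) (n := 20) (K := 40) (T := (.cut 1 19703988 (.cut 1 13641956 (.leaf [0, 3524616024544677085283614720] []) (.cut 1 17740213 (.leaf [] [0, 0, 28589783, 27688848]) (.leaf [0, 0, 3524616024465213730676801536] []))) (.leaf [0, 0, 3524616026320081600397705216] [])))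
    (cw := ⟨64, 303, 24, (.cut 2 32 (.out 0) (.cut 1 32 (.out 0) (.cut 2 48 (.cut 1 48 (.out 0) (.cut 1 56 (.out 0) (.cut 2 40 (.out 2) (.cut 1 60 (.out 0) (.cut 0 1378 (.out 2) (.cut 2 44 (.out 2) (.cut 1 62 (.out 0) (.cut 0 1497 (.mult []) (.cut 2 46 (.mult [(2, 1569275433846670190958947355801916604025588861116008628224)]) (.mult [])))))))))) (.cut 1 48 (.cut 2 56 (.out 0) (.out 3)) (.cut 2 56 (.mult []) (.cut 1 56 (.mult []) (.cut 2 60 (.cut 1 60 (.mult []) (.mult [])) (.cut 1 60 (.mult []) (.mult [])))))))))⟩)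
    (cu := ⟨16, 206, 24, (.cut 1 8 (.cut 2 8 (.mult []) (.cut 2 12 (.mult []) (.out 0))) (.cut 2 8 (.cut 1 12 (.mult []) (.mult [])) (.cut 1 12 (.cut 2 12 (.mult []) (.cut 2 14 (.mult []) (.out 0))) (.cut 2 12 (.cut 1 14 (.mult []) (.cut 1 15 (.mult []) (.cut 1 16 (.mult []) (.mult [])))) (.cut 1 14 (.cut 2 14 (.mult []) (.mult [])) (.mult []))))))⟩)
    (by norm_num) ks_sum (by decide +kernel) (by decide +kernel) (by decide +kernel) hF
    (by decide +kernel) hs

/-- step 11 -/
def S11 : Step 6 := ⟨1000000000000000, 0, 2011633, ![0, 0, 283859100000000, 334738360000000, 0, (-381402550000000)], 236262820000000, ![0, 0, 0, (-239971030000000), (-284295860000000), 0, 312006000000000], ![0, 0, 0, 0, 0, 0, 21452660000000], 35714230000000, 25930000000, ![0, 0, (-239971030000000), (-284295860000000), 0, 333458660000000], ⟨103750000000, 59812160000000, (-2391560000000), 2491930000000⟩, ⟨238571109886099, (-95526390000000), 2391560000000, (-2491930000000)⟩⟩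

theorem drop11 (hF : ∀ f ∈ Fs, ∃ c, facetTest 6 band ks f c = true) {s : ℝ}
    (hs : band.Mem s) : DropGain (-s) (1 / s ^ 2) (coord 6 ks s)
      (fun i => (H 11 i : ℝ) / (10000000 : ℕ)) S11.a ((S11.L : ℝ) / (10000000 : ℕ)) :=
  S11.drop_of_tests (r := 16) (n := 20) (K := 40) (T := (.cut 6 28839972 (.leaf [0, 0, 0, 0, 0, 4193565386290971249312006144] []) (.leaf [] [0, 0, 26873565, 26133401])))
    (cw := ⟨64, 303, 24, (.cut 2 32 (.out 0) (.cut 1 32 (.out 0) (.cut 2 48 (.cut 1 48 (.out 0) (.mult [(0, 1569275433846670190958947355801916604025588861116008628224)])) (.cut 1 48 (.mult [(0, 1569275433846670190958947355801916604025588861116008628224)]) (.cut 2 56 (.cut 1 56 (.out 0) (.mult [(0, 171639500576979552136134867040834628565298781684563443712)])) (.cut 1 56 (.mult [(0, 171639500576979552136134867040834628565298781684563443712)]) (.mult [])))))))⟩)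
    (cu := ⟨256, 301, 24, (.cut 2 128 (.cut 1 128 (.mult []) (.mult [])) (.cut 1 128 (.mult []) (.cut 2 192 (.mult []) (.cut 1 192 (.mult []) (.mult [])))))⟩)
    (by norm_num) ks_sum (by decide +kernel) (by decide +kernel) (by decide +kernel) hF
    (by decide +kernel) hs

/-- step 12 -/
def S12 : Step 6 := ⟨1000000000000000, 6, 1856158, ![(-208177070000000), 0, 324371800000000, 197115300000000, 0, (-270335830000000)], 43258610000000, ![0, 191862080000000, 0, (-278787370000000), (-170735880000000), 0, 220585320000000], ![0, 0, 0, 0, 0, 0, 0], 0, 2750000000, ![191862080000000, 0, (-278787370000000), (-170735880000000), 0, 220585320000000], ⟨76350000000, 35820740000000, 2010460000000, 5341440000000⟩, ⟨43179510000000, (-35820740000000), (-2010460000000), (-5341440000000)⟩⟩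

theorem drop12 (hF : ∀ f ∈ Fs, ∃ c, facetTest 6 band ks f c = true) {s : ℝ}
    (hs : band.Mem s) : DropGain (-s) (1 / s ^ 2) (coord 6 ks s)
      (fun i => (H 12 i : ℝ) / (10000000 : ℕ)) S12.a ((S12.L : ℝ) / (10000000 : ℕ)) :=
  S12.drop_of_tests (r := 16) (n := 20) (K := 40) (T := (.cut 1 16630395 (.cut 1 11442068 (.leaf [0, 3566505658325769141557919744] []) (.cut 1 14665746 (.leaf [] [0, 0, 24230562, 22987366]) (.leaf [0, 0, 3566505658260173377356431360] []))) (.leaf [0, 0, 3566505660166868926675812352] [])))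
    (cw := ⟨64, 303, 24, (.cut 2 32 (.out 0) (.cut 1 32 (.out 0) (.cut 2 48 (.cut 1 48 (.out 0) (.cut 1 56 (.out 0) (.cut 2 40 (.out 2) (.cut 1 60 (.out 0) (.cut 0 1378 (.out 2) (.cut 2 44 (.out 2) (.cut 1 62 (.out 0) (.cut 0 1497 (.mult []) (.cut 2 46 (.mult [(2, 1569275433846670190958947355801916604025588861116008628224)]) (.mult [])))))))))) (.cut 1 48 (.cut 2 56 (.out 0) (.out 3)) (.cut 2 56 (.mult []) (.cut 1 56 (.mult []) (.cut 2 60 (.mult []) (.cut 1 60 (.mult []) (.mult [])))))))))⟩)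
    (cu := ⟨16, 206, 24, (.cut 2 8 (.cut 1 8 (.mult []) (.mult [])) (.cut 1 8 (.mult []) (.cut 2 12 (.cut 1 12 (.mult []) (.cut 1 14 (.mult []) (.cut 2 10 (.cut 1 15 (.mult []) (.cut 1 16 (.mult []) (.mult []))) (.mult [])))) (.cut 1 12 (.cut 2 14 (.mult []) (.out 0)) (.cut 2 14 (.cut 1 14 (.mult []) (.mult [])) (.mult []))))))⟩)
    (by norm_num) ks_sum (by decide +kernel) (by decide +kernel) (by decide +kernel) hF
    (by decide +kernel) hs

/-- step 13 -/
def S13 : Step 6 := ⟨1000000000000000, 0, 1601461, ![(-211892900000000), 0, 324205950000000, 196049180000000, 0, (-267851970000000)], 40143190000000, ![0, 197419170000000, 0, (-283892950000000), (-172684500000000), 0, 227199980000000], ![0, 0, 0, 0, 0, 0, 0], 3760900000000, 2520000000, ![197419170000000, 0, (-283892950000000), (-172684500000000), 0, 227199980000000], ⟨34380000000, 32637930000000, 978510000000, 3324930000000⟩, ⟨40708583467490, (-36398830000000), (-978510000000), (-3324930000000)⟩⟩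

theorem drop13 (hF : ∀ f ∈ Fs, ∃ c, facetTest 6 band ks f c = true) {s : ℝ}
    (hs : band.Mem s) : DropGain (-s) (1 / s ^ 2) (coord 6 ks s)
      (fun i => (H 13 i : ℝ) / (10000000 : ℕ)) S13.a ((S13.L : ℝ) / (10000000 : ℕ)) :=
  S13.drop_of_tests (r := 16) (n := 20) (K := 40) (T := (.cut 1 14712841 (.cut 1 9885093 (.leaf [0, 0, 0, 3564682118280275204803395584, 0, 189802859202345344] []) (.cut 1 12747831 (.cut 6 22954715 (.leaf [0, 0, 0, 0, 0, 3564682118437108993633550336] []) (.cut 6 24640668 (.leaf [0, 0, 0, 80694676282465, 0, 39968386525583944] [0, 0, 21245077, 20303891]) (.leaf [] [0, 0, 21245077, 20303891]))) (.leaf [0, 0, 10599183241168552970013376512] []))) (.leaf [0, 0, 3564682120188383076808654848] [])))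
    (cw := ⟨64, 303, 24, (.cut 2 32 (.out 0) (.cut 1 32 (.out 0) (.cut 2 48 (.cut 1 48 (.out 0) (.cut 1 56 (.out 0) (.cut 2 40 (.out 2) (.cut 1 60 (.out 0) (.cut 0 1378 (.out 2) (.cut 2 44 (.out 2) (.cut 1 62 (.out 0) (.cut 0 1497 (.mult []) (.cut 2 46 (.mult [(2, 784637716923335095479473677900958302012794430558004314112)]) (.mult [])))))))))) (.cut 1 48 (.cut 2 56 (.out 0) (.out 3)) (.cut 2 56 (.mult []) (.cut 1 56 (.mult []) (.cut 2 60 (.mult []) (.mult []))))))))⟩)
    (cu := ⟨16, 206, 24, (.cut 2 8 (.cut 1 8 (.mult []) (.mult [])) (.cut 1 8 (.mult []) (.cut 2 12 (.cut 1 12 (.mult []) (.cut 1 14 (.mult []) (.cut 2 10 (.cut 1 15 (.mult []) (.cut 1 16 (.mult []) (.mult []))) (.mult [])))) (.cut 1 12 (.cut 2 14 (.mult []) (.out 0)) (.cut 2 14 (.cut 1 14 (.mult []) (.mult [])) (.mult []))))))⟩)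
    (by norm_num) ks_sum (by decide +kernel) (by decide +kernel) (by decide +kernel) hF
    (by decide +kernel) hs

/-- step 14 -/
def S14 : Step 6 := ⟨1000000000000000, 6, 1557200, ![(-209696960000000), 0, 326693040000000, 193912600000000, 0, (-269697400000000)], 41409630000000, ![0, 195891030000000, 0, (-287766600000000), (-171712510000000), 0, 227390770000000], ![0, 0, 0, 0, 0, 0, 0], 0, 2640000000, ![195891030000000, 0, (-287766600000000), (-171712510000000), 0, 227390770000000], ⟨53410000000, 35007580000000, 1640270000000, 4699120000000⟩, ⟨41353580000000, (-35007580000000), (-1640270000000), (-4699120000000)⟩⟩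

theorem drop14 (hF : ∀ f ∈ Fs, ∃ c, facetTest 6 band ks f c = true) {s : ℝ}
    (hs : band.Mem s) : DropGain (-s) (1 / s ^ 2) (coord 6 ks s)
      (fun i => (H 14 i : ℝ) / (10000000 : ℕ)) S14.a ((S14.L : ℝ) / (10000000 : ℕ)) :=
  S14.drop_of_tests (r := 16) (n := 20) (K := 40) (T := (.cut 1 14154387 (.cut 1 9596392 (.leaf [0, 3592027962018915772413247488] []) (.cut 1 12189108 (.leaf [] [0, 0, 20299405, 19453747]) (.leaf [0, 0, 3592027961965293140082425856] []))) (.leaf [0, 0, 3592027963916085702745391104] [])))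
    (cw := ⟨64, 303, 24, (.cut 2 32 (.out 0) (.cut 1 32 (.out 0) (.cut 2 48 (.cut 1 48 (.out 0) (.cut 1 56 (.out 0) (.cut 2 40 (.out 2) (.cut 1 60 (.out 0) (.cut 0 1378 (.out 2) (.cut 2 44 (.out 2) (.cut 1 62 (.out 0) (.cut 0 1497 (.mult []) (.cut 2 46 (.mult [(2, 1569275433846670190958947355801916604025588861116008628224)]) (.mult [])))))))))) (.cut 1 48 (.cut 2 56 (.out 0) (.out 3)) (.cut 2 56 (.mult []) (.cut 1 56 (.mult []) (.cut 2 60 (.mult []) (.cut 1 60 (.mult []) (.mult [])))))))))⟩)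
    (cu := ⟨16, 206, 24, (.cut 2 8 (.cut 1 8 (.mult []) (.mult [])) (.cut 1 8 (.mult []) (.cut 2 12 (.cut 1 12 (.mult []) (.cut 1 14 (.mult []) (.cut 2 10 (.cut 1 15 (.mult []) (.cut 1 16 (.mult []) (.mult []))) (.mult [])))) (.cut 1 12 (.cut 2 14 (.mult []) (.out 0)) (.cut 2 14 (.cut 1 14 (.mult []) (.mult [])) (.mult []))))))⟩)
    (by norm_num) ks_sum (by decide +kernel) (by decide +kernel) (by decide +kernel) hF
    (by decide +kernel) hs

/-- step 15 -/
def S15 : Step 6 := ⟨1000000000000000, 0, 1336442, ![(-212683780000000), 0, 325855500000000, 193859900000000, 0, (-267600830000000)], 39190920000000, ![0, 200527380000000, 0, (-291618510000000), (-174465520000000), 0, 233157450000000], ![0, 0, 0, 0, 0, 0, 0], 3081290000000, 1410000000, ![200527380000000, 0, (-291618510000000), (-174465520000000), 0, 233157450000000], ⟨21950000000, 32595250000000, 799120000000, 3100150000000⟩, ⟨39579356537018, (-35676540000000), (-799120000000), (-3100150000000)⟩⟩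

theorem drop15 (hF : ∀ f ∈ Fs, ∃ c, facetTest 6 band ks f c = true) {s : ℝ}
    (hs : band.Mem s) : DropGain (-s) (1 / s ^ 2) (coord 6 ks s)
      (fun i => (H 15 i : ℝ) / (10000000 : ℕ)) S15.a ((S15.L : ℝ) / (10000000 : ℕ)) :=
  S15.drop_of_tests (r := 16) (n := 20) (K := 40) (T := (.cut 1 12545674 (.cut 1 8246330 (.leaf [0, 0, 0, 3582819112322044674281832448, 0, 161063619730511456] []) (.cut 1 10580137 (.cut 6 19153252 (.leaf [0, 0, 0, 0, 0, 3582819112457046010475053056] []) (.cut 6 20593739 (.cut 1 8898159 (.leaf [0, 0, 0, 11671868217805826, 0, 35041917669842272] [0, 0, 17761209, 16865377]) (.leaf [0, 0, 8310585863206585645307789312, 0, 0, 787830465914092045056606208] [])) (.leaf [] [0, 0, 17761209, 16865377]))) (.leaf [0, 0, 10653111562616186426351419392] []))) (.leaf [0, 0, 3582819114275703663758409728] [])))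
    (cw := ⟨64, 303, 24, (.cut 2 32 (.out 0) (.cut 1 32 (.out 0) (.cut 2 48 (.cut 1 48 (.out 0) (.cut 1 56 (.out 0) (.cut 2 40 (.out 2) (.cut 1 60 (.out 0) (.cut 0 1378 (.out 2) (.cut 2 44 (.out 2) (.cut 1 62 (.out 0) (.cut 0 1497 (.mult []) (.cut 2 46 (.mult [(2, 588478287692501321609605258425718726509595822918503235584)]) (.mult [])))))))))) (.cut 1 48 (.cut 2 56 (.out 0) (.out 3)) (.cut 2 56 (.mult []) (.cut 1 56 (.mult []) (.cut 2 60 (.mult []) (.mult []))))))))⟩)
    (cu := ⟨16, 206, 24, (.cut 1 8 (.cut 2 8 (.mult []) (.mult [])) (.cut 2 8 (.mult []) (.cut 1 12 (.cut 2 12 (.mult []) (.cut 2 14 (.mult []) (.out 0))) (.cut 2 12 (.cut 1 14 (.mult []) (.cut 1 15 (.mult []) (.cut 1 16 (.cut 2 10 (.mult []) (.mult [])) (.cut 2 10 (.mult []) (.mult []))))) (.cut 1 14 (.cut 2 14 (.mult []) (.mult [])) (.cut 2 14 (.mult []) (.mult [])))))))⟩)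
    (by norm_num) ks_sum (by decide +kernel) (by decide +kernel) (by decide +kernel) hF
    (by decide +kernel) hs

/-- step 16 -/
def S16 : Step 6 := ⟨1000000000000000, 6, 1306394, ![(-210884830000000), 0, 328709310000000, 191187490000000, 0, (-269218380000000)], 39941810000000, ![0, 199179060000000, 0, (-295524170000000), (-172618450000000), 0, 233310320000000], ![0, 0, 0, 0, 0, 0, 0], 0, 2550000000, ![199179060000000, 0, (-295524170000000), (-172618450000000), 0, 233310320000000], ⟨37170000000, 34374850000000, 1332810000000, 4188040000000⟩, ⟨39902090000000, (-34374850000000), (-1332810000000), (-4188040000000)⟩⟩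

theorem drop16 (hF : ∀ f ∈ Fs, ∃ c, facetTest 6 band ks f c = true) {s : ℝ}
    (hs : band.Mem s) : DropGain (-s) (1 / s ^ 2) (coord 6 ks s)
      (fun i => (H 16 i : ℝ) / (10000000 : ℕ)) S16.a ((S16.L : ℝ) / (10000000 : ℕ)) :=
  S16.drop_of_tests (r := 16) (n := 20) (K := 40) (T := (.cut 1 12184848 (.cut 1 8047883 (.leaf [0, 3614197085103614600975220736] []) (.cut 1 10219148 (.leaf [] [0, 0, 17027708, 16347344]) (.leaf [0, 0, 3614197085060323529654796288] []))) (.leaf [0, 0, 3614197087046645711057715200] [])))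
    (cw := ⟨64, 303, 24, (.cut 2 32 (.out 0) (.cut 1 32 (.out 0) (.cut 2 48 (.cut 1 48 (.out 0) (.cut 1 56 (.out 0) (.cut 2 40 (.out 2) (.cut 1 60 (.out 0) (.cut 0 1378 (.out 2) (.cut 2 44 (.out 2) (.cut 1 62 (.out 0) (.cut 0 1497 (.mult []) (.cut 2 46 (.mult [(2, 1569275433846670190958947355801916604025588861116008628224)]) (.mult [])))))))))) (.cut 1 48 (.cut 2 56 (.out 0) (.out 3)) (.cut 2 56 (.mult []) (.cut 1 56 (.mult []) (.cut 2 60 (.mult []) (.cut 1 60 (.mult []) (.mult [])))))))))⟩)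
    (cu := ⟨16, 206, 24, (.cut 1 8 (.cut 2 8 (.mult []) (.mult [])) (.cut 2 8 (.mult []) (.cut 1 12 (.cut 2 12 (.mult []) (.cut 2 14 (.mult []) (.out 0))) (.cut 2 12 (.cut 1 14 (.mult []) (.cut 1 15 (.mult []) (.cut 1 16 (.mult []) (.mult [])))) (.cut 1 14 (.cut 2 14 (.mult []) (.mult [])) (.mult []))))))⟩)
    (by norm_num) ks_sum (by decide +kernel) (by decide +kernel) (by decide +kernel) hF
    (by decide +kernel) hs

/-- step 17 -/
def S17 : Step 6 := ⟨1000000000000000, 6, 1095983, ![(-64870460000000), 0, 310343510000000, 274454550000000, 0, (-350331490000000)], 169827230000000, ![0, 61779180000000, 0, (-283709070000000), (-251596050000000), 0, 310684980000000], ![0, 0, 0, 0, 0, 0, 0], 0, 2510000000, ![61779180000000, 0, (-283709070000000), (-251596050000000), 0, 310684980000000], ⟨44210000000, 64414410000000, 1878380000000, 7648450000000⟩, ⟨169780510000000, (-64414410000000), (-1878380000000), (-7648450000000)⟩⟩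

theorem drop17 (hF : ∀ f ∈ Fs, ∃ c, facetTest 6 band ks f c = true) {s : ℝ}
    (hs : band.Mem s) : DropGain (-s) (1 / s ^ 2) (coord 6 ks s)
      (fun i => (H 17 i : ℝ) / (10000000 : ℕ)) S17.a ((S17.L : ℝ) / (10000000 : ℕ)) :=
  S17.drop_of_tests (r := 16) (n := 20) (K := 40) (T := (.cut 1 10835244 (.cut 1 6748476 (.leaf [0, 3851935468330070903734927360] []) (.cut 1 8869494 (.leaf [] [0, 0, 14356875, 13913736]) (.leaf [0, 0, 3851935468319517241375719424] []))) (.leaf [0, 0, 3851935468935744030720917504] [])))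
    (cw := ⟨64, 304, 24, (.cut 2 32 (.out 0) (.cut 1 32 (.out 0) (.cut 2 48 (.cut 1 48 (.out 0) (.cut 1 56 (.out 0) (.cut 2 40 (.out 2) (.cut 1 60 (.out 0) (.cut 0 1378 (.out 2) (.cut 2 44 (.out 2) (.cut 1 62 (.out 0) (.cut 0 1497 (.mult []) (.cut 2 46 (.mult [(2, 2353913150770005286438421033702874906038383291674012942336)]) (.mult [])))))))))) (.cut 1 48 (.cut 2 56 (.out 0) (.out 3)) (.cut 2 56 (.mult []) (.cut 1 56 (.mult []) (.cut 2 60 (.mult []) (.cut 1 60 (.mult []) (.mult [])))))))))⟩)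
    (cu := ⟨16, 207, 24, (.cut 1 8 (.cut 2 8 (.mult []) (.cut 2 12 (.mult []) (.out 0))) (.cut 2 8 (.cut 1 12 (.mult []) (.cut 1 14 (.mult []) (.cut 1 15 (.mult []) (.mult [])))) (.cut 1 12 (.cut 2 12 (.mult []) (.cut 2 14 (.mult []) (.out 0))) (.cut 2 12 (.cut 1 14 (.mult []) (.cut 1 15 (.mult []) (.cut 1 16 (.cut 2 10 (.mult []) (.mult [])) (.cut 2 10 (.mult []) (.mult []))))) (.cut 1 14 (.cut 2 14 (.mult []) (.mult [])) (.cut 2 14 (.mult []) (.mult [])))))))⟩)
    (by norm_num) ks_sum (by decide +kernel) (by decide +kernel) (by decide +kernel) hF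
    (by decide +kernel) hs

/-- step 18 -/
def S18 : Step 6 := ⟨1000000000000000, 0, 1037872, ![0, 0, 274161230000000, 345025570000000, 0, (-380813210000000)], 238200210000000, ![0, 0, 0, (-252272820000000), (-317979680000000), 0, 344104140000000], ![0, 0, 0, 0, 0, 0, 14917970000000], 21135780000000, 7890000000, ![0, 0, (-252272820000000), (-317979680000000), 0, 359022110000000], ⟨41190000000, 68531790000000, (-1866410000000), 3791680000000⟩, ⟨238709769274565, (-89667570000000), 1866410000000, (-3791680000000)⟩⟩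

theorem drop18 (hF : ∀ f ∈ Fs, ∃ c, facetTest 6 band ks f c = true) {s : ℝ}
    (hs : band.Mem s) : DropGain (-s) (1 / s ^ 2) (coord 6 ks s)
      (fun i => (H 18 i : ℝ) / (10000000 : ℕ)) S18.a ((S18.L : ℝ) / (10000000 : ℕ)) :=
  S18.drop_of_tests (r := 16) (n := 20) (K := 40) (T := (.cut 6 14872519 (.leaf [0, 0, 0, 0, 0, 4187085524271948302120910848] []) (.leaf [] [0, 0, 13312839, 13060968])))
    (cw := ⟨64, 303, 24, (.cut 2 32 (.out 0) (.cut 1 32 (.out 0) (.cut 2 48 (.mult [(0, 2942391438462506608048026292128593632547979114592516177920)]) (.cut 1 48 (.mult [(0, 1569275433846670190958947355801916604025588861116008628224)]) (.cut 2 56 (.cut 1 56 (.out 0) (.mult [(0, 98079714615416886934934209737619787751599303819750539264)])) (.cut 1 56 (.mult [(0, 98079714615416886934934209737619787751599303819750539264)]) (.mult [])))))))⟩)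
    (cu := ⟨64, 254, 24, (.cut 2 32 (.cut 1 32 (.mult []) (.cut 1 48 (.mult []) (.cut 2 16 (.mult []) (.cut 1 56 (.mult []) (.cut 2 24 (.mult []) (.cut 1 60 (.mult []) (.mult []))))))) (.cut 1 32 (.cut 2 48 (.mult []) (.out 0)) (.cut 2 48 (.cut 1 48 (.mult []) (.mult [])) (.cut 1 48 (.mult []) (.cut 2 56 (.mult []) (.mult []))))))⟩)
    (by norm_num) ks_sum (by decide +kernel) (by decide +kernel) (by decide +kernel) hF
    (by decide +kernel) hs

/-- step 19 -/
def S19 : Step 6 := ⟨1000000000000000, 6, 919461, ![0, 0, 298512000000000, 315672790000000, 0, (-385815210000000)], 228590690000000, ![0, 0, 0, (-276913230000000), (-293546290000000), 0, 348835110000000], ![0, 0, 0, 0, 0, 0, 0], 0, 2490000000, ![0, 0, (-276913230000000), (-293546290000000), 0, 348835110000000], ⟨35520000000, 78442660000000, 1892370000000, 8705080000000⟩, ⟨228552680000000, (-78442660000000), (-1892370000000), (-8705080000000)⟩⟩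

theorem drop19 (hF : ∀ f ∈ Fs, ∃ c, facetTest 6 band ks f c = true) {s : ℝ}
    (hs : band.Mem s) : DropGain (-s) (1 / s ^ 2) (coord 6 ks s)
      (fun i => (H 19 i : ℝ) / (10000000 : ℕ)) S19.a ((S19.L : ℝ) / (10000000 : ℕ)) :=
  S19.drop_of_tests (r := 16) (n := 20) (K := 40) (T := (.leaf [] [0, 0, 12016948, 11627337]))
    (cw := ⟨64, 304, 24, (.cut 2 32 (.out 0) (.cut 1 32 (.out 0) (.cut 2 48 (.cut 1 48 (.out 0) (.cut 1 56 (.out 0) (.cut 2 40 (.out 2) (.cut 1 60 (.out 0) (.cut 0 1378 (.out 2) (.cut 2 44 (.out 2) (.cut 1 62 (.out 0) (.cut 0 1497 (.mult []) (.cut 2 46 (.mult [(2, 2353913150770005286438421033702874906038383291674012942336)]) (.mult [])))))))))) (.cut 1 48 (.cut 2 56 (.out 0) (.out 3)) (.cut 2 56 (.mult []) (.cut 1 56 (.mult []) (.cut 2 60 (.mult []) (.cut 1 60 (.mult []) (.mult [])))))))))⟩)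
    (cu := ⟨16, 207, 24, (.cut 1 8 (.cut 2 8 (.mult []) (.cut 2 12 (.mult []) (.out 0))) (.cut 2 8 (.cut 1 12 (.mult []) (.cut 1 14 (.mult []) (.cut 1 15 (.mult []) (.cut 1 16 (.mult []) (.mult []))))) (.cut 1 12 (.cut 2 12 (.mult []) (.cut 2 14 (.mult []) (.out 0))) (.cut 2 12 (.cut 1 14 (.mult []) (.cut 1 15 (.mult []) (.cut 1 16 (.mult []) (.mult [])))) (.cut 1 14 (.cut 2 14 (.mult []) (.mult [])) (.cut 2 14 (.mult []) (.mult [])))))))⟩)
    (by norm_num) ks_sum (by decide +kernel) (by decide +kernel) (by decide +kernel) hF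
    (by decide +kernel) hs

/-- step 20 -/
def S20 : Step 6 := ⟨1000000000000000, 0, 840475, ![0, 0, 291290250000000, 324038990000000, 0, (-384670770000000)], 230648780000000, ![0, 0, 0, (-272503560000000), (-303718730000000), 0, 353791600000000], ![0, 0, 0, 0, 0, 0, 0], 2269900000000, 2850000000, ![0, 0, (-272503560000000), (-303718730000000), 0, 353791600000000], ⟨26030000000, 78013630000000, 1246130000000, 7450420000000⟩, ⟨230810679420250, (-80283530000000), (-1246130000000), (-7450420000000)⟩⟩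

theorem drop20 (hF : ∀ f ∈ Fs, ∃ c, facetTest 6 band ks f c = true) {s : ℝ}
    (hs : band.Mem s) : DropGain (-s) (1 / s ^ 2) (coord 6 ks s)
      (fun i => (H 20 i : ℝ) / (10000000 : ℕ)) S20.a ((S20.L : ℝ) / (10000000 : ℕ)) :=
  S20.drop_of_tests (r := 16) (n := 20) (K := 40) (T := (.cut 6 12040295 (.leaf [0, 0, 0, 0, 0, 4229499844989772114736185344] []) (.leaf [] [0, 0, 10666962, 10361889])))
    (cw := ⟨64, 303, 24, (.cut 2 32 (.out 0) (.cut 1 32 (.out 0) (.cut 2 48 (.cut 1 48 (.out 0) (.cut 1 56 (.out 0) (.cut 2 40 (.out 2) (.cut 1 60 (.out 0) (.cut 0 1378 (.out 2) (.cut 2 44 (.out 2) (.cut 1 62 (.out 0) (.cut 0 1497 (.mult []) (.cut 2 46 (.mult [(2, 1176956575385002643219210516851437453019191645837006471168)]) (.mult [])))))))))) (.cut 1 48 (.cut 2 56 (.out 0) (.out 3)) (.cut 2 56 (.mult []) (.cut 1 56 (.mult []) (.mult [])))))))⟩)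
    (cu := ⟨16, 207, 24, (.cut 2 8 (.cut 1 8 (.mult []) (.cut 1 12 (.mult []) (.cut 2 4 (.mult []) (.cut 1 14 (.mult []) (.cut 2 6 (.mult []) (.cut 1 15 (.mult []) (.cut 1 16 (.mult []) (.mult [])))))))) (.cut 1 8 (.cut 2 12 (.mult []) (.out 0)) (.cut 2 12 (.cut 1 12 (.mult []) (.cut 1 14 (.mult []) (.cut 2 10 (.cut 1 15 (.mult []) (.cut 1 16 (.mult []) (.mult []))) (.mult [])))) (.cut 1 12 (.cut 2 14 (.mult []) (.out 0)) (.cut 2 14 (.cut 1 14 (.mult []) (.mult [])) (.cut 1 14 (.mult []) (.mult [])))))))⟩)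
    (by norm_num) ks_sum (by decide +kernel) (by decide +kernel) (by decide +kernel) hF
    (by decide +kernel) hs

/-- step 21 -/
def S21 : Step 6 := ⟨1000000000000000, 6, 771371, ![0, 0, 292871440000000, 322066250000000, 0, (-385062300000000)], 230025240000000, ![0, 0, 0, (-275004260000000), (-302883770000000), 0, 353849870000000], ![0, 0, 0, 0, 0, 0, 0], 0, 2220000000, ![0, 0, (-275004260000000), (-302883770000000), 0, 353849870000000], ⟨25170000000, 79152390000000, 1577280000000, 8060530000000⟩, ⟨229997850000000, (-79152390000000), (-1577280000000), (-8060530000000)⟩⟩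

theorem drop21 (hF : ∀ f ∈ Fs, ∃ c, facetTest 6 band ks f c = true) {s : ℝ}
    (hs : band.Mem s) : DropGain (-s) (1 / s ^ 2) (coord 6 ks s)
      (fun i => (H 21 i : ℝ) / (10000000 : ℕ)) S21.a ((S21.L : ℝ) / (10000000 : ℕ)) :=
  S21.drop_of_tests (r := 16) (n := 20) (K := 40) (T := (.leaf [] [0, 0, 10071544, 9825302]))
    (cw := ⟨64, 303, 24, (.cut 2 32 (.out 0) (.cut 1 32 (.out 0) (.cut 2 48 (.cut 1 48 (.out 0) (.cut 1 56 (.out 0) (.cut 2 40 (.out 2) (.cut 1 60 (.out 0) (.cut 0 1378 (.out 2) (.cut 2 44 (.out 2) (.cut 1 62 (.out 0) (.cut 0 1497 (.mult []) (.cut 2 46 (.mult [(2, 1569275433846670190958947355801916604025588861116008628224)]) (.mult [])))))))))) (.cut 1 48 (.cut 2 56 (.out 0) (.out 3)) (.cut 2 56 (.mult []) (.cut 1 56 (.mult []) (.cut 2 60 (.mult []) (.mult []))))))))⟩)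
    (cu := ⟨16, 207, 24, (.cut 2 8 (.cut 1 8 (.mult []) (.cut 1 12 (.mult []) (.cut 2 4 (.mult []) (.cut 1 14 (.mult []) (.cut 2 6 (.mult []) (.cut 1 15 (.mult []) (.cut 1 16 (.mult []) (.mult [])))))))) (.cut 1 8 (.cut 2 12 (.mult []) (.out 0)) (.cut 2 12 (.cut 1 12 (.mult []) (.cut 1 14 (.mult []) (.cut 2 10 (.cut 1 15 (.mult []) (.cut 1 16 (.mult []) (.mult []))) (.mult [])))) (.cut 1 12 (.cut 2 14 (.mult []) (.out 0)) (.cut 2 14 (.cut 1 14 (.mult []) (.mult [])) (.cut 1 14 (.mult []) (.mult [])))))))⟩)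
    (by norm_num) ks_sum (by decide +kernel) (by decide +kernel) (by decide +kernel) hF
    (by decide +kernel) hs

/-- step 22 -/
def S22 : Step 6 := ⟨1000000000000000, 0, 694578, ![0, 0, 287588180000000, 328250140000000, 0, (-384161680000000)], 231669550000000, ![0, 0, 0, (-272009140000000), (-311060110000000), 0, 358286690000000], ![0, 0, 0, 0, 0, 0, 0], 1993990000000, 1870000000, ![0, 0, (-272009140000000), (-311060110000000), 0, 358286690000000], ⟨16260000000, 78756880000000, 1039880000000, 7037750000000⟩, ⟨231789918158622, (-80750870000000), (-1039880000000), (-7037750000000)⟩⟩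

theorem drop22 (hF : ∀ f ∈ Fs, ∃ c, facetTest 6 band ks f c = true) {s : ℝ}
    (hs : band.Mem s) : DropGain (-s) (1 / s ^ 2) (coord 6 ks s)
      (fun i => (H 22 i : ℝ) / (10000000 : ℕ)) S22.a ((S22.L : ℝ) / (10000000 : ℕ)) :=
  S22.drop_of_tests (r := 16) (n := 20) (K := 40) (T := (.cut 6 9947268 (.leaf [0, 0, 0, 0, 0, 4223902341215505450513989632] []) (.leaf [] [0, 0, 8911017, 8606363])))
    (cw := ⟨64, 303, 24, (.cut 2 32 (.out 0) (.cut 1 32 (.out 0) (.cut 2 48 (.cut 1 48 (.out 0) (.cut 1 56 (.out 0) (.cut 2 40 (.out 2) (.cut 1 60 (.out 0) (.cut 0 1378 (.out 2) (.cut 2 44 (.out 2) (.cut 1 62 (.out 0) (.cut 0 1497 (.mult []) (.cut 2 46 (.mult [(2, 784637716923335095479473677900958302012794430558004314112)]) (.mult [])))))))))) (.cut 1 48 (.cut 2 56 (.out 0) (.out 3)) (.cut 2 56 (.mult []) (.cut 1 56 (.mult []) (.mult [])))))))⟩)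
    (cu := ⟨16, 207, 24, (.cut 2 8 (.cut 1 8 (.mult []) (.cut 1 12 (.mult []) (.cut 2 4 (.mult []) (.cut 1 14 (.mult []) (.cut 2 6 (.mult []) (.cut 1 15 (.mult []) (.cut 2 7 (.mult []) (.cut 1 16 (.mult []) (.mult []))))))))) (.cut 1 8 (.cut 2 12 (.mult []) (.out 0)) (.cut 2 12 (.cut 1 12 (.mult []) (.cut 1 14 (.mult []) (.cut 2 10 (.cut 1 15 (.mult []) (.mult [])) (.mult [])))) (.cut 1 12 (.cut 2 14 (.mult []) (.out 0)) (.cut 2 14 (.cut 1 14 (.mult []) (.mult [])) (.cut 1 14 (.mult []) (.mult [])))))))⟩)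
    (by norm_num) ks_sum (by decide +kernel) (by decide +kernel) (by decide +kernel) hF
    (by decide +kernel) hs

end Vale.Agent.P154.Ly.BA
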