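import Vale.Agent.P154.LyBAF0
import Vale.Agent.P154.LyBAS0

/-!
Band A: the chain.
-/

open scoped BigOperators

namespace Vale.Agent.P154.Ly.BA

lemma facets : ∀ f ∈ Fs, ∃ c, facetTest 6 band ks f c = true := by
  intro f hf
  simp only [Fs, List.mem_cons, List.not_mem_nil, or_false] at hf
  rcases hf with rfl | rfl | rfl | rfl | rfl | rfl | rfl
  · exact ⟨_, facet0⟩
  · exact ⟨_, facet1⟩
  · exact ⟨_, facet2⟩
  · exact ⟨_, facet3⟩
  · exact ⟨_, facet4⟩
  · exact ⟨_, facet5⟩
  · exact ⟨_, facet6⟩

theorem pre0 : BandAt band 6 ks 10000000 (Hpre 0) :=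
  BandAt.start (by norm_num) ks_sum (by decide +kernel)

theorem at0 : BandAt band 6 ks 10000000 (H 0) :=
  pre0.facet ⟨![0, 0, 0, 0, 0, (-10000000)], 0, 34362887⟩ 6 34362887 (by norm_num) ks_sum ⟨_, facet7⟩ (by decide +kernel)
    (by decide +kernel)

theorem at1 : BandAt band 6 ks 10000000 (H 1) :=
  at0.drop (by norm_num) ks_sum (fun hs => drop0 facets hs) (by decide +kernel)

theorem at2 : BandAt band 6 ks 10000000 (H 2) :=
  at1.drop (by norm_num) ks_sum (fun hs => drop1 facets hs) (by decide +kernel)

theorem at3 : BandAt band 6 ks 10000000 (H 3) :=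
  at2.drop (by norm_num) ks_sum (fun hs => drop2 facets hs) (by decide +kernel)

theorem at4 : BandAt band 6 ks 10000000 (H 4) :=
  at3.drop (by norm_num) ks_sum (fun hs => drop3 facets hs) (by decide +kernel)

theorem at5 : BandAt band 6 ks 10000000 (H 5) :=
  at4.drop (by norm_num) ks_sum (fun hs => drop4 facets hs) (by decide +kernel)

theorem at6 : BandAt band 6 ks 10000000 (H 6) :=
  at5.drop (by norm_num) ks_sum (fun hs => drop5 facets hs) (by decide +kernel)

theorem at7 : BandAt band 6 ks 10000000 (H 7) :=
  at6.drop (by norm_num) ks_sum (fun hs => drop6 facets hs) (by decide +kernel)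

theorem at8 : BandAt band 6 ks 10000000 (H 8) :=
  at7.drop (by norm_num) ks_sum (fun hs => drop7 facets hs) (by decide +kernel)

theorem at9 : BandAt band 6 ks 10000000 (H 9) :=
  at8.drop (by norm_num) ks_sum (fun hs => drop8 facets hs) (by decide +kernel)

theorem at10 : BandAt band 6 ks 10000000 (H 10) :=
  at9.drop (by norm_num) ks_sum (fun hs => drop9 facets hs) (by decide +kernel)

theorem at11 : BandAt band 6 ks 10000000 (H 11) :=
  at10.drop (by norm_num) ks_sum (fun hs => drop10 facets hs) (by decide +kernel)

theorem at12 : BandAt band 6 ks 10000000 (H 12) :=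
  at11.drop (by norm_num) ks_sum (fun hs => drop11 facets hs) (by decide +kernel)

theorem at13 : BandAt band 6 ks 10000000 (H 13) :=
  at12.drop (by norm_num) ks_sum (fun hs => drop12 facets hs) (by decide +kernel)

theorem at14 : BandAt band 6 ks 10000000 (H 14) :=
  at13.drop (by norm_num) ks_sum (fun hs => drop13 facets hs) (by decide +kernel)

theorem at15 : BandAt band 6 ks 10000000 (H 15) :=
  at14.drop (by norm_num) ks_sum (fun hs => drop14 facets hs) (by decide +kernel)

theorem at16 : BandAt band 6 ks 10000000 (H 16) :=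
  at15.drop (by norm_num) ks_sum (fun hs => drop15 facets hs) (by decide +kernel)

theorem at17 : BandAt band 6 ks 10000000 (H 17) :=
  at16.drop (by norm_num) ks_sum (fun hs => drop16 facets hs) (by decide +kernel)

theorem at18 : BandAt band 6 ks 10000000 (H 18) :=
  at17.drop (by norm_num) ks_sum (fun hs => drop17 facets hs) (by decide +kernel)

theorem at19 : BandAt band 6 ks 10000000 (H 19) :=
  at18.drop (by norm_num) ks_sum (fun hs => drop18 facets hs) (by decide +kernel)

theorem at20 : BandAt band 6 ks 10000000 (H 20) :=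
  at19.drop (by norm_num) ks_sum (fun hs => drop19 facets hs) (by decide +kernel)

theorem at21 : BandAt band 6 ks 10000000 (H 21) :=
  at20.drop (by norm_num) ks_sum (fun hs => drop20 facets hs) (by decide +kernel)

theorem at22 : BandAt band 6 ks 10000000 (H 22) :=
  at21.drop (by norm_num) ks_sum (fun hs => drop21 facets hs) (by decide +kernel)

theorem at23 : BandAt band 6 ks 10000000 (H 23) :=
  at22.drop (by norm_num) ks_sum (fun hs => drop22 facets hs) (by decide +kernel)

theorem reach : BandReach ((band.P0 : ℝ) / band.Q) ((band.P1 : ℝ) / band.Q) :=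
  at23.finish (by decide +kernel) (by decide +kernel)

end Vale.Agent.P154.Ly.BA
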