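import Vale.Agent.P154.LyBCR1

/-!
Band C: scalar check of drop 1.
-/

open scoped BigOperators

namespace Vale.Agent.P154.Ly.BC

/-- the facets of step 1 -/
def F1 : List (Facet 9) := ([9, 10, 12, 14, 15, 16, 17, 18, 19, 21, 23, 24, 25] : List ℕ).filterMap fun i => Fs[i]?

set_option maxHeartbeats 2000000 in
/-- scalar tree of step 1 -/
noncomputable def T1 : STree 9 := (.cut 1 81828764 (.leaf [56342014402844554166272, 0, 379635134630664142323712, 694557269340068012621824, 231623412041604506058752, 0, 0, 633868624013082528579584, 739247096452683046846464, 307112575581196728139776, 0, 454481293918923523096576, 69536917439825286529024] []) (.leaf [0, 36266783409600, 11880798556561, 14332107041665, 0, 59858908068820, 3083991523012, 0, 322337246388, 26142822315, 7306751067] [0, 0, 166711280, 0, 0, 171216535]))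

lemma sc1 : S1.scalarChk 10000000 (H 9) F1 16 12 40 T1 = true := by decide +kernel

end Vale.Agent.P154.Ly.BC
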