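import Vale.Agent.P154.LyBCR2

/-!
Band C: scalar check of drop 2.
-/

open scoped BigOperators

namespace Vale.Agent.P154.Ly.BC

/-- the facets of step 2 -/
def F2 : List (Facet 9) := ([3, 6, 8, 9, 10, 11, 12, 13, 14, 15, 16, 19, 20, 21, 23, 28, 29, 34, 35, 36, 37, 38, 39, 40, 41, 43] : List ℕ).filterMap fun i => Fs[i]?

set_option maxHeartbeats 2000000 in
/-- scalar tree of step 2 -/
noncomputable def T2 : STree 9 := (.cut 2 79810721 (.leaf [27517968766126339915776, 15911588523979776720896, 0, 56342014402844554166272, 0, 259216901397840792649728, 0, 0, 141730040582780265431040, 0, 286067531866705514987520, 0, 0, 0, 0, 0, 0, 0, 0, 277144882424841735503872, 0, 249198028209021652041728, 379441632074870202302464] []) (.cut 9 209673835 (.cut 2 109884560 (.cut 9 185477532 (.cut 2 97866779 (.cut 9 171250041 (.leaf [0, 0, 0, 0, 15033138224758, 0, 62499144753342, 0, 702932775701, 0, 16191710305049, 59790423261, 0, 0, 1596441390, 0, 0, 0, 2451876945240, 0, 0, 10702337886, 0, 0, 1080042461] [52571674, 0, 102591484, 0, 131217884, 106903498, 144264601]) (.leaf [0, 0, 0, 0, 15021915752283,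 0, 62498457031259, 0, 717019131486, 0, 16192563546176, 64416493819, 0, 8272, 0, 0, 0, 10647835072, 2444651224859, 0, 0, 0, 2736339063] [57075371, 0, 112900681, 0, 142328668, 108103815, 155178130])) (.leaf [0, 0, 0, 0, 9738552130157609484288, 0, 42064631080588576555008, 26802889853857452523520, 0, 51283319642865902026752, 0, 0, 0, 0, 3928730637570630221824, 0, 0, 0, 48093972474823222231040, 0, 44303141723132584263680, 0, 0, 60711899882547667009536, 0, 11684596495243938889728] [])) (.cut 2 91632324 (.leaf [27517968766149727354880, 15911588523927421321216, 0, 56342014402844554166272, 0, 259216901397630238588928, 0, 0, 141730040582753707098112, 0, 286067531866468922687488, 0, 0, 0, 0, 0, 0, 0, 0, 277144882424595949289472, 0, 249198028208635474083840, 379441632074642166382592] []) (.leaf [0, 0, 605770030, 0, 15025132812730, 0, 62497121164105, 0, 714997353419, 0, 16191694036614, 43275801554, 0, 0, 0, 0, 6802499887, 0, 2451832314160, 0, 0, 0, 24696082186] [63160463, 0, 125597193, 0, 158180698, 119001487, 172015345]))) (.leaf [0, 0, 0, 0, 15048290850038, 0, 62566911609530, 0, 708571469214,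 0, 16104806347035, 0, 63463747510, 0, 38975970873, 32985348833280000000000, 0, 0, 2539100957279, 0, 22650812933] [])) (.cut 2 103586671 (.leaf [27517968766138012663808, 15911588523912097431552, 0, 56342014402844554166272, 0, 259216901397481793781760, 0, 0, 141730040582678327066624, 0, 286067531866322759581696, 0, 0, 0, 0, 0, 0, 0, 0, 277144882424397139279872, 0, 249198028208458608672768, 379441632074409768386560] []) (.cut 9 232611165 (.leaf [0, 0, 1281722223, 0, 15019742760590, 0, 62496296283185, 0, 723343200168, 0, 16186000701886, 15443197819, 0, 0, 0, 0, 13212979927, 0, 2454359321130, 0, 0, 0, 51742030165] [71155674, 0, 141441964, 0, 178066573, 134035131, 193786947]) (.leaf [0, 0, 2138061001, 0, 15015106716779, 0, 62492102803689, 0, 731249715755, 0, 16186100431735, 1361249752, 0, 0, 0, 0, 17755847144, 0, 2451878731779, 0, 0, 0, 72388163087] [77052941, 0, 153205238, 0, 193008797, 145239720, 209919034])))))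

lemma sc2 : S2.scalarChk 10000000 (H 19) F2 16 12 40 T2 = true := by decide +kernel

end Vale.Agent.P154.Ly.BC
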