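import Vale.Agent.P154.LyBCT0
import Vale.Agent.P154.LyBCT1
import Vale.Agent.P154.LyBCT2
import Vale.Agent.P154.LyBCT3
import Vale.Agent.P154.LyBCT4
import Vale.Agent.P154.LyBCT5
import Vale.Agent.P154.LyBCT6

/-!
Band C: drops 0 to 6.
-/

open scoped BigOperators

namespace Vale.Agent.P154.Ly.BC

theorem drop0 (hF : ∀ f ∈ Fs, ∃ c, facetTest 8 band ks f c = true) {s : ℝ}
    (hs : band.Mem s) : DropGain (-s) (1 / s ^ 2) (coord 8 ks s)
      (fun i => (H 0 i : ℝ) / (10000000 : ℕ)) S0.a ((S0.L : ℝ) / (10000000 : ℕ)) :=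
  S0.drop_of_regions (by norm_num) ks_sum (by decide +kernel) regs0
    (fun f hf => let ⟨_, _, h⟩ := List.mem_filterMap.1 hf; hF f (List.mem_of_getElem? h))
    sc0 hs

theorem drop1 (hF : ∀ f ∈ Fs, ∃ c, facetTest 8 band ks f c = true) {s : ℝ}
    (hs : band.Mem s) : DropGain (-s) (1 / s ^ 2) (coord 8 ks s)
      (fun i => (H 9 i : ℝ) / (10000000 : ℕ)) S1.a ((S1.L : ℝ) / (10000000 : ℕ)) :=
  S1.drop_of_regions (by norm_num) ks_sum (by decide +kernel) regs1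
    (fun f hf => let ⟨_, _, h⟩ := List.mem_filterMap.1 hf; hF f (List.mem_of_getElem? h))
    sc1 hs

theorem drop2 (hF : ∀ f ∈ Fs, ∃ c, facetTest 8 band ks f c = true) {s : ℝ}
    (hs : band.Mem s) : DropGain (-s) (1 / s ^ 2) (coord 8 ks s)
      (fun i => (H 19 i : ℝ) / (10000000 : ℕ)) S2.a ((S2.L : ℝ) / (10000000 : ℕ)) :=
  S2.drop_of_regions (by norm_num) ks_sum (by decide +kernel) regs2
    (fun f hf => let ⟨_, _, h⟩ := List.mem_filterMap.1 hf; hF f (List.mem_of_getElem? h))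
    sc2 hs

theorem drop3 (hF : ∀ f ∈ Fs, ∃ c, facetTest 8 band ks f c = true) {s : ℝ}
    (hs : band.Mem s) : DropGain (-s) (1 / s ^ 2) (coord 8 ks s)
      (fun i => (H 29 i : ℝ) / (10000000 : ℕ)) S3.a ((S3.L : ℝ) / (10000000 : ℕ)) :=
  S3.drop_of_regions (by norm_num) ks_sum (by decide +kernel) regs3
    (fun f hf => let ⟨_, _, h⟩ := List.mem_filterMap.1 hf; hF f (List.mem_of_getElem? h))
    sc3 hs

theorem drop4 (hF : ∀ f ∈ Fs, ∃ c, facetTest 8 band ks f c = true) {s : ℝ}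
    (hs : band.Mem s) : DropGain (-s) (1 / s ^ 2) (coord 8 ks s)
      (fun i => (H 39 i : ℝ) / (10000000 : ℕ)) S4.a ((S4.L : ℝ) / (10000000 : ℕ)) :=
  S4.drop_of_regions (by norm_num) ks_sum (by decide +kernel) regs4
    (fun f hf => let ⟨_, _, h⟩ := List.mem_filterMap.1 hf; hF f (List.mem_of_getElem? h))
    sc4 hs

theorem drop5 (hF : ∀ f ∈ Fs, ∃ c, facetTest 8 band ks f c = true) {s : ℝ}
    (hs : band.Mem s) : DropGain (-s) (1 / s ^ 2) (coord 8 ks s)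
      (fun i => (H 49 i : ℝ) / (10000000 : ℕ)) S5.a ((S5.L : ℝ) / (10000000 : ℕ)) :=
  S5.drop_of_regions (by norm_num) ks_sum (by decide +kernel) regs5
    (fun f hf => let ⟨_, _, h⟩ := List.mem_filterMap.1 hf; hF f (List.mem_of_getElem? h))
    sc5 hs

theorem drop6 (hF : ∀ f ∈ Fs, ∃ c, facetTest 8 band ks f c = true) {s : ℝ}
    (hs : band.Mem s) : DropGain (-s) (1 / s ^ 2) (coord 8 ks s)
      (fun i => (H 59 i : ℝ) / (10000000 : ℕ)) S6.a ((S6.L : ℝ) / (10000000 : ℕ)) :=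
  S6.drop_of_regions (by norm_num) ks_sum (by decide +kernel) regs6
    (fun f hf => let ⟨_, _, h⟩ := List.mem_filterMap.1 hf; hF f (List.mem_of_getElem? h))
    sc6 hs

end Vale.Agent.P154.Ly.BC
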