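import Vale.Agent.P154.LyBCT7
import Vale.Agent.P154.LyBCT8
import Vale.Agent.P154.LyBCT9

/-!
Band C: drops 7 to 9.
-/

open scoped BigOperators

namespace Vale.Agent.P154.Ly.BC

theorem drop7 (hF : ∀ f ∈ Fs, ∃ c, facetTest 8 band ks f c = true) {s : ℝ}
    (hs : band.Mem s) : DropGain (-s) (1 / s ^ 2) (coord 8 ks s)
      (fun i => (H 60 i : ℝ) / (10000000 : ℕ)) S7.a ((S7.L : ℝ) / (10000000 : ℕ)) :=
  S7.drop_of_regions (by norm_num) ks_sum (by decide +kernel) regs7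
    (fun f hf => let ⟨_, _, h⟩ := List.mem_filterMap.1 hf; hF f (List.mem_of_getElem? h))
    sc7 hs

theorem drop8 (hF : ∀ f ∈ Fs, ∃ c, facetTest 8 band ks f c = true) {s : ℝ}
    (hs : band.Mem s) : DropGain (-s) (1 / s ^ 2) (coord 8 ks s)
      (fun i => (H 69 i : ℝ) / (10000000 : ℕ)) S8.a ((S8.L : ℝ) / (10000000 : ℕ)) :=
  S8.drop_of_regions (by norm_num) ks_sum (by decide +kernel) regs8
    (fun f hf => let ⟨_, _, h⟩ := List.mem_filterMap.1 hf; hF f (List.mem_of_getElem? h))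
    sc8 hs

theorem drop9 (hF : ∀ f ∈ Fs, ∃ c, facetTest 8 band ks f c = true) {s : ℝ}
    (hs : band.Mem s) : DropGain (-s) (1 / s ^ 2) (coord 8 ks s)
      (fun i => (H 79 i : ℝ) / (10000000 : ℕ)) S9.a ((S9.L : ℝ) / (10000000 : ℕ)) :=
  S9.drop_of_regions (by norm_num) ks_sum (by decide +kernel) regs9
    (fun f hf => let ⟨_, _, h⟩ := List.mem_filterMap.1 hf; hF f (List.mem_of_getElem? h))
    sc9 hs

end Vale.Agent.P154.Ly.BC
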