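import Vale.Agent.P154.LyBCFJoin
import Vale.Agent.P154.LyBCS0
import Vale.Agent.P154.LyBCS1

/-!
Band C: the chain.
-/

open scoped BigOperators

namespace Vale.Agent.P154.Ly.BC

lemma facets : ∀ f ∈ Fs, ∃ c, facetTest 8 band ks f c = true := by
  intro f hf
  simp only [Fs, List.mem_cons, List.not_mem_nil, or_false] at hf
  rcases hf with rfl | rfl | rfl | rfl | rfl | rfl | rfl | rfl | rfl | rfl | rfl | rfl | rfl | rfl | rfl | rfl | rfl | rfl | rfl | rfl | rfl | rfl | rfl | rfl | rfl | rfl | rfl | rfl | rfl | rfl | rfl | rfl | rfl | rfl | rfl | rfl | rfl | rfl | rfl | rfl | rfl | rfl | rfl | rfl | rfl | rfl | rfl | rfl | rfl | rfl | rfl | rfl | rfl | rfl | rfl | rfl | rfl | rfl | rfl | rfl | rfl | rfl | rfl | rfl | rfl | rfl | rfl | rfl | rfl | rfl | rfl | rfl | rfl | rfl | rfl | rfl | rfl | rfl | rfl | rfl | rfl | rfl | rfl | rfl | rfl | rfl | rfl | rfl | rfl | rfl | rfl | rfl | rfl | rfl | rfl | rfl | rfl | rfl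 | rfl | rfl | rfl | rfl | rfl | rfl | rfl | rfl | rfl | rfl | rfl | rfl | rfl | rfl | rfl | rfl | rfl | rfl | rfl | rfl | rfl | rfl | rfl | rfl | rfl | rfl | rfl | rfl | rfl | rfl | rfl | rfl | rfl | rfl | rfl | rfl | rfl | rfl | rfl | rfl | rfl | rfl | rfl | rfl | rfl | rfl | rfl | rfl | rfl | rfl | rfl | rfl | rfl | rfl | rfl | rfl
  · exact ⟨_, facet0⟩
  · exact ⟨_, facet1⟩
  · exact ⟨_, facet2⟩
  · exact ⟨_, facet3⟩
  · exact ⟨_, facet4⟩
  · exact ⟨_, facet5⟩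
  · exact ⟨_, facet6⟩
  · exact ⟨_, facet7⟩
  · exact ⟨_, facet8⟩
  · exact ⟨_, facet9⟩
  · exact ⟨_, facet10⟩
  · exact ⟨_, facet11⟩
  · exact ⟨_, facet12⟩
  · exact ⟨_, facet13⟩
  · exact ⟨_, facet14⟩
  · exact ⟨_, facet15⟩
  · exact ⟨_, facet16⟩
  · exact ⟨_, facet17⟩
  · exact ⟨_, facet18⟩
  · exact ⟨_, facet19⟩
  · exact ⟨_, facet20⟩
  · exact ⟨_, facet21⟩
  · exact ⟨_, facet22⟩
  · exact ⟨_, facet23⟩
  · exact ⟨_, facet24⟩
  · exact ⟨_, facet25⟩
  · exact ⟨_, facet26⟩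
  · exact ⟨_, facet27⟩
  · exact ⟨_, facet28⟩
  · exact ⟨_, facet29⟩
  · exact ⟨_, facet30⟩
  · exact ⟨_, facet31⟩
  · exact ⟨_, facet32⟩
  · exact ⟨_, facet33⟩
  · exact ⟨_, facet34⟩
  · exact ⟨_, facet35⟩
  · exact ⟨_, facet36⟩
  · exact ⟨_, facet37⟩
  · exact ⟨_, facet38⟩
  · exact ⟨_, facet39⟩
  · exact ⟨_, facet40⟩
  · exact ⟨_, facet41⟩
  · exact ⟨_, facet42⟩
  · exact ⟨_, facet43⟩
  · exact ⟨_, facet44⟩
  · exact ⟨_, facet45⟩
  · exact ⟨_, facet46⟩
  · exact ⟨_, facet47⟩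
  · exact ⟨_, facet48⟩
  · exact ⟨_, facet49⟩
  · exact ⟨_, facet50⟩
  · exact ⟨_, facet51⟩
  · exact ⟨_, facet52⟩
  · exact ⟨_, facet53⟩
  · exact ⟨_, facet54⟩
  · exact ⟨_, facet55⟩
  · exact ⟨_, facet56⟩
  · exact ⟨_, facet57⟩
  · exact ⟨_, facet58⟩
  · exact ⟨_, facet59⟩
  · exact ⟨_, facet60⟩
  · exact ⟨_, facet61⟩
  · exact ⟨_, facet62⟩
  · exact ⟨_, facet63⟩
  · exact ⟨_, facet64⟩
  · exact ⟨_, facet65⟩
  · exact ⟨_, facet66⟩
  · exact ⟨_, facet67⟩
  · exact ⟨_, facet68⟩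
  · exact ⟨_, facet69⟩
  · exact ⟨_, facet70⟩
  · exact ⟨_, facet71⟩
  · exact ⟨_, facet72⟩
  · exact ⟨_, facet73⟩
  · exact ⟨_, facet74⟩
  · exact ⟨_, facet75⟩
  · exact ⟨_, facet76⟩
  · exact ⟨_, facet77⟩
  · exact ⟨_, facet78⟩
  · exact ⟨_, facet79⟩
  · exact ⟨_, facet80⟩
  · exact ⟨_, facet81⟩
  · exact ⟨_, facet82⟩
  · exact ⟨_, facet83⟩
  · exact ⟨_, facet84⟩
  · exact ⟨_, facet85⟩
  · exact ⟨_, facet86⟩
  · exact ⟨_, facet87⟩
  · exact ⟨_, facet88⟩
  · exact ⟨_, facet89⟩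
  · exact ⟨_, facet90⟩
  · exact ⟨_, facet91⟩
  · exact ⟨_, facet92⟩
  · exact ⟨_, facet93⟩
  · exact ⟨_, facet94⟩
  · exact ⟨_, facet95⟩
  · exact ⟨_, facet96⟩
  · exact ⟨_, facet97⟩
  · exact ⟨_, facet98⟩
  · exact ⟨_, facet99⟩
  · exact ⟨_, facet100⟩
  · exact ⟨_, facet101⟩
  · exact ⟨_, facet102⟩
  · exact ⟨_, facet103⟩
  · exact ⟨_, facet104⟩
  · exact ⟨_, facet105⟩
  · exact ⟨_, facet106⟩
  · exact ⟨_, facet107⟩
  · exact ⟨_, facet108⟩
  · exact ⟨_, facet109⟩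
  · exact ⟨_, facet110⟩
  · exact ⟨_, facet111⟩
  · exact ⟨_, facet112⟩
  · exact ⟨_, facet113⟩
  · exact ⟨_, facet114⟩
  · exact ⟨_, facet115⟩
  · exact ⟨_, facet116⟩
  · exact ⟨_, facet117⟩
  · exact ⟨_, facet118⟩
  · exact ⟨_, facet119⟩
  · exact ⟨_, facet120⟩
  · exact ⟨_, facet121⟩
  · exact ⟨_, facet122⟩
  · exact ⟨_, facet123⟩
  · exact ⟨_, facet124⟩
  · exact ⟨_, facet125⟩
  · exact ⟨_, facet126⟩
  · exact ⟨_, facet127⟩
  · exact ⟨_, facet128⟩
  · exact ⟨_, facet129⟩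
  · exact ⟨_, facet130⟩
  · exact ⟨_, facet131⟩
  · exact ⟨_, facet132⟩
  · exact ⟨_, facet133⟩
  · exact ⟨_, facet134⟩
  · exact ⟨_, facet135⟩
  · exact ⟨_, facet136⟩
  · exact ⟨_, facet137⟩
  · exact ⟨_, facet138⟩
  · exact ⟨_, facet139⟩
  · exact ⟨_, facet140⟩
  · exact ⟨_, facet141⟩
  · exact ⟨_, facet142⟩
  · exact ⟨_, facet143⟩
  · exact ⟨_, facet144⟩
  · exact ⟨_, facet145⟩
  · exact ⟨_, facet146⟩
  · exact ⟨_, facet147⟩
  · exact ⟨_, facet148⟩
  · exact ⟨_, facet149⟩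
  · exact ⟨_, facet150⟩
  · exact ⟨_, facet151⟩
  · exact ⟨_, facet152⟩
  · exact ⟨_, facet153⟩

theorem at0 : BandAt band 8 ks 10000000 (H 0) :=
  BandAt.start (by norm_num) ks_sum (by decide +kernel)

theorem at1 : BandAt band 8 ks 10000000 (H 1) :=
  at0.drop (by norm_num) ks_sum (fun hs => drop0 facets hs) (by decide +kernel)

theorem at2 : BandAt band 8 ks 10000000 (H 2) :=
  at1.facet ⟨![(-1000000000), 0, 0, 0, 0, 0, 0, 0, 0], 880925626, 1001⟩ 1 8813671 (by norm_num) ks_sum ⟨_, facet1⟩ (by decide +kernel) (by decide +kernel)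

theorem at3 : BandAt band 8 ks 10000000 (H 3) :=
  at2.facet ⟨![0, (-1000000000), 0, 0, 0, 0, 0, 0, 0], 1357160776, 1001⟩ 2 13578404 (by norm_num) ks_sum ⟨_, facet2⟩ (by decide +kernel) (by decide +kernel)

theorem at4 : BandAt band 8 ks 10000000 (H 4) :=
  at3.facet ⟨![0, 0, (-1000000000), 0, 0, 0, 0, 0, 0], 1749400815, 1001⟩ 3 17502765 (by norm_num) ks_sum ⟨_, facet3⟩ (by decide +kernel) (by decide +kernel)

theorem at5 : BandAt band 8 ks 10000000 (H 5) :=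
  at4.facet ⟨![0, 0, 0, (-1000000000), 0, 0, 0, 0, 0], 1590558407, 1001⟩ 4 15913547 (by norm_num) ks_sum ⟨_, facet4⟩ (by decide +kernel) (by decide +kernel)

theorem at6 : BandAt band 8 ks 10000000 (H 6) :=
  at5.facet ⟨![0, 0, 0, 0, (-1000000000), 0, 0, 0, 0], 2203509476, 1001⟩ 5 22046122 (by norm_num) ks_sum ⟨_, facet5⟩ (by decide +kernel) (by decide +kernel)

theorem at7 : BandAt band 8 ks 10000000 (H 7) :=
  at6.facet ⟨![0, 0, 0, 0, 0, (-1000000000), 0, 0, 0], 1660440880, 1001⟩ 6 16612721 (by norm_num) ks_sum ⟨_, facet6⟩ (by decide +kernel) (by decide +kernel)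

theorem at8 : BandAt band 8 ks 10000000 (H 8) :=
  at7.facet ⟨![0, 0, 0, 0, 0, 0, (-1000000000), 0, 0], 2397584674, 1000⟩ 7 23987845 (by norm_num) ks_sum ⟨_, facet7⟩ (by decide +kernel) (by decide +kernel)

theorem at9 : BandAt band 8 ks 10000000 (H 9) :=
  at8.facet ⟨![0, 0, 0, 0, 0, 0, 0, (-1000000000), 0], 2618295704, 1001⟩ 8 26196059 (by norm_num) ks_sum ⟨_, facet8⟩ (by decide +kernel) (by decide +kernel)

theorem at10 : BandAt band 8 ks 10000000 (H 10) :=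
  at9.drop (by norm_num) ks_sum (fun hs => drop1 facets hs) (by decide +kernel)

theorem at11 : BandAt band 8 ks 10000000 (H 11) :=
  at10.facet ⟨![0, 0, 0, 0, 0, 0, 0, 0, 268543509], (-1000000000), 435212679⟩ 0 8832488 (by norm_num) ks_sum ⟨_, facet26⟩ (by decide +kernel) (by decide +kernel)

theorem at12 : BandAt band 8 ks 10000000 (H 12) :=
  at11.facet ⟨![(-1000000000), 0, 0, 0, 0, 0, 0, 0, 318956188], 0, 6192972⟩ 1 5380846 (by norm_num) ks_sum ⟨_, facet27⟩ (by decide +kernel) (by decide +kernel)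

theorem at13 : BandAt band 8 ks 10000000 (H 13) :=
  at12.facet ⟨![0, (-1000000000), 0, 0, 0, 0, 0, 0, 483924857], 0, 52253159⟩ 2 8592678 (by norm_num) ks_sum ⟨_, facet28⟩ (by decide +kernel) (by decide +kernel)

theorem at14 : BandAt band 8 ks 10000000 (H 14) :=
  at13.facet ⟨![0, 0, (-1000000000), 0, 0, 0, 0, 0, 637888130], 0, 1001⟩ 3 10637377 (by norm_num) ks_sum ⟨_, facet29⟩ (by decide +kernel) (by decide +kernel)

theorem at15 : BandAt band 8 ks 10000000 (H 15) :=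
  at14.facet ⟨![0, 0, 0, (-1000000000), 0, 0, 0, 0, 569320694], 0, 100562798⟩ 4 10500062 (by norm_num) ks_sum ⟨_, facet30⟩ (by decide +kernel) (by decide +kernel)

theorem at16 : BandAt band 8 ks 10000000 (H 16) :=
  at15.facet ⟨![0, 0, 0, 0, (-1000000000), 0, 0, 0, 802046063], 0, 3908431⟩ 5 13413954 (by norm_num) ks_sum ⟨_, facet31⟩ (by decide +kernel) (by decide +kernel)

theorem at17 : BandAt band 8 ks 10000000 (H 17) :=
  at16.facet ⟨![0, 0, 0, 0, 0, (-1000000000), 0, 0, 594892285], 0, 119458535⟩ 6 11115540 (by norm_num) ks_sum ⟨_, facet32⟩ (by decide +kernel) (by decide +kernel)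

theorem at18 : BandAt band 8 ks 10000000 (H 18) :=
  at17.facet ⟨![0, 0, 0, 0, 0, 0, (-1000000000), 0, 867503773], 0, 21656552⟩ 7 14683090 (by norm_num) ks_sum ⟨_, facet33⟩ (by decide +kernel) (by decide +kernel)

theorem at19 : BandAt band 8 ks 10000000 (H 19) :=
  at18.facet ⟨![0, 0, 0, 0, 0, 0, 0, (-1000000000), 954683353], 0, 88656⟩ 8 15921103 (by norm_num) ks_sum ⟨_, facet34⟩ (by decide +kernel) (by decide +kernel)

theorem at20 : BandAt band 8 ks 10000000 (H 20) :=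
  at19.drop (by norm_num) ks_sum (fun hs => drop2 facets hs) (by decide +kernel)

theorem at21 : BandAt band 8 ks 10000000 (H 21) :=
  at20.facet ⟨![0, 0, 0, 0, 0, 0, 0, 0, 434181099], (-1000000000), 221669753⟩ 0 6611143 (by norm_num) ks_sum ⟨_, facet44⟩ (by decide +kernel) (by decide +kernel)

theorem at22 : BandAt band 8 ks 10000000 (H 22) :=
  at21.facet ⟨![(-1000000000), 0, 0, 0, 0, 0, 0, 0, 318956188], 0, 6192972⟩ 1 3289375 (by norm_num) ks_sum ⟨_, facet45⟩ (by decide +kernel) (by decide +kernel)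

theorem at23 : BandAt band 8 ks 10000000 (H 23) :=
  at22.facet ⟨![0, (-1000000000), 0, 0, 0, 0, 0, 0, 503880235], 0, 26303531⟩ 2 5361768 (by norm_num) ks_sum ⟨_, facet46⟩ (by decide +kernel) (by decide +kernel)

theorem at24 : BandAt band 8 ks 10000000 (H 24) :=
  at23.facet ⟨![0, 0, (-1000000000), 0, 0, 0, 0, 0, 637888130], 0, 1001⟩ 3 6454594 (by norm_num) ks_sum ⟨_, facet47⟩ (by decide +kernel) (by decide +kernel)

theorem at25 : BandAt band 8 ks 10000000 (H 25) :=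
  at24.facet ⟨![0, 0, 0, (-1000000000), 0, 0, 0, 0, 614885367], 0, 40570260⟩ 4 6627731 (by norm_num) ks_sum ⟨_, facet48⟩ (by decide +kernel) (by decide +kernel)

theorem at26 : BandAt band 8 ks 10000000 (H 26) :=
  at25.facet ⟨![0, 0, 0, 0, (-1000000000), 0, 0, 0, 802046063], 0, 3908431⟩ 5 8154749 (by norm_num) ks_sum ⟨_, facet49⟩ (by decide +kernel) (by decide +kernel)

theorem at27 : BandAt band 8 ks 10000000 (H 27) :=
  at26.facet ⟨![0, 0, 0, 0, 0, (-1000000000), 0, 0, 650603780], 0, 45978264⟩ 6 7043261 (by norm_num) ks_sum ⟨_, facet50⟩ (by decide +kernel) (by decide +kernel)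

theorem at28 : BandAt band 8 ks 10000000 (H 28) :=
  at27.facet ⟨![0, 0, 0, 0, 0, 0, (-1000000000), 0, 875493048], 0, 11395065⟩ 7 8972839 (by norm_num) ks_sum ⟨_, facet51⟩ (by decide +kernel) (by decide +kernel)

theorem at29 : BandAt band 8 ks 10000000 (H 29) :=
  at28.facet ⟨![0, 0, 0, 0, 0, 0, 0, (-1000000000), 954683353], 0, 88656⟩ 8 9661020 (by norm_num) ks_sum ⟨_, facet52⟩ (by decide +kernel) (by decide +kernel)

theorem at30 : BandAt band 8 ks 10000000 (H 30) :=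
  at29.drop (by norm_num) ks_sum (fun hs => drop3 facets hs) (by decide +kernel)

theorem at31 : BandAt band 8 ks 10000000 (H 31) :=
  at30.facet ⟨![0, 0, 0, 0, 0, 0, 0, 0, 516567534], (-1000000000), 158482544⟩ 0 4757266 (by norm_num) ks_sum ⟨_, facet62⟩ (by decide +kernel) (by decide +kernel)

theorem at32 : BandAt band 8 ks 10000000 (H 32) :=
  at31.facet ⟨![(-1000000000), 0, 0, 0, 0, 0, 0, 0, 318956188], 0, 6192972⟩ 1 2020304 (by norm_num) ks_sum ⟨_, facet63⟩ (by decide +kernel) (by decide +kernel)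

theorem at33 : BandAt band 8 ks 10000000 (H 33) :=
  at32.facet ⟨![0, (-1000000000), 0, 0, 0, 0, 0, 0, 512602154], 0, 19592419⟩ 2 3343324 (by norm_num) ks_sum ⟨_, facet64⟩ (by decide +kernel) (by decide +kernel)

theorem at34 : BandAt band 8 ks 10000000 (H 34) :=
  at33.facet ⟨![0, 0, (-1000000000), 0, 0, 0, 0, 0, 637888130], 0, 1001⟩ 3 3916549 (by norm_num) ks_sum ⟨_, facet65⟩ (by decide +kernel) (by decide +kernel)

theorem at35 : BandAt band 8 ks 10000000 (H 35) :=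
  at34.facet ⟨![0, 0, 0, (-1000000000), 0, 0, 0, 0, 631976869], 0, 27381563⟩ 4 4154197 (by norm_num) ks_sum ⟨_, facet66⟩ (by decide +kernel) (by decide +kernel)

theorem at36 : BandAt band 8 ks 10000000 (H 36) :=
  at35.facet ⟨![0, 0, 0, 0, (-1000000000), 0, 0, 0, 802046063], 0, 3908431⟩ 5 4963547 (by norm_num) ks_sum ⟨_, facet67⟩ (by decide +kernel) (by decide +kernel)

theorem at37 : BandAt band 8 ks 10000000 (H 37) :=
  at36.facet ⟨![0, 0, 0, 0, 0, (-1000000000), 0, 0, 671004485], 0, 30228113⟩ 6 4422300 (by norm_num) ks_sum ⟨_, facet68⟩ (by decide +kernel) (by decide +kernel)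

theorem at38 : BandAt band 8 ks 10000000 (H 38) :=
  at37.facet ⟨![0, 0, 0, 0, 0, 0, (-1000000000), 0, 879402658], 0, 8390915⟩ 7 5483353 (by norm_num) ks_sum ⟨_, facet69⟩ (by decide +kernel) (by decide +kernel)

theorem at39 : BandAt band 8 ks 10000000 (H 39) :=
  at38.facet ⟨![0, 0, 0, 0, 0, 0, 0, (-1000000000), 954683353], 0, 88656⟩ 8 5862501 (by norm_num) ks_sum ⟨_, facet70⟩ (by decide +kernel) (by decide +kernel)

theorem at40 : BandAt band 8 ks 10000000 (H 40) :=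
  at39.drop (by norm_num) ks_sum (fun hs => drop4 facets hs) (by decide +kernel)

theorem at41 : BandAt band 8 ks 10000000 (H 41) :=
  at40.facet ⟨![0, 0, 936075210, 0, 0, 0, 0, 0, 0], (-1000000000), 128706677⟩ 0 3513404 (by norm_num) ks_sum ⟨_, facet78⟩ (by decide +kernel) (by decide +kernel)

theorem at42 : BandAt band 8 ks 10000000 (H 42) :=
  at41.facet ⟨![(-1000000000), 0, 511307965, 0, 0, 0, 0, 0, 0], 0, 5438143⟩ 1 1270140 (by norm_num) ks_sum ⟨_, facet79⟩ (by decide +kernel) (by decide +kernel)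

theorem at43 : BandAt band 8 ks 10000000 (H 43) :=
  at42.facet ⟨![0, (-1000000000), 862863112, 0, 0, 0, 0, 0, 0], 0, 11390469⟩ 2 2165580 (by norm_num) ks_sum ⟨_, facet80⟩ (by decide +kernel) (by decide +kernel)

theorem at44 : BandAt band 8 ks 10000000 (H 44) :=
  at43.facet ⟨![0, 0, 1068406310, (-1000000000), 0, 0, 0, 0, 0], 0, 15774698⟩ 4 2698162 (by norm_num) ks_sum ⟨_, facet81⟩ (by decide +kernel) (by decide +kernel)

theorem at45 : BandAt band 8 ks 10000000 (H 45) :=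
  at44.facet ⟨![0, 0, 1312267674, 0, (-1000000000), 0, 0, 0, 0], 0, 85896⟩ 5 3121021 (by norm_num) ks_sum ⟨_, facet82⟩ (by decide +kernel) (by decide +kernel)

theorem at46 : BandAt band 8 ks 10000000 (H 46) :=
  at45.facet ⟨![0, 0, 1136029942, 0, 0, (-1000000000), 0, 0, 0], 0, 17370128⟩ 6 2874912 (by norm_num) ks_sum ⟨_, facet83⟩ (by decide +kernel) (by decide +kernel)

theorem at47 : BandAt band 8 ks 10000000 (H 47) :=
  at46.facet ⟨![0, 0, 1466516343, 0, 0, 0, (-1000000000), 0, 0], 0, 301443⟩ 7 3489933 (by norm_num) ks_sum ⟨_, facet84⟩ (by decide +kernel) (by decide +kernel)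

theorem at48 : BandAt band 8 ks 10000000 (H 48) :=
  at47.facet ⟨![0, 0, 1564825440, 0, 0, 0, 0, (-1000000000), 0], 0, 5541⟩ 8 3720721 (by norm_num) ks_sum ⟨_, facet85⟩ (by decide +kernel) (by decide +kernel)

theorem at49 : BandAt band 8 ks 10000000 (H 49) :=
  at48.facet ⟨![0, 0, 1648531456, 0, 0, 0, 0, 0, (-1000000000)], 0, 1319⟩ 9 3919705 (by norm_num) ks_sum ⟨_, facet86⟩ (by decide +kernel) (by decide +kernel)

theorem at50 : BandAt band 8 ks 10000000 (H 50) :=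
  at49.drop (by norm_num) ks_sum (fun hs => drop5 facets hs) (by decide +kernel)

theorem at51 : BandAt band 8 ks 10000000 (H 51) :=
  at50.facet ⟨![0, 0, 0, 0, 0, 0, 0, 0, 606282602], (-1000000000), 118361677⟩ 0 2610790 (by norm_num) ks_sum ⟨_, facet96⟩ (by decide +kernel) (by decide +kernel)

theorem at52 : BandAt band 8 ks 10000000 (H 52) :=
  at51.facet ⟨![(-1000000000), 0, 0, 0, 0, 0, 0, 0, 318956188], 0, 6192972⟩ 1 812464 (by norm_num) ks_sum ⟨_, facet97⟩ (by decide +kernel) (by decide +kernel)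

theorem at53 : BandAt band 8 ks 10000000 (H 53) :=
  at52.facet ⟨![0, (-1000000000), 0, 0, 0, 0, 0, 0, 521105042], 0, 15812423⟩ 2 1384364 (by norm_num) ks_sum ⟨_, facet98⟩ (by decide +kernel) (by decide +kernel)

theorem at54 : BandAt band 8 ks 10000000 (H 54) :=
  at53.facet ⟨![0, 0, (-1000000000), 0, 0, 0, 0, 0, 637888130], 0, 1001⟩ 3 1500960 (by norm_num) ks_sum ⟨_, facet99⟩ (by decide +kernel) (by decide +kernel)

theorem at55 : BandAt band 8 ks 10000000 (H 55) :=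
  at54.facet ⟨![0, 0, 0, (-1000000000), 0, 0, 0, 0, 648178146], 0, 20171853⟩ 4 1726982 (by norm_num) ks_sum ⟨_, facet100⟩ (by decide +kernel) (by decide +kernel)

theorem at56 : BandAt band 8 ks 10000000 (H 56) :=
  at55.facet ⟨![0, 0, 0, 0, (-1000000000), 0, 0, 0, 802046063], 0, 3908431⟩ 5 1926317 (by norm_num) ks_sum ⟨_, facet101⟩ (by decide +kernel) (by decide +kernel)

theorem at57 : BandAt band 8 ks 10000000 (H 57) :=
  at56.facet ⟨![0, 0, 0, 0, 0, (-1000000000), 0, 0, 690253956], 0, 21660619⟩ 6 1840881 (by norm_num) ks_sum ⟨_, facet102⟩ (by decide +kernel) (by decide +kernel)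

theorem at58 : BandAt band 8 ks 10000000 (H 58) :=
  at57.facet ⟨![0, 0, 0, 0, 0, 0, (-1000000000), 0, 883356236], 0, 6632606⟩ 7 2144895 (by norm_num) ks_sum ⟨_, facet103⟩ (by decide +kernel) (by decide +kernel)

theorem at59 : BandAt band 8 ks 10000000 (H 59) :=
  at58.facet ⟨![0, 0, 0, 0, 0, 0, 0, (-1000000000), 954683353], 0, 88656⟩ 8 2247256 (by norm_num) ks_sum ⟨_, facet104⟩ (by decide +kernel) (by decide +kernel)

theorem at60 : BandAt band 8 ks 10000000 (H 60) :=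
  at59.drop (by norm_num) ks_sum (fun hs => drop6 facets hs) (by decide +kernel)

theorem at61 : BandAt band 8 ks 10000000 (H 61) :=
  at60.drop (by norm_num) ks_sum (fun hs => drop7 facets hs) (by decide +kernel)

theorem at62 : BandAt band 8 ks 10000000 (H 62) :=
  at61.facet ⟨![(-1000000000), 0, 550026303, 0, 0, 0, 0, 0, 0], 0, 1001⟩ 1 495598 (by norm_num) ks_sum ⟨_, facet122⟩ (by decide +kernel) (by decide +kernel)

theorem at63 : BandAt band 8 ks 10000000 (H 63) :=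
  at62.facet ⟨![0, (-1000000000), 940060496, 0, 0, 0, 0, 0, 0], 0, 1001⟩ 2 847029 (by norm_num) ks_sum ⟨_, facet123⟩ (by decide +kernel) (by decide +kernel)

theorem at64 : BandAt band 8 ks 10000000 (H 64) :=
  at63.facet ⟨![0, 0, 1172948447, (-1000000000), 0, 0, 0, 0, 0], 0, 1001⟩ 4 1056867 (by norm_num) ks_sum ⟨_, facet124⟩ (by decide +kernel) (by decide +kernel)

theorem at65 : BandAt band 8 ks 10000000 (H 65) :=
  at64.facet ⟨![0, 0, 1312602765, 0, (-1000000000), 0, 0, 0, 0], 0, 4728⟩ 5 1182737 (by norm_num) ks_sum ⟨_, facet125⟩ (by decide +kernel) (by decide +kernel)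

theorem at66 : BandAt band 8 ks 10000000 (H 66) :=
  at65.facet ⟨![0, 0, 1250389416, 0, 0, (-1000000000), 0, 0, 0], 0, 1001⟩ 6 1126644 (by norm_num) ks_sum ⟨_, facet126⟩ (by decide +kernel) (by decide +kernel)

theorem at67 : BandAt band 8 ks 10000000 (H 67) :=
  at66.facet ⟨![0, 0, 1467966108, 0, 0, 0, (-1000000000), 0, 0], 0, 1510⟩ 7 1322691 (by norm_num) ks_sum ⟨_, facet127⟩ (by decide +kernel) (by decide +kernel)

theorem at68 : BandAt band 8 ks 10000000 (H 68) :=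
  at67.facet ⟨![0, 0, 1564825440, 0, 0, 0, 0, (-1000000000), 0], 0, 5541⟩ 8 1410004 (by norm_num) ks_sum ⟨_, facet128⟩ (by decide +kernel) (by decide +kernel)

theorem at69 : BandAt band 8 ks 10000000 (H 69) :=
  at68.facet ⟨![0, 0, 1648531456, 0, 0, 0, 0, 0, (-1000000000)], 0, 1319⟩ 9 1485384 (by norm_num) ks_sum ⟨_, facet129⟩ (by decide +kernel) (by decide +kernel)

theorem at70 : BandAt band 8 ks 10000000 (H 70) :=
  at69.drop (by norm_num) ks_sum (fun hs => drop8 facets hs) (by decide +kernel)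

theorem at71 : BandAt band 8 ks 10000000 (H 71) :=
  at70.facet ⟨![0, 0, 0, 0, 0, 0, 0, 0, 1149881443], (-1000000000), 1001⟩ 0 1025331 (by norm_num) ks_sum ⟨_, facet134⟩ (by decide +kernel) (by decide +kernel)

theorem at72 : BandAt band 8 ks 10000000 (H 72) :=
  at71.facet ⟨![(-1000000000), 0, 0, 0, 0, 0, 0, 0, 347436322], 0, 1001⟩ 1 309810 (by norm_num) ks_sum ⟨_, facet135⟩ (by decide +kernel) (by decide +kernel)

theorem at73 : BandAt band 8 ks 10000000 (H 73) :=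
  at72.facet ⟨![0, (-1000000000), 0, 0, 0, 0, 0, 0, 593810075], 0, 1001⟩ 2 529496 (by norm_num) ks_sum ⟨_, facet136⟩ (by decide +kernel) (by decide +kernel)

theorem at74 : BandAt band 8 ks 10000000 (H 74) :=
  at73.facet ⟨![0, 0, (-1000000000), 0, 0, 0, 0, 0, 637888130], 0, 1001⟩ 3 568799 (by norm_num) ks_sum ⟨_, facet137⟩ (by decide +kernel) (by decide +kernel)

theorem at75 : BandAt band 8 ks 10000000 (H 75) :=
  at74.facet ⟨![0, 0, 0, (-1000000000), 0, 0, 0, 0, 740918918], 0, 1001⟩ 4 660669 (by norm_num) ks_sum ⟨_, facet138⟩ (by decide +kernel) (by decide +kernel)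

theorem at76 : BandAt band 8 ks 10000000 (H 76) :=
  at75.facet ⟨![0, 0, 0, 0, (-1000000000), 0, 0, 0, 820018390], 0, 1001⟩ 5 731200 (by norm_num) ks_sum ⟨_, facet139⟩ (by decide +kernel) (by decide +kernel)

theorem at77 : BandAt band 8 ks 10000000 (H 77) :=
  at76.facet ⟨![0, 0, 0, 0, 0, (-1000000000), 0, 0, 789836225], 0, 1001⟩ 6 704288 (by norm_num) ks_sum ⟨_, facet140⟩ (by decide +kernel) (by decide +kernel)

theorem at78 : BandAt band 8 ks 10000000 (H 78) :=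
  at77.facet ⟨![0, 0, 0, 0, 0, 0, (-1000000000), 0, 913849172], 0, 1001⟩ 7 814867 (by norm_num) ks_sum ⟨_, facet141⟩ (by decide +kernel) (by decide +kernel)

theorem at79 : BandAt band 8 ks 10000000 (H 79) :=
  at78.facet ⟨![0, 0, 0, 0, 0, 0, 0, (-1000000000), 955086525], 0, 1001⟩ 8 851637 (by norm_num) ks_sum ⟨_, facet142⟩ (by decide +kernel) (by decide +kernel)

theorem at80 : BandAt band 8 ks 10000000 (H 80) :=
  at79.drop (by norm_num) ks_sum (fun hs => drop9 facets hs) (by decide +kernel)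

theorem at81 : BandAt band 8 ks 10000000 (H 81) :=
  at80.facet ⟨![0, 0, 0, 0, 0, 0, 0, 0, 1149881443], (-1000000000), 1001⟩ 0 615203 (by norm_num) ks_sum ⟨_, facet145⟩ (by decide +kernel) (by decide +kernel)

theorem at82 : BandAt band 8 ks 10000000 (H 82) :=
  at81.facet ⟨![(-1000000000), 0, 0, 0, 0, 0, 0, 0, 347436322], 0, 1001⟩ 1 185890 (by norm_num) ks_sum ⟨_, facet146⟩ (by decide +kernel) (by decide +kernel)

theorem at83 : BandAt band 8 ks 10000000 (H 83) :=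
  at82.facet ⟨![0, (-1000000000), 0, 0, 0, 0, 0, 0, 593810075], 0, 1001⟩ 2 317702 (by norm_num) ks_sum ⟨_, facet147⟩ (by decide +kernel) (by decide +kernel)

theorem at84 : BandAt band 8 ks 10000000 (H 84) :=
  at83.facet ⟨![0, 0, (-1000000000), 0, 0, 0, 0, 0, 637888130], 0, 1001⟩ 3 341285 (by norm_num) ks_sum ⟨_, facet148⟩ (by decide +kernel) (by decide +kernel)

theorem at85 : BandAt band 8 ks 10000000 (H 85) :=
  at84.facet ⟨![0, 0, 0, (-1000000000), 0, 0, 0, 0, 740918918], 0, 1001⟩ 4 396406 (by norm_num) ks_sum ⟨_, facet149⟩ (by decide +kernel) (by decide +kernel)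

theorem at86 : BandAt band 8 ks 10000000 (H 86) :=
  at85.facet ⟨![0, 0, 0, 0, (-1000000000), 0, 0, 0, 820018390], 0, 1001⟩ 5 438724 (by norm_num) ks_sum ⟨_, facet150⟩ (by decide +kernel) (by decide +kernel)

theorem at87 : BandAt band 8 ks 10000000 (H 87) :=
  at86.facet ⟨![0, 0, 0, 0, 0, (-1000000000), 0, 0, 789836225], 0, 1001⟩ 6 422577 (by norm_num) ks_sum ⟨_, facet151⟩ (by decide +kernel) (by decide +kernel)

theorem at88 : BandAt band 8 ks 10000000 (H 88) :=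
  at87.facet ⟨![0, 0, 0, 0, 0, 0, (-1000000000), 0, 913849172], 0, 1001⟩ 7 488924 (by norm_num) ks_sum ⟨_, facet152⟩ (by decide +kernel) (by decide +kernel)

theorem at89 : BandAt band 8 ks 10000000 (H 89) :=
  at88.facet ⟨![0, 0, 0, 0, 0, 0, 0, (-1000000000), 955086525], 0, 1001⟩ 8 510986 (by norm_num) ks_sum ⟨_, facet153⟩ (by decide +kernel) (by decide +kernel)

theorem reach : BandReach ((band.P0 : ℝ) / band.Q) ((band.P1 : ℝ) / band.Q) :=
  at89.finish (by decide +kernel) (by decide +kernel)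

end Vale.Agent.P154.Ly.BC
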