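import Vale.Agent.P154.LyBCFd

/-!
Band C: facet checks.
-/

open scoped BigOperators

namespace Vale.Agent.P154.Ly.BC

lemma facet0 : facetTest 8 band ks (⟨![0, 0, 0, 0, 0, 0, 0, 0, (-2188158731151)], 3001000000000, 3000010000999⟩ : Facet 9)
    ⟨4096, 415, 16, (.cut 2 2048 (.out 0) (.cut 1 2048 (.out 0) (.cut 2 3072 (.cut 1 3072 (.out 0) (.cut 1 3584 (.out 0) (.cut 2 2560 (.cut 1 3840 (.out 0) (.cut 0 48125000 (.out 0) (.cut 2 2304 (.mult [(0, 4855757122984394534636182526725473437159683009705602125894447818020612997120), (1, 4749284910124297077919903681996964970544276714801663759430877469074561957888)]) (.cut 1 3968 (.out 0) (.cut 0 48687500 (.mult [(0, 6739986666787659948666753771754907668409286105635143120275902562304)]) (.cut 2 2432 (.cut 1 4032 (.out 0) (.cut 0 48968750 (.mult [(0, 13479973333575319897333507543509815336818572211270286240551805124608)]) (.cut 2 2368 (.cut 1 4064 (.out 0) (.cut 0 49109375 (.mult [(2, 3369993333393829974333376885877453834204643052817571560137951281152)])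 (.cut 2 2336 (.cut 1 4080 (.out 0) (.cut 0 49179688 (.mult [(2, 3369993333393829974333376885877453834204643052817571560137951281152)]) (.cut 2 2320 (.cut 1 4088 (.out 0) (.cut 0 49214844 (.mult [(2, 3369993333393829974333376885877453834204643052817571560137951281152)]) (.cut 2 2312 (.cut 1 4092 (.out 0) (.cut 0 49232422 (.mult [(2, 6739986666787659948666753771754907668409286105635143120275902562304)]) (.cut 2 2308 (.cut 1 4094 (.out 0) (.cut 0 49241211 (.mult [(2, 6739986666787659948666753771754907668409286105635143120275902562304)]) (.cut 2 2306 (.mult [(2, 19166837083677407979021081038428018682038907362899938248284597911552)]) (.mult [])))) (.mult [])))) (.mult [])))) (.mult [])))) (.mult [])))) (.mult [])))) (.mult []))))))) (.mult [])))) (.cut 1 3072 (.cut 2 3584 (.out 0) (.out 3)) (.mult [])))))⟩ = true := by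
  decide +kernel

/-- a subtree of facet 1 -/
noncomputable def t1_0 : Box.TrM := (.out 0)

lemma h1_0 : t1_0.chkM 402 16 (wGuard 8 4096 band.Q) (fExp 8 4096 band.Q (pairs ks fc1.e) fc1.c0 fc1.c1) ((wBox 4096 band.P0 band.P1).left 2 2048) = true := by
  decide +kernel

/-- a subtree of facet 1 -/
noncomputable def t1_1 : Box.TrM := (.out 0)

lemma h1_1 : t1_1.chkM 402 16 (wGuard 8 4096 band.Q) (fExp 8 4096 band.Q (pairs ks fc1.e) fc1.c0 fc1.c1) (((wBox 4096 band.P0 band.P1).right 2 2048).left 1 2048) = true := by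
  decide +kernel

/-- a subtree of facet 1 -/
noncomputable def t1_2 : Box.TrM := (.cut 1 3072 (.out 0) (.cut 1 3584 (.out 0) (.cut 2 2560 (.cut 1 3840 (.out 0) (.cut 0 48125000 (.out 0) (.cut 2 2304 (.mult [(0, 466458099842118804021312068816002569932106275620610296691358499097018368), (1, 455515258888177209970693886910283679861773192163245512640726598770753536)]) (.cut 1 3968 (.out 0) (.cut 0 48687500 (.mult [(0, 51422017416287688817342786954917203280710495801049370729644032)]) (.cut 2 2432 (.cut 1 4032 (.out 0) (.cut 0 48968750 (.mult [(0, 205688069665150755269371147819668813122841983204197482918576128)]) (.cut 2 2368 (.cut 1 4064 (.out 0) (.cut 0 49109375 (.mult [(2, 102844034832575377634685573909834406561420991602098741459288064)]) (.cut 2 2336 (.cut 1 4080 (.out 0) (.cut 0 49179688 (.mult [(2, 205688069665150755269371147819668813122841983204197482918576128)]) (.cut 2 2320 (.cut 1 4088 (.out 0) (.cut 0 49214844 (.mult [(2, 411376139330301510538742295639337626245683966408394965837152256)])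 (.cut 2 2312 (.cut 1 4092 (.out 0) (.cut 0 49232422 (.mult [(2, 411376139330301510538742295639337626245683966408394965837152256)]) (.cut 2 2308 (.cut 1 4094 (.out 0) (.cut 0 49241211 (.mult [(2, 822752278660603021077484591278675252491367932816789931674304512)]) (.cut 2 2306 (.cut 1 4095 (.out 0) (.cut 0 49245606 (.out 2) (.cut 2 2305 (.mult [(2, 3021043523206901718018888733601385692741741628311650530366586880)]) (.mult [(1, 12855504354071922204335696738729300820177623950262342682411008)])))) (.mult [])))) (.mult [])))) (.mult [])))) (.mult [])))) (.mult [])))) (.mult [])))) (.mult []))))))) (.mult []))))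

lemma h1_2 : t1_2.chkM 402 16 (wGuard 8 4096 band.Q) (fExp 8 4096 band.Q (pairs ks fc1.e) fc1.c0 fc1.c1) ((((wBox 4096 band.P0 band.P1).right 2 2048).right 1 2048).left 2 3072) = true := by
  decide +kernel

/-- a subtree of facet 1 -/
noncomputable def t1_3 : Box.TrM := (.cut 2 3584 (.out 0) (.out 3))

lemma h1_3 : t1_3.chkM 402 16 (wGuard 8 4096 band.Q) (fExp 8 4096 band.Q (pairs ks fc1.e) fc1.c0 fc1.c1) (((((wBox 4096 band.P0 band.P1).right 2 2048).right 1 2048).right 2 3072).left 1 3072) = true := by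
  decide +kernel

/-- a subtree of facet 1 -/
noncomputable def t1_4 : Box.TrM := (.mult [])

lemma h1_4 : t1_4.chkM 402 16 (wGuard 8 4096 band.Q) (fExp 8 4096 band.Q (pairs ks fc1.e) fc1.c0 fc1.c1) ((((((wBox 4096 band.P0 band.P1).right 2 2048).right 1 2048).right 2 3072).right 1 3072).left 2 3584) = true := by
  decide +kernel

/-- a subtree of facet 1 -/
noncomputable def t1_5 : Box.TrM := (.mult [])

lemma h1_5 : t1_5.chkM 402 16 (wGuard 8 4096 band.Q) (fExp 8 4096 band.Q (pairs ks fc1.e) fc1.c0 fc1.c1) (((((((wBox 4096 band.P0 band.P1).right 2 2048).right 1 2048).right 2 3072).right 1 3072).right 2 3584).left 1 3584) = true := by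
  decide +kernel

/-- a subtree of facet 1 -/
noncomputable def t1_6 : Box.TrM := (.mult [])

lemma h1_6 : t1_6.chkM 402 16 (wGuard 8 4096 band.Q) (fExp 8 4096 band.Q (pairs ks fc1.e) fc1.c0 fc1.c1) ((((((((wBox 4096 band.P0 band.P1).right 2 2048).right 1 2048).right 2 3072).right 1 3072).right 2 3584).right 1 3584).left 2 3840) = true := by
  decide +kernel

/-- a subtree of facet 1 -/
noncomputable def t1_7 : Box.TrM := (.mult [])

lemma h1_7 : t1_7.chkM 402 16 (wGuard 8 4096 band.Q) (fExp 8 4096 band.Q (pairs ks fc1.e) fc1.c0 fc1.c1) (((((((((wBox 4096 band.P0 band.P1).right 2 2048).right 1 2048).right 2 3072).right 1 3072).right 2 3584).right 1 3584).right 2 3840).left 1 3840) = true := by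
  decide +kernel

/-- a subtree of facet 1 -/
noncomputable def t1_8 : Box.TrM := (.mult [])

lemma h1_8 : t1_8.chkM 402 16 (wGuard 8 4096 band.Q) (fExp 8 4096 band.Q (pairs ks fc1.e) fc1.c0 fc1.c1) (((((((((((wBox 4096 band.P0 band.P1).right 2 2048).right 1 2048).right 2 3072).right 1 3072).right 2 3584).right 1 3584).right 2 3840).right 1 3840).left 0 48125000).left 2 3968) = true := by
  decide +kernel

/-- a subtree of facet 1 -/
noncomputable def t1_9 : Box.TrM := (.mult [])

lemma h1_9 : t1_9.chkM 402 16 (wGuard 8 4096 band.Q) (fExp 8 4096 band.Q (pairs ks fc1.e) fc1.c0 fc1.c1) ((((((((((((wBox 4096 band.P0 band.P1).right 2 2048).right 1 2048).right 2 3072).right 1 3072).right 2 3584).right 1 3584).right 2 3840).right 1 3840).left 0 48125000).right 2 3968).left 1 3968) = true := by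
  decide +kernel

/-- a subtree of facet 1 -/
noncomputable def t1_10 : Box.TrM := (.cut 2 4032 (.mult []) (.cut 1 4032 (.mult []) (.cut 0 47281250 (.cut 2 4064 (.mult []) (.cut 1 4064 (.mult []) (.cut 0 47140625 (.cut 2 4080 (.mult []) (.cut 1 4080 (.mult []) (.cut 0 47070312 (.cut 2 4088 (.mult []) (.cut 1 4088 (.mult []) (.cut 0 47035156 (.cut 2 4092 (.mult []) (.mult [])) (.cut 2 4092 (.mult []) (.mult []))))) (.cut 2 4088 (.mult []) (.cut 1 4088 (.mult []) (.cut 0 47105468 (.cut 2 4092 (.mult []) (.mult [])) (.cut 2 4092 (.mult []) (.mult [])))))))) (.cut 2 4080 (.mult []) (.cut 1 4080 (.mult []) (.cut 0 47210937 (.cut 2 4088 (.mult []) (.cut 1 4088 (.mult []) (.cut 0 47175781 (.cut 2 4092 (.mult []) (.mult [])) (.cut 2 4092 (.mult []) (.mult []))))) (.cut 2 4088 (.mult []) (.cut 1 4088 (.mult []) (.cut 0 47246093 (.cut 2 4092 (.mult []) (.mult [])) (.cut 2 4092 (.mult []) (.mult []))))))))))) (.cut 2 4064 (.mult []) (.cut 1 4064 (.mult []) (.cut 0 47421875 (.cut 2 4080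 (.mult []) (.cut 1 4080 (.mult []) (.cut 0 47351562 (.cut 2 4088 (.mult []) (.cut 1 4088 (.mult []) (.cut 0 47316406 (.cut 2 4092 (.mult []) (.mult [])) (.cut 2 4092 (.mult []) (.mult []))))) (.cut 2 4088 (.mult []) (.cut 1 4088 (.mult []) (.cut 0 47386718 (.cut 2 4092 (.mult []) (.mult [])) (.cut 2 4092 (.mult []) (.mult [])))))))) (.cut 2 4080 (.mult []) (.cut 1 4080 (.mult []) (.cut 0 47492187 (.cut 2 4088 (.mult []) (.cut 1 4088 (.mult []) (.cut 0 47457031 (.cut 2 4092 (.mult []) (.mult [])) (.cut 2 4092 (.mult []) (.mult []))))) (.cut 2 4088 (.mult []) (.cut 1 4088 (.mult []) (.cut 0 47527343 (.cut 2 4092 (.mult []) (.mult [])) (.cut 2 4092 (.mult []) (.mult []))))))))))))))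

lemma h1_10 : t1_10.chkM 402 16 (wGuard 8 4096 band.Q) (fExp 8 4096 band.Q (pairs ks fc1.e) fc1.c0 fc1.c1) (((((((((((((wBox 4096 band.P0 band.P1).right 2 2048).right 1 2048).right 2 3072).right 1 3072).right 2 3584).right 1 3584).right 2 3840).right 1 3840).left 0 48125000).right 2 3968).right 1 3968).left 0 47562500) = true := by
  decide +kernel

/-- a subtree of facet 4 -/
noncomputable def t4_14 : Box.TrM := (.cut 2 4032 (.mult []) (.cut 1 4032 (.mult []) (.cut 0 48406250 (.cut 2 4064 (.mult []) (.cut 1 4064 (.mult []) (.cut 0 48265625 (.cut 2 4080 (.mult []) (.cut 1 4080 (.mult []) (.cut 0 48195312 (.cut 2 4088 (.mult []) (.cut 1 4088 (.mult []) (.cut 0 48160156 (.cut 2 4092 (.mult []) (.cut 1 4092 (.mult []) (.mult []))) (.cut 2 4092 (.mult []) (.cut 1 4092 (.mult []) (.mult [])))))) (.cut 2 4088 (.mult []) (.cut 1 4088 (.mult []) (.cut 0 48230468 (.cut 2 4092 (.mult []) (.cut 1 4092 (.mult []) (.mult []))) (.cut 2 4092 (.mult []) (.cut 1 4092 (.mult []) (.mult [])))))))))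 (.cut 2 4080 (.mult []) (.cut 1 4080 (.mult []) (.cut 0 48335937 (.cut 2 4088 (.mult []) (.cut 1 4088 (.mult []) (.cut 0 48300781 (.cut 2 4092 (.mult []) (.cut 1 4092 (.mult []) (.mult []))) (.cut 2 4092 (.mult []) (.cut 1 4092 (.mult []) (.mult [])))))) (.cut 2 4088 (.mult []) (.cut 1 4088 (.mult []) (.cut 0 48371093 (.cut 2 4092 (.mult []) (.cut 1 4092 (.mult []) (.mult []))) (.cut 2 4092 (.mult []) (.cut 1 4092 (.mult []) (.mult [])))))))))))) (.cut 2 4064 (.mult []) (.cut 1 4064 (.mult []) (.cut 0 48546875 (.cut 2 4080 (.mult []) (.cut 1 4080 (.mult []) (.cut 0 48476562 (.cut 2 4088 (.mult []) (.cut 1 4088 (.mult []) (.cut 0 48441406 (.cut 2 4092 (.mult []) (.cut 1 4092 (.mult []) (.mult []))) (.cut 2 4092 (.mult []) (.cut 1 4092 (.mult []) (.mult [])))))) (.cut 2 4088 (.mult []) (.cut 1 4088 (.mult []) (.cut 0 48511718 (.cut 2 4092 (.mult []) (.cut 1 4092 (.mult []) (.mult []))) (.cut 2 4092 (.mult []) (.cut 1 4092 (.mult []) (.mult []))))))))) (.cut 2 4080 (.mult []) (.cut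 1 4080 (.mult []) (.cut 0 48617187 (.cut 2 4088 (.mult []) (.cut 1 4088 (.mult []) (.cut 0 48582031 (.cut 2 4092 (.mult []) (.cut 1 4092 (.mult []) (.mult []))) (.cut 2 4092 (.mult []) (.cut 1 4092 (.mult []) (.mult [])))))) (.cut 2 4088 (.mult []) (.cut 1 4088 (.mult []) (.cut 0 48652343 (.cut 2 4092 (.mult []) (.cut 1 4092 (.mult []) (.mult []))) (.cut 2 4092 (.mult []) (.cut 1 4092 (.mult []) (.mult [])))))))))))))))

lemma h4_14 : t4_14.chkM 402 16 (wGuard 8 4096 band.Q) (fExp 8 4096 band.Q (pairs ks fc4.e) fc4.c0 fc4.c1) (((((((((((((wBox 4096 band.P0 band.P1).right 2 2048).right 1 2048).right 2 3072).right 1 3072).right 2 3584).right 1 3584).right 2 3840).right 1 3840).right 0 48125000).right 2 3968).right 1 3968).left 0 48687500) = true := by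
  decide +kernel

/-- a subtree of facet 7 -/
noncomputable def t7_12 : Box.TrM := (.cut 2 4064 (.mult []) (.cut 1 4064 (.mult []) (.cut 0 47140625 (.cut 2 4080 (.mult []) (.cut 1 4080 (.mult []) (.cut 0 47070312 (.cut 2 4088 (.mult []) (.cut 1 4088 (.mult []) (.cut 0 47035156 (.cut 2 4092 (.mult []) (.cut 1 4092 (.mult []) (.cut 0 47017578 (.cut 2 4094 (.mult []) (.cut 1 4094 (.mult []) (.mult []))) (.cut 2 4094 (.mult []) (.cut 1 4094 (.mult []) (.mult [])))))) (.cut 2 4092 (.mult []) (.cut 1 4092 (.mult []) (.cut 0 47052734 (.cut 2 4094 (.mult []) (.cut 1 4094 (.mult []) (.mult []))) (.cut 2 4094 (.mult []) (.cut 1 4094 (.mult []) (.mult []))))))))) (.cut 2 4088 (.mult []) (.cut 1 4088 (.mult []) (.cut 0 47105468 (.cut 2 4092 (.mult []) (.cut 1 4092 (.mult []) (.cut 0 47087890 (.cut 2 4094 (.mult []) (.cut 1 4094 (.mult []) (.mult []))) (.cut 2 4094 (.mult []) (.cut 1 4094 (.mult []) (.mult [])))))) (.cut 2 4092 (.mult []) (.cut 1 4092 (.mult []) (.cut 0 47123046 (.cut 2 4094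 (.mult []) (.cut 1 4094 (.mult []) (.mult []))) (.cut 2 4094 (.mult []) (.cut 1 4094 (.mult []) (.mult [])))))))))))) (.cut 2 4080 (.mult []) (.cut 1 4080 (.mult []) (.cut 0 47210937 (.cut 2 4088 (.mult []) (.cut 1 4088 (.mult []) (.cut 0 47175781 (.cut 2 4092 (.mult []) (.cut 1 4092 (.mult []) (.cut 0 47158203 (.cut 2 4094 (.mult []) (.cut 1 4094 (.mult []) (.mult []))) (.cut 2 4094 (.mult []) (.cut 1 4094 (.mult []) (.mult [])))))) (.cut 2 4092 (.mult []) (.cut 1 4092 (.mult []) (.cut 0 47193359 (.cut 2 4094 (.mult []) (.cut 1 4094 (.mult []) (.mult []))) (.cut 2 4094 (.mult []) (.cut 1 4094 (.mult []) (.mult []))))))))) (.cut 2 4088 (.mult []) (.cut 1 4088 (.mult []) (.cut 0 47246093 (.cut 2 4092 (.mult []) (.cut 1 4092 (.mult []) (.cut 0 47228515 (.cut 2 4094 (.mult []) (.cut 1 4094 (.mult []) (.mult []))) (.cut 2 4094 (.mult []) (.cut 1 4094 (.mult []) (.mult [])))))) (.cut 2 4092 (.mult []) (.cut 1 4092 (.mult []) (.cut 0 47263671 (.cut 2 4094 (.mult []) (.cut 1 4094 (.mult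 []) (.mult []))) (.cut 2 4094 (.mult []) (.cut 1 4094 (.mult []) (.mult [])))))))))))))))

lemma h7_12 : t7_12.chkM 403 16 (wGuard 8 4096 band.Q) (fExp 8 4096 band.Q (pairs ks fc7.e) fc7.c0 fc7.c1) ((((((((((((((((wBox 4096 band.P0 band.P1).right 2 2048).right 1 2048).right 2 3072).right 1 3072).right 2 3584).right 1 3584).right 2 3840).right 1 3840).left 0 48125000).right 2 3968).right 1 3968).left 0 47562500).right 2 4032).right 1 4032).left 0 47281250) = true := by
  decide +kernel

/-- a subtree of facet 8 -/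
noncomputable def t8_26 : Box.TrM := (.cut 2 4064 (.mult []) (.cut 1 4064 (.mult []) (.cut 0 48828125 (.cut 2 4080 (.mult []) (.cut 1 4080 (.mult []) (.cut 0 48757812 (.cut 2 4088 (.mult []) (.cut 1 4088 (.mult []) (.cut 0 48722656 (.cut 2 4092 (.mult []) (.cut 1 4092 (.mult []) (.cut 0 48705078 (.cut 2 4094 (.mult []) (.cut 1 4094 (.mult []) (.mult []))) (.cut 2 4094 (.mult []) (.cut 1 4094 (.mult []) (.mult [])))))) (.cut 2 4092 (.mult []) (.cut 1 4092 (.mult []) (.cut 0 48740234 (.cut 2 4094 (.mult []) (.cut 1 4094 (.mult []) (.mult []))) (.cut 2 4094 (.mult []) (.cut 1 4094 (.mult []) (.mult []))))))))) (.cut 2 4088 (.mult []) (.cut 1 4088 (.mult []) (.cut 0 48792968 (.cut 2 4092 (.mult []) (.cut 1 4092 (.mult []) (.cut 0 48775390 (.cut 2 4094 (.mult []) (.cut 1 4094 (.mult []) (.mult []))) (.cut 2 4094 (.mult []) (.cut 1 4094 (.mult []) (.mult [])))))) (.cut 2 4092 (.mult []) (.cut 1 4092 (.mult []) (.cut 0 48810546 (.cut 2 4094 (.mult []) (.cut 1 4094 (.mult []) (.mult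 []))) (.cut 2 4094 (.mult []) (.cut 1 4094 (.mult []) (.mult [])))))))))))) (.cut 2 4080 (.mult []) (.cut 1 4080 (.mult []) (.cut 0 48898437 (.cut 2 4088 (.mult []) (.cut 1 4088 (.mult []) (.cut 0 48863281 (.cut 2 4092 (.mult []) (.cut 1 4092 (.mult []) (.cut 0 48845703 (.cut 2 4094 (.mult []) (.cut 1 4094 (.mult []) (.mult []))) (.cut 2 4094 (.mult []) (.cut 1 4094 (.mult []) (.mult [])))))) (.cut 2 4092 (.mult []) (.cut 1 4092 (.mult []) (.cut 0 48880859 (.cut 2 4094 (.mult []) (.cut 1 4094 (.mult []) (.mult []))) (.cut 2 4094 (.mult []) (.cut 1 4094 (.mult []) (.mult []))))))))) (.cut 2 4088 (.mult []) (.cut 1 4088 (.mult []) (.cut 0 48933593 (.cut 2 4092 (.mult []) (.cut 1 4092 (.mult []) (.cut 0 48916015 (.cut 2 4094 (.mult []) (.cut 1 4094 (.mult []) (.mult []))) (.cut 2 4094 (.mult []) (.cut 1 4094 (.mult []) (.mult [])))))) (.cut 2 4092 (.mult []) (.cut 1 4092 (.mult []) (.cut 0 48951171 (.cut 2 4094 (.mult []) (.cut 1 4094 (.mult []) (.mult []))) (.cut 2 4094 (.mult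 []) (.cut 1 4094 (.mult []) (.mult [])))))))))))))))

lemma h8_26 : t8_26.chkM 403 16 (wGuard 8 4096 band.Q) (fExp 8 4096 band.Q (pairs ks fc8.e) fc8.c0 fc8.c1) ((((((((((((((((wBox 4096 band.P0 band.P1).right 2 2048).right 1 2048).right 2 3072).right 1 3072).right 2 3584).right 1 3584).right 2 3840).right 1 3840).right 0 48125000).right 2 3968).right 1 3968).right 0 48687500).right 2 4032).right 1 4032).left 0 48968750) = true := by
  decide +kernel

end Vale.Agent.P154.Ly.BC
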