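import Vale.Agent.P154.LyBCFd

/-!
Band C: facet checks.
-/

open scoped BigOperators

namespace Vale.Agent.P154.Ly.BC

/-- a subtree of facet 1 -/
noncomputable def t1_11 : Box.TrM := (.cut 2 4032 (.mult []) (.cut 1 4032 (.mult []) (.cut 0 47843750 (.cut 2 4064 (.mult []) (.cut 1 4064 (.mult []) (.cut 0 47703125 (.cut 2 4080 (.mult []) (.cut 1 4080 (.mult []) (.cut 0 47632812 (.cut 2 4088 (.mult []) (.cut 1 4088 (.mult []) (.cut 0 47597656 (.cut 2 4092 (.mult []) (.mult [])) (.cut 2 4092 (.mult []) (.mult []))))) (.cut 2 4088 (.mult []) (.cut 1 4088 (.mult []) (.cut 0 47667968 (.cut 2 4092 (.mult []) (.mult [])) (.cut 2 4092 (.mult []) (.mult [])))))))) (.cut 2 4080 (.mult []) (.cut 1 4080 (.mult []) (.cut 0 47773437 (.cut 2 4088 (.mult []) (.cut 1 4088 (.mult []) (.cut 0 47738281 (.cut 2 4092 (.mult []) (.mult [])) (.cut 2 4092 (.mult []) (.mult []))))) (.cut 2 4088 (.mult []) (.cut 1 4088 (.mult []) (.cut 0 47808593 (.cut 2 4092 (.mult []) (.mult [])) (.cut 2 4092 (.mult []) (.mult [])))))))))))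 (.cut 2 4064 (.mult []) (.cut 1 4064 (.mult []) (.cut 0 47984375 (.cut 2 4080 (.mult []) (.cut 1 4080 (.mult []) (.cut 0 47914062 (.cut 2 4088 (.mult []) (.cut 1 4088 (.mult []) (.cut 0 47878906 (.cut 2 4092 (.mult []) (.mult [])) (.cut 2 4092 (.mult []) (.mult []))))) (.cut 2 4088 (.mult []) (.cut 1 4088 (.mult []) (.cut 0 47949218 (.cut 2 4092 (.mult []) (.mult [])) (.cut 2 4092 (.mult []) (.mult [])))))))) (.cut 2 4080 (.mult []) (.cut 1 4080 (.mult []) (.cut 0 48054687 (.cut 2 4088 (.mult []) (.cut 1 4088 (.mult []) (.cut 0 48019531 (.cut 2 4092 (.mult []) (.mult [])) (.cut 2 4092 (.mult []) (.mult []))))) (.cut 2 4088 (.mult []) (.cut 1 4088 (.mult []) (.cut 0 48089843 (.cut 2 4092 (.mult []) (.mult [])) (.cut 2 4092 (.mult []) (.mult []))))))))))))))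

lemma h1_11 : t1_11.chkM 402 16 (wGuard 8 4096 band.Q) (fExp 8 4096 band.Q (pairs ks fc1.e) fc1.c0 fc1.c1) (((((((((((((wBox 4096 band.P0 band.P1).right 2 2048).right 1 2048).right 2 3072).right 1 3072).right 2 3584).right 1 3584).right 2 3840).right 1 3840).left 0 48125000).right 2 3968).right 1 3968).right 0 47562500) = true := by
  decide +kernel

/-- a subtree of facet 1 -/
noncomputable def t1_12 : Box.TrM := (.mult [])

lemma h1_12 : t1_12.chkM 402 16 (wGuard 8 4096 band.Q) (fExp 8 4096 band.Q (pairs ks fc1.e) fc1.c0 fc1.c1) (((((((((((wBox 4096 band.P0 band.P1).right 2 2048).right 1 2048).right 2 3072).right 1 3072).right 2 3584).right 1 3584).right 2 3840).right 1 3840).right 0 48125000).left 2 3968) = true := by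
  decide +kernel

/-- a subtree of facet 1 -/
noncomputable def t1_13 : Box.TrM := (.mult [])

lemma h1_13 : t1_13.chkM 402 16 (wGuard 8 4096 band.Q) (fExp 8 4096 band.Q (pairs ks fc1.e) fc1.c0 fc1.c1) ((((((((((((wBox 4096 band.P0 band.P1).right 2 2048).right 1 2048).right 2 3072).right 1 3072).right 2 3584).right 1 3584).right 2 3840).right 1 3840).right 0 48125000).right 2 3968).left 1 3968) = true := by
  decide +kernel

/-- a subtree of facet 4 -/
noncomputable def t4_15 : Box.TrM := (.cut 2 4032 (.mult []) (.cut 1 4032 (.mult []) (.cut 0 48968750 (.cut 2 4064 (.mult []) (.cut 1 4064 (.mult []) (.cut 0 48828125 (.cut 2 4080 (.mult []) (.cut 1 4080 (.mult []) (.cut 0 48757812 (.cut 2 4088 (.mult []) (.cut 1 4088 (.mult []) (.cut 0 48722656 (.cut 2 4092 (.mult []) (.cut 1 4092 (.mult []) (.mult []))) (.cut 2 4092 (.mult []) (.cut 1 4092 (.mult []) (.mult [])))))) (.cut 2 4088 (.mult []) (.cut 1 4088 (.mult []) (.cut 0 48792968 (.cut 2 4092 (.mult []) (.cut 1 4092 (.mult []) (.mult []))) (.cut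 2 4092 (.mult []) (.cut 1 4092 (.mult []) (.mult []))))))))) (.cut 2 4080 (.mult []) (.cut 1 4080 (.mult []) (.cut 0 48898437 (.cut 2 4088 (.mult []) (.cut 1 4088 (.mult []) (.cut 0 48863281 (.cut 2 4092 (.mult []) (.cut 1 4092 (.mult []) (.mult []))) (.cut 2 4092 (.mult []) (.cut 1 4092 (.mult []) (.mult [])))))) (.cut 2 4088 (.mult []) (.cut 1 4088 (.mult []) (.cut 0 48933593 (.cut 2 4092 (.mult []) (.cut 1 4092 (.mult []) (.mult []))) (.cut 2 4092 (.mult []) (.cut 1 4092 (.mult []) (.mult [])))))))))))) (.cut 2 4064 (.mult []) (.cut 1 4064 (.mult []) (.cut 0 49109375 (.cut 2 4080 (.mult []) (.cut 1 4080 (.mult []) (.cut 0 49039062 (.cut 2 4088 (.mult []) (.cut 1 4088 (.mult []) (.cut 0 49003906 (.cut 2 4092 (.mult []) (.cut 1 4092 (.mult []) (.mult []))) (.cut 2 4092 (.mult []) (.cut 1 4092 (.mult []) (.mult [])))))) (.cut 2 4088 (.mult []) (.cut 1 4088 (.mult []) (.cut 0 49074218 (.cut 2 4092 (.mult []) (.cut 1 4092 (.mult []) (.mult []))) (.cut 2 4092 (.mult []) (.cut 1 4092 (.mult [])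 (.mult []))))))))) (.cut 2 4080 (.mult []) (.cut 1 4080 (.mult []) (.cut 0 49179688 (.cut 2 4088 (.mult []) (.cut 1 4088 (.mult []) (.cut 0 49144531 (.cut 2 4092 (.mult []) (.cut 1 4092 (.mult []) (.mult []))) (.cut 2 4092 (.mult []) (.cut 1 4092 (.mult []) (.mult [])))))) (.cut 2 4088 (.mult []) (.cut 1 4088 (.mult []) (.cut 0 49214844 (.cut 2 4092 (.mult []) (.cut 1 4092 (.mult []) (.mult []))) (.cut 2 4092 (.mult []) (.cut 1 4092 (.mult []) (.mult [])))))))))))))))

lemma h4_15 : t4_15.chkM 402 16 (wGuard 8 4096 band.Q) (fExp 8 4096 band.Q (pairs ks fc4.e) fc4.c0 fc4.c1) (((((((((((((wBox 4096 band.P0 band.P1).right 2 2048).right 1 2048).right 2 3072).right 1 3072).right 2 3584).right 1 3584).right 2 3840).right 1 3840).right 0 48125000).right 2 3968).right 1 3968).right 0 48687500) = true := by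
  decide +kernel

/-- a subtree of facet 5 -/
noncomputable def t5_0 : Box.TrM := (.out 0)

lemma h5_0 : t5_0.chkM 402 16 (wGuard 8 4096 band.Q) (fExp 8 4096 band.Q (pairs ks fc5.e) fc5.c0 fc5.c1) ((wBox 4096 band.P0 band.P1).left 2 2048) = true := by
  decide +kernel

/-- a subtree of facet 5 -/
noncomputable def t5_1 : Box.TrM := (.out 0)

lemma h5_1 : t5_1.chkM 402 16 (wGuard 8 4096 band.Q) (fExp 8 4096 band.Q (pairs ks fc5.e) fc5.c0 fc5.c1) (((wBox 4096 band.P0 band.P1).right 2 2048).left 1 2048) = true := by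
  decide +kernel

/-- a subtree of facet 5 -/
noncomputable def t5_2 : Box.TrM := (.cut 1 3072 (.out 0) (.cut 1 3584 (.out 0) (.cut 2 2560 (.cut 1 3840 (.out 0) (.cut 0 48125000 (.out 0) (.cut 2 2304 (.mult [(0, 863641661823122721482778974179945905848031900522407081275016838113132544), (1, 842013054308448782067040215197797105199035294604787159729827955303514112)]) (.cut 1 3968 (.out 0) (.cut 0 48687500 (.mult [(0, 102844034832575377634685573909834406561420991602098741459288064)]) (.cut 2 2432 (.cut 1 4032 (.out 0) (.cut 0 48968750 (.mult [(0, 411376139330301510538742295639337626245683966408394965837152256)]) (.cut 2 2368 (.cut 1 4064 (.out 0) (.cut 0 49109375 (.mult [(2, 205688069665150755269371147819668813122841983204197482918576128)]) (.cut 2 2336 (.cut 1 4080 (.out 0) (.cut 0 49179688 (.mult [(2, 411376139330301510538742295639337626245683966408394965837152256)]) (.cut 2 2320 (.cut 1 4088 (.out 0) (.cut 0 49214844 (.mult [(2, 822752278660603021077484591278675252491367932816789931674304512)])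 (.cut 2 2312 (.cut 1 4092 (.out 0) (.cut 0 49232422 (.mult [(2, 1645504557321206042154969182557350504982735865633579863348609024)]) (.cut 2 2308 (.cut 1 4094 (.out 0) (.cut 0 49241211 (.mult [(2, 1645504557321206042154969182557350504982735865633579863348609024)]) (.cut 2 2306 (.cut 1 4095 (.out 0) (.cut 0 49245606 (.out 2) (.cut 2 2305 (.cut 1 4096 (.mult [(0, 13703967641440669069821852723485434674309347130979657299450134528)]) (.mult [(1, 13703967641440669069821852723485434674309347130979657299450134528)])) (.mult [(1, 25711008708143844408671393477458601640355247900524685364822016)])))) (.mult [])))) (.mult [])))) (.mult [])))) (.mult [])))) (.mult [])))) (.mult [])))) (.mult []))))))) (.mult []))))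

lemma h5_2 : t5_2.chkM 402 16 (wGuard 8 4096 band.Q) (fExp 8 4096 band.Q (pairs ks fc5.e) fc5.c0 fc5.c1) ((((wBox 4096 band.P0 band.P1).right 2 2048).right 1 2048).left 2 3072) = true := by
  decide +kernel

/-- a subtree of facet 5 -/
noncomputable def t5_3 : Box.TrM := (.cut 2 3584 (.out 0) (.out 3))

lemma h5_3 : t5_3.chkM 402 16 (wGuard 8 4096 band.Q) (fExp 8 4096 band.Q (pairs ks fc5.e) fc5.c0 fc5.c1) (((((wBox 4096 band.P0 band.P1).right 2 2048).right 1 2048).right 2 3072).left 1 3072) = true := by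
  decide +kernel

/-- a subtree of facet 5 -/
noncomputable def t5_4 : Box.TrM := (.mult [])

lemma h5_4 : t5_4.chkM 402 16 (wGuard 8 4096 band.Q) (fExp 8 4096 band.Q (pairs ks fc5.e) fc5.c0 fc5.c1) ((((((wBox 4096 band.P0 band.P1).right 2 2048).right 1 2048).right 2 3072).right 1 3072).left 2 3584) = true := by
  decide +kernel

/-- a subtree of facet 5 -/
noncomputable def t5_5 : Box.TrM := (.mult [])

lemma h5_5 : t5_5.chkM 402 16 (wGuard 8 4096 band.Q) (fExp 8 4096 band.Q (pairs ks fc5.e) fc5.c0 fc5.c1) (((((((wBox 4096 band.P0 band.P1).right 2 2048).right 1 2048).right 2 3072).right 1 3072).right 2 3584).left 1 3584) = true := by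
  decide +kernel

/-- a subtree of facet 5 -/
noncomputable def t5_6 : Box.TrM := (.mult [])

lemma h5_6 : t5_6.chkM 402 16 (wGuard 8 4096 band.Q) (fExp 8 4096 band.Q (pairs ks fc5.e) fc5.c0 fc5.c1) ((((((((wBox 4096 band.P0 band.P1).right 2 2048).right 1 2048).right 2 3072).right 1 3072).right 2 3584).right 1 3584).left 2 3840) = true := by
  decide +kernel

/-- a subtree of facet 5 -/
noncomputable def t5_7 : Box.TrM := (.mult [])

lemma h5_7 : t5_7.chkM 402 16 (wGuard 8 4096 band.Q) (fExp 8 4096 band.Q (pairs ks fc5.e) fc5.c0 fc5.c1) (((((((((wBox 4096 band.P0 band.P1).right 2 2048).right 1 2048).right 2 3072).right 1 3072).right 2 3584).right 1 3584).right 2 3840).left 1 3840) = true := by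
  decide +kernel

/-- a subtree of facet 5 -/
noncomputable def t5_8 : Box.TrM := (.mult [])

lemma h5_8 : t5_8.chkM 402 16 (wGuard 8 4096 band.Q) (fExp 8 4096 band.Q (pairs ks fc5.e) fc5.c0 fc5.c1) (((((((((((wBox 4096 band.P0 band.P1).right 2 2048).right 1 2048).right 2 3072).right 1 3072).right 2 3584).right 1 3584).right 2 3840).right 1 3840).left 0 48125000).left 2 3968) = true := by
  decide +kernel

/-- a subtree of facet 5 -/
noncomputable def t5_9 : Box.TrM := (.mult [])

lemma h5_9 : t5_9.chkM 402 16 (wGuard 8 4096 band.Q) (fExp 8 4096 band.Q (pairs ks fc5.e) fc5.c0 fc5.c1) ((((((((((((wBox 4096 band.P0 band.P1).right 2 2048).right 1 2048).right 2 3072).right 1 3072).right 2 3584).right 1 3584).right 2 3840).right 1 3840).left 0 48125000).right 2 3968).left 1 3968) = true := by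
  decide +kernel

/-- a subtree of facet 5 -/
noncomputable def t5_10 : Box.TrM := (.mult [])

lemma h5_10 : t5_10.chkM 402 16 (wGuard 8 4096 band.Q) (fExp 8 4096 band.Q (pairs ks fc5.e) fc5.c0 fc5.c1) ((((((((((((((wBox 4096 band.P0 band.P1).right 2 2048).right 1 2048).right 2 3072).right 1 3072).right 2 3584).right 1 3584).right 2 3840).right 1 3840).left 0 48125000).right 2 3968).right 1 3968).left 0 47562500).left 2 4032) = true := by
  decide +kernel

/-- a subtree of facet 5 -/
noncomputable def t5_11 : Box.TrM := (.mult [])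

lemma h5_11 : t5_11.chkM 402 16 (wGuard 8 4096 band.Q) (fExp 8 4096 band.Q (pairs ks fc5.e) fc5.c0 fc5.c1) (((((((((((((((wBox 4096 band.P0 band.P1).right 2 2048).right 1 2048).right 2 3072).right 1 3072).right 2 3584).right 1 3584).right 2 3840).right 1 3840).left 0 48125000).right 2 3968).right 1 3968).left 0 47562500).right 2 4032).left 1 4032) = true := by
  decide +kernel

/-- a subtree of facet 7 -/
noncomputable def t7_13 : Box.TrM := (.cut 2 4064 (.mult []) (.cut 1 4064 (.mult []) (.cut 0 47421875 (.cut 2 4080 (.mult []) (.cut 1 4080 (.mult []) (.cut 0 47351562 (.cut 2 4088 (.mult []) (.cut 1 4088 (.mult []) (.cut 0 47316406 (.cut 2 4092 (.mult []) (.cut 1 4092 (.mult []) (.cut 0 47298828 (.cut 2 4094 (.mult []) (.cut 1 4094 (.mult []) (.mult []))) (.cut 2 4094 (.mult []) (.cut 1 4094 (.mult []) (.mult [])))))) (.cut 2 4092 (.mult []) (.cut 1 4092 (.mult []) (.cut 0 47333984 (.cut 2 4094 (.mult []) (.cut 1 4094 (.mult []) (.mult []))) (.cut 2 4094 (.mult []) (.cut 1 4094 (.mult [])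 (.mult []))))))))) (.cut 2 4088 (.mult []) (.cut 1 4088 (.mult []) (.cut 0 47386718 (.cut 2 4092 (.mult []) (.cut 1 4092 (.mult []) (.cut 0 47369140 (.cut 2 4094 (.mult []) (.cut 1 4094 (.mult []) (.mult []))) (.cut 2 4094 (.mult []) (.cut 1 4094 (.mult []) (.mult [])))))) (.cut 2 4092 (.mult []) (.cut 1 4092 (.mult []) (.cut 0 47404296 (.cut 2 4094 (.mult []) (.cut 1 4094 (.mult []) (.mult []))) (.cut 2 4094 (.mult []) (.cut 1 4094 (.mult []) (.mult [])))))))))))) (.cut 2 4080 (.mult []) (.cut 1 4080 (.mult []) (.cut 0 47492187 (.cut 2 4088 (.mult []) (.cut 1 4088 (.mult []) (.cut 0 47457031 (.cut 2 4092 (.mult []) (.cut 1 4092 (.mult []) (.cut 0 47439453 (.cut 2 4094 (.mult []) (.cut 1 4094 (.mult []) (.mult []))) (.cut 2 4094 (.mult []) (.cut 1 4094 (.mult []) (.mult [])))))) (.cut 2 4092 (.mult []) (.cut 1 4092 (.mult []) (.cut 0 47474609 (.cut 2 4094 (.mult []) (.cut 1 4094 (.mult []) (.mult []))) (.cut 2 4094 (.mult []) (.cut 1 4094 (.mult []) (.mult []))))))))) (.cut 2 4088 (.mult [])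 (.cut 1 4088 (.mult []) (.cut 0 47527343 (.cut 2 4092 (.mult []) (.cut 1 4092 (.mult []) (.cut 0 47509765 (.cut 2 4094 (.mult []) (.cut 1 4094 (.mult []) (.mult []))) (.cut 2 4094 (.mult []) (.cut 1 4094 (.mult []) (.mult [])))))) (.cut 2 4092 (.mult []) (.cut 1 4092 (.mult []) (.cut 0 47544921 (.cut 2 4094 (.mult []) (.cut 1 4094 (.mult []) (.mult []))) (.cut 2 4094 (.mult []) (.cut 1 4094 (.mult []) (.mult [])))))))))))))))

lemma h7_13 : t7_13.chkM 403 16 (wGuard 8 4096 band.Q) (fExp 8 4096 band.Q (pairs ks fc7.e) fc7.c0 fc7.c1) ((((((((((((((((wBox 4096 band.P0 band.P1).right 2 2048).right 1 2048).right 2 3072).right 1 3072).right 2 3584).right 1 3584).right 2 3840).right 1 3840).left 0 48125000).right 2 3968).right 1 3968).left 0 47562500).right 2 4032).right 1 4032).right 0 47281250) = true := by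
  decide +kernel

/-- a subtree of facet 7 -/
noncomputable def t7_14 : Box.TrM := (.mult [])

lemma h7_14 : t7_14.chkM 403 16 (wGuard 8 4096 band.Q) (fExp 8 4096 band.Q (pairs ks fc7.e) fc7.c0 fc7.c1) ((((((((((((((wBox 4096 band.P0 band.P1).right 2 2048).right 1 2048).right 2 3072).right 1 3072).right 2 3584).right 1 3584).right 2 3840).right 1 3840).left 0 48125000).right 2 3968).right 1 3968).right 0 47562500).left 2 4032) = true := by
  decide +kernel

/-- a subtree of facet 7 -/
noncomputable def t7_15 : Box.TrM := (.mult [])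

lemma h7_15 : t7_15.chkM 403 16 (wGuard 8 4096 band.Q) (fExp 8 4096 band.Q (pairs ks fc7.e) fc7.c0 fc7.c1) (((((((((((((((wBox 4096 band.P0 band.P1).right 2 2048).right 1 2048).right 2 3072).right 1 3072).right 2 3584).right 1 3584).right 2 3840).right 1 3840).left 0 48125000).right 2 3968).right 1 3968).right 0 47562500).right 2 4032).left 1 4032) = true := by
  decide +kernel

/-- a subtree of facet 8 -/
noncomputable def t8_27 : Box.TrM := (.cut 2 4064 (.mult []) (.cut 1 4064 (.mult []) (.cut 0 49109375 (.cut 2 4080 (.mult []) (.cut 1 4080 (.mult []) (.cut 0 49039062 (.cut 2 4088 (.mult []) (.cut 1 4088 (.mult []) (.cut 0 49003906 (.cut 2 4092 (.mult []) (.cut 1 4092 (.mult []) (.cut 0 48986328 (.cut 2 4094 (.mult []) (.cut 1 4094 (.mult []) (.mult []))) (.cut 2 4094 (.mult []) (.cut 1 4094 (.mult []) (.mult [])))))) (.cut 2 4092 (.mult []) (.cut 1 4092 (.mult []) (.cut 0 49021484 (.cut 2 4094 (.mult []) (.cut 1 4094 (.mult []) (.mult []))) (.cut 2 4094 (.mult []) (.cut 1 4094 (.mult [])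 (.mult []))))))))) (.cut 2 4088 (.mult []) (.cut 1 4088 (.mult []) (.cut 0 49074218 (.cut 2 4092 (.mult []) (.cut 1 4092 (.mult []) (.cut 0 49056640 (.cut 2 4094 (.mult []) (.cut 1 4094 (.mult []) (.mult []))) (.cut 2 4094 (.mult []) (.cut 1 4094 (.mult []) (.mult [])))))) (.cut 2 4092 (.mult []) (.cut 1 4092 (.mult []) (.cut 0 49091796 (.cut 2 4094 (.mult []) (.cut 1 4094 (.mult []) (.mult []))) (.cut 2 4094 (.mult []) (.cut 1 4094 (.mult []) (.mult [])))))))))))) (.cut 2 4080 (.mult []) (.cut 1 4080 (.mult []) (.cut 0 49179688 (.cut 2 4088 (.mult []) (.cut 1 4088 (.mult []) (.cut 0 49144531 (.cut 2 4092 (.mult []) (.cut 1 4092 (.mult []) (.cut 0 49126953 (.cut 2 4094 (.mult []) (.cut 1 4094 (.mult []) (.mult []))) (.cut 2 4094 (.mult []) (.cut 1 4094 (.mult []) (.mult [])))))) (.cut 2 4092 (.mult []) (.cut 1 4092 (.mult []) (.cut 0 49162109 (.cut 2 4094 (.mult []) (.cut 1 4094 (.mult []) (.mult []))) (.cut 2 4094 (.mult []) (.cut 1 4094 (.mult []) (.mult []))))))))) (.cut 2 4088 (.mult [])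 (.cut 1 4088 (.mult []) (.cut 0 49214844 (.cut 2 4092 (.mult []) (.cut 1 4092 (.mult []) (.cut 0 49197266 (.cut 2 4094 (.mult []) (.cut 1 4094 (.mult []) (.mult []))) (.cut 2 4094 (.mult []) (.cut 1 4094 (.mult []) (.mult [])))))) (.cut 2 4092 (.mult []) (.cut 1 4092 (.mult []) (.cut 0 49232422 (.cut 2 4094 (.mult []) (.cut 1 4094 (.mult []) (.mult []))) (.cut 2 4094 (.mult []) (.cut 1 4094 (.mult []) (.mult [])))))))))))))))

lemma h8_27 : t8_27.chkM 403 16 (wGuard 8 4096 band.Q) (fExp 8 4096 band.Q (pairs ks fc8.e) fc8.c0 fc8.c1) ((((((((((((((((wBox 4096 band.P0 band.P1).right 2 2048).right 1 2048).right 2 3072).right 1 3072).right 2 3584).right 1 3584).right 2 3840).right 1 3840).right 0 48125000).right 2 3968).right 1 3968).right 0 48687500).right 2 4032).right 1 4032).right 0 48968750) = true := by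
  decide +kernel

lemma facet9 : facetTest 8 band ks (⟨![(-63742764), (-70757866), 228993522, 365045171, (-585448518), (-251960854), 184666484, 508425679, (-326192512)], (-20344), 1008⟩ : Facet 9)
    ⟨4096, 372, 16, (.cut 2 2048 (.out 0) (.cut 1 2048 (.out 0) (.cut 2 3072 (.cut 1 3072 (.out 0) (.cut 1 3584 (.out 0) (.mult [(0, 784637716923335095479473677900958302012794430558004314112)]))) (.cut 1 3072 (.cut 2 3584 (.out 0) (.out 3)) (.cut 2 3584 (.cut 1 3584 (.out 0) (.mult [(0, 392318858461667547739736838950479151006397215279002157056)])) (.mult [(0, 392318858461667547739736838950479151006397215279002157056)]))))))⟩ = true := by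
  decide +kernel

lemma facet10 : facetTest 8 band ks (⟨![63742764, 70757866, (-228993522), (-365045171), 585448518, 251960854, (-184666484), (-508425679), 326192507], 20344, 1010⟩ : Facet 9)
    ⟨4096, 371, 16, (.cut 2 2048 (.out 0) (.cut 1 2048 (.out 0) (.cut 2 3072 (.cut 1 3072 (.out 0) (.cut 1 3584 (.out 0) (.cut 2 2560 (.mult [(0, 6277101735386680763835789423207666416102355444464034512896)]) (.mult [(0, 196159429230833773869868419475239575503198607639501078528)])))) (.cut 1 3072 (.cut 2 3584 (.out 0) (.out 3)) (.mult [])))))⟩ = true := by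
  decide +kernel

lemma facet11 : facetTest 8 band ks (⟨![(-279483111), 423613038, 279341608, (-605942912), (-389064544), 369321529, 77278005, 54656319, 22667538], (-81616), 1026⟩ : Facet 9)
    ⟨4096, 372, 16, (.cut 2 2048 (.out 0) (.cut 1 2048 (.out 0) (.cut 2 3072 (.cut 1 3072 (.out 0) (.cut 1 3584 (.out 0) (.mult [(0, 4707826301540010572876842067405749812076766583348025884672)]))) (.cut 1 3072 (.cut 2 3584 (.out 0) (.out 3)) (.cut 2 3584 (.cut 1 3584 (.out 0) (.cut 1 3840 (.out 0) (.mult []))) (.cut 1 3584 (.cut 2 3840 (.out 0) (.out 3)) (.mult [])))))))⟩ = true := by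
  decide +kernel

lemma facet12 : facetTest 8 band ks (⟨![279483111, (-423613038), (-279341608), 605942912, 389064544, (-369321529), (-77278005), (-54656319), (-22667556)], 81616, 1028⟩ : Facet 9)
    ⟨4096, 371, 16, (.cut 2 2048 (.out 0) (.cut 1 2048 (.out 0) (.cut 2 3072 (.mult [(0, 5296304589232511894486447325831468538586362406266529120256)]) (.cut 1 3072 (.mult [(0, 4707826301540010572876842067405749812076766583348025884672)]) (.mult [])))))⟩ = true := by
  decide +kernel

lemma facet13 : facetTest 8 band ks (⟨![(-370711202), (-18963374), 474908613, 350834337, (-186521451), (-156479310), (-236989214), (-417764312), 472888391], (-554979), 1072⟩ : Facet 9)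
    ⟨4096, 372, 16, (.cut 2 2048 (.out 0) (.cut 1 2048 (.out 0) (.cut 2 3072 (.cut 1 3072 (.out 0) (.cut 1 3584 (.out 0) (.cut 2 2560 (.mult [(0, 31385508676933403819178947116038332080511777222320172564480)]) (.cut 1 3840 (.out 0) (.mult [(0, 5492464018463345668356315745306708114089561013906030198784)]))))) (.cut 1 3072 (.cut 2 3584 (.out 0) (.out 3)) (.cut 2 3584 (.cut 1 3584 (.out 0) (.cut 1 3840 (.out 0) (.cut 0 48125000 (.cut 2 3328 (.mult [(0, 3138550867693340381917894711603833208051177722232017256448)]) (.mult [])) (.cut 2 3328 (.mult [(0, 3138550867693340381917894711603833208051177722232017256448)]) (.mult []))))) (.cut 1 3584 (.cut 2 3840 (.out 0) (.out 3)) (.mult [(0, 784637716923335095479473677900958302012794430558004314112)])))))))⟩ = true := by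
  decide +kernel

lemma facet14 : facetTest 8 band ks (⟨![370711202, 18963374, (-474908613), (-350834337), 186521451, 156479310, 236989214, 417764312, (-472888485)], 554979, 1279⟩ : Facet 9)
    ⟨4096, 372, 16, (.cut 2 2048 (.out 0) (.cut 1 2048 (.out 0) (.cut 2 3072 (.cut 1 3072 (.out 0) (.cut 1 3584 (.out 0) (.cut 2 2560 (.cut 1 3840 (.out 0) (.cut 0 48125000 (.out 0) (.cut 2 2304 (.mult [(2, 200867255532373784442745261542645325315275374222849104412672)]) (.mult [])))) (.mult [])))) (.cut 1 3072 (.cut 2 3584 (.out 0) (.out 3)) (.mult [])))))⟩ = true := by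
  decide +kernel

lemma facet15 : facetTest 8 band ks (⟨![201000514, (-442205333), 210313388, (-66784797), (-51646462), 414518100, (-643198394), 347582522, 79691138], 396026, 2371⟩ : Facet 9)
    ⟨4096, 371, 16, (.cut 2 2048 (.out 0) (.cut 1 2048 (.out 0) (.cut 2 3072 (.mult [(0, 3138550867693340381917894711603833208051177722232017256448)]) (.cut 1 3072 (.mult [(0, 1569275433846670190958947355801916604025588861116008628224)]) (.mult [(0, 1961594292308337738698684194752395755031986076395010785280)])))))⟩ = true := by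
  decide +kernel

end Vale.Agent.P154.Ly.BC
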