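import Vale.Agent.P154.LyBCFd

/-!
Band C: facet checks.
-/

open scoped BigOperators

namespace Vale.Agent.P154.Ly.BC

/-- a subtree of facet 3 -/
noncomputable def t3_23 : Box.TrM := (.cut 2 4064 (.mult []) (.cut 1 4064 (.mult []) (.cut 0 48546875 (.cut 2 4080 (.mult []) (.cut 1 4080 (.mult []) (.cut 0 48476562 (.cut 2 4088 (.mult []) (.cut 1 4088 (.mult []) (.cut 0 48441406 (.cut 2 4092 (.mult []) (.cut 1 4092 (.mult []) (.cut 0 48423828 (.cut 2 4094 (.mult []) (.mult [])) (.cut 2 4094 (.mult []) (.mult []))))) (.cut 2 4092 (.mult []) (.cut 1 4092 (.mult []) (.cut 0 48458984 (.cut 2 4094 (.mult []) (.mult [])) (.cut 2 4094 (.mult []) (.mult [])))))))) (.cut 2 4088 (.mult []) (.cut 1 4088 (.mult []) (.cut 0 48511718 (.cut 2 4092 (.mult []) (.cut 1 4092 (.mult []) (.cut 0 48494140 (.cut 2 4094 (.mult []) (.mult [])) (.cut 2 4094 (.mult []) (.mult []))))) (.cut 2 4092 (.mult []) (.cut 1 4092 (.mult []) (.cut 0 48529296 (.cut 2 4094 (.mult []) (.mult [])) (.cut 2 4094 (.mult []) (.mult []))))))))))) (.cut 2 4080 (.mult []) (.cut 1 4080 (.mult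 []) (.cut 0 48617187 (.cut 2 4088 (.mult []) (.cut 1 4088 (.mult []) (.cut 0 48582031 (.cut 2 4092 (.mult []) (.cut 1 4092 (.mult []) (.cut 0 48564453 (.cut 2 4094 (.mult []) (.mult [])) (.cut 2 4094 (.mult []) (.mult []))))) (.cut 2 4092 (.mult []) (.cut 1 4092 (.mult []) (.cut 0 48599609 (.cut 2 4094 (.mult []) (.mult [])) (.cut 2 4094 (.mult []) (.mult [])))))))) (.cut 2 4088 (.mult []) (.cut 1 4088 (.mult []) (.cut 0 48652343 (.cut 2 4092 (.mult []) (.cut 1 4092 (.mult []) (.cut 0 48634765 (.cut 2 4094 (.mult []) (.mult [])) (.cut 2 4094 (.mult []) (.mult []))))) (.cut 2 4092 (.mult []) (.cut 1 4092 (.mult []) (.cut 0 48669921 (.cut 2 4094 (.mult []) (.mult [])) (.cut 2 4094 (.mult []) (.mult []))))))))))))))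

lemma h3_23 : t3_23.chkM 402 16 (wGuard 8 4096 band.Q) (fExp 8 4096 band.Q (pairs ks fc3.e) fc3.c0 fc3.c1) ((((((((((((((((wBox 4096 band.P0 band.P1).right 2 2048).right 1 2048).right 2 3072).right 1 3072).right 2 3584).right 1 3584).right 2 3840).right 1 3840).right 0 48125000).right 2 3968).right 1 3968).left 0 48687500).right 2 4032).right 1 4032).right 0 48406250) = true := by
  decide +kernel

/-- a subtree of facet 3 -/
noncomputable def t3_24 : Box.TrM := (.mult [])

lemma h3_24 : t3_24.chkM 402 16 (wGuard 8 4096 band.Q) (fExp 8 4096 band.Q (pairs ks fc3.e) fc3.c0 fc3.c1) ((((((((((((((wBox 4096 band.P0 band.P1).right 2 2048).right 1 2048).right 2 3072).right 1 3072).right 2 3584).right 1 3584).right 2 3840).right 1 3840).right 0 48125000).right 2 3968).right 1 3968).right 0 48687500).left 2 4032) = true := by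
  decide +kernel

/-- a subtree of facet 3 -/
noncomputable def t3_25 : Box.TrM := (.mult [])

lemma h3_25 : t3_25.chkM 402 16 (wGuard 8 4096 band.Q) (fExp 8 4096 band.Q (pairs ks fc3.e) fc3.c0 fc3.c1) (((((((((((((((wBox 4096 band.P0 band.P1).right 2 2048).right 1 2048).right 2 3072).right 1 3072).right 2 3584).right 1 3584).right 2 3840).right 1 3840).right 0 48125000).right 2 3968).right 1 3968).right 0 48687500).right 2 4032).left 1 4032) = true := by
  decide +kernel

/-- a subtree of facet 6 -/
noncomputable def t6_10 : Box.TrM := (.cut 2 4032 (.mult []) (.cut 1 4032 (.mult []) (.cut 0 47281250 (.cut 2 4064 (.mult []) (.cut 1 4064 (.mult []) (.cut 0 47140625 (.cut 2 4080 (.mult []) (.cut 1 4080 (.mult []) (.cut 0 47070312 (.cut 2 4088 (.mult []) (.cut 1 4088 (.mult []) (.cut 0 47035156 (.cut 2 4092 (.mult []) (.cut 1 4092 (.mult []) (.mult []))) (.cut 2 4092 (.mult []) (.cut 1 4092 (.mult []) (.mult [])))))) (.cut 2 4088 (.mult []) (.cut 1 4088 (.mult []) (.cut 0 47105468 (.cut 2 4092 (.mult []) (.cut 1 4092 (.mult []) (.mult [])))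 (.cut 2 4092 (.mult []) (.cut 1 4092 (.mult []) (.mult []))))))))) (.cut 2 4080 (.mult []) (.cut 1 4080 (.mult []) (.cut 0 47210937 (.cut 2 4088 (.mult []) (.cut 1 4088 (.mult []) (.cut 0 47175781 (.cut 2 4092 (.mult []) (.cut 1 4092 (.mult []) (.mult []))) (.cut 2 4092 (.mult []) (.cut 1 4092 (.mult []) (.mult [])))))) (.cut 2 4088 (.mult []) (.cut 1 4088 (.mult []) (.cut 0 47246093 (.cut 2 4092 (.mult []) (.cut 1 4092 (.mult []) (.mult []))) (.cut 2 4092 (.mult []) (.cut 1 4092 (.mult []) (.mult [])))))))))))) (.cut 2 4064 (.mult []) (.cut 1 4064 (.mult []) (.cut 0 47421875 (.cut 2 4080 (.mult []) (.cut 1 4080 (.mult []) (.cut 0 47351562 (.cut 2 4088 (.mult []) (.cut 1 4088 (.mult []) (.cut 0 47316406 (.cut 2 4092 (.mult []) (.cut 1 4092 (.mult []) (.mult []))) (.cut 2 4092 (.mult []) (.cut 1 4092 (.mult []) (.mult [])))))) (.cut 2 4088 (.mult []) (.cut 1 4088 (.mult []) (.cut 0 47386718 (.cut 2 4092 (.mult []) (.cut 1 4092 (.mult []) (.mult []))) (.cut 2 4092 (.mult []) (.cut 1 4092 (.mult []) (.mult []))))))))) (.cut 2 4080 (.mult [])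 (.cut 1 4080 (.mult []) (.cut 0 47492187 (.cut 2 4088 (.mult []) (.cut 1 4088 (.mult []) (.cut 0 47457031 (.cut 2 4092 (.mult []) (.cut 1 4092 (.mult []) (.mult []))) (.cut 2 4092 (.mult []) (.cut 1 4092 (.mult []) (.mult [])))))) (.cut 2 4088 (.mult []) (.cut 1 4088 (.mult []) (.cut 0 47527343 (.cut 2 4092 (.mult []) (.cut 1 4092 (.mult []) (.mult []))) (.cut 2 4092 (.mult []) (.cut 1 4092 (.mult []) (.mult [])))))))))))))))

lemma h6_10 : t6_10.chkM 402 16 (wGuard 8 4096 band.Q) (fExp 8 4096 band.Q (pairs ks fc6.e) fc6.c0 fc6.c1) (((((((((((((wBox 4096 band.P0 band.P1).right 2 2048).right 1 2048).right 2 3072).right 1 3072).right 2 3584).right 1 3584).right 2 3840).right 1 3840).left 0 48125000).right 2 3968).right 1 3968).left 0 47562500) = true := by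
  decide +kernel

/-- a subtree of facet 8 -/
noncomputable def t8_16 : Box.TrM := (.cut 2 4064 (.mult []) (.cut 1 4064 (.mult []) (.cut 0 47703125 (.cut 2 4080 (.mult []) (.cut 1 4080 (.mult []) (.cut 0 47632812 (.cut 2 4088 (.mult []) (.cut 1 4088 (.mult []) (.cut 0 47597656 (.cut 2 4092 (.mult []) (.cut 1 4092 (.mult []) (.cut 0 47580078 (.cut 2 4094 (.mult []) (.cut 1 4094 (.mult []) (.mult []))) (.cut 2 4094 (.mult []) (.cut 1 4094 (.mult []) (.mult [])))))) (.cut 2 4092 (.mult []) (.cut 1 4092 (.mult []) (.cut 0 47615234 (.cut 2 4094 (.mult []) (.cut 1 4094 (.mult []) (.mult []))) (.cut 2 4094 (.mult []) (.cut 1 4094 (.mult []) (.mult []))))))))) (.cut 2 4088 (.mult []) (.cut 1 4088 (.mult []) (.cut 0 47667968 (.cut 2 4092 (.mult []) (.cut 1 4092 (.mult []) (.cut 0 47650390 (.cut 2 4094 (.mult []) (.cut 1 4094 (.mult []) (.mult []))) (.cut 2 4094 (.mult []) (.cut 1 4094 (.mult []) (.mult [])))))) (.cut 2 4092 (.mult []) (.cut 1 4092 (.mult []) (.cut 0 47685546 (.cut 2 4094 (.mult []) (.cut 1 4094 (.mult []) (.mult []))) (.cut 2 4094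 (.mult []) (.cut 1 4094 (.mult []) (.mult [])))))))))))) (.cut 2 4080 (.mult []) (.cut 1 4080 (.mult []) (.cut 0 47773437 (.cut 2 4088 (.mult []) (.cut 1 4088 (.mult []) (.cut 0 47738281 (.cut 2 4092 (.mult []) (.cut 1 4092 (.mult []) (.cut 0 47720703 (.cut 2 4094 (.mult []) (.cut 1 4094 (.mult []) (.mult []))) (.cut 2 4094 (.mult []) (.cut 1 4094 (.mult []) (.mult [])))))) (.cut 2 4092 (.mult []) (.cut 1 4092 (.mult []) (.cut 0 47755859 (.cut 2 4094 (.mult []) (.cut 1 4094 (.mult []) (.mult []))) (.cut 2 4094 (.mult []) (.cut 1 4094 (.mult []) (.mult []))))))))) (.cut 2 4088 (.mult []) (.cut 1 4088 (.mult []) (.cut 0 47808593 (.cut 2 4092 (.mult []) (.cut 1 4092 (.mult []) (.cut 0 47791015 (.cut 2 4094 (.mult []) (.cut 1 4094 (.mult []) (.mult []))) (.cut 2 4094 (.mult []) (.cut 1 4094 (.mult []) (.mult [])))))) (.cut 2 4092 (.mult []) (.cut 1 4092 (.mult []) (.cut 0 47826171 (.cut 2 4094 (.mult []) (.cut 1 4094 (.mult []) (.mult []))) (.cut 2 4094 (.mult []) (.cut 1 4094 (.mult []) (.mult [])))))))))))))))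

lemma h8_16 : t8_16.chkM 403 16 (wGuard 8 4096 band.Q) (fExp 8 4096 band.Q (pairs ks fc8.e) fc8.c0 fc8.c1) ((((((((((((((((wBox 4096 band.P0 band.P1).right 2 2048).right 1 2048).right 2 3072).right 1 3072).right 2 3584).right 1 3584).right 2 3840).right 1 3840).left 0 48125000).right 2 3968).right 1 3968).right 0 47562500).right 2 4032).right 1 4032).left 0 47843750) = true := by
  decide +kernel

lemma facet27 : facetTest 8 band ks (⟨![(-1000000000), 0, 0, 0, 0, 0, 0, 0, 318956188], 0, 6192972⟩ : Facet 9)
    ⟨4096, 401, 16, (.cut 2 2048 (.out 0) (.cut 1 2048 (.out 0) (.cut 2 3072 (.cut 1 3072 (.out 0) (.cut 1 3584 (.out 0) (.cut 2 2560 (.cut 1 3840 (.out 0) (.cut 0 48125000 (.out 0) (.cut 2 2304 (.mult [(0, 279879883469371831814482170674165521130428544978604137030635680002211840), (1, 276069853871622551497390234491081018098044358886815462206500968951971840)]) (.cut 1 3968 (.out 0) (.cut 0 48687500 (.mult [(0, 25711008708143844408671393477458601640355247900524685364822016)]) (.cut 2 2432 (.cut 1 4032 (.out 0) (.cut 0 48968750 (.mult [(0,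 51422017416287688817342786954917203280710495801049370729644032)]) (.cut 2 2368 (.cut 1 4064 (.out 0) (.cut 0 49109375 (.mult [(2, 25711008708143844408671393477458601640355247900524685364822016)]) (.cut 2 2336 (.cut 1 4080 (.out 0) (.cut 0 49179688 (.mult [(2, 25711008708143844408671393477458601640355247900524685364822016)]) (.cut 2 2320 (.cut 1 4088 (.out 0) (.cut 0 49214844 (.mult [(2, 51422017416287688817342786954917203280710495801049370729644032)]) (.cut 2 2312 (.cut 1 4092 (.out 0) (.cut 0 49232422 (.mult [(2, 102844034832575377634685573909834406561420991602098741459288064)]) (.cut 2 2308 (.cut 1 4094 (.out 0) (.cut 0 49241211 (.mult [(2, 205688069665150755269371147819668813122841983204197482918576128)]) (.cut 2 2306 (.cut 1 4095 (.out 0) (.mult [(2, 520647926339912849275595717918536683217193769985624878637645824)])) (.mult [])))) (.mult [])))) (.mult [])))) (.mult [])))) (.mult [])))) (.mult [])))) (.mult []))))))) (.mult [(0, 25711008708143844408671393477458601640355247900524685364822016)])))) (.cut 1 3072 (.cut 2 3584 (.out 0) (.out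 3)) (.cut 2 3584 (.cut 1 3584 (.out 0) (.cut 1 3840 (.out 0) (.mult [(0, 6427752177035961102167848369364650410088811975131171341205504)]))) (.cut 1 3584 (.cut 2 3840 (.out 0) (.out 3)) (.cut 2 3840 (.cut 1 3840 (.cut 0 48125000 (.cut 0 47562500 (.cut 2 3712 (.mult [(0, 12855504354071922204335696738729300820177623950262342682411008)]) (.cut 1 3712 (.mult [(0, 12855504354071922204335696738729300820177623950262342682411008)]) (.cut 0 47281250 (.cut 2 3776 (.cut 1 3776 (.mult [(0, 12855504354071922204335696738729300820177623950262342682411008)]) (.mult [(0, 8838159243424446515480791507876394313872116465805360594157568)])) (.mult [(0, 8335991104593512054373928354019781000583928030248237833125888)])) (.cut 2 3776 (.cut 1 3776 (.mult [(0, 12855504354071922204335696738729300820177623950262342682411008)]) (.mult [(0, 8838159243424446515480791507876394313872116465805360594157568)])) (.mult [(0, 8436424732359698946595300984791103663241565717359662385332224)]))))) (.cut 2 3712 (.mult [(0, 12855504354071922204335696738729300820177623950262342682411008)])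 (.cut 1 3712 (.mult [(0, 12855504354071922204335696738729300820177623950262342682411008)]) (.cut 0 47843750 (.cut 2 3776 (.cut 1 3776 (.mult [(0, 11248566309812931928793734646388138217655420956479549847109632)]) (.mult [(0, 8838159243424446515480791507876394313872116465805360594157568)])) (.mult [(0, 8612183580950526007982703088640918322892431669804655351693312)])) (.cut 2 3776 (.cut 1 3776 (.mult [(0, 10445097287683436791022753600217556916394319459588153429458944)]) (.mult [(0, 8838159243424446515480791507876394313872116465805360594157568)])) (.cut 1 3776 (.mult [(0, 8838159243424446515480791507876394313872116465805360594157568)]) (.mult []))))))) (.cut 0 48687500 (.cut 2 3712 (.mult [(0, 13658973376201417342106677784899882121438725447153739100061696)]) (.cut 1 3712 (.mult [(0, 12855504354071922204335696738729300820177623950262342682411008)]) (.cut 0 48406250 (.cut 2 3776 (.cut 1 3776 (.mult [(0, 10645964543215810575465498861760202241709594833811002533871616)]) (.mult [(0, 9641628265553941653251772554046975615133217962696757011808256)]))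 (.cut 1 3776 (.mult [(0, 9641628265553941653251772554046975615133217962696757011808256)]) (.mult []))) (.cut 2 3776 (.cut 1 3776 (.cut 0 48546875 (.cut 2 3744 (.out 0) (.mult [(0, 10445097287683436791022753600217556916394319459588153429458944)])) (.cut 2 3744 (.out 0) (.mult [(0, 10344663659917249898801380969446234253736681772476728877252608)]))) (.mult [(0, 9641628265553941653251772554046975615133217962696757011808256)])) (.cut 1 3776 (.mult [(0, 9641628265553941653251772554046975615133217962696757011808256)]) (.mult [])))))) (.cut 2 3712 (.cut 1 3712 (.out 0) (.mult [(0, 12855504354071922204335696738729300820177623950262342682411008)])) (.cut 1 3712 (.mult [(0, 12855504354071922204335696738729300820177623950262342682411008)]) (.cut 0 48968750 (.cut 2 3776 (.cut 1 3776 (.cut 0 48828125 (.cut 2 3744 (.out 0) (.cut 1 3744 (.out 0) (.mult [(0, 10244230032151063006580008338674911591079044085365304325046272)]))) (.cut 2 3744 (.out 0) (.cut 1 3744 (.out 0) (.cut 0 48898437 (.mult [(0, 10244230032151063006580008338674911591079044085365304325046272)])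 (.cut 2 3760 (.mult [(0, 10445097287683436791022753600217556916394319459588153429458944)]) (.mult [(0, 10043362776618689222137263077132266265763768711142455220633600)])))))) (.mult [(0, 9641628265553941653251772554046975615133217962696757011808256)])) (.cut 1 3776 (.mult [(0, 9641628265553941653251772554046975615133217962696757011808256)]) (.mult []))) (.cut 2 3776 (.cut 1 3776 (.cut 0 49109375 (.cut 2 3744 (.out 0) (.cut 1 3744 (.out 0) (.cut 0 49039062 (.cut 2 3760 (.mult [(0, 10445097287683436791022753600217556916394319459588153429458944)]) (.mult [(0, 10043362776618689222137263077132266265763768711142455220633600)])) (.cut 2 3760 (.mult [(0, 10545530915449623683244126230988879579051957146699577981665280)]) (.mult [(0, 10143796404384876114358635707903588928421406398253879772839936)]))))) (.cut 2 3744 (.out 0) (.cut 1 3744 (.out 0) (.cut 0 49179688 (.cut 2 3760 (.cut 1 3760 (.out 0) (.mult [(0, 10445097287683436791022753600217556916394319459588153429458944)])) (.cut 1 3760 (.mult [(0, 10445097287683436791022753600217556916394319459588153429458944)])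 (.mult [(0, 9641628265553941653251772554046975615133217962696757011808256)]))) (.cut 2 3760 (.cut 1 3760 (.out 0) (.mult [(0, 10394880473800343344912067284831895585065500616032441153355776)])) (.cut 1 3760 (.mult [(0, 10394880473800343344912067284831895585065500616032441153355776)]) (.mult [(0, 10143796404384876114358635707903588928421406398253879772839936)]))))))) (.mult [(0, 9641628265553941653251772554046975615133217962696757011808256)])) (.cut 1 3776 (.mult [(0, 9641628265553941653251772554046975615133217962696757011808256)]) (.mult [])))))))) (.mult [(0, 4820814132776970826625886277023487807566608981348378505904128)])) (.mult [(0, 4820814132776970826625886277023487807566608981348378505904128)]))))))))⟩ = true := by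
  decide +kernel

end Vale.Agent.P154.Ly.BC
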