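import Vale.Agent.P154.LyBCFd

/-!
Band C: facet checks.
-/

open scoped BigOperators

namespace Vale.Agent.P154.Ly.BC

/-- a subtree of facet 3 -/
noncomputable def t3_26 : Box.TrM := (.cut 2 4064 (.mult []) (.cut 1 4064 (.mult []) (.cut 0 48828125 (.cut 2 4080 (.mult []) (.cut 1 4080 (.mult []) (.cut 0 48757812 (.cut 2 4088 (.mult []) (.cut 1 4088 (.mult []) (.cut 0 48722656 (.cut 2 4092 (.mult []) (.cut 1 4092 (.mult []) (.cut 0 48705078 (.cut 2 4094 (.mult []) (.mult [])) (.cut 2 4094 (.mult []) (.mult []))))) (.cut 2 4092 (.mult []) (.cut 1 4092 (.mult []) (.cut 0 48740234 (.cut 2 4094 (.mult []) (.mult [])) (.cut 2 4094 (.mult []) (.mult [])))))))) (.cut 2 4088 (.mult []) (.cut 1 4088 (.mult []) (.cut 0 48792968 (.cut 2 4092 (.mult []) (.cut 1 4092 (.mult []) (.cut 0 48775390 (.cut 2 4094 (.mult []) (.mult [])) (.cut 2 4094 (.mult []) (.mult []))))) (.cut 2 4092 (.mult []) (.cut 1 4092 (.mult []) (.cut 0 48810546 (.cut 2 4094 (.mult []) (.mult [])) (.cut 2 4094 (.mult []) (.mult []))))))))))) (.cut 2 4080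 (.mult []) (.cut 1 4080 (.mult []) (.cut 0 48898437 (.cut 2 4088 (.mult []) (.cut 1 4088 (.mult []) (.cut 0 48863281 (.cut 2 4092 (.mult []) (.cut 1 4092 (.mult []) (.cut 0 48845703 (.cut 2 4094 (.mult []) (.mult [])) (.cut 2 4094 (.mult []) (.mult []))))) (.cut 2 4092 (.mult []) (.cut 1 4092 (.mult []) (.cut 0 48880859 (.cut 2 4094 (.mult []) (.mult [])) (.cut 2 4094 (.mult []) (.mult [])))))))) (.cut 2 4088 (.mult []) (.cut 1 4088 (.mult []) (.cut 0 48933593 (.cut 2 4092 (.mult []) (.cut 1 4092 (.mult []) (.cut 0 48916015 (.cut 2 4094 (.mult []) (.mult [])) (.cut 2 4094 (.mult []) (.mult []))))) (.cut 2 4092 (.mult []) (.cut 1 4092 (.mult []) (.cut 0 48951171 (.cut 2 4094 (.mult []) (.mult [])) (.cut 2 4094 (.mult []) (.mult []))))))))))))))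

lemma h3_26 : t3_26.chkM 402 16 (wGuard 8 4096 band.Q) (fExp 8 4096 band.Q (pairs ks fc3.e) fc3.c0 fc3.c1) ((((((((((((((((wBox 4096 band.P0 band.P1).right 2 2048).right 1 2048).right 2 3072).right 1 3072).right 2 3584).right 1 3584).right 2 3840).right 1 3840).right 0 48125000).right 2 3968).right 1 3968).right 0 48687500).right 2 4032).right 1 4032).left 0 48968750) = true := by
  decide +kernel

/-- a subtree of facet 3 -/
noncomputable def t3_27 : Box.TrM := (.cut 2 4064 (.mult []) (.cut 1 4064 (.mult []) (.cut 0 49109375 (.cut 2 4080 (.mult []) (.cut 1 4080 (.mult []) (.cut 0 49039062 (.cut 2 4088 (.mult []) (.cut 1 4088 (.mult []) (.cut 0 49003906 (.cut 2 4092 (.mult []) (.cut 1 4092 (.mult []) (.cut 0 48986328 (.cut 2 4094 (.mult []) (.mult [])) (.cut 2 4094 (.mult []) (.mult []))))) (.cut 2 4092 (.mult []) (.cut 1 4092 (.mult []) (.cut 0 49021484 (.cut 2 4094 (.mult []) (.mult [])) (.cut 2 4094 (.mult []) (.mult [])))))))) (.cut 2 4088 (.mult []) (.cut 1 4088 (.mult []) (.cut 0 49074218 (.cut 2 4092 (.mult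 []) (.cut 1 4092 (.mult []) (.cut 0 49056640 (.cut 2 4094 (.mult []) (.mult [])) (.cut 2 4094 (.mult []) (.mult []))))) (.cut 2 4092 (.mult []) (.cut 1 4092 (.mult []) (.cut 0 49091796 (.cut 2 4094 (.mult []) (.mult [])) (.cut 2 4094 (.mult []) (.mult []))))))))))) (.cut 2 4080 (.mult []) (.cut 1 4080 (.mult []) (.cut 0 49179688 (.cut 2 4088 (.mult []) (.cut 1 4088 (.mult []) (.cut 0 49144531 (.cut 2 4092 (.mult []) (.cut 1 4092 (.mult []) (.cut 0 49126953 (.cut 2 4094 (.mult []) (.mult [])) (.cut 2 4094 (.mult []) (.mult []))))) (.cut 2 4092 (.mult []) (.cut 1 4092 (.mult []) (.cut 0 49162109 (.cut 2 4094 (.mult []) (.mult [])) (.cut 2 4094 (.mult []) (.mult [])))))))) (.cut 2 4088 (.mult []) (.cut 1 4088 (.mult []) (.cut 0 49214844 (.cut 2 4092 (.mult []) (.cut 1 4092 (.mult []) (.cut 0 49197266 (.cut 2 4094 (.mult []) (.mult [])) (.cut 2 4094 (.mult []) (.mult []))))) (.cut 2 4092 (.mult []) (.cut 1 4092 (.mult []) (.cut 0 49232422 (.cut 2 4094 (.mult []) (.mult [])) (.cut 2 4094 (.mult []) (.mult []))))))))))))))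

lemma h3_27 : t3_27.chkM 402 16 (wGuard 8 4096 band.Q) (fExp 8 4096 band.Q (pairs ks fc3.e) fc3.c0 fc3.c1) ((((((((((((((((wBox 4096 band.P0 band.P1).right 2 2048).right 1 2048).right 2 3072).right 1 3072).right 2 3584).right 1 3584).right 2 3840).right 1 3840).right 0 48125000).right 2 3968).right 1 3968).right 0 48687500).right 2 4032).right 1 4032).right 0 48968750) = true := by
  decide +kernel

/-- a subtree of facet 4 -/
noncomputable def t4_0 : Box.TrM := (.out 0)

lemma h4_0 : t4_0.chkM 402 16 (wGuard 8 4096 band.Q) (fExp 8 4096 band.Q (pairs ks fc4.e) fc4.c0 fc4.c1) ((wBox 4096 band.P0 band.P1).left 2 2048) = true := by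
  decide +kernel

/-- a subtree of facet 4 -/
noncomputable def t4_1 : Box.TrM := (.out 0)

lemma h4_1 : t4_1.chkM 402 16 (wGuard 8 4096 band.Q) (fExp 8 4096 band.Q (pairs ks fc4.e) fc4.c0 fc4.c1) (((wBox 4096 band.P0 band.P1).right 2 2048).left 1 2048) = true := by
  decide +kernel

/-- a subtree of facet 6 -/
noncomputable def t6_11 : Box.TrM := (.cut 2 4032 (.mult []) (.cut 1 4032 (.mult []) (.cut 0 47843750 (.cut 2 4064 (.mult []) (.cut 1 4064 (.mult []) (.cut 0 47703125 (.cut 2 4080 (.mult []) (.cut 1 4080 (.mult []) (.cut 0 47632812 (.cut 2 4088 (.mult []) (.cut 1 4088 (.mult []) (.cut 0 47597656 (.cut 2 4092 (.mult []) (.cut 1 4092 (.mult []) (.mult []))) (.cut 2 4092 (.mult []) (.cut 1 4092 (.mult []) (.mult [])))))) (.cut 2 4088 (.mult []) (.cut 1 4088 (.mult []) (.cut 0 47667968 (.cut 2 4092 (.mult []) (.cut 1 4092 (.mult []) (.mult []))) (.cut 2 4092 (.mult []) (.cut 1 4092 (.mult []) (.mult []))))))))) (.cut 2 4080 (.mult []) (.cut 1 4080 (.mult []) (.cut 0 47773437 (.cut 2 4088 (.mult []) (.cut 1 4088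 (.mult []) (.cut 0 47738281 (.cut 2 4092 (.mult []) (.cut 1 4092 (.mult []) (.mult []))) (.cut 2 4092 (.mult []) (.cut 1 4092 (.mult []) (.mult [])))))) (.cut 2 4088 (.mult []) (.cut 1 4088 (.mult []) (.cut 0 47808593 (.cut 2 4092 (.mult []) (.cut 1 4092 (.mult []) (.mult []))) (.cut 2 4092 (.mult []) (.cut 1 4092 (.mult []) (.mult [])))))))))))) (.cut 2 4064 (.mult []) (.cut 1 4064 (.mult []) (.cut 0 47984375 (.cut 2 4080 (.mult []) (.cut 1 4080 (.mult []) (.cut 0 47914062 (.cut 2 4088 (.mult []) (.cut 1 4088 (.mult []) (.cut 0 47878906 (.cut 2 4092 (.mult []) (.cut 1 4092 (.mult []) (.mult []))) (.cut 2 4092 (.mult []) (.cut 1 4092 (.mult []) (.mult [])))))) (.cut 2 4088 (.mult []) (.cut 1 4088 (.mult []) (.cut 0 47949218 (.cut 2 4092 (.mult []) (.cut 1 4092 (.mult []) (.mult []))) (.cut 2 4092 (.mult []) (.cut 1 4092 (.mult []) (.mult []))))))))) (.cut 2 4080 (.mult []) (.cut 1 4080 (.mult []) (.cut 0 48054687 (.cut 2 4088 (.mult []) (.cut 1 4088 (.mult []) (.cut 0 48019531 (.cut 2 4092 (.mult []) (.cut 1 4092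 (.mult []) (.mult []))) (.cut 2 4092 (.mult []) (.cut 1 4092 (.mult []) (.mult [])))))) (.cut 2 4088 (.mult []) (.cut 1 4088 (.mult []) (.cut 0 48089843 (.cut 2 4092 (.mult []) (.cut 1 4092 (.mult []) (.mult []))) (.cut 2 4092 (.mult []) (.cut 1 4092 (.mult []) (.mult [])))))))))))))))

lemma h6_11 : t6_11.chkM 402 16 (wGuard 8 4096 band.Q) (fExp 8 4096 band.Q (pairs ks fc6.e) fc6.c0 fc6.c1) (((((((((((((wBox 4096 band.P0 band.P1).right 2 2048).right 1 2048).right 2 3072).right 1 3072).right 2 3584).right 1 3584).right 2 3840).right 1 3840).left 0 48125000).right 2 3968).right 1 3968).right 0 47562500) = true := by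
  decide +kernel

/-- a subtree of facet 6 -/
noncomputable def t6_12 : Box.TrM := (.mult [])

lemma h6_12 : t6_12.chkM 402 16 (wGuard 8 4096 band.Q) (fExp 8 4096 band.Q (pairs ks fc6.e) fc6.c0 fc6.c1) (((((((((((wBox 4096 band.P0 band.P1).right 2 2048).right 1 2048).right 2 3072).right 1 3072).right 2 3584).right 1 3584).right 2 3840).right 1 3840).right 0 48125000).left 2 3968) = true := by
  decide +kernel

/-- a subtree of facet 6 -/
noncomputable def t6_13 : Box.TrM := (.mult [])

lemma h6_13 : t6_13.chkM 402 16 (wGuard 8 4096 band.Q) (fExp 8 4096 band.Q (pairs ks fc6.e) fc6.c0 fc6.c1) ((((((((((((wBox 4096 band.P0 band.P1).right 2 2048).right 1 2048).right 2 3072).right 1 3072).right 2 3584).right 1 3584).right 2 3840).right 1 3840).right 0 48125000).right 2 3968).left 1 3968) = true := by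
  decide +kernel

/-- a subtree of facet 8 -/
noncomputable def t8_17 : Box.TrM := (.cut 2 4064 (.mult []) (.cut 1 4064 (.mult []) (.cut 0 47984375 (.cut 2 4080 (.mult []) (.cut 1 4080 (.mult []) (.cut 0 47914062 (.cut 2 4088 (.mult []) (.cut 1 4088 (.mult []) (.cut 0 47878906 (.cut 2 4092 (.mult []) (.cut 1 4092 (.mult []) (.cut 0 47861328 (.cut 2 4094 (.mult []) (.cut 1 4094 (.mult []) (.mult []))) (.cut 2 4094 (.mult []) (.cut 1 4094 (.mult []) (.mult [])))))) (.cut 2 4092 (.mult []) (.cut 1 4092 (.mult []) (.cut 0 47896484 (.cut 2 4094 (.mult []) (.cut 1 4094 (.mult []) (.mult []))) (.cut 2 4094 (.mult []) (.cut 1 4094 (.mult []) (.mult []))))))))) (.cut 2 4088 (.mult []) (.cut 1 4088 (.mult []) (.cut 0 47949218 (.cut 2 4092 (.mult []) (.cut 1 4092 (.mult []) (.cut 0 47931640 (.cut 2 4094 (.mult []) (.cut 1 4094 (.mult []) (.mult []))) (.cut 2 4094 (.mult []) (.cut 1 4094 (.mult []) (.mult [])))))) (.cut 2 4092 (.mult []) (.cut 1 4092 (.mult []) (.cut 0 47966796 (.cut 2 4094 (.mult []) (.cut 1 4094 (.mult [])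 (.mult []))) (.cut 2 4094 (.mult []) (.cut 1 4094 (.mult []) (.mult [])))))))))))) (.cut 2 4080 (.mult []) (.cut 1 4080 (.mult []) (.cut 0 48054687 (.cut 2 4088 (.mult []) (.cut 1 4088 (.mult []) (.cut 0 48019531 (.cut 2 4092 (.mult []) (.cut 1 4092 (.mult []) (.cut 0 48001953 (.cut 2 4094 (.mult []) (.cut 1 4094 (.mult []) (.mult []))) (.cut 2 4094 (.mult []) (.cut 1 4094 (.mult []) (.mult [])))))) (.cut 2 4092 (.mult []) (.cut 1 4092 (.mult []) (.cut 0 48037109 (.cut 2 4094 (.mult []) (.cut 1 4094 (.mult []) (.mult []))) (.cut 2 4094 (.mult []) (.cut 1 4094 (.mult []) (.mult []))))))))) (.cut 2 4088 (.mult []) (.cut 1 4088 (.mult []) (.cut 0 48089843 (.cut 2 4092 (.mult []) (.cut 1 4092 (.mult []) (.cut 0 48072265 (.cut 2 4094 (.mult []) (.cut 1 4094 (.mult []) (.mult []))) (.cut 2 4094 (.mult []) (.cut 1 4094 (.mult []) (.mult [])))))) (.cut 2 4092 (.mult []) (.cut 1 4092 (.mult []) (.cut 0 48107421 (.cut 2 4094 (.mult []) (.cut 1 4094 (.mult []) (.mult []))) (.cut 2 4094 (.mult []) (.cut 1 4094 (.mult []) (.mult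 [])))))))))))))))

lemma h8_17 : t8_17.chkM 403 16 (wGuard 8 4096 band.Q) (fExp 8 4096 band.Q (pairs ks fc8.e) fc8.c0 fc8.c1) ((((((((((((((((wBox 4096 band.P0 band.P1).right 2 2048).right 1 2048).right 2 3072).right 1 3072).right 2 3584).right 1 3584).right 2 3840).right 1 3840).left 0 48125000).right 2 3968).right 1 3968).right 0 47562500).right 2 4032).right 1 4032).right 0 47843750) = true := by
  decide +kernel

/-- a subtree of facet 8 -/
noncomputable def t8_18 : Box.TrM := (.mult [])

lemma h8_18 : t8_18.chkM 403 16 (wGuard 8 4096 band.Q) (fExp 8 4096 band.Q (pairs ks fc8.e) fc8.c0 fc8.c1) (((((((((((wBox 4096 band.P0 band.P1).right 2 2048).right 1 2048).right 2 3072).right 1 3072).right 2 3584).right 1 3584).right 2 3840).right 1 3840).right 0 48125000).left 2 3968) = true := by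
  decide +kernel

/-- a subtree of facet 8 -/
noncomputable def t8_19 : Box.TrM := (.mult [])

lemma h8_19 : t8_19.chkM 403 16 (wGuard 8 4096 band.Q) (fExp 8 4096 band.Q (pairs ks fc8.e) fc8.c0 fc8.c1) ((((((((((((wBox 4096 band.P0 band.P1).right 2 2048).right 1 2048).right 2 3072).right 1 3072).right 2 3584).right 1 3584).right 2 3840).right 1 3840).right 0 48125000).right 2 3968).left 1 3968) = true := by
  decide +kernel

/-- a subtree of facet 8 -/
noncomputable def t8_20 : Box.TrM := (.mult [])

lemma h8_20 : t8_20.chkM 403 16 (wGuard 8 4096 band.Q) (fExp 8 4096 band.Q (pairs ks fc8.e) fc8.c0 fc8.c1) ((((((((((((((wBox 4096 band.P0 band.P1).right 2 2048).right 1 2048).right 2 3072).right 1 3072).right 2 3584).right 1 3584).right 2 3840).right 1 3840).right 0 48125000).right 2 3968).right 1 3968).left 0 48687500).left 2 4032) = true := by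
  decide +kernel

/-- a subtree of facet 8 -/
noncomputable def t8_21 : Box.TrM := (.mult [])

lemma h8_21 : t8_21.chkM 403 16 (wGuard 8 4096 band.Q) (fExp 8 4096 band.Q (pairs ks fc8.e) fc8.c0 fc8.c1) (((((((((((((((wBox 4096 band.P0 band.P1).right 2 2048).right 1 2048).right 2 3072).right 1 3072).right 2 3584).right 1 3584).right 2 3840).right 1 3840).right 0 48125000).right 2 3968).right 1 3968).left 0 48687500).right 2 4032).left 1 4032) = true := by
  decide +kernel

lemma facet28 : facetTest 8 band ks (⟨![0, (-1000000000), 0, 0, 0, 0, 0, 0, 483924857], 0, 52253159⟩ : Facet 9)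
    ⟨4096, 372, 16, (.cut 2 2048 (.out 0) (.cut 1 2048 (.out 0) (.cut 2 3072 (.cut 1 3072 (.out 0) (.cut 1 3584 (.out 0) (.cut 2 2560 (.mult [(0, 51422017416287688817342786954917203280710495801049370729644032)]) (.cut 1 3840 (.out 0) (.cut 0 48125000 (.cut 2 2816 (.mult [(0, 25711008708143844408671393477458601640355247900524685364822016)]) (.cut 1 3968 (.out 0) (.cut 0 47562500 (.cut 2 2944 (.cut 1 4032 (.out 0) (.cut 0 47281250 (.cut 2 2880 (.mult [(0, 6427752177035961102167848369364650410088811975131171341205504)]) (.cut 1 4064 (.out 0) (.cut 0 47140625 (.cut 2 2912 (.mult [(0, 3213876088517980551083924184682325205044405987565585670602752)]) (.cut 1 4080 (.mult [(0, 6427752177035961102167848369364650410088811975131171341205504)]) (.mult []))) (.mult [])))) (.mult [(0, 6427752177035961102167848369364650410088811975131171341205504)]))) (.cut 1 4032 (.out 0) (.cut 0 47281250 (.cut 2 3008 (.cut 1 4064 (.out 0) (.cut 0 47140625 (.cut 2 2976 (.cut 1 4080 (.cut 0 47070312 (.cut 2 2960 (.mult [(0, 6427752177035961102167848369364650410088811975131171341205504)])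 (.cut 0 47035156 (.cut 2 2968 (.cut 1 4072 (.out 0) (.mult [(0, 4017345110647475688854905230852906506305507484456982088253440)])) (.cut 1 4072 (.out 0) (.cut 0 47017578 (.cut 2 2972 (.cut 1 4076 (.out 0) (.mult [(0, 3213876088517980551083924184682325205044405987565585670602752)])) (.cut 1 4076 (.out 0) (.mult [(0, 3213876088517980551083924184682325205044405987565585670602752)]))) (.mult [(0, 3213876088517980551083924184682325205044405987565585670602752)])))) (.mult [(0, 6427752177035961102167848369364650410088811975131171341205504)]))) (.mult [(0, 3213876088517980551083924184682325205044405987565585670602752)])) (.mult [])) (.cut 1 4080 (.cut 0 47070312 (.cut 2 2992 (.cut 0 47035156 (.cut 2 2984 (.cut 1 4072 (.out 0) (.cut 0 47017578 (.cut 2 2980 (.cut 1 4076 (.out 0) (.mult [(0, 3414743344050354335526669446224970530359681361788434775015424)])) (.cut 1 4076 (.mult [(0, 6427752177035961102167848369364650410088811975131171341205504)]) (.mult [(0, 3414743344050354335526669446224970530359681361788434775015424)])))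 (.mult [(0, 3213876088517980551083924184682325205044405987565585670602752)]))) (.cut 1 4072 (.out 0) (.cut 0 47017578 (.cut 2 2988 (.cut 1 4076 (.mult [(0, 4820814132776970826625886277023487807566608981348378505904128)]) (.mult [])) (.cut 1 4076 (.mult [(0, 4820814132776970826625886277023487807566608981348378505904128)]) (.mult []))) (.mult [(0, 3213876088517980551083924184682325205044405987565585670602752)])))) (.mult [(0, 6427752177035961102167848369364650410088811975131171341205504)])) (.cut 0 47035156 (.cut 2 3000 (.cut 1 4072 (.out 0) (.mult [(0, 3615610599582728119969414707767615855674956736011283879428096)])) (.cut 1 4072 (.out 0) (.mult [(0, 3213876088517980551083924184682325205044405987565585670602752)]))) (.mult [(0, 6427752177035961102167848369364650410088811975131171341205504)]))) (.mult [(0, 3213876088517980551083924184682325205044405987565585670602752)])) (.mult []))) (.mult [(0, 200867255532373784442745261542645325315275374222849104412672)]))) (.cut 1 4064 (.mult [(0, 12855504354071922204335696738729300820177623950262342682411008)])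 (.cut 0 47140625 (.cut 2 3040 (.cut 1 4080 (.mult [(0, 4820814132776970826625886277023487807566608981348378505904128)]) (.mult [])) (.mult [])) (.mult [])))) (.mult [(0, 6427752177035961102167848369364650410088811975131171341205504)])))) (.cut 2 2944 (.mult [(0, 12855504354071922204335696738729300820177623950262342682411008)]) (.mult [(0, 11549867193111492605457852538702106205628334017813823503728640)]))))) (.cut 2 2816 (.mult [(0, 25711008708143844408671393477458601640355247900524685364822016)]) (.cut 1 3968 (.out 0) (.mult [(0, 12855504354071922204335696738729300820177623950262342682411008)])))))))) (.cut 1 3072 (.cut 2 3584 (.out 0) (.out 3)) (.cut 2 3584 (.cut 1 3584 (.out 0) (.cut 1 3840 (.out 0) (.cut 0 48125000 (.cut 2 3328 (.cut 1 3968 (.out 0) (.cut 0 47562500 (.cut 2 3200 (.cut 1 4032 (.out 0) (.mult [(0, 4820814132776970826625886277023487807566608981348378505904128)])) (.mult [(0, 3213876088517980551083924184682325205044405987565585670602752)])) (.mult [(0, 12855504354071922204335696738729300820177623950262342682411008)])))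 (.mult [(0, 12855504354071922204335696738729300820177623950262342682411008)])) (.cut 2 3328 (.cut 1 3968 (.out 0) (.mult [(0, 12855504354071922204335696738729300820177623950262342682411008)])) (.mult [(0, 12855504354071922204335696738729300820177623950262342682411008)]))))) (.cut 1 3584 (.cut 2 3840 (.out 0) (.out 3)) (.mult [(0, 25711008708143844408671393477458601640355247900524685364822016)])))))))⟩ = true := by
  decide +kernel

lemma facet29 : facetTest 8 band ks (⟨![0, 0, (-1000000000), 0, 0, 0, 0, 0, 637888130], 0, 1001⟩ : Facet 9)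
    ⟨4096, 402, 16, (.cut 2 2048 (.out 0) (.cut 1 2048 (.out 0) (.cut 2 3072 (.cut 1 3072 (.out 0) (.cut 1 3584 (.out 0) (.cut 2 2560 (.cut 1 3840 (.out 0) (.cut 0 48125000 (.out 0) (.cut 2 2304 (.mult [(0, 457867947010575821597973377013431854893813153300494144099224944386244608), (1, 441711766194596082395824375185729628956870974218904739530401550323154944)]) (.cut 1 3968 (.out 0) (.cut 0 48687500 (.mult [(0, 25711008708143844408671393477458601640355247900524685364822016)]) (.cut 2 2432 (.cut 1 4032 (.out 0) (.cut 0 48968750 (.mult [(0, 51422017416287688817342786954917203280710495801049370729644032)]) (.cut 2 2368 (.cut 1 4064 (.out 0) (.cut 0 49109375 (.mult [(2, 25711008708143844408671393477458601640355247900524685364822016)]) (.cut 2 2336 (.cut 1 4080 (.out 0) (.cut 0 49179688 (.mult [(2, 51422017416287688817342786954917203280710495801049370729644032)]) (.cut 2 2320 (.cut 1 4088 (.out 0) (.cut 0 49214844 (.mult [(2, 102844034832575377634685573909834406561420991602098741459288064)]) (.cut 2 2312 (.cut 1 4092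 (.out 0) (.cut 0 49232422 (.mult [(2, 205688069665150755269371147819668813122841983204197482918576128)]) (.cut 2 2308 (.cut 1 4094 (.out 0) (.cut 0 49241211 (.mult [(2, 411376139330301510538742295639337626245683966408394965837152256)]) (.cut 2 2306 (.cut 1 4095 (.out 0) (.cut 0 49245606 (.out 2) (.cut 2 2305 (.mult [(2, 1169850896220544920594548403224366374636163779473873184099401728)]) (.mult [(1, 3213876088517980551083924184682325205044405987565585670602752)])))) (.mult [])))) (.mult [])))) (.mult [])))) (.mult [])))) (.mult [])))) (.mult [])))) (.mult []))))))) (.mult [(0, 6427752177035961102167848369364650410088811975131171341205504)])))) (.cut 1 3072 (.cut 2 3584 (.out 0) (.out 3)) (.cut 2 3584 (.mult [(0, 19283256531107883306503545108093951230266435925393514023616512)]) (.cut 1 3584 (.mult [(0, 3213876088517980551083924184682325205044405987565585670602752)]) (.cut 2 3840 (.mult [(0, 1606938044258990275541962092341162602522202993782792835301376)]) (.cut 1 3840 (.mult []) (.cut 0 48125000 (.cut 2 3968 (.mult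 []) (.cut 1 3968 (.mult []) (.cut 0 47562500 (.cut 2 4032 (.mult []) (.cut 1 4032 (.mult []) (.mult []))) (.cut 2 4032 (.mult []) (.cut 1 4032 (.mult []) (.mult [])))))) (.cut 2 3968 (.mult []) (.cut 1 3968 (.mult []) (.cut 0 48687500 (.cut 2 4032 (.mult []) (.cut 1 4032 (.mult []) (.mult []))) (.cut 2 4032 (.mult []) (.cut 1 4032 (.mult []) (.mult [])))))))))))))))⟩ = true := by
  decide +kernel

end Vale.Agent.P154.Ly.BC
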