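import Vale.Agent.P154.LyBCFd

/-!
Band C: facet checks.
-/

open scoped BigOperators

namespace Vale.Agent.P154.Ly.BC

/-- a subtree of facet 4 -/
noncomputable def t4_11 : Box.TrM := (.cut 2 4032 (.mult []) (.cut 1 4032 (.mult []) (.cut 0 47843750 (.cut 2 4064 (.mult []) (.cut 1 4064 (.mult []) (.cut 0 47703125 (.cut 2 4080 (.mult []) (.cut 1 4080 (.mult []) (.cut 0 47632812 (.cut 2 4088 (.mult []) (.cut 1 4088 (.mult []) (.cut 0 47597656 (.cut 2 4092 (.mult []) (.cut 1 4092 (.mult []) (.mult []))) (.cut 2 4092 (.mult []) (.cut 1 4092 (.mult []) (.mult [])))))) (.cut 2 4088 (.mult []) (.cut 1 4088 (.mult []) (.cut 0 47667968 (.cut 2 4092 (.mult []) (.cut 1 4092 (.mult []) (.mult []))) (.cut 2 4092 (.mult []) (.cut 1 4092 (.mult []) (.mult []))))))))) (.cut 2 4080 (.mult []) (.cut 1 4080 (.mult []) (.cut 0 47773437 (.cut 2 4088 (.mult []) (.cut 1 4088 (.mult []) (.cut 0 47738281 (.cut 2 4092 (.mult []) (.cut 1 4092 (.mult []) (.mult []))) (.cut 2 4092 (.mult []) (.cut 1 4092 (.mult []) (.mult [])))))) (.cut 2 4088 (.mult []) (.cut 1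 4088 (.mult []) (.cut 0 47808593 (.cut 2 4092 (.mult []) (.cut 1 4092 (.mult []) (.mult []))) (.cut 2 4092 (.mult []) (.cut 1 4092 (.mult []) (.mult [])))))))))))) (.cut 2 4064 (.mult []) (.cut 1 4064 (.mult []) (.cut 0 47984375 (.cut 2 4080 (.mult []) (.cut 1 4080 (.mult []) (.cut 0 47914062 (.cut 2 4088 (.mult []) (.cut 1 4088 (.mult []) (.cut 0 47878906 (.cut 2 4092 (.mult []) (.cut 1 4092 (.mult []) (.mult []))) (.cut 2 4092 (.mult []) (.cut 1 4092 (.mult []) (.mult [])))))) (.cut 2 4088 (.mult []) (.cut 1 4088 (.mult []) (.cut 0 47949218 (.cut 2 4092 (.mult []) (.cut 1 4092 (.mult []) (.mult []))) (.cut 2 4092 (.mult []) (.cut 1 4092 (.mult []) (.mult []))))))))) (.cut 2 4080 (.mult []) (.cut 1 4080 (.mult []) (.cut 0 48054687 (.cut 2 4088 (.mult []) (.cut 1 4088 (.mult []) (.cut 0 48019531 (.cut 2 4092 (.mult []) (.cut 1 4092 (.mult []) (.mult []))) (.cut 2 4092 (.mult []) (.cut 1 4092 (.mult []) (.mult [])))))) (.cut 2 4088 (.mult []) (.cut 1 4088 (.mult []) (.cut 0 48089843 (.cut 2 4092 (.mult []) (.cut 1 4092 (.mult []) (.mult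 []))) (.cut 2 4092 (.mult []) (.cut 1 4092 (.mult []) (.mult [])))))))))))))))

lemma h4_11 : t4_11.chkM 402 16 (wGuard 8 4096 band.Q) (fExp 8 4096 band.Q (pairs ks fc4.e) fc4.c0 fc4.c1) (((((((((((((wBox 4096 band.P0 band.P1).right 2 2048).right 1 2048).right 2 3072).right 1 3072).right 2 3584).right 1 3584).right 2 3840).right 1 3840).left 0 48125000).right 2 3968).right 1 3968).right 0 47562500) = true := by
  decide +kernel

/-- a subtree of facet 4 -/
noncomputable def t4_12 : Box.TrM := (.mult [])

lemma h4_12 : t4_12.chkM 402 16 (wGuard 8 4096 band.Q) (fExp 8 4096 band.Q (pairs ks fc4.e) fc4.c0 fc4.c1) (((((((((((wBox 4096 band.P0 band.P1).right 2 2048).right 1 2048).right 2 3072).right 1 3072).right 2 3584).right 1 3584).right 2 3840).right 1 3840).right 0 48125000).left 2 3968) = true := by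
  decide +kernel

/-- a subtree of facet 4 -/
noncomputable def t4_13 : Box.TrM := (.mult [])

lemma h4_13 : t4_13.chkM 402 16 (wGuard 8 4096 band.Q) (fExp 8 4096 band.Q (pairs ks fc4.e) fc4.c0 fc4.c1) ((((((((((((wBox 4096 band.P0 band.P1).right 2 2048).right 1 2048).right 2 3072).right 1 3072).right 2 3584).right 1 3584).right 2 3840).right 1 3840).right 0 48125000).right 2 3968).left 1 3968) = true := by
  decide +kernel

/-- a subtree of facet 6 -/
noncomputable def t6_15 : Box.TrM := (.cut 2 4032 (.mult []) (.cut 1 4032 (.mult []) (.cut 0 48968750 (.cut 2 4064 (.mult []) (.cut 1 4064 (.mult []) (.cut 0 48828125 (.cut 2 4080 (.mult []) (.cut 1 4080 (.mult []) (.cut 0 48757812 (.cut 2 4088 (.mult []) (.cut 1 4088 (.mult []) (.cut 0 48722656 (.cut 2 4092 (.mult []) (.cut 1 4092 (.mult []) (.mult []))) (.cut 2 4092 (.mult []) (.cut 1 4092 (.mult []) (.mult [])))))) (.cut 2 4088 (.mult []) (.cut 1 4088 (.mult []) (.cut 0 48792968 (.cut 2 4092 (.mult []) (.cut 1 4092 (.mult []) (.mult []))) (.cut 2 4092 (.mult []) (.cut 1 4092 (.mult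 []) (.mult []))))))))) (.cut 2 4080 (.mult []) (.cut 1 4080 (.mult []) (.cut 0 48898437 (.cut 2 4088 (.mult []) (.cut 1 4088 (.mult []) (.cut 0 48863281 (.cut 2 4092 (.mult []) (.cut 1 4092 (.mult []) (.mult []))) (.cut 2 4092 (.mult []) (.cut 1 4092 (.mult []) (.mult [])))))) (.cut 2 4088 (.mult []) (.cut 1 4088 (.mult []) (.cut 0 48933593 (.cut 2 4092 (.mult []) (.cut 1 4092 (.mult []) (.mult []))) (.cut 2 4092 (.mult []) (.cut 1 4092 (.mult []) (.mult [])))))))))))) (.cut 2 4064 (.mult []) (.cut 1 4064 (.mult []) (.cut 0 49109375 (.cut 2 4080 (.mult []) (.cut 1 4080 (.mult []) (.cut 0 49039062 (.cut 2 4088 (.mult []) (.cut 1 4088 (.mult []) (.cut 0 49003906 (.cut 2 4092 (.mult []) (.cut 1 4092 (.mult []) (.mult []))) (.cut 2 4092 (.mult []) (.cut 1 4092 (.mult []) (.mult [])))))) (.cut 2 4088 (.mult []) (.cut 1 4088 (.mult []) (.cut 0 49074218 (.cut 2 4092 (.mult []) (.cut 1 4092 (.mult []) (.mult []))) (.cut 2 4092 (.mult []) (.cut 1 4092 (.mult []) (.mult []))))))))) (.cut 2 4080 (.mult []) (.cut 1 4080 (.mult []) (.cut 0 49179688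 (.cut 2 4088 (.mult []) (.cut 1 4088 (.mult []) (.cut 0 49144531 (.cut 2 4092 (.mult []) (.cut 1 4092 (.mult []) (.mult []))) (.cut 2 4092 (.mult []) (.cut 1 4092 (.mult []) (.mult [])))))) (.cut 2 4088 (.mult []) (.cut 1 4088 (.mult []) (.cut 0 49214844 (.cut 2 4092 (.mult []) (.cut 1 4092 (.mult []) (.mult []))) (.cut 2 4092 (.mult []) (.cut 1 4092 (.mult []) (.mult [])))))))))))))))

lemma h6_15 : t6_15.chkM 402 16 (wGuard 8 4096 band.Q) (fExp 8 4096 band.Q (pairs ks fc6.e) fc6.c0 fc6.c1) (((((((((((((wBox 4096 band.P0 band.P1).right 2 2048).right 1 2048).right 2 3072).right 1 3072).right 2 3584).right 1 3584).right 2 3840).right 1 3840).right 0 48125000).right 2 3968).right 1 3968).right 0 48687500) = true := by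
  decide +kernel

/-- a subtree of facet 7 -/
noncomputable def t7_0 : Box.TrM := (.out 0)

lemma h7_0 : t7_0.chkM 403 16 (wGuard 8 4096 band.Q) (fExp 8 4096 band.Q (pairs ks fc7.e) fc7.c0 fc7.c1) ((wBox 4096 band.P0 band.P1).left 2 2048) = true := by
  decide +kernel

/-- a subtree of facet 7 -/
noncomputable def t7_1 : Box.TrM := (.out 0)

lemma h7_1 : t7_1.chkM 403 16 (wGuard 8 4096 band.Q) (fExp 8 4096 band.Q (pairs ks fc7.e) fc7.c0 fc7.c1) (((wBox 4096 band.P0 band.P1).right 2 2048).left 1 2048) = true := by
  decide +kernel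

/-- a subtree of facet 7 -/
noncomputable def t7_2 : Box.TrM := (.cut 1 3072 (.out 0) (.cut 1 3584 (.out 0) (.cut 2 2560 (.cut 1 3840 (.out 0) (.cut 0 48125000 (.out 0) (.cut 2 2304 (.mult [(0, 909409443547556967320863520113479590463437572289590051109317295151775744), (1, 883423532389192164791648750371459257913741948437809479060803100646309888)]) (.cut 1 3968 (.out 0) (.cut 0 48687500 (.mult [(0, 102844034832575377634685573909834406561420991602098741459288064)]) (.cut 2 2432 (.cut 1 4032 (.out 0) (.cut 0 48968750 (.mult [(0, 411376139330301510538742295639337626245683966408394965837152256)]) (.cut 2 2368 (.cut 1 4064 (.out 0) (.cut 0 49109375 (.mult [(2, 205688069665150755269371147819668813122841983204197482918576128)]) (.cut 2 2336 (.cut 1 4080 (.out 0) (.cut 0 49179688 (.mult [(2, 411376139330301510538742295639337626245683966408394965837152256)]) (.cut 2 2320 (.cut 1 4088 (.out 0) (.cut 0 49214844 (.mult [(2, 822752278660603021077484591278675252491367932816789931674304512)]) (.cut 2 2312 (.cut 1 4092 (.out 0) (.cut 0 49232422 (.mult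 [(2, 1645504557321206042154969182557350504982735865633579863348609024)]) (.cut 2 2308 (.cut 1 4094 (.out 0) (.cut 0 49241211 (.mult [(2, 1645504557321206042154969182557350504982735865633579863348609024)]) (.cut 2 2306 (.cut 1 4095 (.out 0) (.cut 0 49245606 (.out 2) (.cut 2 2305 (.cut 1 4096 (.mult [(0, 13703967641440669069821852723485434674309347130979657299450134528)]) (.mult [(1, 13703967641440669069821852723485434674309347130979657299450134528)])) (.mult [(1, 25711008708143844408671393477458601640355247900524685364822016)])))) (.mult [])))) (.mult [])))) (.mult [])))) (.mult [])))) (.mult [])))) (.mult [])))) (.mult []))))))) (.mult []))))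

lemma h7_2 : t7_2.chkM 403 16 (wGuard 8 4096 band.Q) (fExp 8 4096 band.Q (pairs ks fc7.e) fc7.c0 fc7.c1) ((((wBox 4096 band.P0 band.P1).right 2 2048).right 1 2048).left 2 3072) = true := by
  decide +kernel

/-- a subtree of facet 7 -/
noncomputable def t7_3 : Box.TrM := (.cut 2 3584 (.out 0) (.out 3))

lemma h7_3 : t7_3.chkM 403 16 (wGuard 8 4096 band.Q) (fExp 8 4096 band.Q (pairs ks fc7.e) fc7.c0 fc7.c1) (((((wBox 4096 band.P0 band.P1).right 2 2048).right 1 2048).right 2 3072).left 1 3072) = true := by
  decide +kernel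

/-- a subtree of facet 7 -/
noncomputable def t7_4 : Box.TrM := (.mult [])

lemma h7_4 : t7_4.chkM 403 16 (wGuard 8 4096 band.Q) (fExp 8 4096 band.Q (pairs ks fc7.e) fc7.c0 fc7.c1) ((((((wBox 4096 band.P0 band.P1).right 2 2048).right 1 2048).right 2 3072).right 1 3072).left 2 3584) = true := by
  decide +kernel

/-- a subtree of facet 7 -/
noncomputable def t7_5 : Box.TrM := (.mult [])

lemma h7_5 : t7_5.chkM 403 16 (wGuard 8 4096 band.Q) (fExp 8 4096 band.Q (pairs ks fc7.e) fc7.c0 fc7.c1) (((((((wBox 4096 band.P0 band.P1).right 2 2048).right 1 2048).right 2 3072).right 1 3072).right 2 3584).left 1 3584) = true := by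
  decide +kernel

/-- a subtree of facet 7 -/
noncomputable def t7_6 : Box.TrM := (.mult [])

lemma h7_6 : t7_6.chkM 403 16 (wGuard 8 4096 band.Q) (fExp 8 4096 band.Q (pairs ks fc7.e) fc7.c0 fc7.c1) ((((((((wBox 4096 band.P0 band.P1).right 2 2048).right 1 2048).right 2 3072).right 1 3072).right 2 3584).right 1 3584).left 2 3840) = true := by
  decide +kernel

/-- a subtree of facet 7 -/
noncomputable def t7_7 : Box.TrM := (.mult [])

lemma h7_7 : t7_7.chkM 403 16 (wGuard 8 4096 band.Q) (fExp 8 4096 band.Q (pairs ks fc7.e) fc7.c0 fc7.c1) (((((((((wBox 4096 band.P0 band.P1).right 2 2048).right 1 2048).right 2 3072).right 1 3072).right 2 3584).right 1 3584).right 2 3840).left 1 3840) = true := by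
  decide +kernel

/-- a subtree of facet 7 -/
noncomputable def t7_8 : Box.TrM := (.mult [])

lemma h7_8 : t7_8.chkM 403 16 (wGuard 8 4096 band.Q) (fExp 8 4096 band.Q (pairs ks fc7.e) fc7.c0 fc7.c1) (((((((((((wBox 4096 band.P0 band.P1).right 2 2048).right 1 2048).right 2 3072).right 1 3072).right 2 3584).right 1 3584).right 2 3840).right 1 3840).left 0 48125000).left 2 3968) = true := by
  decide +kernel

/-- a subtree of facet 7 -/
noncomputable def t7_9 : Box.TrM := (.mult [])

lemma h7_9 : t7_9.chkM 403 16 (wGuard 8 4096 band.Q) (fExp 8 4096 band.Q (pairs ks fc7.e) fc7.c0 fc7.c1) ((((((((((((wBox 4096 band.P0 band.P1).right 2 2048).right 1 2048).right 2 3072).right 1 3072).right 2 3584).right 1 3584).right 2 3840).right 1 3840).left 0 48125000).right 2 3968).left 1 3968) = true := by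
  decide +kernel

/-- a subtree of facet 7 -/
noncomputable def t7_10 : Box.TrM := (.mult [])

lemma h7_10 : t7_10.chkM 403 16 (wGuard 8 4096 band.Q) (fExp 8 4096 band.Q (pairs ks fc7.e) fc7.c0 fc7.c1) ((((((((((((((wBox 4096 band.P0 band.P1).right 2 2048).right 1 2048).right 2 3072).right 1 3072).right 2 3584).right 1 3584).right 2 3840).right 1 3840).left 0 48125000).right 2 3968).right 1 3968).left 0 47562500).left 2 4032) = true := by
  decide +kernel

/-- a subtree of facet 7 -/
noncomputable def t7_11 : Box.TrM := (.mult [])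

lemma h7_11 : t7_11.chkM 403 16 (wGuard 8 4096 band.Q) (fExp 8 4096 band.Q (pairs ks fc7.e) fc7.c0 fc7.c1) (((((((((((((((wBox 4096 band.P0 band.P1).right 2 2048).right 1 2048).right 2 3072).right 1 3072).right 2 3584).right 1 3584).right 2 3840).right 1 3840).left 0 48125000).right 2 3968).right 1 3968).left 0 47562500).right 2 4032).left 1 4032) = true := by
  decide +kernel

/-- a subtree of facet 8 -/
noncomputable def t8_23 : Box.TrM := (.cut 2 4064 (.mult []) (.cut 1 4064 (.mult []) (.cut 0 48546875 (.cut 2 4080 (.mult []) (.cut 1 4080 (.mult []) (.cut 0 48476562 (.cut 2 4088 (.mult []) (.cut 1 4088 (.mult []) (.cut 0 48441406 (.cut 2 4092 (.mult []) (.cut 1 4092 (.mult []) (.cut 0 48423828 (.cut 2 4094 (.mult []) (.cut 1 4094 (.mult []) (.mult []))) (.cut 2 4094 (.mult []) (.cut 1 4094 (.mult []) (.mult [])))))) (.cut 2 4092 (.mult []) (.cut 1 4092 (.mult []) (.cut 0 48458984 (.cut 2 4094 (.mult []) (.cut 1 4094 (.mult []) (.mult []))) (.cut 2 4094 (.mult []) (.cut 1 4094 (.mult []) (.mult []))))))))) (.cut 2 4088 (.mult [])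 (.cut 1 4088 (.mult []) (.cut 0 48511718 (.cut 2 4092 (.mult []) (.cut 1 4092 (.mult []) (.cut 0 48494140 (.cut 2 4094 (.mult []) (.cut 1 4094 (.mult []) (.mult []))) (.cut 2 4094 (.mult []) (.cut 1 4094 (.mult []) (.mult [])))))) (.cut 2 4092 (.mult []) (.cut 1 4092 (.mult []) (.cut 0 48529296 (.cut 2 4094 (.mult []) (.cut 1 4094 (.mult []) (.mult []))) (.cut 2 4094 (.mult []) (.cut 1 4094 (.mult []) (.mult [])))))))))))) (.cut 2 4080 (.mult []) (.cut 1 4080 (.mult []) (.cut 0 48617187 (.cut 2 4088 (.mult []) (.cut 1 4088 (.mult []) (.cut 0 48582031 (.cut 2 4092 (.mult []) (.cut 1 4092 (.mult []) (.cut 0 48564453 (.cut 2 4094 (.mult []) (.cut 1 4094 (.mult []) (.mult []))) (.cut 2 4094 (.mult []) (.cut 1 4094 (.mult []) (.mult [])))))) (.cut 2 4092 (.mult []) (.cut 1 4092 (.mult []) (.cut 0 48599609 (.cut 2 4094 (.mult []) (.cut 1 4094 (.mult []) (.mult []))) (.cut 2 4094 (.mult []) (.cut 1 4094 (.mult []) (.mult []))))))))) (.cut 2 4088 (.mult []) (.cut 1 4088 (.mult []) (.cut 0 48652343 (.cut 2 4092 (.mult []) (.cut 1 4092 (.mult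 []) (.cut 0 48634765 (.cut 2 4094 (.mult []) (.cut 1 4094 (.mult []) (.mult []))) (.cut 2 4094 (.mult []) (.cut 1 4094 (.mult []) (.mult [])))))) (.cut 2 4092 (.mult []) (.cut 1 4092 (.mult []) (.cut 0 48669921 (.cut 2 4094 (.mult []) (.cut 1 4094 (.mult []) (.mult []))) (.cut 2 4094 (.mult []) (.cut 1 4094 (.mult []) (.mult [])))))))))))))))

lemma h8_23 : t8_23.chkM 403 16 (wGuard 8 4096 band.Q) (fExp 8 4096 band.Q (pairs ks fc8.e) fc8.c0 fc8.c1) ((((((((((((((((wBox 4096 band.P0 band.P1).right 2 2048).right 1 2048).right 2 3072).right 1 3072).right 2 3584).right 1 3584).right 2 3840).right 1 3840).right 0 48125000).right 2 3968).right 1 3968).left 0 48687500).right 2 4032).right 1 4032).right 0 48406250) = true := by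
  decide +kernel

/-- a subtree of facet 8 -/
noncomputable def t8_24 : Box.TrM := (.mult [])

lemma h8_24 : t8_24.chkM 403 16 (wGuard 8 4096 band.Q) (fExp 8 4096 band.Q (pairs ks fc8.e) fc8.c0 fc8.c1) ((((((((((((((wBox 4096 band.P0 band.P1).right 2 2048).right 1 2048).right 2 3072).right 1 3072).right 2 3584).right 1 3584).right 2 3840).right 1 3840).right 0 48125000).right 2 3968).right 1 3968).right 0 48687500).left 2 4032) = true := by
  decide +kernel

/-- a subtree of facet 8 -/
noncomputable def t8_25 : Box.TrM := (.mult [])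

lemma h8_25 : t8_25.chkM 403 16 (wGuard 8 4096 band.Q) (fExp 8 4096 band.Q (pairs ks fc8.e) fc8.c0 fc8.c1) (((((((((((((((wBox 4096 band.P0 band.P1).right 2 2048).right 1 2048).right 2 3072).right 1 3072).right 2 3584).right 1 3584).right 2 3840).right 1 3840).right 0 48125000).right 2 3968).right 1 3968).right 0 48687500).right 2 4032).left 1 4032) = true := by
  decide +kernel

lemma facet32 : facetTest 8 band ks (⟨![0, 0, 0, 0, 0, (-1000000000), 0, 0, 594892285], 0, 119458535⟩ : Facet 9)
    ⟨4096, 372, 16, (.cut 2 2048 (.out 0) (.cut 1 2048 (.out 0) (.cut 2 3072 (.cut 1 3072 (.out 0) (.cut 1 3584 (.out 0) (.cut 2 2560 (.mult [(0, 51422017416287688817342786954917203280710495801049370729644032)]) (.cut 1 3840 (.out 0) (.cut 0 48125000 (.cut 2 2816 (.mult [(0, 51422017416287688817342786954917203280710495801049370729644032)]) (.cut 1 3968 (.out 0) (.cut 0 47562500 (.cut 2 2944 (.cut 1 4032 (.out 0) (.cut 0 47281250 (.cut 2 2880 (.mult [(0, 6427752177035961102167848369364650410088811975131171341205504)]) (.cut 1 4064 (.out 0) (.mult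 [(0, 6427752177035961102167848369364650410088811975131171341205504)]))) (.mult [(0, 6427752177035961102167848369364650410088811975131171341205504)]))) (.cut 1 4032 (.out 0) (.cut 0 47281250 (.cut 2 3008 (.cut 1 4064 (.out 0) (.cut 0 47140625 (.cut 2 2976 (.cut 1 4080 (.cut 0 47070312 (.cut 2 2960 (.mult [(0, 6427752177035961102167848369364650410088811975131171341205504)]) (.cut 0 47035156 (.cut 2 2968 (.mult [(0, 6427752177035961102167848369364650410088811975131171341205504)]) (.cut 1 4072 (.out 0) (.cut 0 47017578 (.cut 2 2972 (.mult [(0, 5624283154906465964396867323194069108827710478239774923554816)]) (.cut 1 4076 (.out 0) (.mult [(0, 4820814132776970826625886277023487807566608981348378505904128)]))) (.mult [(0, 3213876088517980551083924184682325205044405987565585670602752)])))) (.mult [(0, 6427752177035961102167848369364650410088811975131171341205504)]))) (.mult [(0, 1606938044258990275541962092341162602522202993782792835301376)])) (.mult [])) (.cut 1 4080 (.cut 0 47070312 (.cut 2 2992 (.cut 0 47035156 (.cut 2 2984 (.cut 1 4072 (.out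 0) (.cut 0 47017578 (.cut 2 2980 (.cut 1 4076 (.out 0) (.mult [(0, 4619946877244597042183141015480842482251333607125529401491456)])) (.cut 1 4076 (.mult [(0, 6427752177035961102167848369364650410088811975131171341205504)]) (.mult [(0, 4619946877244597042183141015480842482251333607125529401491456)]))) (.mult [(0, 3213876088517980551083924184682325205044405987565585670602752)]))) (.cut 1 4072 (.out 0) (.cut 0 47017578 (.cut 2 2988 (.cut 1 4076 (.mult [(0, 6427752177035961102167848369364650410088811975131171341205504)]) (.mult [])) (.mult [(0, 4820814132776970826625886277023487807566608981348378505904128)])) (.mult [(0, 803469022129495137770981046170581301261101496891396417650688)])))) (.mult [(0, 6427752177035961102167848369364650410088811975131171341205504)])) (.cut 0 47035156 (.cut 2 3000 (.cut 1 4072 (.out 0) (.mult [(0, 4820814132776970826625886277023487807566608981348378505904128)])) (.mult [(0, 6427752177035961102167848369364650410088811975131171341205504)])) (.mult [(0, 3213876088517980551083924184682325205044405987565585670602752)])))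 (.mult [(0, 1606938044258990275541962092341162602522202993782792835301376)])) (.mult []))) (.mult []))) (.cut 1 4064 (.mult [(0, 12855504354071922204335696738729300820177623950262342682411008)]) (.mult [(0, 3213876088517980551083924184682325205044405987565585670602752)]))) (.mult [(0, 6427752177035961102167848369364650410088811975131171341205504)])))) (.mult [(0, 19283256531107883306503545108093951230266435925393514023616512)])))) (.mult [(0, 38566513062215766613007090216187902460532871850787028047233024)])))))) (.cut 1 3072 (.cut 2 3584 (.out 0) (.out 3)) (.cut 2 3584 (.cut 1 3584 (.out 0) (.cut 1 3840 (.out 0) (.cut 0 48125000 (.cut 2 3328 (.cut 1 3968 (.out 0) (.mult [(0, 12855504354071922204335696738729300820177623950262342682411008)])) (.mult [])) (.mult [(0, 25711008708143844408671393477458601640355247900524685364822016)])))) (.cut 1 3584 (.cut 2 3840 (.out 0) (.out 3)) (.mult [(0, 803469022129495137770981046170581301261101496891396417650688)])))))))⟩ = true := by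
  decide +kernel

lemma facet33 : facetTest 8 band ks (⟨![0, 0, 0, 0, 0, 0, (-1000000000), 0, 867503773], 0, 21656552⟩ : Facet 9)
    ⟨4096, 372, 16, (.cut 2 2048 (.out 0) (.cut 1 2048 (.out 0) (.cut 2 3072 (.cut 1 3072 (.out 0) (.cut 1 3584 (.out 0) (.cut 2 2560 (.cut 1 3840 (.out 0) (.cut 0 48125000 (.out 0) (.cut 2 2304 (.mult [(0, 411376139330301510538742295639337626245683966408394965837152256)]) (.mult [(0, 12855504354071922204335696738729300820177623950262342682411008)])))) (.cut 1 3840 (.out 0) (.cut 0 48125000 (.cut 2 2816 (.mult [(0, 12855504354071922204335696738729300820177623950262342682411008)]) (.cut 1 3968 (.out 0) (.cut 0 47562500 (.cut 2 2944 (.cut 1 4032 (.out 0) (.cut 0 47281250 (.cut 2 2880 (.mult [(0, 3213876088517980551083924184682325205044405987565585670602752)]) (.cut 1 4064 (.out 0) (.cut 0 47140625 (.cut 2 2912 (.mult [(0, 1606938044258990275541962092341162602522202993782792835301376)]) (.cut 1 4080 (.mult [(0, 1606938044258990275541962092341162602522202993782792835301376)]) (.mult []))) (.mult [])))) (.mult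 [(0, 3213876088517980551083924184682325205044405987565585670602752)]))) (.cut 1 4032 (.out 0) (.cut 0 47281250 (.cut 2 3008 (.cut 1 4064 (.out 0) (.cut 0 47140625 (.cut 2 2976 (.cut 1 4080 (.cut 0 47070312 (.cut 2 2960 (.mult [(0, 2410407066388485413312943138511743903783304490674189252952064)]) (.cut 0 47035156 (.cut 2 2968 (.cut 1 4072 (.out 0) (.mult [(0, 1606938044258990275541962092341162602522202993782792835301376)])) (.cut 1 4072 (.out 0) (.cut 0 47017578 (.cut 2 2972 (.mult [(0, 1556721230375896829431275776955501271193384150227080559198208)]) (.cut 1 4076 (.out 0) (.mult [(0, 1205203533194242706656471569255871951891652245337094626476032)]))) (.mult [(0, 1606938044258990275541962092341162602522202993782792835301376)])))) (.mult [(0, 1606938044258990275541962092341162602522202993782792835301376)]))) (.mult [(0, 1606938044258990275541962092341162602522202993782792835301376)])) (.mult [])) (.cut 1 4080 (.cut 0 47070312 (.cut 2 2992 (.cut 0 47035156 (.cut 2 2984 (.cut 1 4072 (.out 0) (.cut 0 47017578 (.cut 2 2980 (.cut 1 4076 (.out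 0) (.mult [(0, 1205203533194242706656471569255871951891652245337094626476032)])) (.cut 1 4076 (.mult [(0, 3213876088517980551083924184682325205044405987565585670602752)]) (.mult [(0, 1205203533194242706656471569255871951891652245337094626476032)]))) (.mult [(0, 1606938044258990275541962092341162602522202993782792835301376)]))) (.cut 1 4072 (.out 0) (.cut 0 47017578 (.cut 2 2988 (.cut 1 4076 (.mult [(0, 2008672555323737844427452615426453253152753742228491044126720)]) (.mult [])) (.cut 1 4076 (.mult [(0, 1606938044258990275541962092341162602522202993782792835301376)]) (.mult []))) (.mult [(0, 803469022129495137770981046170581301261101496891396417650688)])))) (.mult [(0, 1606938044258990275541962092341162602522202993782792835301376)])) (.cut 0 47035156 (.cut 2 3000 (.cut 1 4072 (.out 0) (.mult [(0, 1506504416492803383320589461569839939864565306671368283095040)])) (.cut 1 4072 (.out 0) (.mult [(0, 1606938044258990275541962092341162602522202993782792835301376)]))) (.mult [(0, 1606938044258990275541962092341162602522202993782792835301376)])))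 (.mult [(0, 1606938044258990275541962092341162602522202993782792835301376)])) (.mult []))) (.mult []))) (.cut 1 4064 (.mult [(0, 3213876088517980551083924184682325205044405987565585670602752)]) (.cut 0 47140625 (.cut 2 3040 (.cut 1 4080 (.mult [(0, 1606938044258990275541962092341162602522202993782792835301376)]) (.mult [])) (.mult [])) (.mult [])))) (.mult [(0, 2410407066388485413312943138511743903783304490674189252952064)])))) (.mult [(0, 4619946877244597042183141015480842482251333607125529401491456)])))) (.cut 2 2816 (.mult [(0, 12855504354071922204335696738729300820177623950262342682411008)]) (.cut 1 3968 (.out 0) (.mult [(0, 6427752177035961102167848369364650410088811975131171341205504)])))))))) (.cut 1 3072 (.cut 2 3584 (.out 0) (.out 3)) (.cut 2 3584 (.cut 1 3584 (.out 0) (.cut 1 3840 (.out 0) (.cut 0 48125000 (.cut 2 3328 (.cut 1 3968 (.out 0) (.cut 0 47562500 (.cut 2 3200 (.cut 1 4032 (.out 0) (.mult [(0, 2008672555323737844427452615426453253152753742228491044126720)])) (.mult [(0, 3213876088517980551083924184682325205044405987565585670602752)]))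 (.mult [(0, 4820814132776970826625886277023487807566608981348378505904128)]))) (.mult [(0, 6427752177035961102167848369364650410088811975131171341205504)])) (.cut 2 3328 (.cut 1 3968 (.out 0) (.mult [(0, 3213876088517980551083924184682325205044405987565585670602752)])) (.mult [(0, 6427752177035961102167848369364650410088811975131171341205504)]))))) (.cut 1 3584 (.cut 2 3840 (.out 0) (.out 3)) (.mult [(0, 6427752177035961102167848369364650410088811975131171341205504)])))))))⟩ = true := by
  decide +kernel

end Vale.Agent.P154.Ly.BC
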