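import Vale.Agent.P154.LyBCFd

/-!
Band C: facet checks.
-/

open scoped BigOperators

namespace Vale.Agent.P154.Ly.BC

/-- a subtree of facet 1 -/
noncomputable def t1_14 : Box.TrM := (.cut 2 4032 (.mult []) (.cut 1 4032 (.mult []) (.cut 0 48406250 (.cut 2 4064 (.mult []) (.cut 1 4064 (.mult []) (.cut 0 48265625 (.cut 2 4080 (.mult []) (.cut 1 4080 (.mult []) (.cut 0 48195312 (.cut 2 4088 (.mult []) (.cut 1 4088 (.mult []) (.cut 0 48160156 (.cut 2 4092 (.mult []) (.mult [])) (.cut 2 4092 (.mult []) (.mult []))))) (.cut 2 4088 (.mult []) (.cut 1 4088 (.mult []) (.cut 0 48230468 (.cut 2 4092 (.mult []) (.mult [])) (.cut 2 4092 (.mult []) (.mult [])))))))) (.cut 2 4080 (.mult []) (.cut 1 4080 (.mult []) (.cut 0 48335937 (.cut 2 4088 (.mult []) (.cut 1 4088 (.mult []) (.cut 0 48300781 (.cut 2 4092 (.mult []) (.mult [])) (.cut 2 4092 (.mult []) (.mult []))))) (.cut 2 4088 (.mult []) (.cut 1 4088 (.mult []) (.cut 0 48371093 (.cut 2 4092 (.mult []) (.mult [])) (.cut 2 4092 (.mult []) (.mult []))))))))))) (.cut 2 4064 (.mult []) (.cut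 1 4064 (.mult []) (.cut 0 48546875 (.cut 2 4080 (.mult []) (.cut 1 4080 (.mult []) (.cut 0 48476562 (.cut 2 4088 (.mult []) (.cut 1 4088 (.mult []) (.cut 0 48441406 (.cut 2 4092 (.mult []) (.mult [])) (.cut 2 4092 (.mult []) (.mult []))))) (.cut 2 4088 (.mult []) (.cut 1 4088 (.mult []) (.cut 0 48511718 (.cut 2 4092 (.mult []) (.mult [])) (.cut 2 4092 (.mult []) (.mult [])))))))) (.cut 2 4080 (.mult []) (.cut 1 4080 (.mult []) (.cut 0 48617187 (.cut 2 4088 (.mult []) (.cut 1 4088 (.mult []) (.cut 0 48582031 (.cut 2 4092 (.mult []) (.mult [])) (.cut 2 4092 (.mult []) (.mult []))))) (.cut 2 4088 (.mult []) (.cut 1 4088 (.mult []) (.cut 0 48652343 (.cut 2 4092 (.mult []) (.mult [])) (.cut 2 4092 (.mult []) (.mult []))))))))))))))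

lemma h1_14 : t1_14.chkM 402 16 (wGuard 8 4096 band.Q) (fExp 8 4096 band.Q (pairs ks fc1.e) fc1.c0 fc1.c1) (((((((((((((wBox 4096 band.P0 band.P1).right 2 2048).right 1 2048).right 2 3072).right 1 3072).right 2 3584).right 1 3584).right 2 3840).right 1 3840).right 0 48125000).right 2 3968).right 1 3968).left 0 48687500) = true := by
  decide +kernel

/-- a subtree of facet 1 -/
noncomputable def t1_15 : Box.TrM := (.cut 2 4032 (.mult []) (.cut 1 4032 (.mult []) (.cut 0 48968750 (.cut 2 4064 (.mult []) (.cut 1 4064 (.mult []) (.cut 0 48828125 (.cut 2 4080 (.mult []) (.cut 1 4080 (.mult []) (.cut 0 48757812 (.cut 2 4088 (.mult []) (.cut 1 4088 (.mult []) (.cut 0 48722656 (.cut 2 4092 (.mult []) (.mult [])) (.cut 2 4092 (.mult []) (.mult []))))) (.cut 2 4088 (.mult []) (.cut 1 4088 (.mult []) (.cut 0 48792968 (.cut 2 4092 (.mult []) (.mult [])) (.cut 2 4092 (.mult []) (.mult [])))))))) (.cut 2 4080 (.mult []) (.cut 1 4080 (.mult []) (.cut 0 48898437 (.cut 2 4088 (.mult []) (.cut 1 4088 (.mult []) (.cut 0 48863281 (.cut 2 4092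 (.mult []) (.mult [])) (.cut 2 4092 (.mult []) (.mult []))))) (.cut 2 4088 (.mult []) (.cut 1 4088 (.mult []) (.cut 0 48933593 (.cut 2 4092 (.mult []) (.mult [])) (.cut 2 4092 (.mult []) (.mult []))))))))))) (.cut 2 4064 (.mult []) (.cut 1 4064 (.mult []) (.cut 0 49109375 (.cut 2 4080 (.mult []) (.cut 1 4080 (.mult []) (.cut 0 49039062 (.cut 2 4088 (.mult []) (.cut 1 4088 (.mult []) (.cut 0 49003906 (.cut 2 4092 (.mult []) (.mult [])) (.cut 2 4092 (.mult []) (.mult []))))) (.cut 2 4088 (.mult []) (.cut 1 4088 (.mult []) (.cut 0 49074218 (.cut 2 4092 (.mult []) (.mult [])) (.cut 2 4092 (.mult []) (.mult [])))))))) (.cut 2 4080 (.mult []) (.cut 1 4080 (.mult []) (.cut 0 49179688 (.cut 2 4088 (.mult []) (.cut 1 4088 (.mult []) (.cut 0 49144531 (.cut 2 4092 (.mult []) (.mult [])) (.cut 2 4092 (.mult []) (.mult []))))) (.cut 2 4088 (.mult []) (.cut 1 4088 (.mult []) (.cut 0 49214844 (.cut 2 4092 (.mult []) (.mult [])) (.cut 2 4092 (.mult []) (.mult []))))))))))))))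

lemma h1_15 : t1_15.chkM 402 16 (wGuard 8 4096 band.Q) (fExp 8 4096 band.Q (pairs ks fc1.e) fc1.c0 fc1.c1) (((((((((((((wBox 4096 band.P0 band.P1).right 2 2048).right 1 2048).right 2 3072).right 1 3072).right 2 3584).right 1 3584).right 2 3840).right 1 3840).right 0 48125000).right 2 3968).right 1 3968).right 0 48687500) = true := by
  decide +kernel

/-- a subtree of facet 2 -/
noncomputable def t2_0 : Box.TrM := (.out 0)

lemma h2_0 : t2_0.chkM 401 16 (wGuard 8 4096 band.Q) (fExp 8 4096 band.Q (pairs ks fc2.e) fc2.c0 fc2.c1) ((wBox 4096 band.P0 band.P1).left 2 2048) = true := by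
  decide +kernel

/-- a subtree of facet 2 -/
noncomputable def t2_1 : Box.TrM := (.out 0)

lemma h2_1 : t2_1.chkM 401 16 (wGuard 8 4096 band.Q) (fExp 8 4096 band.Q (pairs ks fc2.e) fc2.c0 fc2.c1) (((wBox 4096 band.P0 band.P1).right 2 2048).left 1 2048) = true := by
  decide +kernel

/-- a subtree of facet 5 -/
noncomputable def t5_12 : Box.TrM := (.cut 2 4064 (.mult []) (.cut 1 4064 (.mult []) (.cut 0 47140625 (.cut 2 4080 (.mult []) (.cut 1 4080 (.mult []) (.cut 0 47070312 (.cut 2 4088 (.mult []) (.cut 1 4088 (.mult []) (.cut 0 47035156 (.cut 2 4092 (.mult []) (.cut 1 4092 (.mult []) (.cut 0 47017578 (.cut 2 4094 (.mult []) (.cut 1 4094 (.mult []) (.mult []))) (.cut 2 4094 (.mult []) (.cut 1 4094 (.mult []) (.mult [])))))) (.cut 2 4092 (.mult []) (.cut 1 4092 (.mult []) (.cut 0 47052734 (.cut 2 4094 (.mult []) (.cut 1 4094 (.mult []) (.mult []))) (.cut 2 4094 (.mult []) (.cut 1 4094 (.mult []) (.mult []))))))))) (.cut 2 4088 (.mult []) (.cut 1 4088 (.mult []) (.cut 0 47105468 (.cut 2 4092 (.mult []) (.cut 1 4092 (.mult [])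 (.cut 0 47087890 (.cut 2 4094 (.mult []) (.cut 1 4094 (.mult []) (.mult []))) (.cut 2 4094 (.mult []) (.cut 1 4094 (.mult []) (.mult [])))))) (.cut 2 4092 (.mult []) (.cut 1 4092 (.mult []) (.cut 0 47123046 (.cut 2 4094 (.mult []) (.cut 1 4094 (.mult []) (.mult []))) (.cut 2 4094 (.mult []) (.cut 1 4094 (.mult []) (.mult [])))))))))))) (.cut 2 4080 (.mult []) (.cut 1 4080 (.mult []) (.cut 0 47210937 (.cut 2 4088 (.mult []) (.cut 1 4088 (.mult []) (.cut 0 47175781 (.cut 2 4092 (.mult []) (.cut 1 4092 (.mult []) (.cut 0 47158203 (.cut 2 4094 (.mult []) (.cut 1 4094 (.mult []) (.mult []))) (.cut 2 4094 (.mult []) (.cut 1 4094 (.mult []) (.mult [])))))) (.cut 2 4092 (.mult []) (.cut 1 4092 (.mult []) (.cut 0 47193359 (.cut 2 4094 (.mult []) (.cut 1 4094 (.mult []) (.mult []))) (.cut 2 4094 (.mult []) (.cut 1 4094 (.mult []) (.mult []))))))))) (.cut 2 4088 (.mult []) (.cut 1 4088 (.mult []) (.cut 0 47246093 (.cut 2 4092 (.mult []) (.cut 1 4092 (.mult []) (.cut 0 47228515 (.cut 2 4094 (.mult []) (.cut 1 4094 (.mult []) (.mult [])))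 (.cut 2 4094 (.mult []) (.cut 1 4094 (.mult []) (.mult [])))))) (.cut 2 4092 (.mult []) (.cut 1 4092 (.mult []) (.cut 0 47263671 (.cut 2 4094 (.mult []) (.cut 1 4094 (.mult []) (.mult []))) (.cut 2 4094 (.mult []) (.cut 1 4094 (.mult []) (.mult [])))))))))))))))

lemma h5_12 : t5_12.chkM 402 16 (wGuard 8 4096 band.Q) (fExp 8 4096 band.Q (pairs ks fc5.e) fc5.c0 fc5.c1) ((((((((((((((((wBox 4096 band.P0 band.P1).right 2 2048).right 1 2048).right 2 3072).right 1 3072).right 2 3584).right 1 3584).right 2 3840).right 1 3840).left 0 48125000).right 2 3968).right 1 3968).left 0 47562500).right 2 4032).right 1 4032).left 0 47281250) = true := by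
  decide +kernel

/-- a subtree of facet 7 -/
noncomputable def t7_16 : Box.TrM := (.cut 2 4064 (.mult []) (.cut 1 4064 (.mult []) (.cut 0 47703125 (.cut 2 4080 (.mult []) (.cut 1 4080 (.mult []) (.cut 0 47632812 (.cut 2 4088 (.mult []) (.cut 1 4088 (.mult []) (.cut 0 47597656 (.cut 2 4092 (.mult []) (.cut 1 4092 (.mult []) (.cut 0 47580078 (.cut 2 4094 (.mult []) (.cut 1 4094 (.mult []) (.mult []))) (.cut 2 4094 (.mult []) (.cut 1 4094 (.mult []) (.mult [])))))) (.cut 2 4092 (.mult []) (.cut 1 4092 (.mult []) (.cut 0 47615234 (.cut 2 4094 (.mult []) (.cut 1 4094 (.mult []) (.mult []))) (.cut 2 4094 (.mult []) (.cut 1 4094 (.mult []) (.mult []))))))))) (.cut 2 4088 (.mult []) (.cut 1 4088 (.mult []) (.cut 0 47667968 (.cut 2 4092 (.mult []) (.cut 1 4092 (.mult []) (.cut 0 47650390 (.cut 2 4094 (.mult []) (.cut 1 4094 (.mult []) (.mult []))) (.cut 2 4094 (.mult []) (.cut 1 4094 (.mult []) (.mult [])))))) (.cut 2 4092 (.mult []) (.cut 1 4092 (.mult []) (.cut 0 47685546 (.cut 2 4094 (.mult []) (.cut 1 4094 (.mult []) (.mult [])))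 (.cut 2 4094 (.mult []) (.cut 1 4094 (.mult []) (.mult [])))))))))))) (.cut 2 4080 (.mult []) (.cut 1 4080 (.mult []) (.cut 0 47773437 (.cut 2 4088 (.mult []) (.cut 1 4088 (.mult []) (.cut 0 47738281 (.cut 2 4092 (.mult []) (.cut 1 4092 (.mult []) (.cut 0 47720703 (.cut 2 4094 (.mult []) (.cut 1 4094 (.mult []) (.mult []))) (.cut 2 4094 (.mult []) (.cut 1 4094 (.mult []) (.mult [])))))) (.cut 2 4092 (.mult []) (.cut 1 4092 (.mult []) (.cut 0 47755859 (.cut 2 4094 (.mult []) (.cut 1 4094 (.mult []) (.mult []))) (.cut 2 4094 (.mult []) (.cut 1 4094 (.mult []) (.mult []))))))))) (.cut 2 4088 (.mult []) (.cut 1 4088 (.mult []) (.cut 0 47808593 (.cut 2 4092 (.mult []) (.cut 1 4092 (.mult []) (.cut 0 47791015 (.cut 2 4094 (.mult []) (.cut 1 4094 (.mult []) (.mult []))) (.cut 2 4094 (.mult []) (.cut 1 4094 (.mult []) (.mult [])))))) (.cut 2 4092 (.mult []) (.cut 1 4092 (.mult []) (.cut 0 47826171 (.cut 2 4094 (.mult []) (.cut 1 4094 (.mult []) (.mult []))) (.cut 2 4094 (.mult []) (.cut 1 4094 (.mult []) (.mult [])))))))))))))))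

lemma h7_16 : t7_16.chkM 403 16 (wGuard 8 4096 band.Q) (fExp 8 4096 band.Q (pairs ks fc7.e) fc7.c0 fc7.c1) ((((((((((((((((wBox 4096 band.P0 band.P1).right 2 2048).right 1 2048).right 2 3072).right 1 3072).right 2 3584).right 1 3584).right 2 3840).right 1 3840).left 0 48125000).right 2 3968).right 1 3968).right 0 47562500).right 2 4032).right 1 4032).left 0 47843750) = true := by
  decide +kernel

lemma facet16 : facetTest 8 band ks (⟨![(-201000514), 442205333, (-210313388), 66784797, 51646462, (-414518100), 643198394, (-347582522), (-79692245)], (-396026), 2882⟩ : Facet 9)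
    ⟨4096, 394, 16, (.cut 2 2048 (.out 0) (.cut 1 2048 (.out 0) (.cut 2 3072 (.cut 1 3072 (.out 0) (.cut 1 3584 (.out 0) (.cut 2 2560 (.cut 1 3840 (.out 0) (.cut 0 48125000 (.out 0) (.cut 2 2304 (.mult [(0, 2557019235287866388885707306629791010114128972142462718539295354781696), (1, 2480315093377858861109365388005806021974617286873732668261532142927872)]) (.cut 1 3968 (.out 0) (.cut 0 48687500 (.cut 2 2432 (.out 0) (.cut 1 4032 (.out 0) (.mult [(0, 75325220824640169166029473078491996993228265333568414154752)]))) (.cut 2 2432 (.cut 1 4032 (.out 0) (.mult [(0, 81602322560026849929865262501699663409330620778032448667648)])) (.cut 1 4032 (.out 0) (.cut 0 48968750 (.cut 2 2496 (.mult [(0, 75325220824640169166029473078491996993228265333568414154752)]) (.mult [(0, 53355364750786786492604210097265164536870021277944293359616)])) (.cut 2 2496 (.cut 1 4064 (.out 0) (.mult [(0, 50216813883093446110686315385661331328818843555712276103168)])) (.cut 1 4064 (.out 0) (.mult [(0, 25108406941546723055343157692830665664409421777856138051584)])))))))))))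 (.cut 1 3840 (.out 0) (.cut 0 48125000 (.cut 2 2816 (.cut 1 3968 (.out 0) (.cut 0 47562500 (.cut 2 2688 (.mult [(0, 100433627766186892221372630771322662657637687111424552206336)]) (.cut 1 4032 (.out 0) (.mult [(0, 31385508676933403819178947116038332080511777222320172564480)]))) (.cut 2 2688 (.cut 1 4032 (.out 0) (.mult [(0, 50216813883093446110686315385661331328818843555712276103168)])) (.cut 1 4032 (.out 0) (.cut 0 47843750 (.mult [(0, 31385508676933403819178947116038332080511777222320172564480)]) (.cut 2 2752 (.mult [(0, 31385508676933403819178947116038332080511777222320172564480)]) (.mult [(0, 26677682375393393246302105048632582268435010638972146679808)]))))))) (.cut 1 3968 (.out 0) (.cut 0 47562500 (.cut 2 2944 (.cut 1 4032 (.out 0) (.mult [(0, 21969856073853382673425262981226832456358244055624120795136)])) (.cut 1 4032 (.out 0) (.mult [(0, 12554203470773361527671578846415332832204710888928069025792)]))) (.cut 2 2944 (.cut 1 4032 (.out 0) (.cut 0 47843750 (.cut 2 2880 (.mult [(0, 21969856073853382673425262981226832456358244055624120795136)])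 (.mult [(0, 18831305206160042291507368269622999248307066333392103538688)])) (.cut 2 2880 (.mult [(0, 22362174932315050221164999820177311607364641270903122952192)]) (.mult [(0, 18831305206160042291507368269622999248307066333392103538688)])))) (.cut 1 4032 (.out 0) (.mult [(0, 14123478904620031718630526202217249436230299750044077654016)])))))) (.cut 2 2816 (.cut 1 3968 (.out 0) (.cut 0 48687500 (.cut 2 2688 (.cut 1 4032 (.out 0) (.cut 0 48406250 (.mult [(0, 42762755572321762703631315445602227459697296465411235119104)]) (.cut 2 2624 (.mult [(0, 47078263015400105728768420674057498120767665833480258846720)]) (.cut 1 4064 (.out 0) (.mult [(0, 25108406941546723055343157692830665664409421777856138051584)]))))) (.cut 1 4032 (.out 0) (.cut 0 48406250 (.cut 2 2752 (.cut 1 4064 (.out 0) (.mult [(0, 12554203470773361527671578846415332832204710888928069025792)])) (.cut 1 4064 (.out 0) (.mult [(0, 6277101735386680763835789423207666416102355444464034512896)]))) (.cut 2 2752 (.cut 1 4064 (.out 0) (.mult [(0, 12554203470773361527671578846415332832204710888928069025792)]))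 (.cut 1 4064 (.out 0) (.mult [(0, 12554203470773361527671578846415332832204710888928069025792)])))))) (.cut 2 2688 (.cut 1 4032 (.out 0) (.cut 0 48968750 (.cut 2 2624 (.cut 1 4064 (.out 0) (.mult [(0, 25108406941546723055343157692830665664409421777856138051584)])) (.cut 1 4064 (.out 0) (.mult [(0, 25108406941546723055343157692830665664409421777856138051584)]))) (.cut 2 2624 (.cut 1 4064 (.out 0) (.mult [(0, 25108406941546723055343157692830665664409421777856138051584)])) (.cut 1 4064 (.out 0) (.mult [(0, 25108406941546723055343157692830665664409421777856138051584)]))))) (.cut 1 4032 (.out 0) (.cut 0 48968750 (.cut 2 2752 (.cut 1 4064 (.out 0) (.mult [(0, 12554203470773361527671578846415332832204710888928069025792)])) (.cut 1 4064 (.out 0) (.mult [(0, 12554203470773361527671578846415332832204710888928069025792)]))) (.cut 2 2752 (.cut 1 4064 (.out 0) (.mult [(0, 12554203470773361527671578846415332832204710888928069025792)])) (.cut 1 4064 (.out 0) (.mult [(0, 12554203470773361527671578846415332832204710888928069025792)]))))))))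 (.cut 1 3968 (.out 0) (.cut 0 48687500 (.cut 2 2944 (.cut 1 4032 (.out 0) (.cut 0 48406250 (.cut 2 2880 (.cut 1 4064 (.out 0) (.mult [(0, 1569275433846670190958947355801916604025588861116008628224)])) (.cut 1 4064 (.out 0) (.mult []))) (.cut 2 2880 (.cut 1 4064 (.out 0) (.mult [(0, 1569275433846670190958947355801916604025588861116008628224)])) (.cut 1 4064 (.out 0) (.mult []))))) (.cut 1 4032 (.out 0) (.cut 0 48406250 (.mult [(0, 14515797763081699266370263041167728587236696965323079811072)]) (.cut 2 3008 (.mult [(0, 15692754338466701909589473558019166040255888611160086282240)]) (.mult [(0, 12554203470773361527671578846415332832204710888928069025792)]))))) (.cut 2 2944 (.cut 1 4032 (.out 0) (.cut 0 48968750 (.cut 2 2880 (.cut 1 4064 (.out 0) (.mult [(0, 784637716923335095479473677900958302012794430558004314112)])) (.cut 1 4064 (.out 0) (.mult []))) (.cut 2 2880 (.cut 1 4064 (.out 0) (.mult [(0, 196159429230833773869868419475239575503198607639501078528)])) (.cut 1 4064 (.mult [(0, 25108406941546723055343157692830665664409421777856138051584)])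 (.mult []))))) (.cut 1 4032 (.out 0) (.cut 0 48968750 (.cut 2 3008 (.cut 1 4064 (.mult [(0, 25108406941546723055343157692830665664409421777856138051584)]) (.mult [])) (.mult [(0, 12554203470773361527671578846415332832204710888928069025792)])) (.cut 2 3008 (.cut 1 4064 (.mult [(0, 25108406941546723055343157692830665664409421777856138051584)]) (.mult [])) (.mult [(0, 12554203470773361527671578846415332832204710888928069025792)]))))))))))))) (.cut 1 3072 (.cut 2 3584 (.out 0) (.out 3)) (.cut 2 3584 (.cut 1 3584 (.out 0) (.cut 1 3840 (.out 0) (.cut 0 48125000 (.cut 2 3328 (.cut 1 3968 (.out 0) (.cut 0 47562500 (.cut 2 3200 (.cut 1 4032 (.out 0) (.mult [(0, 3138550867693340381917894711603833208051177722232017256448)])) (.mult [(0, 9194973245195333150150082162901855101712434733101613056000)])) (.cut 2 3200 (.cut 1 4032 (.out 0) (.mult [(0, 3138550867693340381917894711603833208051177722232017256448)])) (.cut 1 4032 (.mult [(0, 12554203470773361527671578846415332832204710888928069025792)]) (.mult []))))) (.cut 1 3968 (.mult [(0, 12554203470773361527671578846415332832204710888928069025792)])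 (.mult []))) (.cut 2 3328 (.cut 1 3968 (.out 0) (.cut 0 48687500 (.cut 2 3200 (.cut 1 4032 (.mult [(0, 25108406941546723055343157692830665664409421777856138051584)]) (.mult [(0, 3138550867693340381917894711603833208051177722232017256448)])) (.cut 1 4032 (.mult [(0, 12554203470773361527671578846415332832204710888928069025792)]) (.mult []))) (.cut 2 3200 (.cut 1 4032 (.mult [(0, 25108406941546723055343157692830665664409421777856138051584)]) (.mult [(0, 3138550867693340381917894711603833208051177722232017256448)])) (.cut 1 4032 (.mult [(0, 12554203470773361527671578846415332832204710888928069025792)]) (.mult []))))) (.cut 1 3968 (.mult [(0, 9415652603080021145753684134811499624153533166696051769344)]) (.mult [])))))) (.cut 1 3584 (.cut 2 3840 (.out 0) (.out 3)) (.mult [])))))))⟩ = true := by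
  decide +kernel

lemma facet17 : facetTest 8 band ks (⟨![(-576993367), 318988076, 12173256, 102487420, 457094476, (-109552995), (-382719022), 311119433, (-300712646)], (-6561515), 18600⟩ : Facet 9)
    ⟨4096, 394, 16, (.cut 2 2048 (.out 0) (.cut 1 2048 (.out 0) (.cut 2 3072 (.cut 1 3072 (.out 0) (.cut 1 3584 (.out 0) (.cut 2 2560 (.cut 1 3840 (.out 0) (.cut 0 48125000 (.out 0) (.cut 2 2304 (.mult [(0, 2762650712587759164364437467085680313189949812064883720225402430423040), (1, 2695994666715063979466701508701963067363714442254057248110361024921600)]) (.mult [(0, 200867255532373784442745261542645325315275374222849104412672)])))) (.cut 1 3840 (.out 0) (.cut 0 48125000 (.cut 2 2816 (.mult [(0, 50216813883093446110686315385661331328818843555712276103168)]) (.mult [])) (.cut 2 2816 (.cut 1 3968 (.out 0) (.mult [(0, 37662610412320084583014736539245998496614132666784207077376)])) (.mult []))))))) (.cut 1 3072 (.cut 2 3584 (.out 0) (.out 3)) (.cut 2 3584 (.mult []) (.cut 1 3584 (.mult []) (.mult [])))))))⟩ = true := by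
  decide +kernel

lemma facet18 : facetTest 8 band ks (⟨![576993367, (-318988076), (-12173256), (-102487420), (-457094476), 109552995, 382719022, (-311119433), 300705801], 6561515, 12342⟩ : Facet 9)
    ⟨4096, 373, 16, (.cut 2 2048 (.out 0) (.cut 1 2048 (.out 0) (.cut 2 3072 (.cut 1 3072 (.out 0) (.cut 1 3584 (.out 0) (.cut 2 2560 (.cut 1 3840 (.out 0) (.cut 0 48125000 (.out 0) (.cut 2 2304 (.mult []) (.mult [(0, 784637716923335095479473677900958302012794430558004314112)])))) (.cut 1 3840 (.out 0) (.cut 0 48125000 (.mult [(0, 56493915618480126874522104808868997744921199000176310616064)]) (.cut 2 2816 (.mult [(0, 25108406941546723055343157692830665664409421777856138051584)]) (.cut 1 3968 (.out 0) (.mult [(0, 25108406941546723055343157692830665664409421777856138051584)])))))))) (.cut 1 3072 (.cut 2 3584 (.out 0) (.out 3)) (.cut 2 3584 (.cut 1 3584 (.out 0) (.cut 1 3840 (.out 0) (.cut 0 48125000 (.cut 2 3328 (.cut 1 3968 (.out 0) (.mult [(0, 25108406941546723055343157692830665664409421777856138051584)])) (.cut 1 3968 (.mult [(0,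 50216813883093446110686315385661331328818843555712276103168)]) (.mult []))) (.cut 2 3328 (.cut 1 3968 (.out 0) (.mult [(0, 25108406941546723055343157692830665664409421777856138051584)])) (.cut 1 3968 (.mult [(0, 75325220824640169166029473078491996993228265333568414154752)]) (.mult [])))))) (.cut 1 3584 (.cut 2 3840 (.out 0) (.out 3)) (.cut 2 3840 (.cut 1 3840 (.cut 0 48125000 (.cut 0 47562500 (.cut 2 3712 (.mult [(0, 100433627766186892221372630771322662657637687111424552206336)]) (.mult [(0, 43939712147706765346850525962453664912716488111248241590272)])) (.cut 2 3712 (.mult [(0, 100433627766186892221372630771322662657637687111424552206336)]) (.mult [(0, 45508987581553435537809473318255581516742076972364250218496)]))) (.cut 0 48687500 (.cut 2 3712 (.mult [(0, 100433627766186892221372630771322662657637687111424552206336)]) (.cut 1 3712 (.mult [(0, 50216813883093446110686315385661331328818843555712276103168)]) (.mult [(0, 25108406941546723055343157692830665664409421777856138051584)]))) (.cut 2 3712 (.mult [(0, 100433627766186892221372630771322662657637687111424552206336)])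 (.cut 1 3712 (.mult [(0, 50216813883093446110686315385661331328818843555712276103168)]) (.mult [(0, 25108406941546723055343157692830665664409421777856138051584)]))))) (.mult [])) (.mult []))))))))⟩ = true := by
  decide +kernel

end Vale.Agent.P154.Ly.BC
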