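import Vale.Agent.P154.LyBCFd

/-!
Band C: facet checks.
-/

open scoped BigOperators

namespace Vale.Agent.P154.Ly.BC

/-- a subtree of facet 2 -/
noncomputable def t2_2 : Box.TrM := (.cut 1 3072 (.out 0) (.cut 1 3584 (.out 0) (.cut 2 2560 (.cut 1 3840 (.out 0) (.cut 0 48125000 (.out 0) (.cut 2 2304 (.mult [(0, 430838485244389698365436553992181021367380009332253316580814278935707648), (1, 421006527154224391033520107598898552599517647302393579864913977651757056)]) (.cut 1 3968 (.out 0) (.cut 0 48687500 (.mult [(0, 51422017416287688817342786954917203280710495801049370729644032)]) (.cut 2 2432 (.cut 1 4032 (.out 0) (.cut 0 48968750 (.mult [(0, 205688069665150755269371147819668813122841983204197482918576128)]) (.cut 2 2368 (.cut 1 4064 (.out 0) (.cut 0 49109375 (.mult [(2, 102844034832575377634685573909834406561420991602098741459288064)]) (.cut 2 2336 (.cut 1 4080 (.out 0) (.cut 0 49179688 (.mult [(2, 205688069665150755269371147819668813122841983204197482918576128)]) (.cut 2 2320 (.cut 1 4088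 (.out 0) (.cut 0 49214844 (.mult [(2, 411376139330301510538742295639337626245683966408394965837152256)]) (.cut 2 2312 (.cut 1 4092 (.out 0) (.cut 0 49232422 (.mult [(2, 822752278660603021077484591278675252491367932816789931674304512)]) (.cut 2 2308 (.cut 1 4094 (.out 0) (.cut 0 49241211 (.mult [(2, 1645504557321206042154969182557350504982735865633579863348609024)]) (.cut 2 2306 (.cut 1 4095 (.out 0) (.cut 0 49245606 (.out 2) (.cut 2 2305 (.mult [(2, 3535263697369778606192316603150557725548846586322144237663027200)]) (.mult [(1, 12855504354071922204335696738729300820177623950262342682411008)])))) (.mult [])))) (.mult [])))) (.mult [])))) (.mult [])))) (.mult [])))) (.mult [])))) (.mult []))))))) (.mult []))))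

lemma h2_2 : t2_2.chkM 401 16 (wGuard 8 4096 band.Q) (fExp 8 4096 band.Q (pairs ks fc2.e) fc2.c0 fc2.c1) ((((wBox 4096 band.P0 band.P1).right 2 2048).right 1 2048).left 2 3072) = true := by
  decide +kernel

/-- a subtree of facet 2 -/
noncomputable def t2_3 : Box.TrM := (.cut 2 3584 (.out 0) (.out 3))

lemma h2_3 : t2_3.chkM 401 16 (wGuard 8 4096 band.Q) (fExp 8 4096 band.Q (pairs ks fc2.e) fc2.c0 fc2.c1) (((((wBox 4096 band.P0 band.P1).right 2 2048).right 1 2048).right 2 3072).left 1 3072) = true := by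
  decide +kernel

/-- a subtree of facet 2 -/
noncomputable def t2_4 : Box.TrM := (.mult [])

lemma h2_4 : t2_4.chkM 401 16 (wGuard 8 4096 band.Q) (fExp 8 4096 band.Q (pairs ks fc2.e) fc2.c0 fc2.c1) ((((((wBox 4096 band.P0 band.P1).right 2 2048).right 1 2048).right 2 3072).right 1 3072).left 2 3584) = true := by
  decide +kernel

/-- a subtree of facet 2 -/
noncomputable def t2_5 : Box.TrM := (.mult [])

lemma h2_5 : t2_5.chkM 401 16 (wGuard 8 4096 band.Q) (fExp 8 4096 band.Q (pairs ks fc2.e) fc2.c0 fc2.c1) (((((((wBox 4096 band.P0 band.P1).right 2 2048).right 1 2048).right 2 3072).right 1 3072).right 2 3584).left 1 3584) = true := by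
  decide +kernel

/-- a subtree of facet 2 -/
noncomputable def t2_6 : Box.TrM := (.mult [])

lemma h2_6 : t2_6.chkM 401 16 (wGuard 8 4096 band.Q) (fExp 8 4096 band.Q (pairs ks fc2.e) fc2.c0 fc2.c1) ((((((((wBox 4096 band.P0 band.P1).right 2 2048).right 1 2048).right 2 3072).right 1 3072).right 2 3584).right 1 3584).left 2 3840) = true := by
  decide +kernel

/-- a subtree of facet 2 -/
noncomputable def t2_7 : Box.TrM := (.mult [])

lemma h2_7 : t2_7.chkM 401 16 (wGuard 8 4096 band.Q) (fExp 8 4096 band.Q (pairs ks fc2.e) fc2.c0 fc2.c1) (((((((((wBox 4096 band.P0 band.P1).right 2 2048).right 1 2048).right 2 3072).right 1 3072).right 2 3584).right 1 3584).right 2 3840).left 1 3840) = true := by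
  decide +kernel

/-- a subtree of facet 2 -/
noncomputable def t2_8 : Box.TrM := (.mult [])

lemma h2_8 : t2_8.chkM 401 16 (wGuard 8 4096 band.Q) (fExp 8 4096 band.Q (pairs ks fc2.e) fc2.c0 fc2.c1) (((((((((((wBox 4096 band.P0 band.P1).right 2 2048).right 1 2048).right 2 3072).right 1 3072).right 2 3584).right 1 3584).right 2 3840).right 1 3840).left 0 48125000).left 2 3968) = true := by
  decide +kernel

/-- a subtree of facet 2 -/
noncomputable def t2_9 : Box.TrM := (.mult [])

lemma h2_9 : t2_9.chkM 401 16 (wGuard 8 4096 band.Q) (fExp 8 4096 band.Q (pairs ks fc2.e) fc2.c0 fc2.c1) ((((((((((((wBox 4096 band.P0 band.P1).right 2 2048).right 1 2048).right 2 3072).right 1 3072).right 2 3584).right 1 3584).right 2 3840).right 1 3840).left 0 48125000).right 2 3968).left 1 3968) = true := by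
  decide +kernel

/-- a subtree of facet 2 -/
noncomputable def t2_10 : Box.TrM := (.cut 2 4032 (.mult []) (.cut 1 4032 (.mult []) (.cut 0 47281250 (.cut 2 4064 (.mult []) (.cut 1 4064 (.mult []) (.cut 0 47140625 (.cut 2 4080 (.mult []) (.cut 1 4080 (.mult []) (.cut 0 47070312 (.cut 2 4088 (.mult []) (.cut 1 4088 (.mult []) (.cut 0 47035156 (.cut 2 4092 (.mult []) (.cut 1 4092 (.mult []) (.mult []))) (.cut 2 4092 (.mult []) (.cut 1 4092 (.mult []) (.mult [])))))) (.cut 2 4088 (.mult []) (.cut 1 4088 (.mult []) (.cut 0 47105468 (.cut 2 4092 (.mult []) (.cut 1 4092 (.mult []) (.mult []))) (.cut 2 4092 (.mult []) (.cut 1 4092 (.mult []) (.mult []))))))))) (.cut 2 4080 (.mult []) (.cut 1 4080 (.mult []) (.cut 0 47210937 (.cut 2 4088 (.mult []) (.cut 1 4088 (.mult []) (.cut 0 47175781 (.cut 2 4092 (.mult []) (.cut 1 4092 (.mult []) (.mult []))) (.cut 2 4092 (.mult []) (.cut 1 4092 (.mult []) (.mult [])))))) (.cut 2 4088 (.mult []) (.cut 1 4088 (.mult []) (.cut 0 47246093 (.cut 2 4092 (.mult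 []) (.cut 1 4092 (.mult []) (.mult []))) (.cut 2 4092 (.mult []) (.cut 1 4092 (.mult []) (.mult [])))))))))))) (.cut 2 4064 (.mult []) (.cut 1 4064 (.mult []) (.cut 0 47421875 (.cut 2 4080 (.mult []) (.cut 1 4080 (.mult []) (.cut 0 47351562 (.cut 2 4088 (.mult []) (.cut 1 4088 (.mult []) (.cut 0 47316406 (.cut 2 4092 (.mult []) (.cut 1 4092 (.mult []) (.mult []))) (.cut 2 4092 (.mult []) (.cut 1 4092 (.mult []) (.mult [])))))) (.cut 2 4088 (.mult []) (.cut 1 4088 (.mult []) (.cut 0 47386718 (.cut 2 4092 (.mult []) (.cut 1 4092 (.mult []) (.mult []))) (.cut 2 4092 (.mult []) (.cut 1 4092 (.mult []) (.mult []))))))))) (.cut 2 4080 (.mult []) (.cut 1 4080 (.mult []) (.cut 0 47492187 (.cut 2 4088 (.mult []) (.cut 1 4088 (.mult []) (.cut 0 47457031 (.cut 2 4092 (.mult []) (.cut 1 4092 (.mult []) (.mult []))) (.cut 2 4092 (.mult []) (.cut 1 4092 (.mult []) (.mult [])))))) (.cut 2 4088 (.mult []) (.cut 1 4088 (.mult []) (.cut 0 47527343 (.cut 2 4092 (.mult []) (.cut 1 4092 (.mult []) (.mult [])))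 (.cut 2 4092 (.mult []) (.cut 1 4092 (.mult []) (.mult [])))))))))))))))

lemma h2_10 : t2_10.chkM 401 16 (wGuard 8 4096 band.Q) (fExp 8 4096 band.Q (pairs ks fc2.e) fc2.c0 fc2.c1) (((((((((((((wBox 4096 band.P0 band.P1).right 2 2048).right 1 2048).right 2 3072).right 1 3072).right 2 3584).right 1 3584).right 2 3840).right 1 3840).left 0 48125000).right 2 3968).right 1 3968).left 0 47562500) = true := by
  decide +kernel

/-- a subtree of facet 5 -/
noncomputable def t5_13 : Box.TrM := (.cut 2 4064 (.mult []) (.cut 1 4064 (.mult []) (.cut 0 47421875 (.cut 2 4080 (.mult []) (.cut 1 4080 (.mult []) (.cut 0 47351562 (.cut 2 4088 (.mult []) (.cut 1 4088 (.mult []) (.cut 0 47316406 (.cut 2 4092 (.mult []) (.cut 1 4092 (.mult []) (.cut 0 47298828 (.cut 2 4094 (.mult []) (.cut 1 4094 (.mult []) (.mult []))) (.cut 2 4094 (.mult []) (.cut 1 4094 (.mult []) (.mult [])))))) (.cut 2 4092 (.mult []) (.cut 1 4092 (.mult []) (.cut 0 47333984 (.cut 2 4094 (.mult []) (.cut 1 4094 (.mult []) (.mult [])))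 (.cut 2 4094 (.mult []) (.cut 1 4094 (.mult []) (.mult []))))))))) (.cut 2 4088 (.mult []) (.cut 1 4088 (.mult []) (.cut 0 47386718 (.cut 2 4092 (.mult []) (.cut 1 4092 (.mult []) (.cut 0 47369140 (.cut 2 4094 (.mult []) (.cut 1 4094 (.mult []) (.mult []))) (.cut 2 4094 (.mult []) (.cut 1 4094 (.mult []) (.mult [])))))) (.cut 2 4092 (.mult []) (.cut 1 4092 (.mult []) (.cut 0 47404296 (.cut 2 4094 (.mult []) (.cut 1 4094 (.mult []) (.mult []))) (.cut 2 4094 (.mult []) (.cut 1 4094 (.mult []) (.mult [])))))))))))) (.cut 2 4080 (.mult []) (.cut 1 4080 (.mult []) (.cut 0 47492187 (.cut 2 4088 (.mult []) (.cut 1 4088 (.mult []) (.cut 0 47457031 (.cut 2 4092 (.mult []) (.cut 1 4092 (.mult []) (.cut 0 47439453 (.cut 2 4094 (.mult []) (.cut 1 4094 (.mult []) (.mult []))) (.cut 2 4094 (.mult []) (.cut 1 4094 (.mult []) (.mult [])))))) (.cut 2 4092 (.mult []) (.cut 1 4092 (.mult []) (.cut 0 47474609 (.cut 2 4094 (.mult []) (.cut 1 4094 (.mult []) (.mult []))) (.cut 2 4094 (.mult []) (.cut 1 4094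 (.mult []) (.mult []))))))))) (.cut 2 4088 (.mult []) (.cut 1 4088 (.mult []) (.cut 0 47527343 (.cut 2 4092 (.mult []) (.cut 1 4092 (.mult []) (.cut 0 47509765 (.cut 2 4094 (.mult []) (.cut 1 4094 (.mult []) (.mult []))) (.cut 2 4094 (.mult []) (.cut 1 4094 (.mult []) (.mult [])))))) (.cut 2 4092 (.mult []) (.cut 1 4092 (.mult []) (.cut 0 47544921 (.cut 2 4094 (.mult []) (.cut 1 4094 (.mult []) (.mult []))) (.cut 2 4094 (.mult []) (.cut 1 4094 (.mult []) (.mult [])))))))))))))))

lemma h5_13 : t5_13.chkM 402 16 (wGuard 8 4096 band.Q) (fExp 8 4096 band.Q (pairs ks fc5.e) fc5.c0 fc5.c1) ((((((((((((((((wBox 4096 band.P0 band.P1).right 2 2048).right 1 2048).right 2 3072).right 1 3072).right 2 3584).right 1 3584).right 2 3840).right 1 3840).left 0 48125000).right 2 3968).right 1 3968).left 0 47562500).right 2 4032).right 1 4032).right 0 47281250) = true := by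
  decide +kernel

/-- a subtree of facet 5 -/
noncomputable def t5_14 : Box.TrM := (.mult [])

lemma h5_14 : t5_14.chkM 402 16 (wGuard 8 4096 band.Q) (fExp 8 4096 band.Q (pairs ks fc5.e) fc5.c0 fc5.c1) ((((((((((((((wBox 4096 band.P0 band.P1).right 2 2048).right 1 2048).right 2 3072).right 1 3072).right 2 3584).right 1 3584).right 2 3840).right 1 3840).left 0 48125000).right 2 3968).right 1 3968).right 0 47562500).left 2 4032) = true := by
  decide +kernel

/-- a subtree of facet 5 -/
noncomputable def t5_15 : Box.TrM := (.mult [])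

lemma h5_15 : t5_15.chkM 402 16 (wGuard 8 4096 band.Q) (fExp 8 4096 band.Q (pairs ks fc5.e) fc5.c0 fc5.c1) (((((((((((((((wBox 4096 band.P0 band.P1).right 2 2048).right 1 2048).right 2 3072).right 1 3072).right 2 3584).right 1 3584).right 2 3840).right 1 3840).left 0 48125000).right 2 3968).right 1 3968).right 0 47562500).right 2 4032).left 1 4032) = true := by
  decide +kernel

/-- a subtree of facet 7 -/
noncomputable def t7_17 : Box.TrM := (.cut 2 4064 (.mult []) (.cut 1 4064 (.mult []) (.cut 0 47984375 (.cut 2 4080 (.mult []) (.cut 1 4080 (.mult []) (.cut 0 47914062 (.cut 2 4088 (.mult []) (.cut 1 4088 (.mult []) (.cut 0 47878906 (.cut 2 4092 (.mult []) (.cut 1 4092 (.mult []) (.cut 0 47861328 (.cut 2 4094 (.mult []) (.cut 1 4094 (.mult []) (.mult []))) (.cut 2 4094 (.mult []) (.cut 1 4094 (.mult []) (.mult [])))))) (.cut 2 4092 (.mult []) (.cut 1 4092 (.mult []) (.cut 0 47896484 (.cut 2 4094 (.mult []) (.cut 1 4094 (.mult []) (.mult []))) (.cut 2 4094 (.mult []) (.cut 1 4094 (.mult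 []) (.mult []))))))))) (.cut 2 4088 (.mult []) (.cut 1 4088 (.mult []) (.cut 0 47949218 (.cut 2 4092 (.mult []) (.cut 1 4092 (.mult []) (.cut 0 47931640 (.cut 2 4094 (.mult []) (.cut 1 4094 (.mult []) (.mult []))) (.cut 2 4094 (.mult []) (.cut 1 4094 (.mult []) (.mult [])))))) (.cut 2 4092 (.mult []) (.cut 1 4092 (.mult []) (.cut 0 47966796 (.cut 2 4094 (.mult []) (.cut 1 4094 (.mult []) (.mult []))) (.cut 2 4094 (.mult []) (.cut 1 4094 (.mult []) (.mult [])))))))))))) (.cut 2 4080 (.mult []) (.cut 1 4080 (.mult []) (.cut 0 48054687 (.cut 2 4088 (.mult []) (.cut 1 4088 (.mult []) (.cut 0 48019531 (.cut 2 4092 (.mult []) (.cut 1 4092 (.mult []) (.cut 0 48001953 (.cut 2 4094 (.mult []) (.cut 1 4094 (.mult []) (.mult []))) (.cut 2 4094 (.mult []) (.cut 1 4094 (.mult []) (.mult [])))))) (.cut 2 4092 (.mult []) (.cut 1 4092 (.mult []) (.cut 0 48037109 (.cut 2 4094 (.mult []) (.cut 1 4094 (.mult []) (.mult []))) (.cut 2 4094 (.mult []) (.cut 1 4094 (.mult []) (.mult []))))))))) (.cut 2 4088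 (.mult []) (.cut 1 4088 (.mult []) (.cut 0 48089843 (.cut 2 4092 (.mult []) (.cut 1 4092 (.mult []) (.cut 0 48072265 (.cut 2 4094 (.mult []) (.cut 1 4094 (.mult []) (.mult []))) (.cut 2 4094 (.mult []) (.cut 1 4094 (.mult []) (.mult [])))))) (.cut 2 4092 (.mult []) (.cut 1 4092 (.mult []) (.cut 0 48107421 (.cut 2 4094 (.mult []) (.cut 1 4094 (.mult []) (.mult []))) (.cut 2 4094 (.mult []) (.cut 1 4094 (.mult []) (.mult [])))))))))))))))

lemma h7_17 : t7_17.chkM 403 16 (wGuard 8 4096 band.Q) (fExp 8 4096 band.Q (pairs ks fc7.e) fc7.c0 fc7.c1) ((((((((((((((((wBox 4096 band.P0 band.P1).right 2 2048).right 1 2048).right 2 3072).right 1 3072).right 2 3584).right 1 3584).right 2 3840).right 1 3840).left 0 48125000).right 2 3968).right 1 3968).right 0 47562500).right 2 4032).right 1 4032).right 0 47843750) = true := by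
  decide +kernel

/-- a subtree of facet 7 -/
noncomputable def t7_18 : Box.TrM := (.mult [])

lemma h7_18 : t7_18.chkM 403 16 (wGuard 8 4096 band.Q) (fExp 8 4096 band.Q (pairs ks fc7.e) fc7.c0 fc7.c1) (((((((((((wBox 4096 band.P0 band.P1).right 2 2048).right 1 2048).right 2 3072).right 1 3072).right 2 3584).right 1 3584).right 2 3840).right 1 3840).right 0 48125000).left 2 3968) = true := by
  decide +kernel

/-- a subtree of facet 7 -/
noncomputable def t7_19 : Box.TrM := (.mult [])

lemma h7_19 : t7_19.chkM 403 16 (wGuard 8 4096 band.Q) (fExp 8 4096 band.Q (pairs ks fc7.e) fc7.c0 fc7.c1) ((((((((((((wBox 4096 band.P0 band.P1).right 2 2048).right 1 2048).right 2 3072).right 1 3072).right 2 3584).right 1 3584).right 2 3840).right 1 3840).right 0 48125000).right 2 3968).left 1 3968) = true := by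
  decide +kernel

/-- a subtree of facet 7 -/
noncomputable def t7_20 : Box.TrM := (.mult [])

lemma h7_20 : t7_20.chkM 403 16 (wGuard 8 4096 band.Q) (fExp 8 4096 band.Q (pairs ks fc7.e) fc7.c0 fc7.c1) ((((((((((((((wBox 4096 band.P0 band.P1).right 2 2048).right 1 2048).right 2 3072).right 1 3072).right 2 3584).right 1 3584).right 2 3840).right 1 3840).right 0 48125000).right 2 3968).right 1 3968).left 0 48687500).left 2 4032) = true := by
  decide +kernel

/-- a subtree of facet 7 -/
noncomputable def t7_21 : Box.TrM := (.mult [])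

lemma h7_21 : t7_21.chkM 403 16 (wGuard 8 4096 band.Q) (fExp 8 4096 band.Q (pairs ks fc7.e) fc7.c0 fc7.c1) (((((((((((((((wBox 4096 band.P0 band.P1).right 2 2048).right 1 2048).right 2 3072).right 1 3072).right 2 3584).right 1 3584).right 2 3840).right 1 3840).right 0 48125000).right 2 3968).right 1 3968).left 0 48687500).right 2 4032).left 1 4032) = true := by
  decide +kernel

lemma facet19 : facetTest 8 band ks (⟨![539541385, 676205506, (-6212775), 246123594, (-146470579), (-17083472), (-378699460), (-89285836), (-59021460)], (-120297921), 1413102⟩ : Facet 9)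
    ⟨4096, 373, 16, (.cut 2 2048 (.out 0) (.cut 1 2048 (.out 0) (.cut 2 3072 (.cut 1 3072 (.out 0) (.cut 1 3584 (.out 0) (.cut 2 2560 (.cut 1 3840 (.out 0) (.cut 0 48125000 (.out 0) (.cut 2 2304 (.mult [(0, 1606938044258990275541962092341162602522202993782792835301376)]) (.cut 1 3968 (.out 0) (.cut 0 48687500 (.mult [(0, 3213876088517980551083924184682325205044405987565585670602752)]) (.cut 2 2432 (.mult [(0, 1041836069653989222864302310645904493046324634994562023030784), (1, 903902649895682029992353676941903963918739184002820969857024)]) (.mult []))))))) (.mult [])))) (.cut 1 3072 (.cut 2 3584 (.out 0) (.out 3)) (.cut 2 3584 (.cut 1 3584 (.out 0) (.cut 1 3840 (.out 0) (.cut 0 48125000 (.cut 2 3328 (.mult []) (.cut 1 3968 (.mult []) (.cut 0 47562500 (.cut 2 3456 (.mult []) (.mult [])) (.mult [])))) (.mult [])))) (.cut 1 3584 (.cut 2 3840 (.out 0) (.out 3)) (.mult [])))))))⟩ = true := by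
  decide +kernel

end Vale.Agent.P154.Ly.BC
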