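import Vale.Agent.P154.LyBCFd

/-!
Band C: facet checks.
-/

open scoped BigOperators

namespace Vale.Agent.P154.Ly.BC

/-- a subtree of facet 2 -/
noncomputable def t2_14 : Box.TrM := (.cut 2 4032 (.mult []) (.cut 1 4032 (.mult []) (.cut 0 48406250 (.cut 2 4064 (.mult []) (.cut 1 4064 (.mult []) (.cut 0 48265625 (.cut 2 4080 (.mult []) (.cut 1 4080 (.mult []) (.cut 0 48195312 (.cut 2 4088 (.mult []) (.cut 1 4088 (.mult []) (.cut 0 48160156 (.cut 2 4092 (.mult []) (.cut 1 4092 (.mult []) (.mult []))) (.cut 2 4092 (.mult []) (.cut 1 4092 (.mult []) (.mult [])))))) (.cut 2 4088 (.mult []) (.cut 1 4088 (.mult []) (.cut 0 48230468 (.cut 2 4092 (.mult []) (.cut 1 4092 (.mult []) (.mult []))) (.cut 2 4092 (.mult []) (.cut 1 4092 (.mult []) (.mult []))))))))) (.cut 2 4080 (.mult []) (.cut 1 4080 (.mult []) (.cut 0 48335937 (.cut 2 4088 (.mult []) (.cut 1 4088 (.mult []) (.cut 0 48300781 (.cut 2 4092 (.mult []) (.cut 1 4092 (.mult []) (.mult []))) (.cut 2 4092 (.mult []) (.cut 1 4092 (.mult []) (.mult [])))))) (.cut 2 4088 (.mult []) (.cut 1 4088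 (.mult []) (.cut 0 48371093 (.cut 2 4092 (.mult []) (.cut 1 4092 (.mult []) (.mult []))) (.cut 2 4092 (.mult []) (.cut 1 4092 (.mult []) (.mult [])))))))))))) (.cut 2 4064 (.mult []) (.cut 1 4064 (.mult []) (.cut 0 48546875 (.cut 2 4080 (.mult []) (.cut 1 4080 (.mult []) (.cut 0 48476562 (.cut 2 4088 (.mult []) (.cut 1 4088 (.mult []) (.cut 0 48441406 (.cut 2 4092 (.mult []) (.cut 1 4092 (.mult []) (.mult []))) (.cut 2 4092 (.mult []) (.cut 1 4092 (.mult []) (.mult [])))))) (.cut 2 4088 (.mult []) (.cut 1 4088 (.mult []) (.cut 0 48511718 (.cut 2 4092 (.mult []) (.cut 1 4092 (.mult []) (.mult []))) (.cut 2 4092 (.mult []) (.cut 1 4092 (.mult []) (.mult []))))))))) (.cut 2 4080 (.mult []) (.cut 1 4080 (.mult []) (.cut 0 48617187 (.cut 2 4088 (.mult []) (.cut 1 4088 (.mult []) (.cut 0 48582031 (.cut 2 4092 (.mult []) (.cut 1 4092 (.mult []) (.mult []))) (.cut 2 4092 (.mult []) (.cut 1 4092 (.mult []) (.mult [])))))) (.cut 2 4088 (.mult []) (.cut 1 4088 (.mult []) (.cut 0 48652343 (.cut 2 4092 (.mult []) (.cut 1 4092 (.mult []) (.mult []))) (.cut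 2 4092 (.mult []) (.cut 1 4092 (.mult []) (.mult [])))))))))))))))

lemma h2_14 : t2_14.chkM 401 16 (wGuard 8 4096 band.Q) (fExp 8 4096 band.Q (pairs ks fc2.e) fc2.c0 fc2.c1) (((((((((((((wBox 4096 band.P0 band.P1).right 2 2048).right 1 2048).right 2 3072).right 1 3072).right 2 3584).right 1 3584).right 2 3840).right 1 3840).right 0 48125000).right 2 3968).right 1 3968).left 0 48687500) = true := by
  decide +kernel

/-- a subtree of facet 5 -/
noncomputable def t5_17 : Box.TrM := (.cut 2 4064 (.mult []) (.cut 1 4064 (.mult []) (.cut 0 47984375 (.cut 2 4080 (.mult []) (.cut 1 4080 (.mult []) (.cut 0 47914062 (.cut 2 4088 (.mult []) (.cut 1 4088 (.mult []) (.cut 0 47878906 (.cut 2 4092 (.mult []) (.cut 1 4092 (.mult []) (.cut 0 47861328 (.cut 2 4094 (.mult []) (.cut 1 4094 (.mult []) (.mult []))) (.cut 2 4094 (.mult []) (.cut 1 4094 (.mult []) (.mult [])))))) (.cut 2 4092 (.mult []) (.cut 1 4092 (.mult []) (.cut 0 47896484 (.cut 2 4094 (.mult []) (.cut 1 4094 (.mult []) (.mult []))) (.cut 2 4094 (.mult []) (.cut 1 4094 (.mult []) (.mult [])))))))))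 (.cut 2 4088 (.mult []) (.cut 1 4088 (.mult []) (.cut 0 47949218 (.cut 2 4092 (.mult []) (.cut 1 4092 (.mult []) (.cut 0 47931640 (.cut 2 4094 (.mult []) (.cut 1 4094 (.mult []) (.mult []))) (.cut 2 4094 (.mult []) (.cut 1 4094 (.mult []) (.mult [])))))) (.cut 2 4092 (.mult []) (.cut 1 4092 (.mult []) (.cut 0 47966796 (.cut 2 4094 (.mult []) (.cut 1 4094 (.mult []) (.mult []))) (.cut 2 4094 (.mult []) (.cut 1 4094 (.mult []) (.mult [])))))))))))) (.cut 2 4080 (.mult []) (.cut 1 4080 (.mult []) (.cut 0 48054687 (.cut 2 4088 (.mult []) (.cut 1 4088 (.mult []) (.cut 0 48019531 (.cut 2 4092 (.mult []) (.cut 1 4092 (.mult []) (.cut 0 48001953 (.cut 2 4094 (.mult []) (.cut 1 4094 (.mult []) (.mult []))) (.cut 2 4094 (.mult []) (.cut 1 4094 (.mult []) (.mult [])))))) (.cut 2 4092 (.mult []) (.cut 1 4092 (.mult []) (.cut 0 48037109 (.cut 2 4094 (.mult []) (.cut 1 4094 (.mult []) (.mult []))) (.cut 2 4094 (.mult []) (.cut 1 4094 (.mult []) (.mult []))))))))) (.cut 2 4088 (.mult []) (.cut 1 4088 (.mult []) (.cut 0 48089843 (.cut 2 4092 (.mult []) (.cut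 1 4092 (.mult []) (.cut 0 48072265 (.cut 2 4094 (.mult []) (.cut 1 4094 (.mult []) (.mult []))) (.cut 2 4094 (.mult []) (.cut 1 4094 (.mult []) (.mult [])))))) (.cut 2 4092 (.mult []) (.cut 1 4092 (.mult []) (.cut 0 48107421 (.cut 2 4094 (.mult []) (.cut 1 4094 (.mult []) (.mult []))) (.cut 2 4094 (.mult []) (.cut 1 4094 (.mult []) (.mult [])))))))))))))))

lemma h5_17 : t5_17.chkM 402 16 (wGuard 8 4096 band.Q) (fExp 8 4096 band.Q (pairs ks fc5.e) fc5.c0 fc5.c1) ((((((((((((((((wBox 4096 band.P0 band.P1).right 2 2048).right 1 2048).right 2 3072).right 1 3072).right 2 3584).right 1 3584).right 2 3840).right 1 3840).left 0 48125000).right 2 3968).right 1 3968).right 0 47562500).right 2 4032).right 1 4032).right 0 47843750) = true := by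
  decide +kernel

/-- a subtree of facet 5 -/
noncomputable def t5_18 : Box.TrM := (.mult [])

lemma h5_18 : t5_18.chkM 402 16 (wGuard 8 4096 band.Q) (fExp 8 4096 band.Q (pairs ks fc5.e) fc5.c0 fc5.c1) (((((((((((wBox 4096 band.P0 band.P1).right 2 2048).right 1 2048).right 2 3072).right 1 3072).right 2 3584).right 1 3584).right 2 3840).right 1 3840).right 0 48125000).left 2 3968) = true := by
  decide +kernel

/-- a subtree of facet 5 -/
noncomputable def t5_19 : Box.TrM := (.mult [])

lemma h5_19 : t5_19.chkM 402 16 (wGuard 8 4096 band.Q) (fExp 8 4096 band.Q (pairs ks fc5.e) fc5.c0 fc5.c1) ((((((((((((wBox 4096 band.P0 band.P1).right 2 2048).right 1 2048).right 2 3072).right 1 3072).right 2 3584).right 1 3584).right 2 3840).right 1 3840).right 0 48125000).right 2 3968).left 1 3968) = true := by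
  decide +kernel

/-- a subtree of facet 5 -/
noncomputable def t5_20 : Box.TrM := (.mult [])

lemma h5_20 : t5_20.chkM 402 16 (wGuard 8 4096 band.Q) (fExp 8 4096 band.Q (pairs ks fc5.e) fc5.c0 fc5.c1) ((((((((((((((wBox 4096 band.P0 band.P1).right 2 2048).right 1 2048).right 2 3072).right 1 3072).right 2 3584).right 1 3584).right 2 3840).right 1 3840).right 0 48125000).right 2 3968).right 1 3968).left 0 48687500).left 2 4032) = true := by
  decide +kernel

/-- a subtree of facet 5 -/
noncomputable def t5_21 : Box.TrM := (.mult [])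

lemma h5_21 : t5_21.chkM 402 16 (wGuard 8 4096 band.Q) (fExp 8 4096 band.Q (pairs ks fc5.e) fc5.c0 fc5.c1) (((((((((((((((wBox 4096 band.P0 band.P1).right 2 2048).right 1 2048).right 2 3072).right 1 3072).right 2 3584).right 1 3584).right 2 3840).right 1 3840).right 0 48125000).right 2 3968).right 1 3968).left 0 48687500).right 2 4032).left 1 4032) = true := by
  decide +kernel

/-- a subtree of facet 7 -/
noncomputable def t7_23 : Box.TrM := (.cut 2 4064 (.mult []) (.cut 1 4064 (.mult []) (.cut 0 48546875 (.cut 2 4080 (.mult []) (.cut 1 4080 (.mult []) (.cut 0 48476562 (.cut 2 4088 (.mult []) (.cut 1 4088 (.mult []) (.cut 0 48441406 (.cut 2 4092 (.mult []) (.cut 1 4092 (.mult []) (.cut 0 48423828 (.cut 2 4094 (.mult []) (.cut 1 4094 (.mult []) (.mult []))) (.cut 2 4094 (.mult []) (.cut 1 4094 (.mult []) (.mult [])))))) (.cut 2 4092 (.mult []) (.cut 1 4092 (.mult []) (.cut 0 48458984 (.cut 2 4094 (.mult []) (.cut 1 4094 (.mult []) (.mult []))) (.cut 2 4094 (.mult []) (.cut 1 4094 (.mult []) (.mult []))))))))) (.cut 2 4088 (.mult []) (.cut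 1 4088 (.mult []) (.cut 0 48511718 (.cut 2 4092 (.mult []) (.cut 1 4092 (.mult []) (.cut 0 48494140 (.cut 2 4094 (.mult []) (.cut 1 4094 (.mult []) (.mult []))) (.cut 2 4094 (.mult []) (.cut 1 4094 (.mult []) (.mult [])))))) (.cut 2 4092 (.mult []) (.cut 1 4092 (.mult []) (.cut 0 48529296 (.cut 2 4094 (.mult []) (.cut 1 4094 (.mult []) (.mult []))) (.cut 2 4094 (.mult []) (.cut 1 4094 (.mult []) (.mult [])))))))))))) (.cut 2 4080 (.mult []) (.cut 1 4080 (.mult []) (.cut 0 48617187 (.cut 2 4088 (.mult []) (.cut 1 4088 (.mult []) (.cut 0 48582031 (.cut 2 4092 (.mult []) (.cut 1 4092 (.mult []) (.cut 0 48564453 (.cut 2 4094 (.mult []) (.cut 1 4094 (.mult []) (.mult []))) (.cut 2 4094 (.mult []) (.cut 1 4094 (.mult []) (.mult [])))))) (.cut 2 4092 (.mult []) (.cut 1 4092 (.mult []) (.cut 0 48599609 (.cut 2 4094 (.mult []) (.cut 1 4094 (.mult []) (.mult []))) (.cut 2 4094 (.mult []) (.cut 1 4094 (.mult []) (.mult []))))))))) (.cut 2 4088 (.mult []) (.cut 1 4088 (.mult []) (.cut 0 48652343 (.cut 2 4092 (.mult []) (.cut 1 4092 (.mult []) (.cut 0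 48634765 (.cut 2 4094 (.mult []) (.cut 1 4094 (.mult []) (.mult []))) (.cut 2 4094 (.mult []) (.cut 1 4094 (.mult []) (.mult [])))))) (.cut 2 4092 (.mult []) (.cut 1 4092 (.mult []) (.cut 0 48669921 (.cut 2 4094 (.mult []) (.cut 1 4094 (.mult []) (.mult []))) (.cut 2 4094 (.mult []) (.cut 1 4094 (.mult []) (.mult [])))))))))))))))

lemma h7_23 : t7_23.chkM 403 16 (wGuard 8 4096 band.Q) (fExp 8 4096 band.Q (pairs ks fc7.e) fc7.c0 fc7.c1) ((((((((((((((((wBox 4096 band.P0 band.P1).right 2 2048).right 1 2048).right 2 3072).right 1 3072).right 2 3584).right 1 3584).right 2 3840).right 1 3840).right 0 48125000).right 2 3968).right 1 3968).left 0 48687500).right 2 4032).right 1 4032).right 0 48406250) = true := by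
  decide +kernel

/-- a subtree of facet 7 -/
noncomputable def t7_24 : Box.TrM := (.mult [])

lemma h7_24 : t7_24.chkM 403 16 (wGuard 8 4096 band.Q) (fExp 8 4096 band.Q (pairs ks fc7.e) fc7.c0 fc7.c1) ((((((((((((((wBox 4096 band.P0 band.P1).right 2 2048).right 1 2048).right 2 3072).right 1 3072).right 2 3584).right 1 3584).right 2 3840).right 1 3840).right 0 48125000).right 2 3968).right 1 3968).right 0 48687500).left 2 4032) = true := by
  decide +kernel

/-- a subtree of facet 7 -/
noncomputable def t7_25 : Box.TrM := (.mult [])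

lemma h7_25 : t7_25.chkM 403 16 (wGuard 8 4096 band.Q) (fExp 8 4096 band.Q (pairs ks fc7.e) fc7.c0 fc7.c1) (((((((((((((((wBox 4096 band.P0 band.P1).right 2 2048).right 1 2048).right 2 3072).right 1 3072).right 2 3584).right 1 3584).right 2 3840).right 1 3840).right 0 48125000).right 2 3968).right 1 3968).right 0 48687500).right 2 4032).left 1 4032) = true := by
  decide +kernel

lemma facet21 : facetTest 8 band ks (⟨![46248184, (-83942105), 424900952, 236616773, 190324342, 446866058, 192710780, (-362309921), (-570492538)], (-157904132), 1929018⟩ : Facet 9)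
    ⟨4096, 373, 16, (.cut 2 2048 (.out 0) (.cut 1 2048 (.out 0) (.cut 2 3072 (.cut 1 3072 (.out 0) (.cut 1 3584 (.out 0) (.cut 2 2560 (.cut 1 3840 (.out 0) (.cut 0 48125000 (.out 0) (.cut 2 2304 (.mult []) (.cut 1 3968 (.out 0) (.cut 0 48687500 (.cut 2 2432 (.out 0) (.cut 1 4032 (.out 0) (.cut 0 48406250 (.mult [(2, 1606938044258990275541962092341162602522202993782792835301376)]) (.cut 2 2496 (.mult [(0, 1444658169812339931884432440428460653003902379617689763053568), (1, 1205203533194242706656471569255871951891652245337094626476032)]) (.mult [(2, 803469022129495137770981046170581301261101496891396417650688)]))))) (.cut 2 2432 (.mult []) (.cut 1 4032 (.out 0) (.cut 0 48968750 (.cut 2 2496 (.mult [(0, 100433627766186892221372630771322662657637687111424552206336)]) (.mult [])) (.mult []))))))))) (.mult [])))) (.cut 1 3072 (.cut 2 3584 (.out 0) (.out 3)) (.cut 2 3584 (.cut 1 3584 (.out 0) (.cut 1 3840 (.out 0) (.mult []))) (.cut 1 3584 (.cut 2 3840 (.out 0) (.out 3)) (.mult [])))))))⟩ = true := by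
  decide +kernel

/-- a subtree of facet 22 -/
noncomputable def t22_0 : Box.TrM := (.out 0)

lemma h22_0 : t22_0.chkM 399 16 (wGuard 8 4096 band.Q) (fExp 8 4096 band.Q (pairs ks fc22.e) fc22.c0 fc22.c1) ((wBox 4096 band.P0 band.P1).left 2 2048) = true := by
  decide +kernel

/-- a subtree of facet 22 -/
noncomputable def t22_1 : Box.TrM := (.out 0)

lemma h22_1 : t22_1.chkM 399 16 (wGuard 8 4096 band.Q) (fExp 8 4096 band.Q (pairs ks fc22.e) fc22.c0 fc22.c1) (((wBox 4096 band.P0 band.P1).right 2 2048).left 1 2048) = true := by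
  decide +kernel

/-- a subtree of facet 22 -/
noncomputable def t22_2 : Box.TrM := (.cut 1 3072 (.out 0) (.cut 1 3584 (.out 0) (.cut 2 2560 (.cut 1 3840 (.out 0) (.cut 0 48125000 (.out 0) (.cut 2 2304 (.mult [(0, 99284507220533013087058531428478297009545913103846072209343869075062784), (1, 96624448855067893024086582071878356334315525610385411772275339133190144)]) (.cut 1 3968 (.out 0) (.cut 0 48687500 (.mult [(0, 6427752177035961102167848369364650410088811975131171341205504)]) (.cut 2 2432 (.cut 1 4032 (.out 0) (.cut 0 48968750 (.mult [(0, 3213876088517980551083924184682325205044405987565585670602752)]) (.cut 2 2368 (.cut 1 4064 (.out 0) (.mult [(0, 1004336277661868922213726307713226626576376871114245522063360)])) (.mult [(0, 803469022129495137770981046170581301261101496891396417650688)])))) (.mult [(0, 6427752177035961102167848369364650410088811975131171341205504)]))))))) (.cut 1 3840 (.out 0) (.cut 0 48125000 (.cut 2 2816 (.cut 1 3968 (.out 0) (.cut 0 47562500 (.mult [(0, 3615610599582728119969414707767615855674956736011283879428096)])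 (.cut 2 2688 (.mult [(0, 6427752177035961102167848369364650410088811975131171341205504)]) (.cut 1 4032 (.out 0) (.mult [(0, 2410407066388485413312943138511743903783304490674189252952064)]))))) (.cut 1 3968 (.out 0) (.cut 0 47562500 (.cut 2 2944 (.cut 1 4032 (.out 0) (.cut 0 47281250 (.cut 2 2880 (.cut 1 4064 (.out 0) (.mult [(0, 803469022129495137770981046170581301261101496891396417650688)])) (.cut 1 4064 (.out 0) (.mult [(0, 803469022129495137770981046170581301261101496891396417650688)]))) (.cut 2 2880 (.cut 1 4064 (.out 0) (.mult [(0, 803469022129495137770981046170581301261101496891396417650688)])) (.cut 1 4064 (.out 0) (.mult [(0, 803469022129495137770981046170581301261101496891396417650688)]))))) (.cut 1 4032 (.out 0) (.cut 0 47281250 (.cut 2 3008 (.cut 1 4064 (.out 0) (.mult [(0, 401734511064747568885490523085290650630550748445698208825344)])) (.mult [(0, 1205203533194242706656471569255871951891652245337094626476032)])) (.cut 2 3008 (.cut 1 4064 (.out 0) (.mult [(0, 401734511064747568885490523085290650630550748445698208825344)])) (.mult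 [(0, 1205203533194242706656471569255871951891652245337094626476032)]))))) (.cut 2 2944 (.cut 1 4032 (.out 0) (.cut 0 47843750 (.cut 2 2880 (.cut 1 4064 (.out 0) (.mult [(0, 803469022129495137770981046170581301261101496891396417650688)])) (.cut 1 4064 (.out 0) (.mult [(0, 803469022129495137770981046170581301261101496891396417650688)]))) (.cut 2 2880 (.cut 1 4064 (.out 0) (.mult [(0, 803469022129495137770981046170581301261101496891396417650688)])) (.cut 1 4064 (.out 0) (.mult [(0, 803469022129495137770981046170581301261101496891396417650688)]))))) (.cut 1 4032 (.out 0) (.cut 0 47843750 (.cut 2 3008 (.cut 1 4064 (.out 0) (.mult [(0, 401734511064747568885490523085290650630550748445698208825344)])) (.mult [(0, 1305637160960429598877844200027194614549289932448519178682368)])) (.cut 2 3008 (.cut 1 4064 (.out 0) (.mult [(0, 401734511064747568885490523085290650630550748445698208825344)])) (.mult [(0, 1330745567901976321933187357720025280213699354226375316733952)])))))))) (.cut 2 2816 (.cut 1 3968 (.out 0) (.cut 0 48687500 (.cut 2 2688 (.mult [(0,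 6427752177035961102167848369364650410088811975131171341205504)]) (.cut 1 4032 (.out 0) (.mult [(0, 2008672555323737844427452615426453253152753742228491044126720)]))) (.cut 2 2688 (.mult [(0, 6427752177035961102167848369364650410088811975131171341205504)]) (.cut 1 4032 (.out 0) (.cut 0 48968750 (.mult [(0, 2109106183089924736648825246197775915810391429339915596333056)]) (.cut 2 2752 (.mult [(0, 1606938044258990275541962092341162602522202993782792835301376)]) (.cut 1 4064 (.out 0) (.mult [])))))))) (.cut 1 3968 (.out 0) (.cut 0 48687500 (.cut 2 2944 (.cut 1 4032 (.out 0) (.cut 0 48406250 (.cut 2 2880 (.cut 1 4064 (.out 0) (.mult [(0, 803469022129495137770981046170581301261101496891396417650688)])) (.cut 1 4064 (.out 0) (.mult [(0, 803469022129495137770981046170581301261101496891396417650688)]))) (.cut 2 2880 (.cut 1 4064 (.out 0) (.mult [(0, 803469022129495137770981046170581301261101496891396417650688)])) (.cut 1 4064 (.out 0) (.mult [(0, 853685836012588583881667361556242632589920340447108693753856)]))))) (.cut 1 4032 (.out 0) (.cut 0 48406250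 (.cut 2 3008 (.cut 1 4064 (.mult [(0, 3213876088517980551083924184682325205044405987565585670602752)]) (.mult [(0, 401734511064747568885490523085290650630550748445698208825344)])) (.cut 1 4064 (.mult [(0, 1606938044258990275541962092341162602522202993782792835301376)]) (.mult []))) (.cut 2 3008 (.cut 1 4064 (.mult [(0, 3213876088517980551083924184682325205044405987565585670602752)]) (.mult [(0, 401734511064747568885490523085290650630550748445698208825344)])) (.cut 1 4064 (.mult [(0, 1606938044258990275541962092341162602522202993782792835301376)]) (.mult [])))))) (.cut 2 2944 (.cut 1 4032 (.out 0) (.cut 0 48968750 (.cut 2 2880 (.cut 1 4064 (.out 0) (.mult [(0, 803469022129495137770981046170581301261101496891396417650688)])) (.cut 1 4064 (.out 0) (.cut 0 48828125 (.cut 2 2912 (.cut 1 4080 (.mult [(0, 1606938044258990275541962092341162602522202993782792835301376)]) (.mult [])) (.cut 1 4080 (.mult [(0, 1205203533194242706656471569255871951891652245337094626476032)]) (.mult []))) (.cut 2 2912 (.cut 1 4080 (.mult [(0, 1205203533194242706656471569255871951891652245337094626476032)])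 (.mult [])) (.cut 1 4080 (.mult [(0, 1205203533194242706656471569255871951891652245337094626476032)]) (.mult [])))))) (.cut 2 2880 (.cut 1 4064 (.out 0) (.mult [(0, 1004336277661868922213726307713226626576376871114245522063360)])) (.cut 1 4064 (.mult [(0, 3213876088517980551083924184682325205044405987565585670602752)]) (.cut 0 49109375 (.cut 2 2912 (.cut 1 4080 (.mult [(0, 1205203533194242706656471569255871951891652245337094626476032)]) (.mult [])) (.cut 1 4080 (.mult [(0, 1205203533194242706656471569255871951891652245337094626476032)]) (.mult []))) (.cut 2 2912 (.cut 1 4080 (.cut 0 49179688 (.mult [(0, 1305637160960429598877844200027194614549289932448519178682368)]) (.cut 2 2896 (.mult [(0, 1205203533194242706656471569255871951891652245337094626476032)]) (.cut 0 49214844 (.mult [(0, 1362131076578909725752366304836063612294211131448695489298432)]) (.cut 2 2904 (.mult [(0, 1406070788726616491099216830798517277206927619559943730888704)]) (.cut 1 4072 (.mult [(0, 1606938044258990275541962092341162602522202993782792835301376)]) (.mult []))))))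 (.mult [])) (.cut 1 4080 (.cut 0 49179688 (.cut 2 2928 (.cut 0 49144531 (.mult [(0, 1305637160960429598877844200027194614549289932448519178682368)]) (.cut 2 2920 (.mult [(0, 1330745567901976321933187357720025280213699354226375316733952)]) (.mult [(0, 1321329915298896300787433673585213780589545821059679264964608)]))) (.mult [(0, 1305637160960429598877844200027194614549289932448519178682368)])) (.cut 2 2928 (.cut 0 49214844 (.cut 2 2920 (.cut 1 4072 (.mult [(0, 1606938044258990275541962092341162602522202993782792835301376)]) (.mult [])) (.cut 1 4072 (.mult [(0, 1506504416492803383320589461569839939864565306671368283095040)]) (.mult []))) (.cut 2 2920 (.cut 1 4072 (.mult [(0, 1556721230375896829431275776955501271193384150227080559198208)]) (.mult [])) (.cut 1 4072 (.cut 0 49232422 (.mult [(0, 1506504416492803383320589461569839939864565306671368283095040)]) (.cut 2 2924 (.cut 1 4068 (.mult [(0, 1606938044258990275541962092341162602522202993782792835301376)]) (.mult [])) (.cut 1 4068 (.mult [(0, 1606938044258990275541962092341162602522202993782792835301376)])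 (.mult [])))) (.mult [])))) (.cut 0 49214844 (.cut 2 2936 (.cut 1 4072 (.mult [(0, 1406070788726616491099216830798517277206927619559943730888704)]) (.mult [])) (.mult [(0, 1205203533194242706656471569255871951891652245337094626476032)])) (.cut 2 2936 (.cut 1 4072 (.cut 0 49232422 (.mult [(0, 1506504416492803383320589461569839939864565306671368283095040)]) (.cut 2 2932 (.cut 1 4068 (.mult [(0, 1606938044258990275541962092341162602522202993782792835301376)]) (.mult [])) (.mult [(0, 1506504416492803383320589461569839939864565306671368283095040)]))) (.mult [])) (.mult [(0, 1205203533194242706656471569255871951891652245337094626476032)]))))) (.mult [])))))))) (.cut 1 4032 (.out 0) (.cut 0 48968750 (.cut 2 3008 (.cut 1 4064 (.mult [(0, 3213876088517980551083924184682325205044405987565585670602752)]) (.mult [(0, 200867255532373784442745261542645325315275374222849104412672)])) (.cut 1 4064 (.mult [(0, 1606938044258990275541962092341162602522202993782792835301376)]) (.mult []))) (.cut 2 3008 (.cut 1 4064 (.mult [(0, 2812141577453232982198433661597034554413855239119887461777408)])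 (.mult [])) (.cut 1 4064 (.mult [(0, 3213876088517980551083924184682325205044405987565585670602752)]) (.mult []))))))))))))))

lemma h22_2 : t22_2.chkM 399 16 (wGuard 8 4096 band.Q) (fExp 8 4096 band.Q (pairs ks fc22.e) fc22.c0 fc22.c1) ((((wBox 4096 band.P0 band.P1).right 2 2048).right 1 2048).left 2 3072) = true := by
  decide +kernel

end Vale.Agent.P154.Ly.BC
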