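import Vale.Agent.P154.LyBCFd

/-!
Band C: facet checks.
-/

open scoped BigOperators

namespace Vale.Agent.P154.Ly.BC

/-- a subtree of facet 2 -/
noncomputable def t2_15 : Box.TrM := (.cut 2 4032 (.mult []) (.cut 1 4032 (.mult []) (.cut 0 48968750 (.cut 2 4064 (.mult []) (.cut 1 4064 (.mult []) (.cut 0 48828125 (.cut 2 4080 (.mult []) (.cut 1 4080 (.mult []) (.cut 0 48757812 (.cut 2 4088 (.mult []) (.cut 1 4088 (.mult []) (.cut 0 48722656 (.cut 2 4092 (.mult []) (.cut 1 4092 (.mult []) (.mult []))) (.cut 2 4092 (.mult []) (.cut 1 4092 (.mult []) (.mult [])))))) (.cut 2 4088 (.mult []) (.cut 1 4088 (.mult []) (.cut 0 48792968 (.cut 2 4092 (.mult []) (.cut 1 4092 (.mult []) (.mult []))) (.cut 2 4092 (.mult []) (.cut 1 4092 (.mult []) (.mult []))))))))) (.cut 2 4080 (.mult []) (.cut 1 4080 (.mult []) (.cut 0 48898437 (.cut 2 4088 (.mult []) (.cut 1 4088 (.mult []) (.cut 0 48863281 (.cut 2 4092 (.mult []) (.cut 1 4092 (.mult []) (.mult []))) (.cut 2 4092 (.mult []) (.cut 1 4092 (.mult [])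 (.mult [])))))) (.cut 2 4088 (.mult []) (.cut 1 4088 (.mult []) (.cut 0 48933593 (.cut 2 4092 (.mult []) (.cut 1 4092 (.mult []) (.mult []))) (.cut 2 4092 (.mult []) (.cut 1 4092 (.mult []) (.mult [])))))))))))) (.cut 2 4064 (.mult []) (.cut 1 4064 (.mult []) (.cut 0 49109375 (.cut 2 4080 (.mult []) (.cut 1 4080 (.mult []) (.cut 0 49039062 (.cut 2 4088 (.mult []) (.cut 1 4088 (.mult []) (.cut 0 49003906 (.cut 2 4092 (.mult []) (.cut 1 4092 (.mult []) (.mult []))) (.cut 2 4092 (.mult []) (.cut 1 4092 (.mult []) (.mult [])))))) (.cut 2 4088 (.mult []) (.cut 1 4088 (.mult []) (.cut 0 49074218 (.cut 2 4092 (.mult []) (.cut 1 4092 (.mult []) (.mult []))) (.cut 2 4092 (.mult []) (.cut 1 4092 (.mult []) (.mult []))))))))) (.cut 2 4080 (.mult []) (.cut 1 4080 (.mult []) (.cut 0 49179688 (.cut 2 4088 (.mult []) (.cut 1 4088 (.mult []) (.cut 0 49144531 (.cut 2 4092 (.mult []) (.cut 1 4092 (.mult []) (.mult []))) (.cut 2 4092 (.mult []) (.cut 1 4092 (.mult []) (.mult [])))))) (.cut 2 4088 (.mult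 []) (.cut 1 4088 (.mult []) (.cut 0 49214844 (.cut 2 4092 (.mult []) (.cut 1 4092 (.mult []) (.mult []))) (.cut 2 4092 (.mult []) (.cut 1 4092 (.mult []) (.mult [])))))))))))))))

lemma h2_15 : t2_15.chkM 401 16 (wGuard 8 4096 band.Q) (fExp 8 4096 band.Q (pairs ks fc2.e) fc2.c0 fc2.c1) (((((((((((((wBox 4096 band.P0 band.P1).right 2 2048).right 1 2048).right 2 3072).right 1 3072).right 2 3584).right 1 3584).right 2 3840).right 1 3840).right 0 48125000).right 2 3968).right 1 3968).right 0 48687500) = true := by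
  decide +kernel

/-- a subtree of facet 3 -/
noncomputable def t3_0 : Box.TrM := (.out 0)

lemma h3_0 : t3_0.chkM 402 16 (wGuard 8 4096 band.Q) (fExp 8 4096 band.Q (pairs ks fc3.e) fc3.c0 fc3.c1) ((wBox 4096 band.P0 band.P1).left 2 2048) = true := by
  decide +kernel

/-- a subtree of facet 3 -/
noncomputable def t3_1 : Box.TrM := (.out 0)

lemma h3_1 : t3_1.chkM 402 16 (wGuard 8 4096 band.Q) (fExp 8 4096 band.Q (pairs ks fc3.e) fc3.c0 fc3.c1) (((wBox 4096 band.P0 band.P1).right 2 2048).left 1 2048) = true := by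
  decide +kernel

/-- a subtree of facet 3 -/
noncomputable def t3_2 : Box.TrM := (.cut 1 3072 (.out 0) (.cut 1 3584 (.out 0) (.cut 2 2560 (.cut 1 3840 (.out 0) (.cut 0 48125000 (.out 0) (.cut 2 2304 (.mult [(0, 887160196781575664121798866049572924402725679478677139809369291795464192), (1, 855816547002029909641909726922351156103937512549127932840153003751112704)]) (.cut 1 3968 (.out 0) (.cut 0 48687500 (.mult [(0, 102844034832575377634685573909834406561420991602098741459288064)]) (.cut 2 2432 (.cut 1 4032 (.out 0) (.cut 0 48968750 (.mult [(0, 411376139330301510538742295639337626245683966408394965837152256)]) (.cut 2 2368 (.cut 1 4064 (.out 0) (.cut 0 49109375 (.mult [(2, 205688069665150755269371147819668813122841983204197482918576128)]) (.cut 2 2336 (.cut 1 4080 (.out 0) (.cut 0 49179688 (.mult [(2, 411376139330301510538742295639337626245683966408394965837152256)]) (.cut 2 2320 (.cut 1 4088 (.out 0) (.cut 0 49214844 (.mult [(2, 822752278660603021077484591278675252491367932816789931674304512)])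 (.cut 2 2312 (.cut 1 4092 (.out 0) (.cut 0 49232422 (.mult [(2, 1645504557321206042154969182557350504982735865633579863348609024)]) (.cut 2 2308 (.cut 1 4094 (.out 0) (.cut 0 49241211 (.mult [(2, 1645504557321206042154969182557350504982735865633579863348609024)]) (.cut 2 2306 (.cut 1 4095 (.out 0) (.cut 0 49245606 (.out 2) (.cut 2 2305 (.mult [(2, 6164214337777486696978966586220699743275170684150793316216078336)]) (.mult [(1, 25711008708143844408671393477458601640355247900524685364822016)])))) (.mult [])))) (.mult [])))) (.mult [])))) (.mult [])))) (.mult [])))) (.mult [])))) (.mult []))))))) (.mult []))))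

lemma h3_2 : t3_2.chkM 402 16 (wGuard 8 4096 band.Q) (fExp 8 4096 band.Q (pairs ks fc3.e) fc3.c0 fc3.c1) ((((wBox 4096 band.P0 band.P1).right 2 2048).right 1 2048).left 2 3072) = true := by
  decide +kernel

/-- a subtree of facet 3 -/
noncomputable def t3_3 : Box.TrM := (.cut 2 3584 (.out 0) (.out 3))

lemma h3_3 : t3_3.chkM 402 16 (wGuard 8 4096 band.Q) (fExp 8 4096 band.Q (pairs ks fc3.e) fc3.c0 fc3.c1) (((((wBox 4096 band.P0 band.P1).right 2 2048).right 1 2048).right 2 3072).left 1 3072) = true := by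
  decide +kernel

/-- a subtree of facet 3 -/
noncomputable def t3_4 : Box.TrM := (.mult [])

lemma h3_4 : t3_4.chkM 402 16 (wGuard 8 4096 band.Q) (fExp 8 4096 band.Q (pairs ks fc3.e) fc3.c0 fc3.c1) ((((((wBox 4096 band.P0 band.P1).right 2 2048).right 1 2048).right 2 3072).right 1 3072).left 2 3584) = true := by
  decide +kernel

/-- a subtree of facet 3 -/
noncomputable def t3_5 : Box.TrM := (.mult [])

lemma h3_5 : t3_5.chkM 402 16 (wGuard 8 4096 band.Q) (fExp 8 4096 band.Q (pairs ks fc3.e) fc3.c0 fc3.c1) (((((((wBox 4096 band.P0 band.P1).right 2 2048).right 1 2048).right 2 3072).right 1 3072).right 2 3584).left 1 3584) = true := by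
  decide +kernel

/-- a subtree of facet 3 -/
noncomputable def t3_6 : Box.TrM := (.mult [])

lemma h3_6 : t3_6.chkM 402 16 (wGuard 8 4096 band.Q) (fExp 8 4096 band.Q (pairs ks fc3.e) fc3.c0 fc3.c1) ((((((((wBox 4096 band.P0 band.P1).right 2 2048).right 1 2048).right 2 3072).right 1 3072).right 2 3584).right 1 3584).left 2 3840) = true := by
  decide +kernel

/-- a subtree of facet 3 -/
noncomputable def t3_7 : Box.TrM := (.mult [])

lemma h3_7 : t3_7.chkM 402 16 (wGuard 8 4096 band.Q) (fExp 8 4096 band.Q (pairs ks fc3.e) fc3.c0 fc3.c1) (((((((((wBox 4096 band.P0 band.P1).right 2 2048).right 1 2048).right 2 3072).right 1 3072).right 2 3584).right 1 3584).right 2 3840).left 1 3840) = true := by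
  decide +kernel

/-- a subtree of facet 3 -/
noncomputable def t3_8 : Box.TrM := (.mult [])

lemma h3_8 : t3_8.chkM 402 16 (wGuard 8 4096 band.Q) (fExp 8 4096 band.Q (pairs ks fc3.e) fc3.c0 fc3.c1) (((((((((((wBox 4096 band.P0 band.P1).right 2 2048).right 1 2048).right 2 3072).right 1 3072).right 2 3584).right 1 3584).right 2 3840).right 1 3840).left 0 48125000).left 2 3968) = true := by
  decide +kernel

/-- a subtree of facet 3 -/
noncomputable def t3_9 : Box.TrM := (.mult [])

lemma h3_9 : t3_9.chkM 402 16 (wGuard 8 4096 band.Q) (fExp 8 4096 band.Q (pairs ks fc3.e) fc3.c0 fc3.c1) ((((((((((((wBox 4096 band.P0 band.P1).right 2 2048).right 1 2048).right 2 3072).right 1 3072).right 2 3584).right 1 3584).right 2 3840).right 1 3840).left 0 48125000).right 2 3968).left 1 3968) = true := by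
  decide +kernel

/-- a subtree of facet 3 -/
noncomputable def t3_10 : Box.TrM := (.mult [])

lemma h3_10 : t3_10.chkM 402 16 (wGuard 8 4096 band.Q) (fExp 8 4096 band.Q (pairs ks fc3.e) fc3.c0 fc3.c1) ((((((((((((((wBox 4096 band.P0 band.P1).right 2 2048).right 1 2048).right 2 3072).right 1 3072).right 2 3584).right 1 3584).right 2 3840).right 1 3840).left 0 48125000).right 2 3968).right 1 3968).left 0 47562500).left 2 4032) = true := by
  decide +kernel

/-- a subtree of facet 3 -/
noncomputable def t3_11 : Box.TrM := (.mult [])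

lemma h3_11 : t3_11.chkM 402 16 (wGuard 8 4096 band.Q) (fExp 8 4096 band.Q (pairs ks fc3.e) fc3.c0 fc3.c1) (((((((((((((((wBox 4096 band.P0 band.P1).right 2 2048).right 1 2048).right 2 3072).right 1 3072).right 2 3584).right 1 3584).right 2 3840).right 1 3840).left 0 48125000).right 2 3968).right 1 3968).left 0 47562500).right 2 4032).left 1 4032) = true := by
  decide +kernel

/-- a subtree of facet 5 -/
noncomputable def t5_22 : Box.TrM := (.cut 2 4064 (.mult []) (.cut 1 4064 (.mult []) (.cut 0 48265625 (.cut 2 4080 (.mult []) (.cut 1 4080 (.mult []) (.cut 0 48195312 (.cut 2 4088 (.mult []) (.cut 1 4088 (.mult []) (.cut 0 48160156 (.cut 2 4092 (.mult []) (.cut 1 4092 (.mult []) (.cut 0 48142578 (.cut 2 4094 (.mult []) (.cut 1 4094 (.mult []) (.mult []))) (.cut 2 4094 (.mult []) (.cut 1 4094 (.mult []) (.mult [])))))) (.cut 2 4092 (.mult []) (.cut 1 4092 (.mult []) (.cut 0 48177734 (.cut 2 4094 (.mult []) (.cut 1 4094 (.mult []) (.mult []))) (.cut 2 4094 (.mult []) (.cut 1 4094 (.mult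 []) (.mult []))))))))) (.cut 2 4088 (.mult []) (.cut 1 4088 (.mult []) (.cut 0 48230468 (.cut 2 4092 (.mult []) (.cut 1 4092 (.mult []) (.cut 0 48212890 (.cut 2 4094 (.mult []) (.cut 1 4094 (.mult []) (.mult []))) (.cut 2 4094 (.mult []) (.cut 1 4094 (.mult []) (.mult [])))))) (.cut 2 4092 (.mult []) (.cut 1 4092 (.mult []) (.cut 0 48248046 (.cut 2 4094 (.mult []) (.cut 1 4094 (.mult []) (.mult []))) (.cut 2 4094 (.mult []) (.cut 1 4094 (.mult []) (.mult [])))))))))))) (.cut 2 4080 (.mult []) (.cut 1 4080 (.mult []) (.cut 0 48335937 (.cut 2 4088 (.mult []) (.cut 1 4088 (.mult []) (.cut 0 48300781 (.cut 2 4092 (.mult []) (.cut 1 4092 (.mult []) (.cut 0 48283203 (.cut 2 4094 (.mult []) (.cut 1 4094 (.mult []) (.mult []))) (.cut 2 4094 (.mult []) (.cut 1 4094 (.mult []) (.mult [])))))) (.cut 2 4092 (.mult []) (.cut 1 4092 (.mult []) (.cut 0 48318359 (.cut 2 4094 (.mult []) (.cut 1 4094 (.mult []) (.mult []))) (.cut 2 4094 (.mult []) (.cut 1 4094 (.mult []) (.mult []))))))))) (.cut 2 4088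 (.mult []) (.cut 1 4088 (.mult []) (.cut 0 48371093 (.cut 2 4092 (.mult []) (.cut 1 4092 (.mult []) (.cut 0 48353515 (.cut 2 4094 (.mult []) (.cut 1 4094 (.mult []) (.mult []))) (.cut 2 4094 (.mult []) (.cut 1 4094 (.mult []) (.mult [])))))) (.cut 2 4092 (.mult []) (.cut 1 4092 (.mult []) (.cut 0 48388671 (.cut 2 4094 (.mult []) (.cut 1 4094 (.mult []) (.mult []))) (.cut 2 4094 (.mult []) (.cut 1 4094 (.mult []) (.mult [])))))))))))))))

lemma h5_22 : t5_22.chkM 402 16 (wGuard 8 4096 band.Q) (fExp 8 4096 band.Q (pairs ks fc5.e) fc5.c0 fc5.c1) ((((((((((((((((wBox 4096 band.P0 band.P1).right 2 2048).right 1 2048).right 2 3072).right 1 3072).right 2 3584).right 1 3584).right 2 3840).right 1 3840).right 0 48125000).right 2 3968).right 1 3968).left 0 48687500).right 2 4032).right 1 4032).left 0 48406250) = true := by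
  decide +kernel

/-- a subtree of facet 7 -/
noncomputable def t7_26 : Box.TrM := (.cut 2 4064 (.mult []) (.cut 1 4064 (.mult []) (.cut 0 48828125 (.cut 2 4080 (.mult []) (.cut 1 4080 (.mult []) (.cut 0 48757812 (.cut 2 4088 (.mult []) (.cut 1 4088 (.mult []) (.cut 0 48722656 (.cut 2 4092 (.mult []) (.cut 1 4092 (.mult []) (.cut 0 48705078 (.cut 2 4094 (.mult []) (.cut 1 4094 (.mult []) (.mult []))) (.cut 2 4094 (.mult []) (.cut 1 4094 (.mult []) (.mult [])))))) (.cut 2 4092 (.mult []) (.cut 1 4092 (.mult []) (.cut 0 48740234 (.cut 2 4094 (.mult []) (.cut 1 4094 (.mult []) (.mult []))) (.cut 2 4094 (.mult []) (.cut 1 4094 (.mult []) (.mult []))))))))) (.cut 2 4088 (.mult []) (.cut 1 4088 (.mult []) (.cut 0 48792968 (.cut 2 4092 (.mult []) (.cut 1 4092 (.mult []) (.cut 0 48775390 (.cut 2 4094 (.mult []) (.cut 1 4094 (.mult []) (.mult []))) (.cut 2 4094 (.mult []) (.cut 1 4094 (.mult []) (.mult [])))))) (.cut 2 4092 (.mult []) (.cut 1 4092 (.mult []) (.cut 0 48810546 (.cut 2 4094 (.mult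 []) (.cut 1 4094 (.mult []) (.mult []))) (.cut 2 4094 (.mult []) (.cut 1 4094 (.mult []) (.mult [])))))))))))) (.cut 2 4080 (.mult []) (.cut 1 4080 (.mult []) (.cut 0 48898437 (.cut 2 4088 (.mult []) (.cut 1 4088 (.mult []) (.cut 0 48863281 (.cut 2 4092 (.mult []) (.cut 1 4092 (.mult []) (.cut 0 48845703 (.cut 2 4094 (.mult []) (.cut 1 4094 (.mult []) (.mult []))) (.cut 2 4094 (.mult []) (.cut 1 4094 (.mult []) (.mult [])))))) (.cut 2 4092 (.mult []) (.cut 1 4092 (.mult []) (.cut 0 48880859 (.cut 2 4094 (.mult []) (.cut 1 4094 (.mult []) (.mult []))) (.cut 2 4094 (.mult []) (.cut 1 4094 (.mult []) (.mult []))))))))) (.cut 2 4088 (.mult []) (.cut 1 4088 (.mult []) (.cut 0 48933593 (.cut 2 4092 (.mult []) (.cut 1 4092 (.mult []) (.cut 0 48916015 (.cut 2 4094 (.mult []) (.cut 1 4094 (.mult []) (.mult []))) (.cut 2 4094 (.mult []) (.cut 1 4094 (.mult []) (.mult [])))))) (.cut 2 4092 (.mult []) (.cut 1 4092 (.mult []) (.cut 0 48951171 (.cut 2 4094 (.mult []) (.cut 1 4094 (.mult []) (.mult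 []))) (.cut 2 4094 (.mult []) (.cut 1 4094 (.mult []) (.mult [])))))))))))))))

lemma h7_26 : t7_26.chkM 403 16 (wGuard 8 4096 band.Q) (fExp 8 4096 band.Q (pairs ks fc7.e) fc7.c0 fc7.c1) ((((((((((((((((wBox 4096 band.P0 band.P1).right 2 2048).right 1 2048).right 2 3072).right 1 3072).right 2 3584).right 1 3584).right 2 3840).right 1 3840).right 0 48125000).right 2 3968).right 1 3968).right 0 48687500).right 2 4032).right 1 4032).left 0 48968750) = true := by
  decide +kernel

/-- a subtree of facet 22 -/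
noncomputable def t22_3 : Box.TrM := (.cut 1 3072 (.cut 2 3584 (.out 0) (.out 3)) (.cut 2 3584 (.cut 1 3584 (.out 0) (.cut 1 3840 (.out 0) (.cut 0 48125000 (.cut 2 3328 (.cut 1 3968 (.out 0) (.cut 0 47562500 (.cut 2 3200 (.cut 1 4032 (.out 0) (.mult [])) (.mult [(0, 401734511064747568885490523085290650630550748445698208825344)])) (.cut 2 3200 (.cut 1 4032 (.out 0) (.mult [])) (.mult [(0, 401734511064747568885490523085290650630550748445698208825344)])))) (.mult [(0, 2410407066388485413312943138511743903783304490674189252952064)])) (.cut 2 3328 (.cut 1 3968 (.out 0) (.cut 0 48687500 (.cut 2 3200 (.cut 1 4032 (.mult [(0, 3213876088517980551083924184682325205044405987565585670602752)]) (.mult [])) (.mult [(0, 401734511064747568885490523085290650630550748445698208825344)])) (.cut 2 3200 (.cut 1 4032 (.mult [(0, 3213876088517980551083924184682325205044405987565585670602752)]) (.mult [])) (.mult [(0, 401734511064747568885490523085290650630550748445698208825344)])))) (.mult [(0, 2410407066388485413312943138511743903783304490674189252952064)])))))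 (.cut 1 3584 (.cut 2 3840 (.out 0) (.out 3)) (.cut 2 3840 (.cut 1 3840 (.mult [(0, 2410407066388485413312943138511743903783304490674189252952064)]) (.mult [])) (.mult [])))))

lemma h22_3 : t22_3.chkM 399 16 (wGuard 8 4096 band.Q) (fExp 8 4096 band.Q (pairs ks fc22.e) fc22.c0 fc22.c1) ((((wBox 4096 band.P0 band.P1).right 2 2048).right 1 2048).right 2 3072) = true := by
  decide +kernel

end Vale.Agent.P154.Ly.BC
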