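import Vale.Agent.P154.LyBCFd

/-!
Band C: facet checks.
-/

open scoped BigOperators

namespace Vale.Agent.P154.Ly.BC

/-- a subtree of facet 3 -/
noncomputable def t3_12 : Box.TrM := (.cut 2 4064 (.mult []) (.cut 1 4064 (.mult []) (.cut 0 47140625 (.cut 2 4080 (.mult []) (.cut 1 4080 (.mult []) (.cut 0 47070312 (.cut 2 4088 (.mult []) (.cut 1 4088 (.mult []) (.cut 0 47035156 (.cut 2 4092 (.mult []) (.cut 1 4092 (.mult []) (.cut 0 47017578 (.cut 2 4094 (.mult []) (.mult [])) (.cut 2 4094 (.mult []) (.mult []))))) (.cut 2 4092 (.mult []) (.cut 1 4092 (.mult []) (.cut 0 47052734 (.cut 2 4094 (.mult []) (.mult [])) (.cut 2 4094 (.mult []) (.mult [])))))))) (.cut 2 4088 (.mult []) (.cut 1 4088 (.mult []) (.cut 0 47105468 (.cut 2 4092 (.mult []) (.cut 1 4092 (.mult []) (.cut 0 47087890 (.cut 2 4094 (.mult []) (.mult [])) (.cut 2 4094 (.mult []) (.mult []))))) (.cut 2 4092 (.mult []) (.cut 1 4092 (.mult []) (.cut 0 47123046 (.cut 2 4094 (.mult []) (.mult [])) (.cut 2 4094 (.mult []) (.mult []))))))))))) (.cut 2 4080 (.mult []) (.cut 1 4080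 (.mult []) (.cut 0 47210937 (.cut 2 4088 (.mult []) (.cut 1 4088 (.mult []) (.cut 0 47175781 (.cut 2 4092 (.mult []) (.cut 1 4092 (.mult []) (.cut 0 47158203 (.cut 2 4094 (.mult []) (.mult [])) (.cut 2 4094 (.mult []) (.mult []))))) (.cut 2 4092 (.mult []) (.cut 1 4092 (.mult []) (.cut 0 47193359 (.cut 2 4094 (.mult []) (.mult [])) (.cut 2 4094 (.mult []) (.mult [])))))))) (.cut 2 4088 (.mult []) (.cut 1 4088 (.mult []) (.cut 0 47246093 (.cut 2 4092 (.mult []) (.cut 1 4092 (.mult []) (.cut 0 47228515 (.cut 2 4094 (.mult []) (.mult [])) (.cut 2 4094 (.mult []) (.mult []))))) (.cut 2 4092 (.mult []) (.cut 1 4092 (.mult []) (.cut 0 47263671 (.cut 2 4094 (.mult []) (.mult [])) (.cut 2 4094 (.mult []) (.mult []))))))))))))))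

lemma h3_12 : t3_12.chkM 402 16 (wGuard 8 4096 band.Q) (fExp 8 4096 band.Q (pairs ks fc3.e) fc3.c0 fc3.c1) ((((((((((((((((wBox 4096 band.P0 band.P1).right 2 2048).right 1 2048).right 2 3072).right 1 3072).right 2 3584).right 1 3584).right 2 3840).right 1 3840).left 0 48125000).right 2 3968).right 1 3968).left 0 47562500).right 2 4032).right 1 4032).left 0 47281250) = true := by
  decide +kernel

/-- a subtree of facet 3 -/
noncomputable def t3_13 : Box.TrM := (.cut 2 4064 (.mult []) (.cut 1 4064 (.mult []) (.cut 0 47421875 (.cut 2 4080 (.mult []) (.cut 1 4080 (.mult []) (.cut 0 47351562 (.cut 2 4088 (.mult []) (.cut 1 4088 (.mult []) (.cut 0 47316406 (.cut 2 4092 (.mult []) (.cut 1 4092 (.mult []) (.cut 0 47298828 (.cut 2 4094 (.mult []) (.mult [])) (.cut 2 4094 (.mult []) (.mult []))))) (.cut 2 4092 (.mult []) (.cut 1 4092 (.mult []) (.cut 0 47333984 (.cut 2 4094 (.mult []) (.mult [])) (.cut 2 4094 (.mult []) (.mult [])))))))) (.cut 2 4088 (.mult []) (.cut 1 4088 (.mult []) (.cut 0 47386718 (.cut 2 4092 (.mult []) (.cut 1 4092 (.mult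 []) (.cut 0 47369140 (.cut 2 4094 (.mult []) (.mult [])) (.cut 2 4094 (.mult []) (.mult []))))) (.cut 2 4092 (.mult []) (.cut 1 4092 (.mult []) (.cut 0 47404296 (.cut 2 4094 (.mult []) (.mult [])) (.cut 2 4094 (.mult []) (.mult []))))))))))) (.cut 2 4080 (.mult []) (.cut 1 4080 (.mult []) (.cut 0 47492187 (.cut 2 4088 (.mult []) (.cut 1 4088 (.mult []) (.cut 0 47457031 (.cut 2 4092 (.mult []) (.cut 1 4092 (.mult []) (.cut 0 47439453 (.cut 2 4094 (.mult []) (.mult [])) (.cut 2 4094 (.mult []) (.mult []))))) (.cut 2 4092 (.mult []) (.cut 1 4092 (.mult []) (.cut 0 47474609 (.cut 2 4094 (.mult []) (.mult [])) (.cut 2 4094 (.mult []) (.mult [])))))))) (.cut 2 4088 (.mult []) (.cut 1 4088 (.mult []) (.cut 0 47527343 (.cut 2 4092 (.mult []) (.cut 1 4092 (.mult []) (.cut 0 47509765 (.cut 2 4094 (.mult []) (.mult [])) (.cut 2 4094 (.mult []) (.mult []))))) (.cut 2 4092 (.mult []) (.cut 1 4092 (.mult []) (.cut 0 47544921 (.cut 2 4094 (.mult []) (.mult [])) (.cut 2 4094 (.mult []) (.mult []))))))))))))))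

lemma h3_13 : t3_13.chkM 402 16 (wGuard 8 4096 band.Q) (fExp 8 4096 band.Q (pairs ks fc3.e) fc3.c0 fc3.c1) ((((((((((((((((wBox 4096 band.P0 band.P1).right 2 2048).right 1 2048).right 2 3072).right 1 3072).right 2 3584).right 1 3584).right 2 3840).right 1 3840).left 0 48125000).right 2 3968).right 1 3968).left 0 47562500).right 2 4032).right 1 4032).right 0 47281250) = true := by
  decide +kernel

/-- a subtree of facet 3 -/
noncomputable def t3_14 : Box.TrM := (.mult [])

lemma h3_14 : t3_14.chkM 402 16 (wGuard 8 4096 band.Q) (fExp 8 4096 band.Q (pairs ks fc3.e) fc3.c0 fc3.c1) ((((((((((((((wBox 4096 band.P0 band.P1).right 2 2048).right 1 2048).right 2 3072).right 1 3072).right 2 3584).right 1 3584).right 2 3840).right 1 3840).left 0 48125000).right 2 3968).right 1 3968).right 0 47562500).left 2 4032) = true := by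
  decide +kernel

/-- a subtree of facet 5 -/
noncomputable def t5_23 : Box.TrM := (.cut 2 4064 (.mult []) (.cut 1 4064 (.mult []) (.cut 0 48546875 (.cut 2 4080 (.mult []) (.cut 1 4080 (.mult []) (.cut 0 48476562 (.cut 2 4088 (.mult []) (.cut 1 4088 (.mult []) (.cut 0 48441406 (.cut 2 4092 (.mult []) (.cut 1 4092 (.mult []) (.cut 0 48423828 (.cut 2 4094 (.mult []) (.cut 1 4094 (.mult []) (.mult []))) (.cut 2 4094 (.mult []) (.cut 1 4094 (.mult []) (.mult [])))))) (.cut 2 4092 (.mult []) (.cut 1 4092 (.mult []) (.cut 0 48458984 (.cut 2 4094 (.mult []) (.cut 1 4094 (.mult []) (.mult []))) (.cut 2 4094 (.mult []) (.cut 1 4094 (.mult []) (.mult []))))))))) (.cut 2 4088 (.mult []) (.cut 1 4088 (.mult []) (.cut 0 48511718 (.cut 2 4092 (.mult []) (.cut 1 4092 (.mult []) (.cut 0 48494140 (.cut 2 4094 (.mult []) (.cut 1 4094 (.mult []) (.mult []))) (.cut 2 4094 (.mult []) (.cut 1 4094 (.mult []) (.mult [])))))) (.cut 2 4092 (.mult []) (.cut 1 4092 (.mult []) (.cut 0 48529296 (.cut 2 4094 (.mult []) (.cut 1 4094 (.mult []) (.mult []))) (.cut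 2 4094 (.mult []) (.cut 1 4094 (.mult []) (.mult [])))))))))))) (.cut 2 4080 (.mult []) (.cut 1 4080 (.mult []) (.cut 0 48617187 (.cut 2 4088 (.mult []) (.cut 1 4088 (.mult []) (.cut 0 48582031 (.cut 2 4092 (.mult []) (.cut 1 4092 (.mult []) (.cut 0 48564453 (.cut 2 4094 (.mult []) (.cut 1 4094 (.mult []) (.mult []))) (.cut 2 4094 (.mult []) (.cut 1 4094 (.mult []) (.mult [])))))) (.cut 2 4092 (.mult []) (.cut 1 4092 (.mult []) (.cut 0 48599609 (.cut 2 4094 (.mult []) (.cut 1 4094 (.mult []) (.mult []))) (.cut 2 4094 (.mult []) (.cut 1 4094 (.mult []) (.mult []))))))))) (.cut 2 4088 (.mult []) (.cut 1 4088 (.mult []) (.cut 0 48652343 (.cut 2 4092 (.mult []) (.cut 1 4092 (.mult []) (.cut 0 48634765 (.cut 2 4094 (.mult []) (.cut 1 4094 (.mult []) (.mult []))) (.cut 2 4094 (.mult []) (.cut 1 4094 (.mult []) (.mult [])))))) (.cut 2 4092 (.mult []) (.cut 1 4092 (.mult []) (.cut 0 48669921 (.cut 2 4094 (.mult []) (.cut 1 4094 (.mult []) (.mult []))) (.cut 2 4094 (.mult []) (.cut 1 4094 (.mult []) (.mult [])))))))))))))))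

lemma h5_23 : t5_23.chkM 402 16 (wGuard 8 4096 band.Q) (fExp 8 4096 band.Q (pairs ks fc5.e) fc5.c0 fc5.c1) ((((((((((((((((wBox 4096 band.P0 band.P1).right 2 2048).right 1 2048).right 2 3072).right 1 3072).right 2 3584).right 1 3584).right 2 3840).right 1 3840).right 0 48125000).right 2 3968).right 1 3968).left 0 48687500).right 2 4032).right 1 4032).right 0 48406250) = true := by
  decide +kernel

/-- a subtree of facet 5 -/
noncomputable def t5_24 : Box.TrM := (.mult [])

lemma h5_24 : t5_24.chkM 402 16 (wGuard 8 4096 band.Q) (fExp 8 4096 band.Q (pairs ks fc5.e) fc5.c0 fc5.c1) ((((((((((((((wBox 4096 band.P0 band.P1).right 2 2048).right 1 2048).right 2 3072).right 1 3072).right 2 3584).right 1 3584).right 2 3840).right 1 3840).right 0 48125000).right 2 3968).right 1 3968).right 0 48687500).left 2 4032) = true := by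
  decide +kernel

/-- a subtree of facet 5 -/
noncomputable def t5_25 : Box.TrM := (.mult [])

lemma h5_25 : t5_25.chkM 402 16 (wGuard 8 4096 band.Q) (fExp 8 4096 band.Q (pairs ks fc5.e) fc5.c0 fc5.c1) (((((((((((((((wBox 4096 band.P0 band.P1).right 2 2048).right 1 2048).right 2 3072).right 1 3072).right 2 3584).right 1 3584).right 2 3840).right 1 3840).right 0 48125000).right 2 3968).right 1 3968).right 0 48687500).right 2 4032).left 1 4032) = true := by
  decide +kernel

/-- a subtree of facet 7 -/
noncomputable def t7_27 : Box.TrM := (.cut 2 4064 (.mult []) (.cut 1 4064 (.mult []) (.cut 0 49109375 (.cut 2 4080 (.mult []) (.cut 1 4080 (.mult []) (.cut 0 49039062 (.cut 2 4088 (.mult []) (.cut 1 4088 (.mult []) (.cut 0 49003906 (.cut 2 4092 (.mult []) (.cut 1 4092 (.mult []) (.cut 0 48986328 (.cut 2 4094 (.mult []) (.cut 1 4094 (.mult []) (.mult []))) (.cut 2 4094 (.mult []) (.cut 1 4094 (.mult []) (.mult [])))))) (.cut 2 4092 (.mult []) (.cut 1 4092 (.mult []) (.cut 0 49021484 (.cut 2 4094 (.mult []) (.cut 1 4094 (.mult []) (.mult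 []))) (.cut 2 4094 (.mult []) (.cut 1 4094 (.mult []) (.mult []))))))))) (.cut 2 4088 (.mult []) (.cut 1 4088 (.mult []) (.cut 0 49074218 (.cut 2 4092 (.mult []) (.cut 1 4092 (.mult []) (.cut 0 49056640 (.cut 2 4094 (.mult []) (.cut 1 4094 (.mult []) (.mult []))) (.cut 2 4094 (.mult []) (.cut 1 4094 (.mult []) (.mult [])))))) (.cut 2 4092 (.mult []) (.cut 1 4092 (.mult []) (.cut 0 49091796 (.cut 2 4094 (.mult []) (.cut 1 4094 (.mult []) (.mult []))) (.cut 2 4094 (.mult []) (.cut 1 4094 (.mult []) (.mult [])))))))))))) (.cut 2 4080 (.mult []) (.cut 1 4080 (.mult []) (.cut 0 49179688 (.cut 2 4088 (.mult []) (.cut 1 4088 (.mult []) (.cut 0 49144531 (.cut 2 4092 (.mult []) (.cut 1 4092 (.mult []) (.cut 0 49126953 (.cut 2 4094 (.mult []) (.cut 1 4094 (.mult []) (.mult []))) (.cut 2 4094 (.mult []) (.cut 1 4094 (.mult []) (.mult [])))))) (.cut 2 4092 (.mult []) (.cut 1 4092 (.mult []) (.cut 0 49162109 (.cut 2 4094 (.mult []) (.cut 1 4094 (.mult []) (.mult []))) (.cut 2 4094 (.mult []) (.cut 1 4094 (.mult []) (.mult []))))))))) (.cut 2 4088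 (.mult []) (.cut 1 4088 (.mult []) (.cut 0 49214844 (.cut 2 4092 (.mult []) (.cut 1 4092 (.mult []) (.cut 0 49197266 (.cut 2 4094 (.mult []) (.cut 1 4094 (.mult []) (.mult []))) (.cut 2 4094 (.mult []) (.cut 1 4094 (.mult []) (.mult [])))))) (.cut 2 4092 (.mult []) (.cut 1 4092 (.mult []) (.cut 0 49232422 (.cut 2 4094 (.mult []) (.cut 1 4094 (.mult []) (.mult []))) (.cut 2 4094 (.mult []) (.cut 1 4094 (.mult []) (.mult [])))))))))))))))

lemma h7_27 : t7_27.chkM 403 16 (wGuard 8 4096 band.Q) (fExp 8 4096 band.Q (pairs ks fc7.e) fc7.c0 fc7.c1) ((((((((((((((((wBox 4096 band.P0 band.P1).right 2 2048).right 1 2048).right 2 3072).right 1 3072).right 2 3584).right 1 3584).right 2 3840).right 1 3840).right 0 48125000).right 2 3968).right 1 3968).right 0 48687500).right 2 4032).right 1 4032).right 0 48968750) = true := by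
  decide +kernel

/-- a subtree of facet 8 -/
noncomputable def t8_0 : Box.TrM := (.out 0)

lemma h8_0 : t8_0.chkM 403 16 (wGuard 8 4096 band.Q) (fExp 8 4096 band.Q (pairs ks fc8.e) fc8.c0 fc8.c1) ((wBox 4096 band.P0 band.P1).left 2 2048) = true := by
  decide +kernel

/-- a subtree of facet 8 -/
noncomputable def t8_1 : Box.TrM := (.out 0)

lemma h8_1 : t8_1.chkM 403 16 (wGuard 8 4096 band.Q) (fExp 8 4096 band.Q (pairs ks fc8.e) fc8.c0 fc8.c1) (((wBox 4096 band.P0 band.P1).right 2 2048).left 1 2048) = true := by
  decide +kernel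

/-- a subtree of facet 8 -/
noncomputable def t8_2 : Box.TrM := (.cut 1 3072 (.out 0) (.cut 1 3584 (.out 0) (.cut 2 2560 (.cut 1 3840 (.out 0) (.cut 0 48125000 (.out 0) (.cut 2 2304 (.mult [(0, 1016093018818472679750078947800481101296345829858948164092832261618008064), (1, 993851473937841185390604844167891665152959691992535663943403488227098624)]) (.cut 1 3968 (.out 0) (.cut 0 48687500 (.mult [(0, 102844034832575377634685573909834406561420991602098741459288064)]) (.cut 2 2432 (.cut 1 4032 (.out 0) (.cut 0 48968750 (.mult [(0, 411376139330301510538742295639337626245683966408394965837152256)]) (.cut 2 2368 (.cut 1 4064 (.out 0) (.cut 0 49109375 (.mult [(2, 205688069665150755269371147819668813122841983204197482918576128)]) (.cut 2 2336 (.cut 1 4080 (.out 0) (.cut 0 49179688 (.mult [(2, 411376139330301510538742295639337626245683966408394965837152256)]) (.cut 2 2320 (.cut 1 4088 (.out 0) (.cut 0 49214844 (.mult [(2, 822752278660603021077484591278675252491367932816789931674304512)]) (.cut 2 2312 (.cut 1 4092 (.out 0) (.cut 0 49232422 (.mult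 [(2, 1645504557321206042154969182557350504982735865633579863348609024)]) (.cut 2 2308 (.cut 1 4094 (.out 0) (.cut 0 49241211 (.mult [(2, 3291009114642412084309938365114701009965471731267159726697218048)]) (.cut 2 2306 (.cut 1 4095 (.out 0) (.cut 0 49245606 (.out 2) (.cut 2 2305 (.cut 1 4096 (.mult [(0, 15426605224886306645202836086475160984213148740314811218893209600)]) (.mult [(1, 15426605224886306645202836086475160984213148740314811218893209600)])) (.mult [(1, 25711008708143844408671393477458601640355247900524685364822016)])))) (.mult [])))) (.mult [])))) (.mult [])))) (.mult [])))) (.mult [])))) (.mult [])))) (.mult []))))))) (.mult []))))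

lemma h8_2 : t8_2.chkM 403 16 (wGuard 8 4096 band.Q) (fExp 8 4096 band.Q (pairs ks fc8.e) fc8.c0 fc8.c1) ((((wBox 4096 band.P0 band.P1).right 2 2048).right 1 2048).left 2 3072) = true := by
  decide +kernel

/-- a subtree of facet 8 -/
noncomputable def t8_3 : Box.TrM := (.cut 2 3584 (.out 0) (.out 3))

lemma h8_3 : t8_3.chkM 403 16 (wGuard 8 4096 band.Q) (fExp 8 4096 band.Q (pairs ks fc8.e) fc8.c0 fc8.c1) (((((wBox 4096 band.P0 band.P1).right 2 2048).right 1 2048).right 2 3072).left 1 3072) = true := by
  decide +kernel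

/-- a subtree of facet 8 -/
noncomputable def t8_4 : Box.TrM := (.mult [])

lemma h8_4 : t8_4.chkM 403 16 (wGuard 8 4096 band.Q) (fExp 8 4096 band.Q (pairs ks fc8.e) fc8.c0 fc8.c1) ((((((wBox 4096 band.P0 band.P1).right 2 2048).right 1 2048).right 2 3072).right 1 3072).left 2 3584) = true := by
  decide +kernel

/-- a subtree of facet 8 -/
noncomputable def t8_5 : Box.TrM := (.mult [])

lemma h8_5 : t8_5.chkM 403 16 (wGuard 8 4096 band.Q) (fExp 8 4096 band.Q (pairs ks fc8.e) fc8.c0 fc8.c1) (((((((wBox 4096 band.P0 band.P1).right 2 2048).right 1 2048).right 2 3072).right 1 3072).right 2 3584).left 1 3584) = true := by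
  decide +kernel

/-- a subtree of facet 8 -/
noncomputable def t8_6 : Box.TrM := (.mult [])

lemma h8_6 : t8_6.chkM 403 16 (wGuard 8 4096 band.Q) (fExp 8 4096 band.Q (pairs ks fc8.e) fc8.c0 fc8.c1) ((((((((wBox 4096 band.P0 band.P1).right 2 2048).right 1 2048).right 2 3072).right 1 3072).right 2 3584).right 1 3584).left 2 3840) = true := by
  decide +kernel

/-- a subtree of facet 8 -/
noncomputable def t8_7 : Box.TrM := (.mult [])

lemma h8_7 : t8_7.chkM 403 16 (wGuard 8 4096 band.Q) (fExp 8 4096 band.Q (pairs ks fc8.e) fc8.c0 fc8.c1) (((((((((wBox 4096 band.P0 band.P1).right 2 2048).right 1 2048).right 2 3072).right 1 3072).right 2 3584).right 1 3584).right 2 3840).left 1 3840) = true := by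
  decide +kernel

/-- a subtree of facet 8 -/
noncomputable def t8_8 : Box.TrM := (.mult [])

lemma h8_8 : t8_8.chkM 403 16 (wGuard 8 4096 band.Q) (fExp 8 4096 band.Q (pairs ks fc8.e) fc8.c0 fc8.c1) (((((((((((wBox 4096 band.P0 band.P1).right 2 2048).right 1 2048).right 2 3072).right 1 3072).right 2 3584).right 1 3584).right 2 3840).right 1 3840).left 0 48125000).left 2 3968) = true := by
  decide +kernel

/-- a subtree of facet 8 -/
noncomputable def t8_9 : Box.TrM := (.mult [])

lemma h8_9 : t8_9.chkM 403 16 (wGuard 8 4096 band.Q) (fExp 8 4096 band.Q (pairs ks fc8.e) fc8.c0 fc8.c1) ((((((((((((wBox 4096 band.P0 band.P1).right 2 2048).right 1 2048).right 2 3072).right 1 3072).right 2 3584).right 1 3584).right 2 3840).right 1 3840).left 0 48125000).right 2 3968).left 1 3968) = true := by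
  decide +kernel

/-- a subtree of facet 8 -/
noncomputable def t8_10 : Box.TrM := (.mult [])

lemma h8_10 : t8_10.chkM 403 16 (wGuard 8 4096 band.Q) (fExp 8 4096 band.Q (pairs ks fc8.e) fc8.c0 fc8.c1) ((((((((((((((wBox 4096 band.P0 band.P1).right 2 2048).right 1 2048).right 2 3072).right 1 3072).right 2 3584).right 1 3584).right 2 3840).right 1 3840).left 0 48125000).right 2 3968).right 1 3968).left 0 47562500).left 2 4032) = true := by
  decide +kernel

/-- a subtree of facet 8 -/
noncomputable def t8_11 : Box.TrM := (.mult [])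

lemma h8_11 : t8_11.chkM 403 16 (wGuard 8 4096 band.Q) (fExp 8 4096 band.Q (pairs ks fc8.e) fc8.c0 fc8.c1) (((((((((((((((wBox 4096 band.P0 band.P1).right 2 2048).right 1 2048).right 2 3072).right 1 3072).right 2 3584).right 1 3584).right 2 3840).right 1 3840).left 0 48125000).right 2 3968).right 1 3968).left 0 47562500).right 2 4032).left 1 4032) = true := by
  decide +kernel

lemma facet23 : facetTest 8 band ks (⟨![(-290664511), 29608844, (-529144559), 364982920, (-214547208), 494684087, 48921820, 28126881, 144333325], (-425789457), 51411537⟩ : Facet 9)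
    ⟨4096, 402, 16, (.cut 2 2048 (.out 0) (.cut 1 2048 (.out 0) (.cut 2 3072 (.cut 1 3072 (.out 0) (.cut 1 3584 (.out 0) (.cut 2 2560 (.cut 1 3840 (.out 0) (.cut 0 48125000 (.out 0) (.cut 2 2304 (.mult [(0, 600654812961491673668346285757186407171191606073177962865511648479674368), (1, 579746693130407358144519492431270138005893153662312470633652034799140864)]) (.cut 1 3968 (.out 0) (.cut 0 48687500 (.mult [(0, 205688069665150755269371147819668813122841983204197482918576128)]) (.cut 2 2432 (.cut 1 4032 (.out 0) (.cut 0 48968750 (.mult [(0, 205688069665150755269371147819668813122841983204197482918576128)]) (.cut 2 2368 (.cut 1 4064 (.out 0) (.cut 0 49109375 (.mult [(2, 102844034832575377634685573909834406561420991602098741459288064)]) (.cut 2 2336 (.cut 1 4080 (.out 0) (.cut 0 49179688 (.mult [(2, 102844034832575377634685573909834406561420991602098741459288064)]) (.cut 2 2320 (.cut 1 4088 (.out 0) (.cut 0 49214844 (.mult [(2, 205688069665150755269371147819668813122841983204197482918576128)]) (.cut 2 2312 (.cut 1 4092 (.out 0) (.cut 0 49232422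 (.mult [(2, 205688069665150755269371147819668813122841983204197482918576128)]) (.cut 2 2308 (.cut 1 4094 (.out 0) (.cut 0 49241211 (.mult [(2, 411376139330301510538742295639337626245683966408394965837152256)]) (.cut 2 2306 (.cut 1 4095 (.out 0) (.cut 0 49245606 (.out 2) (.cut 2 2305 (.cut 1 4096 (.mult [(0, 2056880696651507552693711478196688131228419832041974829185761280)]) (.mult [(1, 2056880696651507552693711478196688131228419832041974829185761280)])) (.mult [(1, 6427752177035961102167848369364650410088811975131171341205504)])))) (.mult [])))) (.mult [])))) (.mult [])))) (.mult [])))) (.mult [])))) (.mult [])))) (.mult []))))))) (.mult [(0, 77133026124431533226014180432375804921065743701574056094466048)])))) (.cut 1 3072 (.cut 2 3584 (.out 0) (.out 3)) (.cut 2 3584 (.cut 1 3584 (.out 0) (.cut 1 3840 (.out 0) (.cut 0 48125000 (.cut 2 3328 (.cut 1 3968 (.out 0) (.cut 0 47562500 (.cut 2 3200 (.mult [(0, 25711008708143844408671393477458601640355247900524685364822016)]) (.cut 1 4032 (.mult [(0, 38566513062215766613007090216187902460532871850787028047233024)])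 (.mult []))) (.cut 2 3200 (.mult [(0, 12855504354071922204335696738729300820177623950262342682411008)]) (.cut 1 4032 (.mult [(0, 25711008708143844408671393477458601640355247900524685364822016)]) (.mult []))))) (.cut 1 3968 (.cut 0 47562500 (.cut 2 3456 (.out 0) (.cut 0 47281250 (.mult [(0, 45998601516913596637388664893265779497198060697032444910501888)]) (.mult [(0, 48208141327769708266258862770234878075666089813483785059041280)]))) (.mult [(0, 48208141327769708266258862770234878075666089813483785059041280)])) (.cut 0 47562500 (.cut 2 3456 (.cut 1 4032 (.cut 0 47281250 (.cut 2 3392 (.cut 0 47140625 (.cut 2 3360 (.mult [(0, 28724017541129451175312572400598281520084378513867421931012096)]) (.cut 1 4000 (.mult [(0, 32138760885179805510839241846823252050444059875655856706027520)]) (.mult [(0, 6427752177035961102167848369364650410088811975131171341205504)]))) (.cut 2 3360 (.mult [(0, 28924884796661824959755317662140926845399653888090271035424768)]) (.cut 1 4000 (.mult [(0, 38566513062215766613007090216187902460532871850787028047233024)])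 (.mult [])))) (.cut 0 47140625 (.cut 2 3424 (.cut 1 4000 (.cut 0 47070312 (.cut 2 3408 (.cut 1 3984 (.out 0) (.mult [(0, 29728353818791320097526298708311508146660755384981667453075456)])) (.cut 1 3984 (.out 0) (.cut 0 47035156 (.cut 2 3416 (.cut 1 3992 (.mult [(0, 30531822840920815235297279754482089447921856881873063870726144)]) (.mult [])) (.cut 1 3992 (.cut 0 47017578 (.cut 2 3420 (.cut 1 3988 (.mult [(0, 30531822840920815235297279754482089447921856881873063870726144)]) (.mult [])) (.cut 1 3988 (.mult [(0, 30531822840920815235297279754482089447921856881873063870726144)]) (.mult []))) (.mult [(0, 28924884796661824959755317662140926845399653888090271035424768)])) (.mult []))) (.mult [(0, 28924884796661824959755317662140926845399653888090271035424768)])))) (.cut 2 3408 (.mult [(0, 31737026374115057941953751323737961399813509127210158497202176)]) (.cut 1 3984 (.mult [(0, 51422017416287688817342786954917203280710495801049370729644032)]) (.mult [(0, 25711008708143844408671393477458601640355247900524685364822016)])))) (.mult [])) (.cut 1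 4000 (.cut 0 47070312 (.cut 2 3440 (.cut 1 3984 (.cut 0 47035156 (.cut 2 3432 (.cut 1 3976 (.out 0) (.cut 0 47017578 (.cut 2 3428 (.cut 1 3980 (.out 0) (.mult [(0, 31385508676933403819178947116038332080511777222320172564480000)])) (.cut 1 3980 (.out 0) (.mult [(0, 31360400269991857096123603958345501414847367800542316426428416)]))) (.mult [(0, 32138760885179805510839241846823252050444059875655856706027520)]))) (.cut 1 3976 (.out 0) (.cut 0 47017578 (.cut 2 3436 (.cut 1 3980 (.out 0) (.mult [(0, 31335291863050310373068260800652670749182958378764460288376832)])) (.mult [(0, 31737026374115057941953751323737961399813509127210158497202176)])) (.mult [(0, 32138760885179805510839241846823252050444059875655856706027520)])))) (.mult [(0, 33745698929438795786381203939164414652966262869438649541328896)])) (.cut 0 47035156 (.cut 2 3432 (.cut 1 3992 (.cut 0 47017578 (.cut 2 3428 (.cut 1 3988 (.mult [(0, 30481606027037721789186593439096428116593038038317351594622976)]) (.mult [])) (.mult [])) (.mult [(0, 25711008708143844408671393477458601640355247900524685364822016)]))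 (.mult [])) (.mult [])) (.mult [(0, 12855504354071922204335696738729300820177623950262342682411008)]))) (.cut 1 3984 (.cut 0 47035156 (.cut 2 3448 (.cut 1 3976 (.mult [(0, 51422017416287688817342786954917203280710495801049370729644032)]) (.mult [(0, 32138760885179805510839241846823252050444059875655856706027520)])) (.mult [(0, 32138760885179805510839241846823252050444059875655856706027520)])) (.mult [(0, 32138760885179805510839241846823252050444059875655856706027520)])) (.mult []))) (.cut 2 3440 (.cut 1 3984 (.mult [(0, 32138760885179805510839241846823252050444059875655856706027520)]) (.mult [])) (.cut 1 3984 (.mult [(0, 32138760885179805510839241846823252050444059875655856706027520)]) (.mult [])))) (.mult []))) (.cut 2 3424 (.cut 1 4000 (.mult [(0, 31335291863050310373068260800652670749182958378764460288376832)]) (.mult [])) (.cut 1 4000 (.mult [(0, 31335291863050310373068260800652670749182958378764460288376832)]) (.mult []))))) (.cut 2 3392 (.cut 0 47421875 (.cut 2 3360 (.mult [(0, 28924884796661824959755317662140926845399653888090271035424768)])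 (.cut 1 4000 (.mult [(0, 38566513062215766613007090216187902460532871850787028047233024)]) (.mult []))) (.mult [(0, 28924884796661824959755317662140926845399653888090271035424768)])) (.cut 0 47421875 (.cut 2 3424 (.cut 1 4000 (.mult [(0, 32138760885179805510839241846823252050444059875655856706027520)]) (.mult [])) (.cut 1 4000 (.mult [(0, 32138760885179805510839241846823252050444059875655856706027520)]) (.mult []))) (.mult [(0, 27317946752402834684213355569799764242877450894307478200123392)])))) (.mult [])) (.cut 1 4032 (.cut 0 47281250 (.cut 2 3520 (.cut 0 47140625 (.cut 2 3488 (.cut 1 4000 (.mult [(0, 28924884796661824959755317662140926845399653888090271035424768)]) (.mult [])) (.mult [])) (.mult [(0, 25711008708143844408671393477458601640355247900524685364822016)])) (.mult [])) (.mult [])) (.mult []))) (.cut 2 3456 (.cut 1 4032 (.mult [(0, 28924884796661824959755317662140926845399653888090271035424768)]) (.mult [])) (.mult []))))) (.cut 2 3328 (.cut 1 3968 (.out 0) (.mult [(0, 19283256531107883306503545108093951230266435925393514023616512)]))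 (.cut 1 3968 (.mult [(0, 51422017416287688817342786954917203280710495801049370729644032)]) (.mult [(0, 19283256531107883306503545108093951230266435925393514023616512)])))))) (.cut 1 3584 (.cut 2 3840 (.out 0) (.out 3)) (.cut 2 3840 (.cut 1 3840 (.mult [(0, 64277521770359611021678483693646504100888119751311713412055040)]) (.cut 0 48125000 (.cut 1 3968 (.mult [(0, 38566513062215766613007090216187902460532871850787028047233024)]) (.mult [])) (.cut 1 3968 (.mult [(0, 51422017416287688817342786954917203280710495801049370729644032)]) (.mult [])))) (.cut 1 3840 (.cut 0 48125000 (.cut 2 3968 (.mult [(0, 38566513062215766613007090216187902460532871850787028047233024)]) (.out 3)) (.cut 2 3968 (.mult [(0, 51422017416287688817342786954917203280710495801049370729644032)]) (.out 3))) (.mult [])))))))))⟩ = true := by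
  decide +kernel

end Vale.Agent.P154.Ly.BC
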