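import Vale.Agent.P154.LyBCFd

/-!
Band C: facet checks.
-/

open scoped BigOperators

namespace Vale.Agent.P154.Ly.BC

/-- a subtree of facet 3 -/
noncomputable def t3_15 : Box.TrM := (.mult [])

lemma h3_15 : t3_15.chkM 402 16 (wGuard 8 4096 band.Q) (fExp 8 4096 band.Q (pairs ks fc3.e) fc3.c0 fc3.c1) (((((((((((((((wBox 4096 band.P0 band.P1).right 2 2048).right 1 2048).right 2 3072).right 1 3072).right 2 3584).right 1 3584).right 2 3840).right 1 3840).left 0 48125000).right 2 3968).right 1 3968).right 0 47562500).right 2 4032).left 1 4032) = true := by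
  decide +kernel

/-- a subtree of facet 3 -/
noncomputable def t3_16 : Box.TrM := (.cut 2 4064 (.mult []) (.cut 1 4064 (.mult []) (.cut 0 47703125 (.cut 2 4080 (.mult []) (.cut 1 4080 (.mult []) (.cut 0 47632812 (.cut 2 4088 (.mult []) (.cut 1 4088 (.mult []) (.cut 0 47597656 (.cut 2 4092 (.mult []) (.cut 1 4092 (.mult []) (.cut 0 47580078 (.cut 2 4094 (.mult []) (.mult [])) (.cut 2 4094 (.mult []) (.mult []))))) (.cut 2 4092 (.mult []) (.cut 1 4092 (.mult []) (.cut 0 47615234 (.cut 2 4094 (.mult []) (.mult [])) (.cut 2 4094 (.mult []) (.mult [])))))))) (.cut 2 4088 (.mult []) (.cut 1 4088 (.mult []) (.cut 0 47667968 (.cut 2 4092 (.mult []) (.cut 1 4092 (.mult []) (.cut 0 47650390 (.cut 2 4094 (.mult []) (.mult [])) (.cut 2 4094 (.mult []) (.mult []))))) (.cut 2 4092 (.mult []) (.cut 1 4092 (.mult []) (.cut 0 47685546 (.cut 2 4094 (.mult []) (.mult [])) (.cut 2 4094 (.mult []) (.mult []))))))))))) (.cut 2 4080 (.mult []) (.cut 1 4080 (.mult []) (.cut 0 47773437 (.cut 2 4088 (.mult []) (.cut 1 4088 (.mult []) (.cut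 0 47738281 (.cut 2 4092 (.mult []) (.cut 1 4092 (.mult []) (.cut 0 47720703 (.cut 2 4094 (.mult []) (.mult [])) (.cut 2 4094 (.mult []) (.mult []))))) (.cut 2 4092 (.mult []) (.cut 1 4092 (.mult []) (.cut 0 47755859 (.cut 2 4094 (.mult []) (.mult [])) (.cut 2 4094 (.mult []) (.mult [])))))))) (.cut 2 4088 (.mult []) (.cut 1 4088 (.mult []) (.cut 0 47808593 (.cut 2 4092 (.mult []) (.cut 1 4092 (.mult []) (.cut 0 47791015 (.cut 2 4094 (.mult []) (.mult [])) (.cut 2 4094 (.mult []) (.mult []))))) (.cut 2 4092 (.mult []) (.cut 1 4092 (.mult []) (.cut 0 47826171 (.cut 2 4094 (.mult []) (.mult [])) (.cut 2 4094 (.mult []) (.mult []))))))))))))))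

lemma h3_16 : t3_16.chkM 402 16 (wGuard 8 4096 band.Q) (fExp 8 4096 band.Q (pairs ks fc3.e) fc3.c0 fc3.c1) ((((((((((((((((wBox 4096 band.P0 band.P1).right 2 2048).right 1 2048).right 2 3072).right 1 3072).right 2 3584).right 1 3584).right 2 3840).right 1 3840).left 0 48125000).right 2 3968).right 1 3968).right 0 47562500).right 2 4032).right 1 4032).left 0 47843750) = true := by
  decide +kernel

/-- a subtree of facet 3 -/
noncomputable def t3_17 : Box.TrM := (.cut 2 4064 (.mult []) (.cut 1 4064 (.mult []) (.cut 0 47984375 (.cut 2 4080 (.mult []) (.cut 1 4080 (.mult []) (.cut 0 47914062 (.cut 2 4088 (.mult []) (.cut 1 4088 (.mult []) (.cut 0 47878906 (.cut 2 4092 (.mult []) (.cut 1 4092 (.mult []) (.cut 0 47861328 (.cut 2 4094 (.mult []) (.mult [])) (.cut 2 4094 (.mult []) (.mult []))))) (.cut 2 4092 (.mult []) (.cut 1 4092 (.mult []) (.cut 0 47896484 (.cut 2 4094 (.mult []) (.mult [])) (.cut 2 4094 (.mult []) (.mult [])))))))) (.cut 2 4088 (.mult []) (.cut 1 4088 (.mult []) (.cut 0 47949218 (.cut 2 4092 (.mult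 []) (.cut 1 4092 (.mult []) (.cut 0 47931640 (.cut 2 4094 (.mult []) (.mult [])) (.cut 2 4094 (.mult []) (.mult []))))) (.cut 2 4092 (.mult []) (.cut 1 4092 (.mult []) (.cut 0 47966796 (.cut 2 4094 (.mult []) (.mult [])) (.cut 2 4094 (.mult []) (.mult []))))))))))) (.cut 2 4080 (.mult []) (.cut 1 4080 (.mult []) (.cut 0 48054687 (.cut 2 4088 (.mult []) (.cut 1 4088 (.mult []) (.cut 0 48019531 (.cut 2 4092 (.mult []) (.cut 1 4092 (.mult []) (.cut 0 48001953 (.cut 2 4094 (.mult []) (.mult [])) (.cut 2 4094 (.mult []) (.mult []))))) (.cut 2 4092 (.mult []) (.cut 1 4092 (.mult []) (.cut 0 48037109 (.cut 2 4094 (.mult []) (.mult [])) (.cut 2 4094 (.mult []) (.mult [])))))))) (.cut 2 4088 (.mult []) (.cut 1 4088 (.mult []) (.cut 0 48089843 (.cut 2 4092 (.mult []) (.cut 1 4092 (.mult []) (.cut 0 48072265 (.cut 2 4094 (.mult []) (.mult [])) (.cut 2 4094 (.mult []) (.mult []))))) (.cut 2 4092 (.mult []) (.cut 1 4092 (.mult []) (.cut 0 48107421 (.cut 2 4094 (.mult []) (.mult [])) (.cut 2 4094 (.mult []) (.mult []))))))))))))))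

lemma h3_17 : t3_17.chkM 402 16 (wGuard 8 4096 band.Q) (fExp 8 4096 band.Q (pairs ks fc3.e) fc3.c0 fc3.c1) ((((((((((((((((wBox 4096 band.P0 band.P1).right 2 2048).right 1 2048).right 2 3072).right 1 3072).right 2 3584).right 1 3584).right 2 3840).right 1 3840).left 0 48125000).right 2 3968).right 1 3968).right 0 47562500).right 2 4032).right 1 4032).right 0 47843750) = true := by
  decide +kernel

/-- a subtree of facet 5 -/
noncomputable def t5_26 : Box.TrM := (.cut 2 4064 (.mult []) (.cut 1 4064 (.mult []) (.cut 0 48828125 (.cut 2 4080 (.mult []) (.cut 1 4080 (.mult []) (.cut 0 48757812 (.cut 2 4088 (.mult []) (.cut 1 4088 (.mult []) (.cut 0 48722656 (.cut 2 4092 (.mult []) (.cut 1 4092 (.mult []) (.cut 0 48705078 (.cut 2 4094 (.mult []) (.cut 1 4094 (.mult []) (.mult []))) (.cut 2 4094 (.mult []) (.cut 1 4094 (.mult []) (.mult [])))))) (.cut 2 4092 (.mult []) (.cut 1 4092 (.mult []) (.cut 0 48740234 (.cut 2 4094 (.mult []) (.cut 1 4094 (.mult []) (.mult []))) (.cut 2 4094 (.mult []) (.cut 1 4094 (.mult [])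 (.mult []))))))))) (.cut 2 4088 (.mult []) (.cut 1 4088 (.mult []) (.cut 0 48792968 (.cut 2 4092 (.mult []) (.cut 1 4092 (.mult []) (.cut 0 48775390 (.cut 2 4094 (.mult []) (.cut 1 4094 (.mult []) (.mult []))) (.cut 2 4094 (.mult []) (.cut 1 4094 (.mult []) (.mult [])))))) (.cut 2 4092 (.mult []) (.cut 1 4092 (.mult []) (.cut 0 48810546 (.cut 2 4094 (.mult []) (.cut 1 4094 (.mult []) (.mult []))) (.cut 2 4094 (.mult []) (.cut 1 4094 (.mult []) (.mult [])))))))))))) (.cut 2 4080 (.mult []) (.cut 1 4080 (.mult []) (.cut 0 48898437 (.cut 2 4088 (.mult []) (.cut 1 4088 (.mult []) (.cut 0 48863281 (.cut 2 4092 (.mult []) (.cut 1 4092 (.mult []) (.cut 0 48845703 (.cut 2 4094 (.mult []) (.cut 1 4094 (.mult []) (.mult []))) (.cut 2 4094 (.mult []) (.cut 1 4094 (.mult []) (.mult [])))))) (.cut 2 4092 (.mult []) (.cut 1 4092 (.mult []) (.cut 0 48880859 (.cut 2 4094 (.mult []) (.cut 1 4094 (.mult []) (.mult []))) (.cut 2 4094 (.mult []) (.cut 1 4094 (.mult []) (.mult []))))))))) (.cut 2 4088 (.mult []) (.cut 1 4088 (.mult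 []) (.cut 0 48933593 (.cut 2 4092 (.mult []) (.cut 1 4092 (.mult []) (.cut 0 48916015 (.cut 2 4094 (.mult []) (.cut 1 4094 (.mult []) (.mult []))) (.cut 2 4094 (.mult []) (.cut 1 4094 (.mult []) (.mult [])))))) (.cut 2 4092 (.mult []) (.cut 1 4092 (.mult []) (.cut 0 48951171 (.cut 2 4094 (.mult []) (.cut 1 4094 (.mult []) (.mult []))) (.cut 2 4094 (.mult []) (.cut 1 4094 (.mult []) (.mult [])))))))))))))))

lemma h5_26 : t5_26.chkM 402 16 (wGuard 8 4096 band.Q) (fExp 8 4096 band.Q (pairs ks fc5.e) fc5.c0 fc5.c1) ((((((((((((((((wBox 4096 band.P0 band.P1).right 2 2048).right 1 2048).right 2 3072).right 1 3072).right 2 3584).right 1 3584).right 2 3840).right 1 3840).right 0 48125000).right 2 3968).right 1 3968).right 0 48687500).right 2 4032).right 1 4032).left 0 48968750) = true := by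
  decide +kernel

/-- a subtree of facet 8 -/
noncomputable def t8_12 : Box.TrM := (.cut 2 4064 (.mult []) (.cut 1 4064 (.mult []) (.cut 0 47140625 (.cut 2 4080 (.mult []) (.cut 1 4080 (.mult []) (.cut 0 47070312 (.cut 2 4088 (.mult []) (.cut 1 4088 (.mult []) (.cut 0 47035156 (.cut 2 4092 (.mult []) (.cut 1 4092 (.mult []) (.cut 0 47017578 (.cut 2 4094 (.mult []) (.cut 1 4094 (.mult []) (.mult []))) (.cut 2 4094 (.mult []) (.cut 1 4094 (.mult []) (.mult [])))))) (.cut 2 4092 (.mult []) (.cut 1 4092 (.mult []) (.cut 0 47052734 (.cut 2 4094 (.mult []) (.cut 1 4094 (.mult []) (.mult []))) (.cut 2 4094 (.mult []) (.cut 1 4094 (.mult []) (.mult []))))))))) (.cut 2 4088 (.mult []) (.cut 1 4088 (.mult []) (.cut 0 47105468 (.cut 2 4092 (.mult []) (.cut 1 4092 (.mult []) (.cut 0 47087890 (.cut 2 4094 (.mult []) (.cut 1 4094 (.mult []) (.mult []))) (.cut 2 4094 (.mult []) (.cut 1 4094 (.mult []) (.mult [])))))) (.cut 2 4092 (.mult []) (.cut 1 4092 (.mult []) (.cut 0 47123046 (.cut 2 4094 (.mult []) (.cut 1 4094 (.mult [])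 (.mult []))) (.cut 2 4094 (.mult []) (.cut 1 4094 (.mult []) (.mult [])))))))))))) (.cut 2 4080 (.mult []) (.cut 1 4080 (.mult []) (.cut 0 47210937 (.cut 2 4088 (.mult []) (.cut 1 4088 (.mult []) (.cut 0 47175781 (.cut 2 4092 (.mult []) (.cut 1 4092 (.mult []) (.cut 0 47158203 (.cut 2 4094 (.mult []) (.cut 1 4094 (.mult []) (.mult []))) (.cut 2 4094 (.mult []) (.cut 1 4094 (.mult []) (.mult [])))))) (.cut 2 4092 (.mult []) (.cut 1 4092 (.mult []) (.cut 0 47193359 (.cut 2 4094 (.mult []) (.cut 1 4094 (.mult []) (.mult []))) (.cut 2 4094 (.mult []) (.cut 1 4094 (.mult []) (.mult []))))))))) (.cut 2 4088 (.mult []) (.cut 1 4088 (.mult []) (.cut 0 47246093 (.cut 2 4092 (.mult []) (.cut 1 4092 (.mult []) (.cut 0 47228515 (.cut 2 4094 (.mult []) (.cut 1 4094 (.mult []) (.mult []))) (.cut 2 4094 (.mult []) (.cut 1 4094 (.mult []) (.mult [])))))) (.cut 2 4092 (.mult []) (.cut 1 4092 (.mult []) (.cut 0 47263671 (.cut 2 4094 (.mult []) (.cut 1 4094 (.mult []) (.mult []))) (.cut 2 4094 (.mult []) (.cut 1 4094 (.mult []) (.mult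 [])))))))))))))))

lemma h8_12 : t8_12.chkM 403 16 (wGuard 8 4096 band.Q) (fExp 8 4096 band.Q (pairs ks fc8.e) fc8.c0 fc8.c1) ((((((((((((((((wBox 4096 band.P0 band.P1).right 2 2048).right 1 2048).right 2 3072).right 1 3072).right 2 3584).right 1 3584).right 2 3840).right 1 3840).left 0 48125000).right 2 3968).right 1 3968).left 0 47562500).right 2 4032).right 1 4032).left 0 47281250) = true := by
  decide +kernel

lemma facet24 : facetTest 8 band ks (⟨![290664511, (-29608844), 529144559, (-364982920), 214547208, (-494684087), (-48921820), (-28126881), (-161885716)], 425789457, 16853520⟩ : Facet 9)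
    ⟨4096, 372, 16, (.cut 2 2048 (.out 0) (.cut 1 2048 (.out 0) (.cut 2 3072 (.cut 1 3072 (.out 0) (.cut 1 3584 (.out 0) (.cut 2 2560 (.mult [(0, 6427752177035961102167848369364650410088811975131171341205504)]) (.cut 1 3840 (.out 0) (.cut 0 48125000 (.cut 2 2816 (.cut 1 3968 (.out 0) (.cut 0 47562500 (.mult [(2, 25711008708143844408671393477458601640355247900524685364822016)]) (.cut 2 2688 (.cut 1 4032 (.out 0) (.cut 0 47843750 (.cut 2 2624 (.mult [(2, 12855504354071922204335696738729300820177623950262342682411008)]) (.mult [(2, 12855504354071922204335696738729300820177623950262342682411008)])) (.cut 2 2624 (.cut 1 4064 (.out 0) (.cut 0 47984375 (.cut 2 2592 (.out 2) (.cut 1 4080 (.out 0) (.cut 0 47914062 (.cut 2 2608 (.out 2) (.cut 1 4088 (.out 0) (.mult [(2, 11248566309812931928793734646388138217655420956479549847109632)]))) (.cut 2 2608 (.mult [(2, 6427752177035961102167848369364650410088811975131171341205504)]) (.cut 1 4088 (.out 0) (.mult [(2, 9641628265553941653251772554046975615133217962696757011808256)]))))))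 (.mult []))) (.mult [(0, 10903958662209339355893087935711899510479638632141885441835008), (1, 10545530915449623683244126230988879579051957146699577981665280)])))) (.mult [])))) (.mult [])) (.cut 2 2816 (.cut 1 3968 (.out 0) (.cut 0 48687500 (.cut 2 2688 (.mult []) (.mult [])) (.mult []))) (.mult []))))))) (.cut 1 3072 (.cut 2 3584 (.out 0) (.out 3)) (.mult [])))))⟩ = true := by
  decide +kernel

lemma facet25 : facetTest 8 band ks (⟨![85133914, (-63147609), 224541861, (-219075095), 140250445, (-280704846), 53485746, 125119995, 99984149], (-873712587), 466878536⟩ : Facet 9)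
    ⟨4096, 373, 16, (.cut 2 2048 (.out 0) (.cut 1 2048 (.out 0) (.cut 2 3072 (.cut 1 3072 (.out 0) (.cut 1 3584 (.out 0) (.cut 2 2560 (.mult [(0, 205688069665150755269371147819668813122841983204197482918576128)]) (.cut 1 3840 (.out 0) (.cut 0 48125000 (.cut 2 2816 (.mult [(0, 205688069665150755269371147819668813122841983204197482918576128)]) (.cut 1 3968 (.out 0) (.cut 0 47562500 (.cut 2 2944 (.cut 1 4032 (.out 0) (.cut 0 47281250 (.cut 2 2880 (.mult [(0, 51422017416287688817342786954917203280710495801049370729644032)]) (.cut 1 4064 (.out 0) (.cut 0 47140625 (.cut 2 2912 (.mult [(0, 19283256531107883306503545108093951230266435925393514023616512)]) (.cut 1 4080 (.mult [(0, 25711008708143844408671393477458601640355247900524685364822016)]) (.mult []))) (.mult [])))) (.mult [(0, 25711008708143844408671393477458601640355247900524685364822016)]))) (.cut 1 4032 (.out 0) (.cut 0 47281250 (.cut 2 3008 (.cut 1 4064 (.out 0) (.cut 0 47140625 (.cut 2 2976 (.cut 1 4080 (.cut 0 47070312 (.cut 2 2960 (.cut 0 47035156 (.cut 2 2952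 (.cut 1 4072 (.out 0) (.cut 0 47017578 (.cut 2 2948 (.mult [(0, 25711008708143844408671393477458601640355247900524685364822016)]) (.cut 1 4076 (.out 0) (.cut 0 47008789 (.cut 2 2950 (.mult [(0, 22497132619625863857587469292776276435310841912959099694219264)]) (.cut 1 4078 (.out 0) (.mult [(0, 18479787508978388168732564061923369929005334428502117605965824)]))) (.mult [(0, 12855504354071922204335696738729300820177623950262342682411008)])))) (.mult [(0, 12855504354071922204335696738729300820177623950262342682411008)]))) (.cut 1 4072 (.out 0) (.cut 0 47017578 (.cut 2 2956 (.cut 1 4076 (.out 0) (.cut 0 47008789 (.cut 2 2954 (.cut 1 4078 (.out 0) (.cut 0 47004394 (.cut 2 2953 (.cut 1 4079 (.out 0) (.mult [(0, 17676318486848893030961583015752788627744232931610721188315136)])) (.cut 1 4079 (.out 0) (.mult [(0, 17676318486848893030961583015752788627744232931610721188315136)]))) (.mult [(0, 6427752177035961102167848369364650410088811975131171341205504)]))) (.cut 1 4078 (.out 0) (.cut 0 47004394 (.cut 2 2955 (.cut 1 4079 (.out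 0) (.mult [(0, 17676318486848893030961583015752788627744232931610721188315136)])) (.cut 1 4079 (.mult [(0, 25711008708143844408671393477458601640355247900524685364822016)]) (.mult [(0, 16069380442589902755419620923411626025222029937827928353013760)]))) (.mult [(0, 6427752177035961102167848369364650410088811975131171341205504)])))) (.mult [(0, 12855504354071922204335696738729300820177623950262342682411008)]))) (.cut 1 4076 (.out 0) (.cut 0 47008789 (.cut 2 2958 (.cut 1 4078 (.out 0) (.mult [(0, 18078052997913640599847073538838079278374783680056419397140480)])) (.mult [(0, 19082389275575509522060799846551305904951160551170664919203840)])) (.mult [(0, 12855504354071922204335696738729300820177623950262342682411008)])))) (.mult [(0, 12855504354071922204335696738729300820177623950262342682411008)])))) (.mult [(0, 25711008708143844408671393477458601640355247900524685364822016)])) (.cut 0 47035156 (.cut 2 2968 (.cut 1 4072 (.out 0) (.cut 0 47017578 (.cut 2 2964 (.cut 1 4076 (.out 0) (.mult [(0, 19283256531107883306503545108093951230266435925393514023616512)]))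 (.mult [(0, 22497132619625863857587469292776276435310841912959099694219264)])) (.mult [(0, 12855504354071922204335696738729300820177623950262342682411008)]))) (.mult [(0, 25711008708143844408671393477458601640355247900524685364822016)])) (.mult [(0, 25711008708143844408671393477458601640355247900524685364822016)]))) (.mult [(0, 12855504354071922204335696738729300820177623950262342682411008)])) (.mult [])) (.cut 1 4080 (.mult [(0, 25711008708143844408671393477458601640355247900524685364822016)]) (.mult []))) (.mult []))) (.cut 1 4064 (.mult [(0, 51422017416287688817342786954917203280710495801049370729644032)]) (.mult []))) (.mult [(0, 25711008708143844408671393477458601640355247900524685364822016)])))) (.mult [(0, 102844034832575377634685573909834406561420991602098741459288064)])))) (.mult [(0, 154266052248863066452028360864751609842131487403148112188932096)])))))) (.cut 1 3072 (.cut 2 3584 (.out 0) (.out 3)) (.cut 2 3584 (.cut 1 3584 (.out 0) (.cut 1 3840 (.out 0) (.cut 0 48125000 (.cut 2 3328 (.cut 1 3968 (.out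 0) (.mult [(0, 57849769593323649919510635324281853690799307776180542070849536)])) (.mult [(0, 25711008708143844408671393477458601640355247900524685364822016)])) (.mult [(0, 102844034832575377634685573909834406561420991602098741459288064)])))) (.cut 1 3584 (.cut 2 3840 (.out 0) (.out 3)) (.mult [(0, 51422017416287688817342786954917203280710495801049370729644032)])))))))⟩ = true := by
  decide +kernel

end Vale.Agent.P154.Ly.BC
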