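import Vale.Agent.P154.LyBCFd

/-!
Band C: facet checks.
-/

open scoped BigOperators

namespace Vale.Agent.P154.Ly.BC

/-- a subtree of facet 3 -/
noncomputable def t3_18 : Box.TrM := (.mult [])

lemma h3_18 : t3_18.chkM 402 16 (wGuard 8 4096 band.Q) (fExp 8 4096 band.Q (pairs ks fc3.e) fc3.c0 fc3.c1) (((((((((((wBox 4096 band.P0 band.P1).right 2 2048).right 1 2048).right 2 3072).right 1 3072).right 2 3584).right 1 3584).right 2 3840).right 1 3840).right 0 48125000).left 2 3968) = true := by
  decide +kernel

/-- a subtree of facet 3 -/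
noncomputable def t3_19 : Box.TrM := (.mult [])

lemma h3_19 : t3_19.chkM 402 16 (wGuard 8 4096 band.Q) (fExp 8 4096 band.Q (pairs ks fc3.e) fc3.c0 fc3.c1) ((((((((((((wBox 4096 band.P0 band.P1).right 2 2048).right 1 2048).right 2 3072).right 1 3072).right 2 3584).right 1 3584).right 2 3840).right 1 3840).right 0 48125000).right 2 3968).left 1 3968) = true := by
  decide +kernel

/-- a subtree of facet 3 -/
noncomputable def t3_20 : Box.TrM := (.mult [])

lemma h3_20 : t3_20.chkM 402 16 (wGuard 8 4096 band.Q) (fExp 8 4096 band.Q (pairs ks fc3.e) fc3.c0 fc3.c1) ((((((((((((((wBox 4096 band.P0 band.P1).right 2 2048).right 1 2048).right 2 3072).right 1 3072).right 2 3584).right 1 3584).right 2 3840).right 1 3840).right 0 48125000).right 2 3968).right 1 3968).left 0 48687500).left 2 4032) = true := by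
  decide +kernel

/-- a subtree of facet 3 -/
noncomputable def t3_21 : Box.TrM := (.mult [])

lemma h3_21 : t3_21.chkM 402 16 (wGuard 8 4096 band.Q) (fExp 8 4096 band.Q (pairs ks fc3.e) fc3.c0 fc3.c1) (((((((((((((((wBox 4096 band.P0 band.P1).right 2 2048).right 1 2048).right 2 3072).right 1 3072).right 2 3584).right 1 3584).right 2 3840).right 1 3840).right 0 48125000).right 2 3968).right 1 3968).left 0 48687500).right 2 4032).left 1 4032) = true := by
  decide +kernel

/-- a subtree of facet 3 -/
noncomputable def t3_22 : Box.TrM := (.cut 2 4064 (.mult []) (.cut 1 4064 (.mult []) (.cut 0 48265625 (.cut 2 4080 (.mult []) (.cut 1 4080 (.mult []) (.cut 0 48195312 (.cut 2 4088 (.mult []) (.cut 1 4088 (.mult []) (.cut 0 48160156 (.cut 2 4092 (.mult []) (.cut 1 4092 (.mult []) (.cut 0 48142578 (.cut 2 4094 (.mult []) (.mult [])) (.cut 2 4094 (.mult []) (.mult []))))) (.cut 2 4092 (.mult []) (.cut 1 4092 (.mult []) (.cut 0 48177734 (.cut 2 4094 (.mult []) (.mult [])) (.cut 2 4094 (.mult []) (.mult [])))))))) (.cut 2 4088 (.mult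 []) (.cut 1 4088 (.mult []) (.cut 0 48230468 (.cut 2 4092 (.mult []) (.cut 1 4092 (.mult []) (.cut 0 48212890 (.cut 2 4094 (.mult []) (.mult [])) (.cut 2 4094 (.mult []) (.mult []))))) (.cut 2 4092 (.mult []) (.cut 1 4092 (.mult []) (.cut 0 48248046 (.cut 2 4094 (.mult []) (.mult [])) (.cut 2 4094 (.mult []) (.mult []))))))))))) (.cut 2 4080 (.mult []) (.cut 1 4080 (.mult []) (.cut 0 48335937 (.cut 2 4088 (.mult []) (.cut 1 4088 (.mult []) (.cut 0 48300781 (.cut 2 4092 (.mult []) (.cut 1 4092 (.mult []) (.cut 0 48283203 (.cut 2 4094 (.mult []) (.mult [])) (.cut 2 4094 (.mult []) (.mult []))))) (.cut 2 4092 (.mult []) (.cut 1 4092 (.mult []) (.cut 0 48318359 (.cut 2 4094 (.mult []) (.mult [])) (.cut 2 4094 (.mult []) (.mult [])))))))) (.cut 2 4088 (.mult []) (.cut 1 4088 (.mult []) (.cut 0 48371093 (.cut 2 4092 (.mult []) (.cut 1 4092 (.mult []) (.cut 0 48353515 (.cut 2 4094 (.mult []) (.mult [])) (.cut 2 4094 (.mult []) (.mult []))))) (.cut 2 4092 (.mult []) (.cut 1 4092 (.mult []) (.cut 0 48388671 (.cut 2 4094 (.mult [])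 (.mult [])) (.cut 2 4094 (.mult []) (.mult []))))))))))))))

lemma h3_22 : t3_22.chkM 402 16 (wGuard 8 4096 band.Q) (fExp 8 4096 band.Q (pairs ks fc3.e) fc3.c0 fc3.c1) ((((((((((((((((wBox 4096 band.P0 band.P1).right 2 2048).right 1 2048).right 2 3072).right 1 3072).right 2 3584).right 1 3584).right 2 3840).right 1 3840).right 0 48125000).right 2 3968).right 1 3968).left 0 48687500).right 2 4032).right 1 4032).left 0 48406250) = true := by
  decide +kernel

/-- a subtree of facet 5 -/
noncomputable def t5_27 : Box.TrM := (.cut 2 4064 (.mult []) (.cut 1 4064 (.mult []) (.cut 0 49109375 (.cut 2 4080 (.mult []) (.cut 1 4080 (.mult []) (.cut 0 49039062 (.cut 2 4088 (.mult []) (.cut 1 4088 (.mult []) (.cut 0 49003906 (.cut 2 4092 (.mult []) (.cut 1 4092 (.mult []) (.cut 0 48986328 (.cut 2 4094 (.mult []) (.cut 1 4094 (.mult []) (.mult []))) (.cut 2 4094 (.mult []) (.cut 1 4094 (.mult []) (.mult [])))))) (.cut 2 4092 (.mult []) (.cut 1 4092 (.mult []) (.cut 0 49021484 (.cut 2 4094 (.mult []) (.cut 1 4094 (.mult []) (.mult [])))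 (.cut 2 4094 (.mult []) (.cut 1 4094 (.mult []) (.mult []))))))))) (.cut 2 4088 (.mult []) (.cut 1 4088 (.mult []) (.cut 0 49074218 (.cut 2 4092 (.mult []) (.cut 1 4092 (.mult []) (.cut 0 49056640 (.cut 2 4094 (.mult []) (.cut 1 4094 (.mult []) (.mult []))) (.cut 2 4094 (.mult []) (.cut 1 4094 (.mult []) (.mult [])))))) (.cut 2 4092 (.mult []) (.cut 1 4092 (.mult []) (.cut 0 49091796 (.cut 2 4094 (.mult []) (.cut 1 4094 (.mult []) (.mult []))) (.cut 2 4094 (.mult []) (.cut 1 4094 (.mult []) (.mult [])))))))))))) (.cut 2 4080 (.mult []) (.cut 1 4080 (.mult []) (.cut 0 49179688 (.cut 2 4088 (.mult []) (.cut 1 4088 (.mult []) (.cut 0 49144531 (.cut 2 4092 (.mult []) (.cut 1 4092 (.mult []) (.cut 0 49126953 (.cut 2 4094 (.mult []) (.cut 1 4094 (.mult []) (.mult []))) (.cut 2 4094 (.mult []) (.cut 1 4094 (.mult []) (.mult [])))))) (.cut 2 4092 (.mult []) (.cut 1 4092 (.mult []) (.cut 0 49162109 (.cut 2 4094 (.mult []) (.cut 1 4094 (.mult []) (.mult []))) (.cut 2 4094 (.mult []) (.cut 1 4094 (.mult []) (.mult []))))))))) (.cut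 2 4088 (.mult []) (.cut 1 4088 (.mult []) (.cut 0 49214844 (.cut 2 4092 (.mult []) (.cut 1 4092 (.mult []) (.cut 0 49197266 (.cut 2 4094 (.mult []) (.cut 1 4094 (.mult []) (.mult []))) (.cut 2 4094 (.mult []) (.mult []))))) (.cut 2 4092 (.mult []) (.cut 1 4092 (.mult []) (.cut 0 49232422 (.cut 2 4094 (.mult []) (.mult [])) (.cut 2 4094 (.mult []) (.mult []))))))))))))))

lemma h5_27 : t5_27.chkM 402 16 (wGuard 8 4096 band.Q) (fExp 8 4096 band.Q (pairs ks fc5.e) fc5.c0 fc5.c1) ((((((((((((((((wBox 4096 band.P0 band.P1).right 2 2048).right 1 2048).right 2 3072).right 1 3072).right 2 3584).right 1 3584).right 2 3840).right 1 3840).right 0 48125000).right 2 3968).right 1 3968).right 0 48687500).right 2 4032).right 1 4032).right 0 48968750) = true := by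
  decide +kernel

/-- a subtree of facet 6 -/
noncomputable def t6_0 : Box.TrM := (.out 0)

lemma h6_0 : t6_0.chkM 402 16 (wGuard 8 4096 band.Q) (fExp 8 4096 band.Q (pairs ks fc6.e) fc6.c0 fc6.c1) ((wBox 4096 band.P0 band.P1).left 2 2048) = true := by
  decide +kernel

/-- a subtree of facet 6 -/
noncomputable def t6_1 : Box.TrM := (.out 0)

lemma h6_1 : t6_1.chkM 402 16 (wGuard 8 4096 band.Q) (fExp 8 4096 band.Q (pairs ks fc6.e) fc6.c0 fc6.c1) (((wBox 4096 band.P0 band.P1).right 2 2048).left 1 2048) = true := by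
  decide +kernel

/-- a subtree of facet 6 -/
noncomputable def t6_2 : Box.TrM := (.cut 1 3072 (.out 0) (.cut 1 3584 (.out 0) (.cut 2 2560 (.cut 1 3840 (.out 0) (.cut 0 48125000 (.out 0) (.cut 2 2304 (.mult [(0, 640507751157104305110362230340211703239717002883664026187427769361629184), (1, 621157171211150740869128027604932290720599807495334789964627180141936640)]) (.cut 1 3968 (.out 0) (.cut 0 48687500 (.mult [(0, 51422017416287688817342786954917203280710495801049370729644032)]) (.cut 2 2432 (.cut 1 4032 (.out 0) (.cut 0 48968750 (.mult [(0, 205688069665150755269371147819668813122841983204197482918576128)]) (.cut 2 2368 (.cut 1 4064 (.out 0) (.cut 0 49109375 (.mult [(2, 102844034832575377634685573909834406561420991602098741459288064)]) (.cut 2 2336 (.cut 1 4080 (.out 0) (.cut 0 49179688 (.mult [(2, 205688069665150755269371147819668813122841983204197482918576128)]) (.cut 2 2320 (.cut 1 4088 (.out 0) (.cut 0 49214844 (.mult [(2, 411376139330301510538742295639337626245683966408394965837152256)]) (.cut 2 2312 (.cut 1 4092 (.out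 0) (.cut 0 49232422 (.mult [(2, 822752278660603021077484591278675252491367932816789931674304512)]) (.cut 2 2308 (.cut 1 4094 (.out 0) (.cut 0 49241211 (.mult [(2, 822752278660603021077484591278675252491367932816789931674304512)]) (.cut 2 2306 (.cut 1 4095 (.out 0) (.cut 0 49245606 (.out 2) (.cut 2 2305 (.mult [(2, 3239587097226124395492595578159783806684761235466110355967574016)]) (.mult [(1, 12855504354071922204335696738729300820177623950262342682411008)])))) (.mult [])))) (.mult [])))) (.mult [])))) (.mult [])))) (.mult [])))) (.mult [])))) (.mult []))))))) (.mult []))))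

lemma h6_2 : t6_2.chkM 402 16 (wGuard 8 4096 band.Q) (fExp 8 4096 band.Q (pairs ks fc6.e) fc6.c0 fc6.c1) ((((wBox 4096 band.P0 band.P1).right 2 2048).right 1 2048).left 2 3072) = true := by
  decide +kernel

/-- a subtree of facet 6 -/
noncomputable def t6_3 : Box.TrM := (.cut 2 3584 (.out 0) (.out 3))

lemma h6_3 : t6_3.chkM 402 16 (wGuard 8 4096 band.Q) (fExp 8 4096 band.Q (pairs ks fc6.e) fc6.c0 fc6.c1) (((((wBox 4096 band.P0 band.P1).right 2 2048).right 1 2048).right 2 3072).left 1 3072) = true := by
  decide +kernel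

/-- a subtree of facet 6 -/
noncomputable def t6_4 : Box.TrM := (.mult [])

lemma h6_4 : t6_4.chkM 402 16 (wGuard 8 4096 band.Q) (fExp 8 4096 band.Q (pairs ks fc6.e) fc6.c0 fc6.c1) ((((((wBox 4096 band.P0 band.P1).right 2 2048).right 1 2048).right 2 3072).right 1 3072).left 2 3584) = true := by
  decide +kernel

/-- a subtree of facet 6 -/
noncomputable def t6_5 : Box.TrM := (.mult [])

lemma h6_5 : t6_5.chkM 402 16 (wGuard 8 4096 band.Q) (fExp 8 4096 band.Q (pairs ks fc6.e) fc6.c0 fc6.c1) (((((((wBox 4096 band.P0 band.P1).right 2 2048).right 1 2048).right 2 3072).right 1 3072).right 2 3584).left 1 3584) = true := by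
  decide +kernel

/-- a subtree of facet 6 -/
noncomputable def t6_6 : Box.TrM := (.mult [])

lemma h6_6 : t6_6.chkM 402 16 (wGuard 8 4096 band.Q) (fExp 8 4096 band.Q (pairs ks fc6.e) fc6.c0 fc6.c1) ((((((((wBox 4096 band.P0 band.P1).right 2 2048).right 1 2048).right 2 3072).right 1 3072).right 2 3584).right 1 3584).left 2 3840) = true := by
  decide +kernel

/-- a subtree of facet 6 -/
noncomputable def t6_7 : Box.TrM := (.mult [])

lemma h6_7 : t6_7.chkM 402 16 (wGuard 8 4096 band.Q) (fExp 8 4096 band.Q (pairs ks fc6.e) fc6.c0 fc6.c1) (((((((((wBox 4096 band.P0 band.P1).right 2 2048).right 1 2048).right 2 3072).right 1 3072).right 2 3584).right 1 3584).right 2 3840).left 1 3840) = true := by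
  decide +kernel

/-- a subtree of facet 6 -/
noncomputable def t6_8 : Box.TrM := (.mult [])

lemma h6_8 : t6_8.chkM 402 16 (wGuard 8 4096 band.Q) (fExp 8 4096 band.Q (pairs ks fc6.e) fc6.c0 fc6.c1) (((((((((((wBox 4096 band.P0 band.P1).right 2 2048).right 1 2048).right 2 3072).right 1 3072).right 2 3584).right 1 3584).right 2 3840).right 1 3840).left 0 48125000).left 2 3968) = true := by
  decide +kernel

/-- a subtree of facet 6 -/
noncomputable def t6_9 : Box.TrM := (.mult [])

lemma h6_9 : t6_9.chkM 402 16 (wGuard 8 4096 band.Q) (fExp 8 4096 band.Q (pairs ks fc6.e) fc6.c0 fc6.c1) ((((((((((((wBox 4096 band.P0 band.P1).right 2 2048).right 1 2048).right 2 3072).right 1 3072).right 2 3584).right 1 3584).right 2 3840).right 1 3840).left 0 48125000).right 2 3968).left 1 3968) = true := by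
  decide +kernel

/-- a subtree of facet 8 -/
noncomputable def t8_13 : Box.TrM := (.cut 2 4064 (.mult []) (.cut 1 4064 (.mult []) (.cut 0 47421875 (.cut 2 4080 (.mult []) (.cut 1 4080 (.mult []) (.cut 0 47351562 (.cut 2 4088 (.mult []) (.cut 1 4088 (.mult []) (.cut 0 47316406 (.cut 2 4092 (.mult []) (.cut 1 4092 (.mult []) (.cut 0 47298828 (.cut 2 4094 (.mult []) (.cut 1 4094 (.mult []) (.mult []))) (.cut 2 4094 (.mult []) (.cut 1 4094 (.mult []) (.mult [])))))) (.cut 2 4092 (.mult []) (.cut 1 4092 (.mult []) (.cut 0 47333984 (.cut 2 4094 (.mult []) (.cut 1 4094 (.mult []) (.mult []))) (.cut 2 4094 (.mult []) (.cut 1 4094 (.mult []) (.mult []))))))))) (.cut 2 4088 (.mult []) (.cut 1 4088 (.mult []) (.cut 0 47386718 (.cut 2 4092 (.mult []) (.cut 1 4092 (.mult []) (.cut 0 47369140 (.cut 2 4094 (.mult []) (.cut 1 4094 (.mult []) (.mult []))) (.cut 2 4094 (.mult []) (.cut 1 4094 (.mult []) (.mult [])))))) (.cut 2 4092 (.mult []) (.cut 1 4092 (.mult []) (.cut 0 47404296 (.cut 2 4094 (.mult []) (.cut 1 4094 (.mult []) (.mult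 []))) (.cut 2 4094 (.mult []) (.cut 1 4094 (.mult []) (.mult [])))))))))))) (.cut 2 4080 (.mult []) (.cut 1 4080 (.mult []) (.cut 0 47492187 (.cut 2 4088 (.mult []) (.cut 1 4088 (.mult []) (.cut 0 47457031 (.cut 2 4092 (.mult []) (.cut 1 4092 (.mult []) (.cut 0 47439453 (.cut 2 4094 (.mult []) (.cut 1 4094 (.mult []) (.mult []))) (.cut 2 4094 (.mult []) (.cut 1 4094 (.mult []) (.mult [])))))) (.cut 2 4092 (.mult []) (.cut 1 4092 (.mult []) (.cut 0 47474609 (.cut 2 4094 (.mult []) (.cut 1 4094 (.mult []) (.mult []))) (.cut 2 4094 (.mult []) (.cut 1 4094 (.mult []) (.mult []))))))))) (.cut 2 4088 (.mult []) (.cut 1 4088 (.mult []) (.cut 0 47527343 (.cut 2 4092 (.mult []) (.cut 1 4092 (.mult []) (.cut 0 47509765 (.cut 2 4094 (.mult []) (.cut 1 4094 (.mult []) (.mult []))) (.cut 2 4094 (.mult []) (.cut 1 4094 (.mult []) (.mult [])))))) (.cut 2 4092 (.mult []) (.cut 1 4092 (.mult []) (.cut 0 47544921 (.cut 2 4094 (.mult []) (.cut 1 4094 (.mult []) (.mult []))) (.cut 2 4094 (.mult []) (.cut 1 4094 (.mult []) (.mult [])))))))))))))))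

lemma h8_13 : t8_13.chkM 403 16 (wGuard 8 4096 band.Q) (fExp 8 4096 band.Q (pairs ks fc8.e) fc8.c0 fc8.c1) ((((((((((((((((wBox 4096 band.P0 band.P1).right 2 2048).right 1 2048).right 2 3072).right 1 3072).right 2 3584).right 1 3584).right 2 3840).right 1 3840).left 0 48125000).right 2 3968).right 1 3968).left 0 47562500).right 2 4032).right 1 4032).right 0 47281250) = true := by
  decide +kernel

/-- a subtree of facet 8 -/
noncomputable def t8_14 : Box.TrM := (.mult [])

lemma h8_14 : t8_14.chkM 403 16 (wGuard 8 4096 band.Q) (fExp 8 4096 band.Q (pairs ks fc8.e) fc8.c0 fc8.c1) ((((((((((((((wBox 4096 band.P0 band.P1).right 2 2048).right 1 2048).right 2 3072).right 1 3072).right 2 3584).right 1 3584).right 2 3840).right 1 3840).left 0 48125000).right 2 3968).right 1 3968).right 0 47562500).left 2 4032) = true := by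
  decide +kernel

/-- a subtree of facet 8 -/
noncomputable def t8_15 : Box.TrM := (.mult [])

lemma h8_15 : t8_15.chkM 403 16 (wGuard 8 4096 band.Q) (fExp 8 4096 band.Q (pairs ks fc8.e) fc8.c0 fc8.c1) (((((((((((((((wBox 4096 band.P0 band.P1).right 2 2048).right 1 2048).right 2 3072).right 1 3072).right 2 3584).right 1 3584).right 2 3840).right 1 3840).left 0 48125000).right 2 3968).right 1 3968).right 0 47562500).right 2 4032).left 1 4032) = true := by
  decide +kernel

lemma facet26 : facetTest 8 band ks (⟨![0, 0, 0, 0, 0, 0, 0, 0, 268543509], (-1000000000), 435212679⟩ : Facet 9)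
    ⟨4096, 373, 16, (.cut 2 2048 (.out 0) (.cut 1 2048 (.out 0) (.cut 2 3072 (.cut 1 3072 (.out 0) (.cut 1 3584 (.out 0) (.cut 2 2560 (.mult [(0, 205688069665150755269371147819668813122841983204197482918576128)]) (.cut 1 3840 (.out 0) (.cut 0 48125000 (.cut 2 2816 (.mult [(0, 205688069665150755269371147819668813122841983204197482918576128)]) (.cut 1 3968 (.out 0) (.cut 0 47562500 (.cut 2 2944 (.cut 1 4032 (.out 0) (.cut 0 47281250 (.cut 2 2880 (.mult [(0, 51422017416287688817342786954917203280710495801049370729644032)]) (.cut 1 4064 (.out 0) (.cut 0 47140625 (.cut 2 2912 (.mult [(0, 6427752177035961102167848369364650410088811975131171341205504)]) (.cut 1 4080 (.mult [(0, 25711008708143844408671393477458601640355247900524685364822016)]) (.mult []))) (.mult [])))) (.mult [(0, 25711008708143844408671393477458601640355247900524685364822016)]))) (.cut 1 4032 (.out 0) (.cut 0 47281250 (.cut 2 3008 (.cut 1 4064 (.out 0) (.cut 0 47140625 (.cut 2 2976 (.cut 1 4080 (.cut 0 47070312 (.cut 2 2960 (.mult [(0, 25711008708143844408671393477458601640355247900524685364822016)])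 (.cut 0 47035156 (.cut 2 2968 (.mult [(0, 27719681263467582253098846092885054893508001642753176408948736)]) (.cut 1 4072 (.out 0) (.cut 0 47017578 (.cut 2 2972 (.mult [(0, 22898867130690611426472959815861567085941392661404797903044608)]) (.cut 1 4076 (.out 0) (.mult [(0, 19283256531107883306503545108093951230266435925393514023616512)]))) (.mult [(0, 12855504354071922204335696738729300820177623950262342682411008)])))) (.mult [(0, 25711008708143844408671393477458601640355247900524685364822016)]))) (.mult [(0, 12855504354071922204335696738729300820177623950262342682411008)])) (.mult [])) (.cut 1 4080 (.cut 0 47070312 (.cut 2 2992 (.cut 0 47035156 (.cut 2 2984 (.cut 1 4072 (.out 0) (.cut 0 47017578 (.cut 2 2980 (.cut 1 4076 (.out 0) (.cut 0 47008789 (.cut 2 2978 (.mult [(0, 20287592808769752228717271415807177856842812796507759545679872)]) (.cut 1 4078 (.mult [(0, 21216603865606980981764968250441912486425961402288436653588480)]) (.mult []))) (.mult []))) (.cut 1 4076 (.mult [(0, 25711008708143844408671393477458601640355247900524685364822016)])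 (.cut 0 47008789 (.cut 2 2982 (.cut 1 4078 (.cut 0 47004394 (.cut 2 2981 (.cut 1 4077 (.mult [(0, 21693663597496368719816488246605695134049740416067703276568576)]) (.mult [])) (.cut 1 4077 (.mult [(0, 21693663597496368719816488246605695134049740416067703276568576)]) (.mult []))) (.mult [])) (.mult [])) (.cut 1 4078 (.mult [(0, 20890194575366873582045507200435113832788638919176306858917888)]) (.mult []))) (.mult [])))) (.mult [(0, 12855504354071922204335696738729300820177623950262342682411008)]))) (.cut 1 4072 (.out 0) (.cut 0 47017578 (.cut 2 2988 (.cut 1 4076 (.mult [(0, 25711008708143844408671393477458601640355247900524685364822016)]) (.mult [])) (.cut 1 4076 (.mult [(0, 25711008708143844408671393477458601640355247900524685364822016)]) (.mult []))) (.mult [(0, 12855504354071922204335696738729300820177623950262342682411008)])))) (.mult [(0, 25711008708143844408671393477458601640355247900524685364822016)])) (.cut 0 47035156 (.cut 2 3000 (.cut 1 4072 (.out 0) (.mult [(0, 20890194575366873582045507200435113832788638919176306858917888)]))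 (.mult [(0, 25711008708143844408671393477458601640355247900524685364822016)])) (.mult [(0, 25711008708143844408671393477458601640355247900524685364822016)]))) (.mult [(0, 12855504354071922204335696738729300820177623950262342682411008)])) (.mult []))) (.mult []))) (.cut 1 4064 (.mult [(0, 51422017416287688817342786954917203280710495801049370729644032)]) (.cut 0 47140625 (.cut 2 3040 (.cut 1 4080 (.mult [(0, 25711008708143844408671393477458601640355247900524685364822016)]) (.mult [])) (.mult [])) (.mult [])))) (.mult [(0, 25711008708143844408671393477458601640355247900524685364822016)])))) (.mult [(0, 77133026124431533226014180432375804921065743701574056094466048)])))) (.mult [(0, 128555043540719222043356967387293008201776239502623426824110080)])))))) (.cut 1 3072 (.cut 2 3584 (.out 0) (.out 3)) (.cut 2 3584 (.cut 1 3584 (.out 0) (.cut 1 3840 (.out 0) (.cut 0 48125000 (.cut 2 3328 (.cut 1 3968 (.out 0) (.cut 0 47562500 (.cut 2 3200 (.cut 1 4032 (.out 0) (.mult [(0, 25711008708143844408671393477458601640355247900524685364822016)]))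 (.mult [(0, 1606938044258990275541962092341162602522202993782792835301376)])) (.mult [(0, 51422017416287688817342786954917203280710495801049370729644032)]))) (.mult [(0, 51422017416287688817342786954917203280710495801049370729644032)])) (.mult [(0, 128555043540719222043356967387293008201776239502623426824110080)])))) (.cut 1 3584 (.cut 2 3840 (.out 0) (.out 3)) (.mult [(0, 102844034832575377634685573909834406561420991602098741459288064)])))))))⟩ = true := by
  decide +kernel

end Vale.Agent.P154.Ly.BC
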