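import Vale.Agent.P154.LyBCF124
import Vale.Agent.P154.LyBCF125
import Vale.Agent.P154.LyBCF112
import Vale.Agent.P154.LyBCF113
import Vale.Agent.P154.LyBCF114
import Vale.Agent.P154.LyBCF115
import Vale.Agent.P154.LyBCF116
import Vale.Agent.P154.LyBCF117
import Vale.Agent.P154.LyBCF118
import Vale.Agent.P154.LyBCF119
import Vale.Agent.P154.LyBCF120
import Vale.Agent.P154.LyBCF121
import Vale.Agent.P154.LyBCF122
import Vale.Agent.P154.LyBCF123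

/-!
Band C: facets assembled.
-/

open scoped BigOperators

namespace Vale.Agent.P154.Ly.BC

lemma facet1 : facetTest 8 band ks (⟨![(-1000000000), 0, 0, 0, 0, 0, 0, 0, 0], 880925626, 1001⟩ : Facet 9) ⟨4096, 402, 16, (.cut 2 2048 t1_0 (.cut 1 2048 t1_1 (.cut 2 3072 t1_2 (.cut 1 3072 t1_3 (.cut 2 3584 t1_4 (.cut 1 3584 t1_5 (.cut 2 3840 t1_6 (.cut 1 3840 t1_7 (.cut 0 48125000 (.cut 2 3968 t1_8 (.cut 1 3968 t1_9 (.cut 0 47562500 t1_10 t1_11))) (.cut 2 3968 t1_12 (.cut 1 3968 t1_13 (.cut 0 48687500 t1_14 t1_15))))))))))))⟩ = true :=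
  facet_of_tree (f := fc1) (by decide +kernel) (by decide +kernel) (chk_cut h1_0 (chk_cut h1_1 (chk_cut h1_2 (chk_cut h1_3 (chk_cut h1_4 (chk_cut h1_5 (chk_cut h1_6 (chk_cut h1_7 (chk_cut (chk_cut h1_8 (chk_cut h1_9 (chk_cut h1_10 h1_11))) (chk_cut h1_12 (chk_cut h1_13 (chk_cut h1_14 h1_15))))))))))))

lemma facet2 : facetTest 8 band ks (⟨![0, (-1000000000), 0, 0, 0, 0, 0, 0, 0], 1357160776, 1001⟩ : Facet 9) ⟨4096, 401, 16, (.cut 2 2048 t2_0 (.cut 1 2048 t2_1 (.cut 2 3072 t2_2 (.cut 1 3072 t2_3 (.cut 2 3584 t2_4 (.cut 1 3584 t2_5 (.cut 2 3840 t2_6 (.cut 1 3840 t2_7 (.cut 0 48125000 (.cut 2 3968 t2_8 (.cut 1 3968 t2_9 (.cut 0 47562500 t2_10 t2_11))) (.cut 2 3968 t2_12 (.cut 1 3968 t2_13 (.cut 0 48687500 t2_14 t2_15))))))))))))⟩ = true :=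
  facet_of_tree (f := fc2) (by decide +kernel) (by decide +kernel) (chk_cut h2_0 (chk_cut h2_1 (chk_cut h2_2 (chk_cut h2_3 (chk_cut h2_4 (chk_cut h2_5 (chk_cut h2_6 (chk_cut h2_7 (chk_cut (chk_cut h2_8 (chk_cut h2_9 (chk_cut h2_10 h2_11))) (chk_cut h2_12 (chk_cut h2_13 (chk_cut h2_14 h2_15))))))))))))

lemma facet3 : facetTest 8 band ks (⟨![0, 0, (-1000000000), 0, 0, 0, 0, 0, 0], 1749400815, 1001⟩ : Facet 9) ⟨4096, 402, 16, (.cut 2 2048 t3_0 (.cut 1 2048 t3_1 (.cut 2 3072 t3_2 (.cut 1 3072 t3_3 (.cut 2 3584 t3_4 (.cut 1 3584 t3_5 (.cut 2 3840 t3_6 (.cut 1 3840 t3_7 (.cut 0 48125000 (.cut 2 3968 t3_8 (.cut 1 3968 t3_9 (.cut 0 47562500 (.cut 2 4032 t3_10 (.cut 1 4032 t3_11 (.cut 0 47281250 t3_12 t3_13))) (.cut 2 4032 t3_14 (.cut 1 4032 t3_15 (.cut 0 47843750 t3_16 t3_17)))))) (.cut 2 3968 t3_18 (.cut 1 3968 t3_19 (.cut 0 48687500 (.cut 2 4032 t3_20 (.cut 1 4032 t3_21 (.cut 0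 48406250 t3_22 t3_23))) (.cut 2 4032 t3_24 (.cut 1 4032 t3_25 (.cut 0 48968750 t3_26 t3_27)))))))))))))))⟩ = true :=
  facet_of_tree (f := fc3) (by decide +kernel) (by decide +kernel) (chk_cut h3_0 (chk_cut h3_1 (chk_cut h3_2 (chk_cut h3_3 (chk_cut h3_4 (chk_cut h3_5 (chk_cut h3_6 (chk_cut h3_7 (chk_cut (chk_cut h3_8 (chk_cut h3_9 (chk_cut (chk_cut h3_10 (chk_cut h3_11 (chk_cut h3_12 h3_13))) (chk_cut h3_14 (chk_cut h3_15 (chk_cut h3_16 h3_17)))))) (chk_cut h3_18 (chk_cut h3_19 (chk_cut (chk_cut h3_20 (chk_cut h3_21 (chk_cut h3_22 h3_23))) (chk_cut h3_24 (chk_cut h3_25 (chk_cut h3_26 h3_27)))))))))))))))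

lemma facet4 : facetTest 8 band ks (⟨![0, 0, 0, (-1000000000), 0, 0, 0, 0, 0], 1590558407, 1001⟩ : Facet 9) ⟨4096, 402, 16, (.cut 2 2048 t4_0 (.cut 1 2048 t4_1 (.cut 2 3072 t4_2 (.cut 1 3072 t4_3 (.cut 2 3584 t4_4 (.cut 1 3584 t4_5 (.cut 2 3840 t4_6 (.cut 1 3840 t4_7 (.cut 0 48125000 (.cut 2 3968 t4_8 (.cut 1 3968 t4_9 (.cut 0 47562500 t4_10 t4_11))) (.cut 2 3968 t4_12 (.cut 1 3968 t4_13 (.cut 0 48687500 t4_14 t4_15))))))))))))⟩ = true :=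
  facet_of_tree (f := fc4) (by decide +kernel) (by decide +kernel) (chk_cut h4_0 (chk_cut h4_1 (chk_cut h4_2 (chk_cut h4_3 (chk_cut h4_4 (chk_cut h4_5 (chk_cut h4_6 (chk_cut h4_7 (chk_cut (chk_cut h4_8 (chk_cut h4_9 (chk_cut h4_10 h4_11))) (chk_cut h4_12 (chk_cut h4_13 (chk_cut h4_14 h4_15))))))))))))

lemma facet5 : facetTest 8 band ks (⟨![0, 0, 0, 0, (-1000000000), 0, 0, 0, 0], 2203509476, 1001⟩ : Facet 9) ⟨4096, 402, 16, (.cut 2 2048 t5_0 (.cut 1 2048 t5_1 (.cut 2 3072 t5_2 (.cut 1 3072 t5_3 (.cut 2 3584 t5_4 (.cut 1 3584 t5_5 (.cut 2 3840 t5_6 (.cut 1 3840 t5_7 (.cut 0 48125000 (.cut 2 3968 t5_8 (.cut 1 3968 t5_9 (.cut 0 47562500 (.cut 2 4032 t5_10 (.cut 1 4032 t5_11 (.cut 0 47281250 t5_12 t5_13))) (.cut 2 4032 t5_14 (.cut 1 4032 t5_15 (.cut 0 47843750 t5_16 t5_17)))))) (.cut 2 3968 t5_18 (.cut 1 3968 t5_19 (.cut 0 48687500 (.cut 2 4032 t5_20 (.cut 1 4032 t5_21 (.cut 0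 48406250 t5_22 t5_23))) (.cut 2 4032 t5_24 (.cut 1 4032 t5_25 (.cut 0 48968750 t5_26 t5_27)))))))))))))))⟩ = true :=
  facet_of_tree (f := fc5) (by decide +kernel) (by decide +kernel) (chk_cut h5_0 (chk_cut h5_1 (chk_cut h5_2 (chk_cut h5_3 (chk_cut h5_4 (chk_cut h5_5 (chk_cut h5_6 (chk_cut h5_7 (chk_cut (chk_cut h5_8 (chk_cut h5_9 (chk_cut (chk_cut h5_10 (chk_cut h5_11 (chk_cut h5_12 h5_13))) (chk_cut h5_14 (chk_cut h5_15 (chk_cut h5_16 h5_17)))))) (chk_cut h5_18 (chk_cut h5_19 (chk_cut (chk_cut h5_20 (chk_cut h5_21 (chk_cut h5_22 h5_23))) (chk_cut h5_24 (chk_cut h5_25 (chk_cut h5_26 h5_27)))))))))))))))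

lemma facet6 : facetTest 8 band ks (⟨![0, 0, 0, 0, 0, (-1000000000), 0, 0, 0], 1660440880, 1001⟩ : Facet 9) ⟨4096, 402, 16, (.cut 2 2048 t6_0 (.cut 1 2048 t6_1 (.cut 2 3072 t6_2 (.cut 1 3072 t6_3 (.cut 2 3584 t6_4 (.cut 1 3584 t6_5 (.cut 2 3840 t6_6 (.cut 1 3840 t6_7 (.cut 0 48125000 (.cut 2 3968 t6_8 (.cut 1 3968 t6_9 (.cut 0 47562500 t6_10 t6_11))) (.cut 2 3968 t6_12 (.cut 1 3968 t6_13 (.cut 0 48687500 t6_14 t6_15))))))))))))⟩ = true :=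
  facet_of_tree (f := fc6) (by decide +kernel) (by decide +kernel) (chk_cut h6_0 (chk_cut h6_1 (chk_cut h6_2 (chk_cut h6_3 (chk_cut h6_4 (chk_cut h6_5 (chk_cut h6_6 (chk_cut h6_7 (chk_cut (chk_cut h6_8 (chk_cut h6_9 (chk_cut h6_10 h6_11))) (chk_cut h6_12 (chk_cut h6_13 (chk_cut h6_14 h6_15))))))))))))

lemma facet7 : facetTest 8 band ks (⟨![0, 0, 0, 0, 0, 0, (-1000000000), 0, 0], 2397584674, 1000⟩ : Facet 9) ⟨4096, 403, 16, (.cut 2 2048 t7_0 (.cut 1 2048 t7_1 (.cut 2 3072 t7_2 (.cut 1 3072 t7_3 (.cut 2 3584 t7_4 (.cut 1 3584 t7_5 (.cut 2 3840 t7_6 (.cut 1 3840 t7_7 (.cut 0 48125000 (.cut 2 3968 t7_8 (.cut 1 3968 t7_9 (.cut 0 47562500 (.cut 2 4032 t7_10 (.cut 1 4032 t7_11 (.cut 0 47281250 t7_12 t7_13))) (.cut 2 4032 t7_14 (.cut 1 4032 t7_15 (.cut 0 47843750 t7_16 t7_17)))))) (.cut 2 3968 t7_18 (.cut 1 3968 t7_19 (.cut 0 48687500 (.cut 2 4032 t7_20 (.cut 1 4032 t7_21 (.cut 0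 48406250 t7_22 t7_23))) (.cut 2 4032 t7_24 (.cut 1 4032 t7_25 (.cut 0 48968750 t7_26 t7_27)))))))))))))))⟩ = true :=
  facet_of_tree (f := fc7) (by decide +kernel) (by decide +kernel) (chk_cut h7_0 (chk_cut h7_1 (chk_cut h7_2 (chk_cut h7_3 (chk_cut h7_4 (chk_cut h7_5 (chk_cut h7_6 (chk_cut h7_7 (chk_cut (chk_cut h7_8 (chk_cut h7_9 (chk_cut (chk_cut h7_10 (chk_cut h7_11 (chk_cut h7_12 h7_13))) (chk_cut h7_14 (chk_cut h7_15 (chk_cut h7_16 h7_17)))))) (chk_cut h7_18 (chk_cut h7_19 (chk_cut (chk_cut h7_20 (chk_cut h7_21 (chk_cut h7_22 h7_23))) (chk_cut h7_24 (chk_cut h7_25 (chk_cut h7_26 h7_27)))))))))))))))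

lemma facet8 : facetTest 8 band ks (⟨![0, 0, 0, 0, 0, 0, 0, (-1000000000), 0], 2618295704, 1001⟩ : Facet 9) ⟨4096, 403, 16, (.cut 2 2048 t8_0 (.cut 1 2048 t8_1 (.cut 2 3072 t8_2 (.cut 1 3072 t8_3 (.cut 2 3584 t8_4 (.cut 1 3584 t8_5 (.cut 2 3840 t8_6 (.cut 1 3840 t8_7 (.cut 0 48125000 (.cut 2 3968 t8_8 (.cut 1 3968 t8_9 (.cut 0 47562500 (.cut 2 4032 t8_10 (.cut 1 4032 t8_11 (.cut 0 47281250 t8_12 t8_13))) (.cut 2 4032 t8_14 (.cut 1 4032 t8_15 (.cut 0 47843750 t8_16 t8_17)))))) (.cut 2 3968 t8_18 (.cut 1 3968 t8_19 (.cut 0 48687500 (.cut 2 4032 t8_20 (.cut 1 4032 t8_21 (.cut 0 48406250 t8_22 t8_23))) (.cut 2 4032 t8_24 (.cut 1 4032 t8_25 (.cut 0 48968750 t8_26 t8_27)))))))))))))))⟩ = true :=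
  facet_of_tree (f := fc8) (by decide +kernel) (by decide +kernel) (chk_cut h8_0 (chk_cut h8_1 (chk_cut h8_2 (chk_cut h8_3 (chk_cut h8_4 (chk_cut h8_5 (chk_cut h8_6 (chk_cut h8_7 (chk_cut (chk_cut h8_8 (chk_cut h8_9 (chk_cut (chk_cut h8_10 (chk_cut h8_11 (chk_cut h8_12 h8_13))) (chk_cut h8_14 (chk_cut h8_15 (chk_cut h8_16 h8_17)))))) (chk_cut h8_18 (chk_cut h8_19 (chk_cut (chk_cut h8_20 (chk_cut h8_21 (chk_cut h8_22 h8_23))) (chk_cut h8_24 (chk_cut h8_25 (chk_cut h8_26 h8_27)))))))))))))))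

lemma facet22 : facetTest 8 band ks (⟨![(-46248184), 83942105, (-424900952), (-236616773), (-190324342), (-446866058), (-192710780), 362309921, 569954958], 157904132, 292086⟩ : Facet 9) ⟨4096, 399, 16, (.cut 2 2048 t22_0 (.cut 1 2048 t22_1 (.cut 2 3072 t22_2 t22_3)))⟩ = true :=
  facet_of_tree (f := fc22) (by decide +kernel) (by decide +kernel) (chk_cut h22_0 (chk_cut h22_1 (chk_cut h22_2 h22_3)))

lemma facet40 : facetTest 8 band ks (⟨![(-370651886), (-345792726), (-342666435), (-330813565), (-65867594), (-334163089), 79622254, 341792626, 490185152], 190076427, 1232434⟩ : Facet 9) ⟨4096, 400, 16, (.cut 2 2048 t40_0 (.cut 1 2048 t40_1 (.cut 2 3072 t40_2 t40_3)))⟩ = true :=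
  facet_of_tree (f := fc40) (by decide +kernel) (by decide +kernel) (chk_cut h40_0 (chk_cut h40_1 (chk_cut h40_2 h40_3)))

lemma facet41 : facetTest 8 band ks (⟨![(-293255165), 32360137, (-535920047), 380390545, (-223139405), 516393758, 43569088, 8284688, 145496955], (-378566959), 34570038⟩ : Facet 9) ⟨4096, 402, 16, (.cut 2 2048 t41_0 (.cut 1 2048 t41_1 (.cut 2 3072 t41_2 (.cut 1 3072 t41_3 (.cut 2 3584 t41_4 (.cut 1 3584 t41_5 (.cut 2 3840 (.cut 1 3840 t41_6 t41_7) t41_8)))))))⟩ = true :=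
  facet_of_tree (f := fc41) (by decide +kernel) (by decide +kernel) (chk_cut h41_0 (chk_cut h41_1 (chk_cut h41_2 (chk_cut h41_3 (chk_cut h41_4 (chk_cut h41_5 (chk_cut (chk_cut h41_6 h41_7) h41_8)))))))

lemma facet42 : facetTest 8 band ks (⟨![293255165, (-32360137), 535920047, (-380390545), 223139405, (-516393758), (-43569088), (-8284688), (-144446532)], 378566959, 1060⟩ : Facet 9) ⟨4096, 374, 16, (.cut 2 2048 t42_0 (.cut 1 2048 t42_1 (.cut 2 3072 (.cut 1 3072 t42_2 (.cut 1 3584 t42_3 (.cut 2 2560 t42_4 (.cut 1 3840 t42_5 (.cut 0 48125000 t42_6 t42_7))))) t42_8)))⟩ = true :=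
  facet_of_tree (f := fc42) (by decide +kernel) (by decide +kernel) (chk_cut h42_0 (chk_cut h42_1 (chk_cut (chk_cut h42_2 (chk_cut h42_3 (chk_cut h42_4 (chk_cut h42_5 (chk_cut h42_6 h42_7))))) h42_8)))

lemma facet58 : facetTest 8 band ks (⟨![(-477983129), (-533175002), (-216478547), (-336019572), 22097833, (-221936570), 223391821, 264783866, 351711374], 183943980, 1163575⟩ : Facet 9) ⟨4096, 400, 16, (.cut 2 2048 t58_0 (.cut 1 2048 t58_1 (.cut 2 3072 (.cut 1 3072 t58_2 (.cut 1 3584 t58_3 (.cut 2 2560 t58_4 (.cut 1 3840 t58_5 (.cut 0 48125000 t58_6 (.cut 2 2816 t58_7 (.cut 1 3968 t58_8 (.cut 0 48687500 t58_9 (.cut 2 2944 (.cut 1 4032 t58_10 (.cut 0 48968750 t58_11 (.cut 2 2880 t58_12 (.cut 1 4064 t58_13 (.cut 0 49109375 t58_14 t58_15))))) t58_16))))))))) t58_17)))⟩ = true :=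
  facet_of_tree (f := fc58) (by decide +kernel) (by decide +kernel) (chk_cut h58_0 (chk_cut h58_1 (chk_cut (chk_cut h58_2 (chk_cut h58_3 (chk_cut h58_4 (chk_cut h58_5 (chk_cut h58_6 (chk_cut h58_7 (chk_cut h58_8 (chk_cut h58_9 (chk_cut (chk_cut h58_10 (chk_cut h58_11 (chk_cut h58_12 (chk_cut h58_13 (chk_cut h58_14 h58_15))))) h58_16))))))))) h58_17)))

lemma facet60 : facetTest 8 band ks (⟨![308259035, (-23061045), 549856207, (-387161353), 230314885, (-531142606), (-44946525), (-376674), (-129234567)], 312568348, 15076⟩ : Facet 9) ⟨4096, 373, 16, (.cut 2 2048 t60_0 (.cut 1 2048 t60_1 (.cut 2 3072 (.cut 1 3072 t60_2 (.cut 1 3584 t60_3 (.cut 2 2560 t60_4 (.cut 1 3840 t60_5 (.cut 0 48125000 t60_6 t60_7))))) t60_8)))⟩ = true :=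
  facet_of_tree (f := fc60) (by decide +kernel) (by decide +kernel) (chk_cut h60_0 (chk_cut h60_1 (chk_cut (chk_cut h60_2 (chk_cut h60_3 (chk_cut h60_4 (chk_cut h60_5 (chk_cut h60_6 h60_7))))) h60_8)))

lemma facet72 : facetTest 8 band ks (⟨![95365630, 255063080, (-417510975), (-161551534), (-226258089), (-430332671), (-281596375), 325827012, 539656586], 114092166, 24848⟩ : Facet 9) ⟨4096, 373, 16, (.cut 2 2048 t72_0 (.cut 1 2048 t72_1 (.cut 2 3072 t72_2 t72_3)))⟩ = true :=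
  facet_of_tree (f := fc72) (by decide +kernel) (by decide +kernel) (chk_cut h72_0 (chk_cut h72_1 (chk_cut h72_2 h72_3)))

lemma facet74 : facetTest 8 band ks (⟨![(-514645911), (-634076690), (-76633348), (-318867106), 101328181, (-125135570), 314759611, 178808437, 200878836], 170007674, 220545⟩ : Facet 9) ⟨4096, 373, 16, (.cut 2 2048 t74_0 (.cut 1 2048 t74_1 (.cut 2 3072 t74_2 t74_3)))⟩ = true :=
  facet_of_tree (f := fc74) (by decide +kernel) (by decide +kernel) (chk_cut h74_0 (chk_cut h74_1 (chk_cut h74_2 h74_3)))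

lemma facet76 : facetTest 8 band ks (⟨![330942542, (-2384578), 566964807, (-380419630), 236623691, (-531634126), (-49123074), (-1471541), (-131482968)], 254478933, 2665⟩ : Facet 9) ⟨4096, 373, 16, (.cut 2 2048 t76_0 (.cut 1 2048 t76_1 (.cut 2 3072 (.cut 1 3072 t76_2 (.cut 1 3584 t76_3 (.cut 2 2560 t76_4 (.cut 1 3840 t76_5 (.cut 0 48125000 t76_6 t76_7))))) t76_8)))⟩ = true :=
  facet_of_tree (f := fc76) (by decide +kernel) (by decide +kernel) (chk_cut h76_0 (chk_cut h76_1 (chk_cut (chk_cut h76_2 (chk_cut h76_3 (chk_cut h76_4 (chk_cut h76_5 (chk_cut h76_6 h76_7))))) h76_8)))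

lemma facet77 : facetTest 8 band ks (⟨![66436915, 2280696, (-296054252), (-74150549), 192219698, (-105338134), 165648834, 237269837, 241883599], (-872339069), 120660646⟩ : Facet 9) ⟨4096, 373, 16, (.cut 2 2048 t77_0 (.cut 1 2048 t77_1 (.cut 2 3072 t77_2 (.cut 1 3072 t77_3 (.cut 2 3584 t77_4 t77_5)))))⟩ = true :=
  facet_of_tree (f := fc77) (by decide +kernel) (by decide +kernel) (chk_cut h77_0 (chk_cut h77_1 (chk_cut h77_2 (chk_cut h77_3 (chk_cut h77_4 h77_5)))))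

lemma facet78 : facetTest 8 band ks (⟨![0, 0, 936075210, 0, 0, 0, 0, 0, 0], (-1000000000), 128706677⟩ : Facet 9) ⟨4096, 373, 16, (.cut 2 2048 t78_0 (.cut 1 2048 t78_1 (.cut 2 3072 t78_2 (.cut 1 3072 t78_3 (.cut 2 3584 t78_4 t78_5)))))⟩ = true :=
  facet_of_tree (f := fc78) (by decide +kernel) (by decide +kernel) (chk_cut h78_0 (chk_cut h78_1 (chk_cut h78_2 (chk_cut h78_3 (chk_cut h78_4 h78_5)))))

lemma facet79 : facetTest 8 band ks (⟨![(-1000000000), 0, 511307965, 0, 0, 0, 0, 0, 0], 0, 5438143⟩ : Facet 9) ⟨4096, 372, 16, (.cut 2 2048 t79_0 (.cut 1 2048 t79_1 (.cut 2 3072 t79_2 (.cut 1 3072 t79_3 (.cut 2 3584 (.cut 1 3584 t79_4 (.cut 1 3840 t79_5 (.cut 0 48125000 t79_6 t79_7))) t79_8)))))⟩ = true :=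
  facet_of_tree (f := fc79) (by decide +kernel) (by decide +kernel) (chk_cut h79_0 (chk_cut h79_1 (chk_cut h79_2 (chk_cut h79_3 (chk_cut (chk_cut h79_4 (chk_cut h79_5 (chk_cut h79_6 h79_7))) h79_8)))))

lemma facet86 : facetTest 8 band ks (⟨![0, 0, 1648531456, 0, 0, 0, 0, 0, (-1000000000)], 0, 1319⟩ : Facet 9) ⟨4096, 374, 16, (.cut 2 2048 t86_0 (.cut 1 2048 t86_1 (.cut 2 3072 t86_2 (.cut 1 3072 t86_3 (.cut 2 3584 t86_4 t86_5)))))⟩ = true :=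
  facet_of_tree (f := fc86) (by decide +kernel) (by decide +kernel) (chk_cut h86_0 (chk_cut h86_1 (chk_cut h86_2 (chk_cut h86_3 (chk_cut h86_4 h86_5)))))

lemma facet93 : facetTest 8 band ks (⟨![(-468249096), (-539365334), (-188838493), (-349505377), 32254240, (-236589363), 225802320, 260914484, 341824597], 194489679, 137232⟩ : Facet 9) ⟨4096, 373, 16, (.cut 2 2048 t93_0 (.cut 1 2048 t93_1 (.cut 2 3072 t93_2 t93_3)))⟩ = true :=
  facet_of_tree (f := fc93) (by decide +kernel) (by decide +kernel) (chk_cut h93_0 (chk_cut h93_1 (chk_cut h93_2 h93_3)))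

lemma facet96 : facetTest 8 band ks (⟨![0, 0, 0, 0, 0, 0, 0, 0, 606282602], (-1000000000), 118361677⟩ : Facet 9) ⟨4096, 373, 16, (.cut 2 2048 t96_0 (.cut 1 2048 t96_1 (.cut 2 3072 t96_2 (.cut 1 3072 t96_3 (.cut 2 3584 t96_4 (.cut 1 3584 t96_5 (.cut 2 3840 (.cut 1 3840 (.cut 0 48125000 t96_6 t96_7) (.cut 0 48125000 (.cut 1 3968 (.cut 0 47562500 (.cut 2 3712 (.cut 0 47281250 (.cut 2 3648 t96_8 t96_9) t96_10) t96_11) t96_12) t96_13) t96_14)) t96_15)))))))⟩ = true :=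
  facet_of_tree (f := fc96) (by decide +kernel) (by decide +kernel) (chk_cut h96_0 (chk_cut h96_1 (chk_cut h96_2 (chk_cut h96_3 (chk_cut h96_4 (chk_cut h96_5 (chk_cut (chk_cut (chk_cut h96_6 h96_7) (chk_cut (chk_cut (chk_cut (chk_cut (chk_cut (chk_cut h96_8 h96_9) h96_10) h96_11) h96_12) h96_13) h96_14)) h96_15)))))))

lemma facet98 : facetTest 8 band ks (⟨![0, (-1000000000), 0, 0, 0, 0, 0, 0, 521105042], 0, 15812423⟩ : Facet 9) ⟨4096, 372, 16, (.cut 2 2048 t98_0 (.cut 1 2048 t98_1 (.cut 2 3072 t98_2 (.cut 1 3072 t98_3 (.cut 2 3584 t98_4 (.cut 1 3584 t98_5 (.cut 2 3840 (.cut 1 3840 (.cut 0 48125000 t98_6 (.cut 0 48687500 t98_7 (.cut 2 3712 t98_8 t98_9))) (.cut 0 48125000 t98_10 t98_11)) t98_12)))))))⟩ = true :=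
  facet_of_tree (f := fc98) (by decide +kernel) (by decide +kernel) (chk_cut h98_0 (chk_cut h98_1 (chk_cut h98_2 (chk_cut h98_3 (chk_cut h98_4 (chk_cut h98_5 (chk_cut (chk_cut (chk_cut h98_6 (chk_cut h98_7 (chk_cut h98_8 h98_9))) (chk_cut h98_10 h98_11)) h98_12)))))))

lemma facet100 : facetTest 8 band ks (⟨![0, 0, 0, (-1000000000), 0, 0, 0, 0, 648178146], 0, 20171853⟩ : Facet 9) ⟨4096, 372, 16, (.cut 2 2048 t100_0 (.cut 1 2048 t100_1 (.cut 2 3072 t100_2 (.cut 1 3072 t100_3 (.cut 2 3584 t100_4 (.cut 1 3584 t100_5 (.cut 2 3840 (.cut 1 3840 (.cut 0 48125000 t100_6 (.cut 0 48687500 t100_7 (.cut 2 3712 t100_8 t100_9))) (.cut 0 48125000 t100_10 t100_11)) t100_12)))))))⟩ = true :=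
  facet_of_tree (f := fc100) (by decide +kernel) (by decide +kernel) (chk_cut h100_0 (chk_cut h100_1 (chk_cut h100_2 (chk_cut h100_3 (chk_cut h100_4 (chk_cut h100_5 (chk_cut (chk_cut (chk_cut h100_6 (chk_cut h100_7 (chk_cut h100_8 h100_9))) (chk_cut h100_10 h100_11)) h100_12)))))))

lemma facet102 : facetTest 8 band ks (⟨![0, 0, 0, 0, 0, (-1000000000), 0, 0, 690253956], 0, 21660619⟩ : Facet 9) ⟨4096, 372, 16, (.cut 2 2048 t102_0 (.cut 1 2048 t102_1 (.cut 2 3072 t102_2 (.cut 1 3072 t102_3 (.cut 2 3584 t102_4 (.cut 1 3584 t102_5 (.cut 2 3840 (.cut 1 3840 (.cut 0 48125000 t102_6 (.cut 0 48687500 t102_7 (.cut 2 3712 t102_8 t102_9))) (.cut 0 48125000 t102_10 t102_11)) t102_12)))))))⟩ = true :=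
  facet_of_tree (f := fc102) (by decide +kernel) (by decide +kernel) (chk_cut h102_0 (chk_cut h102_1 (chk_cut h102_2 (chk_cut h102_3 (chk_cut h102_4 (chk_cut h102_5 (chk_cut (chk_cut (chk_cut h102_6 (chk_cut h102_7 (chk_cut h102_8 h102_9))) (chk_cut h102_10 h102_11)) h102_12)))))))

lemma facet103 : facetTest 8 band ks (⟨![0, 0, 0, 0, 0, 0, (-1000000000), 0, 883356236], 0, 6632606⟩ : Facet 9) ⟨4096, 372, 16, (.cut 2 2048 t103_0 (.cut 1 2048 t103_1 (.cut 2 3072 t103_2 (.cut 1 3072 t103_3 (.cut 2 3584 t103_4 (.cut 1 3584 t103_5 (.cut 2 3840 (.cut 1 3840 (.cut 0 48125000 t103_6 (.cut 0 48687500 t103_7 (.cut 2 3712 t103_8 t103_9))) (.cut 0 48125000 t103_10 t103_11)) t103_12)))))))⟩ = true :=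
  facet_of_tree (f := fc103) (by decide +kernel) (by decide +kernel) (chk_cut h103_0 (chk_cut h103_1 (chk_cut h103_2 (chk_cut h103_3 (chk_cut h103_4 (chk_cut h103_5 (chk_cut (chk_cut (chk_cut h103_6 (chk_cut h103_7 (chk_cut h103_8 h103_9))) (chk_cut h103_10 h103_11)) h103_12)))))))

lemma facet114 : facetTest 8 band ks (⟨![(-410336835), (-464943989), (-228671071), (-370648506), 557317, (-315241197), 164424398, 298527762, 412027284], 207713303, 2499⟩ : Facet 9) ⟨4096, 374, 16, (.cut 2 2048 t114_0 (.cut 1 2048 t114_1 (.cut 2 3072 t114_2 (.cut 1 3072 t114_3 (.cut 2 3584 t114_4 t114_5)))))⟩ = true :=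
  facet_of_tree (f := fc114) (by decide +kernel) (by decide +kernel) (chk_cut h114_0 (chk_cut h114_1 (chk_cut h114_2 (chk_cut h114_3 (chk_cut h114_4 h114_5)))))

lemma facet129 : facetTest 8 band ks (⟨![0, 0, 1648531456, 0, 0, 0, 0, 0, (-1000000000)], 0, 1319⟩ : Facet 9) ⟨4096, 374, 16, (.cut 2 2048 t129_0 (.cut 1 2048 t129_1 (.cut 2 3072 t129_2 (.cut 1 3072 t129_3 (.cut 2 3584 t129_4 t129_5)))))⟩ = true :=
  facet_of_tree (f := fc129) (by decide +kernel) (by decide +kernel) (chk_cut h129_0 (chk_cut h129_1 (chk_cut h129_2 (chk_cut h129_3 (chk_cut h129_4 h129_5)))))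

lemma facet134 : facetTest 8 band ks (⟨![0, 0, 0, 0, 0, 0, 0, 0, 1149881443], (-1000000000), 1001⟩ : Facet 9) ⟨4096, 374, 16, (.cut 2 2048 t134_0 (.cut 1 2048 t134_1 (.cut 2 3072 t134_2 (.cut 1 3072 t134_3 (.cut 2 3584 t134_4 (.cut 1 3584 t134_5 (.cut 2 3840 t134_6 t134_7)))))))⟩ = true :=
  facet_of_tree (f := fc134) (by decide +kernel) (by decide +kernel) (chk_cut h134_0 (chk_cut h134_1 (chk_cut h134_2 (chk_cut h134_3 (chk_cut h134_4 (chk_cut h134_5 (chk_cut h134_6 h134_7)))))))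

lemma facet145 : facetTest 8 band ks (⟨![0, 0, 0, 0, 0, 0, 0, 0, 1149881443], (-1000000000), 1001⟩ : Facet 9) ⟨4096, 374, 16, (.cut 2 2048 t145_0 (.cut 1 2048 t145_1 (.cut 2 3072 t145_2 (.cut 1 3072 t145_3 (.cut 2 3584 t145_4 (.cut 1 3584 t145_5 (.cut 2 3840 t145_6 t145_7)))))))⟩ = true :=
  facet_of_tree (f := fc145) (by decide +kernel) (by decide +kernel) (chk_cut h145_0 (chk_cut h145_1 (chk_cut h145_2 (chk_cut h145_3 (chk_cut h145_4 (chk_cut h145_5 (chk_cut h145_6 h145_7)))))))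

end Vale.Agent.P154.Ly.BC
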