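import Vale.Agent.P154.LyBC

/-!
Band C: forms of drop 0.
-/

open scoped BigOperators

namespace Vale.Agent.P154.Ly.BC

/-- step 0 -/
def S0 : Step 9 := ⟨1000000000, 9, 27468719, ![(-1000000000), 0, 0, 0, 0, 0, 0, 0, 0], 999440000000, ![30000000000, 30000000000, 30000000000, 30000000000, 30000000000, 30000000000, 30000000000, 30000000000, 30000000000, 30000000000], ![0, 0, 0, 0, 0, 0, 0, 0, 0, 0], 0, 100000000, ![30000000000, 30000000000, 30000000000, 30000000000, 30000000000, 30000000000, 30000000000, 30000000000, 30000000000], ⟨999340000000, 30000000000, 0, 0⟩, ⟨0, 0, 0, 0⟩⟩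

set_option maxHeartbeats 2000000 in
/-- region 0 of step 0 -/
noncomputable def r0_0 : Reg := ⟨100000, 250000, ⟨0, 0, 0, 0⟩, ⟨4096, 602, 32, (.mult [])⟩, ⟨256, 356, 32, (.mult [])⟩⟩

lemma r0_0_ok : S0.regTest 8 band ks 100000 r0_0 = true := by decide +kernel

set_option maxHeartbeats 2000000 in
/-- region 1 of step 0 -/
noncomputable def r0_1 : Reg := ⟨250000, 298000, ⟨0, 0, 0, 0⟩, ⟨4096, 602, 32, (.mult [])⟩, ⟨256, 356, 32, (.mult [])⟩⟩

lemma r0_1_ok : S0.regTest 8 band ks 100000 r0_1 = true := by decide +kernel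

set_option maxHeartbeats 2000000 in
/-- region 2 of step 0 -/
noncomputable def r0_2 : Reg := ⟨298000, 299900, ⟨0, 0, 0, 89588434⟩, ⟨4096, 602, 32, (.mult [])⟩, ⟨256, 357, 32, (.mult [])⟩⟩

lemma r0_2_ok : S0.regTest 8 band ks 100000 r0_2 = true := by decide +kernel

set_option maxHeartbeats 2000000 in
/-- region 3 of step 0 -/
noncomputable def r0_3 : Reg := ⟨299900, 300000, ⟨0, 0, 0, 300000000⟩, ⟨4096, 602, 32, (.mult [])⟩, ⟨256, 358, 32, (.mult [])⟩⟩

lemma r0_3_ok : S0.regTest 8 band ks 100000 r0_3 = true := by decide +kernel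

lemma regs0 : S0.regsTest 8 band ks 100000 [r0_0, r0_1, r0_2, r0_3] = true := by
  simp only [Step.regsTest, List.all_cons, List.all_nil, r0_0_ok, r0_1_ok, r0_2_ok, r0_3_ok,
    Bool.and_true]
  decide +kernel

end Vale.Agent.P154.Ly.BC
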