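import Vale.Agent.P154.LyBC

/-!
Band C: facet certificates checked subtree by subtree.
-/

namespace Vale.Agent.P154.Ly.BC

open Box (TrM Ex Bx)

variable {N m : ℕ} {B : Band} {ks : Fin m → Tri} {f : Facet m}

lemma facet_of_tree {R : ℤ} {K D : ℕ} {T : TrM} (hD : Nat.ble D (2 * N) = true)
    (h0 : (decide (0 < R) && okTri N (pairs ks f.e)) = true)
    (hT : T.chkM K D (wGuard N R B.Q) (fExp N R B.Q (pairs ks f.e) f.c0 f.c1)
      (wBox R B.P0 B.P1) = true) :
    facetTest N B ks f ⟨R, K, D, T⟩ = true := by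
  simp only [Bool.and_eq_true] at h0
  simp only [facetTest, hD, fTest, h0.1, h0.2, hT, Bool.and_self]

lemma chk_cut {K D i : ℕ} {c : ℤ} {l r : TrM} {G : List Ex} {p : Ex} {X : Bx}
    (hl : l.chkM K D G p (X.left i c) = true) (hr : r.chkM K D G p (X.right i c) = true) :
    (TrM.cut i c l r).chkM K D G p X = true := by
  simp only [TrM.chkM, hl, hr, Bool.and_self]

end Vale.Agent.P154.Ly.BC
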