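import Vale.Agent.P154.LyBCR0

/-!
Band C: scalar check of drop 0.
-/

open scoped BigOperators

namespace Vale.Agent.P154.Ly.BC

/-- the facets of step 0 -/
def F0 : List (Facet 9) := ([0] : List ℕ).filterMap fun i => Fs[i]?

set_option maxHeartbeats 2000000 in
/-- scalar tree of step 0 -/
noncomputable def T0 : STree 9 := (.leaf [15074477183341553664] [])

lemma sc0 : S0.scalarChk 10000000 (H 0) F0 16 12 40 T0 = true := by decide +kernel

end Vale.Agent.P154.Ly.BC
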