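import Vale.Agent.P154.LyBDR1

/-!
Band D: scalar check of drop 1.
-/

open scoped BigOperators

namespace Vale.Agent.P154.Ly.BD

/-- the facets of step 1 -/
def F1 : List (Facet 9) := ([0, 2, 4, 5, 6, 7, 15] : List ℕ).filterMap fun i => Fs[i]?

set_option maxHeartbeats 2000000 in
/-- scalar tree of step 1 -/
noncomputable def T1 : STree 9 := (.cut 1 164910204 (.cut 1 82095973 (.cut 2 177996659 (.cut 1 61571979 (.leaf [49335149172666, 60384567128860, 1651219091931, 209872454419, 332730405726, 23741625677, 5335964096] [0, 0, 119127138, 0, 178188921, 174234698]) (.cut 2 131683556 (.leaf [49335962134975, 60386910730983, 1662638674651, 193550654196, 334343264506, 25604149305, 5014098688] [0, 0, 158224923, 0, 209620717, 174256038]) (.leaf [49335475856593, 60388999528592, 1659191978182, 192190697245, 335684496421, 21050876293, 3374416643] [0, 0, 152639890, 0, 240389142, 173121497]))) (.cut 9 337785691 (.leaf [49335940792423, 60396469916083, 1641495227612, 200071949358, 340267434499, 3223872601, 4226018301] [0, 0, 125329964, 0, 232457874, 169985284]) (.leaf [49337348492807, 60389042023475, 1650239630786, 202253088135, 340362731676, 21991282067, 17208438209]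 [0, 0, 145551284, 0, 249851005, 175677064]))) (.cut 2 203926486 (.cut 2 126909354 (.leaf [49336881167237, 60389730282799, 1672638594702, 178882795192, 335768319068, 25829503655, 4269328479] [0, 0, 204533834, 0, 230075680, 173908424]) (.cut 9 376953691 (.leaf [49336864114059, 60392563826506, 1669680000809, 177796829185, 336723083428, 19879146692, 2240066300] [0, 0, 200261068, 0, 229286498, 172419546]) (.leaf [49336109294695, 60385250693775, 1675181448948, 179656244645, 335333809839, 34955122887, 7234963877] [0, 0, 203962035, 0, 298806483, 176233645]))) (.cut 9 385312466 (.leaf [49336937662551, 60396642376873, 1664136975176, 175023257781, 340548973095, 12916324012, 3574700490] [0, 0, 199143286, 0, 295873698, 171286702]) (.leaf [49340029597129, 60394344588876, 1668907318700, 174519304712, 345411105411, 24758214157, 22147693154] [0, 0, 253791784, 0, 342946342, 176495714])))) (.cut 2 222307351 (.leaf [49337977937952, 60396553675267, 1690969721974, 147559225411, 339055037882, 23356711164] [0, 0, 364546959, 0, 329820408, 172212514]) (.leaf [49338007551502, 60400041474463, 1686554655697, 145503129391, 341679929992, 16971080063, 11] [0, 0, 358124493,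 0, 405514092, 170979497])))

lemma sc1 : S1.scalarChk 10000000 (H 1) F1 16 12 40 T1 = true := by decide +kernel

end Vale.Agent.P154.Ly.BD
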