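import Vale.Agent.P154.LyBDR16

/-!
Band D: scalar check of drop 16.
-/

open scoped BigOperators

namespace Vale.Agent.P154.Ly.BD

/-- the facets of step 16 -/
def F16 : List (Facet 9) := ([2, 20, 23, 24, 25, 53, 55, 59, 60, 61] : List ℕ).filterMap fun i => Fs[i]?

set_option maxHeartbeats 2000000 in
/-- scalar tree of step 16 -/
noncomputable def T16 : STree 9 := (.cut 6 172195036 (.cut 6 54527529 (.cut 9 51390460 (.cut 6 16088612 (.leaf [22602050089977, 0, 5735010585467, 4178747641807, 36059750513, 0, 0, 16973447387, 76424120778, 19790806829] [28352085, 21438110, 0, 0, 51282275, 0, 48112900]) (.leaf [22660597699590, 0, 5746388268693, 4224956266284, 12524053581, 0, 6098645437, 17537146563, 24766149875, 24407599765] [28352085, 21438108, 0, 0, 51282274, 0, 48112900])) (.cut 6 33712623 (.leaf [22700481405812, 5606730315, 5752774838536, 4272536154765, 17557650374, 18102869891, 0, 30, 2171, 10876675135] [31006871, 30504139, 0, 0, 61006604, 0, 57576761]) (.cut 6 47355242 (.leaf [22666064582832, 2072020519, 5758211930445, 4261931541944, 12645717118, 10310935701, 0, 3948793064, 0, 16095264697] [28815827,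 40690720, 0, 0, 69021703, 0, 71905580]) (.leaf [22654041354587, 209245951, 5759564290417, 4255720085757, 10392758527, 5963970509, 0, 6912968192, 0, 18593373662] [28860315, 43065722, 0, 0, 71171545, 0, 75364609])))) (.cut 6 83944405 (.cut 9 65286671 (.leaf [17442916236219, 209687378055, 5611563108795, 0, 0, 0, 1780336732586, 1144978750318, 2556978196281, 894220757527] [45692950, 31792031, 0, 0, 59536698, 0, 72924494]) (.cut 6 61881748 (.cut 6 59730477 (.leaf [22647218243225, 0, 5760596326278, 4254465503635, 10258078611, 4834791675, 0, 7944026608, 0, 17966069806] [29985856, 47385764, 0, 0, 72072543, 0, 78426101]) (.leaf [22643794072113, 0, 5760997425494, 4251519621510, 8774191635, 1966084029, 0, 9587751905, 0, 19289862219] [29985856, 47385764, 0, 0, 72072543, 0, 78426101])) (.leaf [22621285684035, 0, 5764409500669, 4233100615775, 0, 0, 14609293633, 19905080525, 0, 28735111582] [31177590, 47085077, 0, 0, 72265660, 0, 79651240]))) (.leaf [17419122547653, 204973147310, 5621079291660, 0, 0, 0, 1777744576187, 1147596255285, 2540268989693, 895723286188] [57355061, 41553412, 0, 0, 71315686, 0, 93654110])))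 (.leaf [0, 1667920874238771845922816, 0, 320153506915108966629376, 0, 0, 1080789332466845033168896, 0, 313094495757935023489024, 442845933097535942950912] []))

lemma sc16 : S16.scalarChk 10000000 (H 16) F16 16 12 40 T16 = true := by decide +kernel

end Vale.Agent.P154.Ly.BD
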