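import Vale.Agent.P154.LyBDT0
import Vale.Agent.P154.LyBDT1
import Vale.Agent.P154.LyBDT2
import Vale.Agent.P154.LyBDT3
import Vale.Agent.P154.LyBDT4
import Vale.Agent.P154.LyBDT5
import Vale.Agent.P154.LyBDT6
import Vale.Agent.P154.LyBDT7
import Vale.Agent.P154.LyBDT8
import Vale.Agent.P154.LyBDT9
import Vale.Agent.P154.LyBDT10
import Vale.Agent.P154.LyBDT11
import Vale.Agent.P154.LyBDT12
import Vale.Agent.P154.LyBDT13
import Vale.Agent.P154.LyBDT14
import Vale.Agent.P154.LyBDT15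
import Vale.Agent.P154.LyBDT16
import Vale.Agent.P154.LyBDT17
import Vale.Agent.P154.LyBDT18
import Vale.Agent.P154.LyBDT19
import Vale.Agent.P154.LyBDT20
import Vale.Agent.P154.LyBDT21
import Vale.Agent.P154.LyBDT22

/-!
Band D: drops 0 to 2.
-/

open scoped BigOperators

namespace Vale.Agent.P154.Ly.BD

theorem drop0 (hF : ∀ f ∈ Fs, ∃ c, facetTest 8 band ks f c = true) {s : ℝ}
    (hs : band.Mem s) : DropGain (-s) (1 / s ^ 2) (coord 8 ks s)
      (fun i => (H 0 i : ℝ) / (10000000 : ℕ)) S0.a ((S0.L : ℝ) / (10000000 : ℕ)) :=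
  S0.drop_of_regions (by norm_num) ks_sum (by decide +kernel) regs0
    (fun f hf => let ⟨_, _, h⟩ := List.mem_filterMap.1 hf; hF f (List.mem_of_getElem? h))
    sc0 hs

theorem drop1 (hF : ∀ f ∈ Fs, ∃ c, facetTest 8 band ks f c = true) {s : ℝ}
    (hs : band.Mem s) : DropGain (-s) (1 / s ^ 2) (coord 8 ks s)
      (fun i => (H 1 i : ℝ) / (10000000 : ℕ)) S1.a ((S1.L : ℝ) / (10000000 : ℕ)) :=
  S1.drop_of_regions (by norm_num) ks_sum (by decide +kernel) regs1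
    (fun f hf => let ⟨_, _, h⟩ := List.mem_filterMap.1 hf; hF f (List.mem_of_getElem? h))
    sc1 hs

theorem drop2 (hF : ∀ f ∈ Fs, ∃ c, facetTest 8 band ks f c = true) {s : ℝ}
    (hs : band.Mem s) : DropGain (-s) (1 / s ^ 2) (coord 8 ks s)
      (fun i => (H 2 i : ℝ) / (10000000 : ℕ)) S2.a ((S2.L : ℝ) / (10000000 : ℕ)) :=
  S2.drop_of_regions (by norm_num) ks_sum (by decide +kernel) regs2
    (fun f hf => let ⟨_, _, h⟩ := List.mem_filterMap.1 hf; hF f (List.mem_of_getElem? h))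
    sc2 hs

theorem drop3 (hF : ∀ f ∈ Fs, ∃ c, facetTest 8 band ks f c = true) {s : ℝ}
    (hs : band.Mem s) : DropGain (-s) (1 / s ^ 2) (coord 8 ks s)
      (fun i => (H 3 i : ℝ) / (10000000 : ℕ)) S3.a ((S3.L : ℝ) / (10000000 : ℕ)) :=
  S3.drop_of_regions (by norm_num) ks_sum (by decide +kernel) regs3
    (fun f hf => let ⟨_, _, h⟩ := List.mem_filterMap.1 hf; hF f (List.mem_of_getElem? h))
    sc3 hs

theorem drop4 (hF : ∀ f ∈ Fs, ∃ c, facetTest 8 band ks f c = true) {s : ℝ}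
    (hs : band.Mem s) : DropGain (-s) (1 / s ^ 2) (coord 8 ks s)
      (fun i => (H 4 i : ℝ) / (10000000 : ℕ)) S4.a ((S4.L : ℝ) / (10000000 : ℕ)) :=
  S4.drop_of_regions (by norm_num) ks_sum (by decide +kernel) regs4
    (fun f hf => let ⟨_, _, h⟩ := List.mem_filterMap.1 hf; hF f (List.mem_of_getElem? h))
    sc4 hs

theorem drop5 (hF : ∀ f ∈ Fs, ∃ c, facetTest 8 band ks f c = true) {s : ℝ}
    (hs : band.Mem s) : DropGain (-s) (1 / s ^ 2) (coord 8 ks s)
      (fun i => (H 5 i : ℝ) / (10000000 : ℕ)) S5.a ((S5.L : ℝ) / (10000000 : ℕ)) :=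
  S5.drop_of_regions (by norm_num) ks_sum (by decide +kernel) regs5
    (fun f hf => let ⟨_, _, h⟩ := List.mem_filterMap.1 hf; hF f (List.mem_of_getElem? h))
    sc5 hs

theorem drop6 (hF : ∀ f ∈ Fs, ∃ c, facetTest 8 band ks f c = true) {s : ℝ}
    (hs : band.Mem s) : DropGain (-s) (1 / s ^ 2) (coord 8 ks s)
      (fun i => (H 6 i : ℝ) / (10000000 : ℕ)) S6.a ((S6.L : ℝ) / (10000000 : ℕ)) :=
  S6.drop_of_regions (by norm_num) ks_sum (by decide +kernel) regs6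
    (fun f hf => let ⟨_, _, h⟩ := List.mem_filterMap.1 hf; hF f (List.mem_of_getElem? h))
    sc6 hs

theorem drop7 (hF : ∀ f ∈ Fs, ∃ c, facetTest 8 band ks f c = true) {s : ℝ}
    (hs : band.Mem s) : DropGain (-s) (1 / s ^ 2) (coord 8 ks s)
      (fun i => (H 7 i : ℝ) / (10000000 : ℕ)) S7.a ((S7.L : ℝ) / (10000000 : ℕ)) :=
  S7.drop_of_regions (by norm_num) ks_sum (by decide +kernel) regs7
    (fun f hf => let ⟨_, _, h⟩ := List.mem_filterMap.1 hf; hF f (List.mem_of_getElem? h))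
    sc7 hs

theorem drop8 (hF : ∀ f ∈ Fs, ∃ c, facetTest 8 band ks f c = true) {s : ℝ}
    (hs : band.Mem s) : DropGain (-s) (1 / s ^ 2) (coord 8 ks s)
      (fun i => (H 8 i : ℝ) / (10000000 : ℕ)) S8.a ((S8.L : ℝ) / (10000000 : ℕ)) :=
  S8.drop_of_regions (by norm_num) ks_sum (by decide +kernel) regs8
    (fun f hf => let ⟨_, _, h⟩ := List.mem_filterMap.1 hf; hF f (List.mem_of_getElem? h))
    sc8 hs

theorem drop9 (hF : ∀ f ∈ Fs, ∃ c, facetTest 8 band ks f c = true) {s : ℝ}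
    (hs : band.Mem s) : DropGain (-s) (1 / s ^ 2) (coord 8 ks s)
      (fun i => (H 9 i : ℝ) / (10000000 : ℕ)) S9.a ((S9.L : ℝ) / (10000000 : ℕ)) :=
  S9.drop_of_regions (by norm_num) ks_sum (by decide +kernel) regs9
    (fun f hf => let ⟨_, _, h⟩ := List.mem_filterMap.1 hf; hF f (List.mem_of_getElem? h))
    sc9 hs

theorem drop10 (hF : ∀ f ∈ Fs, ∃ c, facetTest 8 band ks f c = true) {s : ℝ}
    (hs : band.Mem s) : DropGain (-s) (1 / s ^ 2) (coord 8 ks s)
      (fun i => (H 10 i : ℝ) / (10000000 : ℕ)) S10.a ((S10.L : ℝ) / (10000000 : ℕ)) :=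
  S10.drop_of_regions (by norm_num) ks_sum (by decide +kernel) regs10
    (fun f hf => let ⟨_, _, h⟩ := List.mem_filterMap.1 hf; hF f (List.mem_of_getElem? h))
    sc10 hs

theorem drop11 (hF : ∀ f ∈ Fs, ∃ c, facetTest 8 band ks f c = true) {s : ℝ}
    (hs : band.Mem s) : DropGain (-s) (1 / s ^ 2) (coord 8 ks s)
      (fun i => (H 11 i : ℝ) / (10000000 : ℕ)) S11.a ((S11.L : ℝ) / (10000000 : ℕ)) :=
  S11.drop_of_regions (by norm_num) ks_sum (by decide +kernel) regs11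
    (fun f hf => let ⟨_, _, h⟩ := List.mem_filterMap.1 hf; hF f (List.mem_of_getElem? h))
    sc11 hs

theorem drop12 (hF : ∀ f ∈ Fs, ∃ c, facetTest 8 band ks f c = true) {s : ℝ}
    (hs : band.Mem s) : DropGain (-s) (1 / s ^ 2) (coord 8 ks s)
      (fun i => (H 12 i : ℝ) / (10000000 : ℕ)) S12.a ((S12.L : ℝ) / (10000000 : ℕ)) :=
  S12.drop_of_regions (by norm_num) ks_sum (by decide +kernel) regs12
    (fun f hf => let ⟨_, _, h⟩ := List.mem_filterMap.1 hf; hF f (List.mem_of_getElem? h))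
    sc12 hs

theorem drop13 (hF : ∀ f ∈ Fs, ∃ c, facetTest 8 band ks f c = true) {s : ℝ}
    (hs : band.Mem s) : DropGain (-s) (1 / s ^ 2) (coord 8 ks s)
      (fun i => (H 13 i : ℝ) / (10000000 : ℕ)) S13.a ((S13.L : ℝ) / (10000000 : ℕ)) :=
  S13.drop_of_regions (by norm_num) ks_sum (by decide +kernel) regs13
    (fun f hf => let ⟨_, _, h⟩ := List.mem_filterMap.1 hf; hF f (List.mem_of_getElem? h))
    sc13 hs

theorem drop14 (hF : ∀ f ∈ Fs, ∃ c, facetTest 8 band ks f c = true) {s : ℝ}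
    (hs : band.Mem s) : DropGain (-s) (1 / s ^ 2) (coord 8 ks s)
      (fun i => (H 14 i : ℝ) / (10000000 : ℕ)) S14.a ((S14.L : ℝ) / (10000000 : ℕ)) :=
  S14.drop_of_regions (by norm_num) ks_sum (by decide +kernel) regs14
    (fun f hf => let ⟨_, _, h⟩ := List.mem_filterMap.1 hf; hF f (List.mem_of_getElem? h))
    sc14 hs

theorem drop15 (hF : ∀ f ∈ Fs, ∃ c, facetTest 8 band ks f c = true) {s : ℝ}
    (hs : band.Mem s) : DropGain (-s) (1 / s ^ 2) (coord 8 ks s)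
      (fun i => (H 15 i : ℝ) / (10000000 : ℕ)) S15.a ((S15.L : ℝ) / (10000000 : ℕ)) :=
  S15.drop_of_regions (by norm_num) ks_sum (by decide +kernel) regs15
    (fun f hf => let ⟨_, _, h⟩ := List.mem_filterMap.1 hf; hF f (List.mem_of_getElem? h))
    sc15 hs

theorem drop16 (hF : ∀ f ∈ Fs, ∃ c, facetTest 8 band ks f c = true) {s : ℝ}
    (hs : band.Mem s) : DropGain (-s) (1 / s ^ 2) (coord 8 ks s)
      (fun i => (H 16 i : ℝ) / (10000000 : ℕ)) S16.a ((S16.L : ℝ) / (10000000 : ℕ)) :=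
  S16.drop_of_regions (by norm_num) ks_sum (by decide +kernel) regs16
    (fun f hf => let ⟨_, _, h⟩ := List.mem_filterMap.1 hf; hF f (List.mem_of_getElem? h))
    sc16 hs

theorem drop17 (hF : ∀ f ∈ Fs, ∃ c, facetTest 8 band ks f c = true) {s : ℝ}
    (hs : band.Mem s) : DropGain (-s) (1 / s ^ 2) (coord 8 ks s)
      (fun i => (H 17 i : ℝ) / (10000000 : ℕ)) S17.a ((S17.L : ℝ) / (10000000 : ℕ)) :=
  S17.drop_of_regions (by norm_num) ks_sum (by decide +kernel) regs17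
    (fun f hf => let ⟨_, _, h⟩ := List.mem_filterMap.1 hf; hF f (List.mem_of_getElem? h))
    sc17 hs

theorem drop18 (hF : ∀ f ∈ Fs, ∃ c, facetTest 8 band ks f c = true) {s : ℝ}
    (hs : band.Mem s) : DropGain (-s) (1 / s ^ 2) (coord 8 ks s)
      (fun i => (H 18 i : ℝ) / (10000000 : ℕ)) S18.a ((S18.L : ℝ) / (10000000 : ℕ)) :=
  S18.drop_of_regions (by norm_num) ks_sum (by decide +kernel) regs18
    (fun f hf => let ⟨_, _, h⟩ := List.mem_filterMap.1 hf; hF f (List.mem_of_getElem? h))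
    sc18 hs

theorem drop19 (hF : ∀ f ∈ Fs, ∃ c, facetTest 8 band ks f c = true) {s : ℝ}
    (hs : band.Mem s) : DropGain (-s) (1 / s ^ 2) (coord 8 ks s)
      (fun i => (H 19 i : ℝ) / (10000000 : ℕ)) S19.a ((S19.L : ℝ) / (10000000 : ℕ)) :=
  S19.drop_of_regions (by norm_num) ks_sum (by decide +kernel) regs19
    (fun f hf => let ⟨_, _, h⟩ := List.mem_filterMap.1 hf; hF f (List.mem_of_getElem? h))
    sc19 hs

theorem drop20 (hF : ∀ f ∈ Fs, ∃ c, facetTest 8 band ks f c = true) {s : ℝ}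
    (hs : band.Mem s) : DropGain (-s) (1 / s ^ 2) (coord 8 ks s)
      (fun i => (H 20 i : ℝ) / (10000000 : ℕ)) S20.a ((S20.L : ℝ) / (10000000 : ℕ)) :=
  S20.drop_of_regions (by norm_num) ks_sum (by decide +kernel) regs20
    (fun f hf => let ⟨_, _, h⟩ := List.mem_filterMap.1 hf; hF f (List.mem_of_getElem? h))
    sc20 hs

theorem drop21 (hF : ∀ f ∈ Fs, ∃ c, facetTest 8 band ks f c = true) {s : ℝ}
    (hs : band.Mem s) : DropGain (-s) (1 / s ^ 2) (coord 8 ks s)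
      (fun i => (H 21 i : ℝ) / (10000000 : ℕ)) S21.a ((S21.L : ℝ) / (10000000 : ℕ)) :=
  S21.drop_of_regions (by norm_num) ks_sum (by decide +kernel) regs21
    (fun f hf => let ⟨_, _, h⟩ := List.mem_filterMap.1 hf; hF f (List.mem_of_getElem? h))
    sc21 hs

theorem drop22 (hF : ∀ f ∈ Fs, ∃ c, facetTest 8 band ks f c = true) {s : ℝ}
    (hs : band.Mem s) : DropGain (-s) (1 / s ^ 2) (coord 8 ks s)
      (fun i => (H 22 i : ℝ) / (10000000 : ℕ)) S22.a ((S22.L : ℝ) / (10000000 : ℕ)) :=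
  S22.drop_of_regions (by norm_num) ks_sum (by decide +kernel) regs22
    (fun f hf => let ⟨_, _, h⟩ := List.mem_filterMap.1 hf; hF f (List.mem_of_getElem? h))
    sc22 hs

end Vale.Agent.P154.Ly.BD
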