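import Vale.Agent.P154.LyBDT23
import Vale.Agent.P154.LyBDT24
import Vale.Agent.P154.LyBDT25
import Vale.Agent.P154.LyBDT26
import Vale.Agent.P154.LyBDT27
import Vale.Agent.P154.LyBDT28
import Vale.Agent.P154.LyBDT29
import Vale.Agent.P154.LyBDT30
import Vale.Agent.P154.LyBDT31
import Vale.Agent.P154.LyBDT32
import Vale.Agent.P154.LyBDT33
import Vale.Agent.P154.LyBDT34
import Vale.Agent.P154.LyBDT35
import Vale.Agent.P154.LyBDT36
import Vale.Agent.P154.LyBDT37
import Vale.Agent.P154.LyBDT38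
import Vale.Agent.P154.LyBDT39
import Vale.Agent.P154.LyBDT40
import Vale.Agent.P154.LyBDT41

/-!
Band D: drops 23 to 25.
-/

open scoped BigOperators

namespace Vale.Agent.P154.Ly.BD

theorem drop23 (hF : ∀ f ∈ Fs, ∃ c, facetTest 8 band ks f c = true) {s : ℝ}
    (hs : band.Mem s) : DropGain (-s) (1 / s ^ 2) (coord 8 ks s)
      (fun i => (H 23 i : ℝ) / (10000000 : ℕ)) S23.a ((S23.L : ℝ) / (10000000 : ℕ)) :=
  S23.drop_of_regions (by norm_num) ks_sum (by decide +kernel) regs23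
    (fun f hf => let ⟨_, _, h⟩ := List.mem_filterMap.1 hf; hF f (List.mem_of_getElem? h))
    sc23 hs

theorem drop24 (hF : ∀ f ∈ Fs, ∃ c, facetTest 8 band ks f c = true) {s : ℝ}
    (hs : band.Mem s) : DropGain (-s) (1 / s ^ 2) (coord 8 ks s)
      (fun i => (H 24 i : ℝ) / (10000000 : ℕ)) S24.a ((S24.L : ℝ) / (10000000 : ℕ)) :=
  S24.drop_of_regions (by norm_num) ks_sum (by decide +kernel) regs24
    (fun f hf => let ⟨_, _, h⟩ := List.mem_filterMap.1 hf; hF f (List.mem_of_getElem? h))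
    sc24 hs

theorem drop25 (hF : ∀ f ∈ Fs, ∃ c, facetTest 8 band ks f c = true) {s : ℝ}
    (hs : band.Mem s) : DropGain (-s) (1 / s ^ 2) (coord 8 ks s)
      (fun i => (H 25 i : ℝ) / (10000000 : ℕ)) S25.a ((S25.L : ℝ) / (10000000 : ℕ)) :=
  S25.drop_of_regions (by norm_num) ks_sum (by decide +kernel) regs25
    (fun f hf => let ⟨_, _, h⟩ := List.mem_filterMap.1 hf; hF f (List.mem_of_getElem? h))
    sc25 hs

theorem drop26 (hF : ∀ f ∈ Fs, ∃ c, facetTest 8 band ks f c = true) {s : ℝ}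
    (hs : band.Mem s) : DropGain (-s) (1 / s ^ 2) (coord 8 ks s)
      (fun i => (H 26 i : ℝ) / (10000000 : ℕ)) S26.a ((S26.L : ℝ) / (10000000 : ℕ)) :=
  S26.drop_of_regions (by norm_num) ks_sum (by decide +kernel) regs26
    (fun f hf => let ⟨_, _, h⟩ := List.mem_filterMap.1 hf; hF f (List.mem_of_getElem? h))
    sc26 hs

theorem drop27 (hF : ∀ f ∈ Fs, ∃ c, facetTest 8 band ks f c = true) {s : ℝ}
    (hs : band.Mem s) : DropGain (-s) (1 / s ^ 2) (coord 8 ks s)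
      (fun i => (H 27 i : ℝ) / (10000000 : ℕ)) S27.a ((S27.L : ℝ) / (10000000 : ℕ)) :=
  S27.drop_of_regions (by norm_num) ks_sum (by decide +kernel) regs27
    (fun f hf => let ⟨_, _, h⟩ := List.mem_filterMap.1 hf; hF f (List.mem_of_getElem? h))
    sc27 hs

theorem drop28 (hF : ∀ f ∈ Fs, ∃ c, facetTest 8 band ks f c = true) {s : ℝ}
    (hs : band.Mem s) : DropGain (-s) (1 / s ^ 2) (coord 8 ks s)
      (fun i => (H 28 i : ℝ) / (10000000 : ℕ)) S28.a ((S28.L : ℝ) / (10000000 : ℕ)) :=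
  S28.drop_of_regions (by norm_num) ks_sum (by decide +kernel) regs28
    (fun f hf => let ⟨_, _, h⟩ := List.mem_filterMap.1 hf; hF f (List.mem_of_getElem? h))
    sc28 hs

theorem drop29 (hF : ∀ f ∈ Fs, ∃ c, facetTest 8 band ks f c = true) {s : ℝ}
    (hs : band.Mem s) : DropGain (-s) (1 / s ^ 2) (coord 8 ks s)
      (fun i => (H 29 i : ℝ) / (10000000 : ℕ)) S29.a ((S29.L : ℝ) / (10000000 : ℕ)) :=
  S29.drop_of_regions (by norm_num) ks_sum (by decide +kernel) regs29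
    (fun f hf => let ⟨_, _, h⟩ := List.mem_filterMap.1 hf; hF f (List.mem_of_getElem? h))
    sc29 hs

theorem drop30 (hF : ∀ f ∈ Fs, ∃ c, facetTest 8 band ks f c = true) {s : ℝ}
    (hs : band.Mem s) : DropGain (-s) (1 / s ^ 2) (coord 8 ks s)
      (fun i => (H 30 i : ℝ) / (10000000 : ℕ)) S30.a ((S30.L : ℝ) / (10000000 : ℕ)) :=
  S30.drop_of_regions (by norm_num) ks_sum (by decide +kernel) regs30
    (fun f hf => let ⟨_, _, h⟩ := List.mem_filterMap.1 hf; hF f (List.mem_of_getElem? h))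
    sc30 hs

theorem drop31 (hF : ∀ f ∈ Fs, ∃ c, facetTest 8 band ks f c = true) {s : ℝ}
    (hs : band.Mem s) : DropGain (-s) (1 / s ^ 2) (coord 8 ks s)
      (fun i => (H 31 i : ℝ) / (10000000 : ℕ)) S31.a ((S31.L : ℝ) / (10000000 : ℕ)) :=
  S31.drop_of_regions (by norm_num) ks_sum (by decide +kernel) regs31
    (fun f hf => let ⟨_, _, h⟩ := List.mem_filterMap.1 hf; hF f (List.mem_of_getElem? h))
    sc31 hs

theorem drop32 (hF : ∀ f ∈ Fs, ∃ c, facetTest 8 band ks f c = true) {s : ℝ}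
    (hs : band.Mem s) : DropGain (-s) (1 / s ^ 2) (coord 8 ks s)
      (fun i => (H 32 i : ℝ) / (10000000 : ℕ)) S32.a ((S32.L : ℝ) / (10000000 : ℕ)) :=
  S32.drop_of_regions (by norm_num) ks_sum (by decide +kernel) regs32
    (fun f hf => let ⟨_, _, h⟩ := List.mem_filterMap.1 hf; hF f (List.mem_of_getElem? h))
    sc32 hs

theorem drop33 (hF : ∀ f ∈ Fs, ∃ c, facetTest 8 band ks f c = true) {s : ℝ}
    (hs : band.Mem s) : DropGain (-s) (1 / s ^ 2) (coord 8 ks s)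
      (fun i => (H 33 i : ℝ) / (10000000 : ℕ)) S33.a ((S33.L : ℝ) / (10000000 : ℕ)) :=
  S33.drop_of_regions (by norm_num) ks_sum (by decide +kernel) regs33
    (fun f hf => let ⟨_, _, h⟩ := List.mem_filterMap.1 hf; hF f (List.mem_of_getElem? h))
    sc33 hs

theorem drop34 (hF : ∀ f ∈ Fs, ∃ c, facetTest 8 band ks f c = true) {s : ℝ}
    (hs : band.Mem s) : DropGain (-s) (1 / s ^ 2) (coord 8 ks s)
      (fun i => (H 34 i : ℝ) / (10000000 : ℕ)) S34.a ((S34.L : ℝ) / (10000000 : ℕ)) :=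
  S34.drop_of_regions (by norm_num) ks_sum (by decide +kernel) regs34
    (fun f hf => let ⟨_, _, h⟩ := List.mem_filterMap.1 hf; hF f (List.mem_of_getElem? h))
    sc34 hs

theorem drop35 (hF : ∀ f ∈ Fs, ∃ c, facetTest 8 band ks f c = true) {s : ℝ}
    (hs : band.Mem s) : DropGain (-s) (1 / s ^ 2) (coord 8 ks s)
      (fun i => (H 35 i : ℝ) / (10000000 : ℕ)) S35.a ((S35.L : ℝ) / (10000000 : ℕ)) :=
  S35.drop_of_regions (by norm_num) ks_sum (by decide +kernel) regs35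
    (fun f hf => let ⟨_, _, h⟩ := List.mem_filterMap.1 hf; hF f (List.mem_of_getElem? h))
    sc35 hs

theorem drop36 (hF : ∀ f ∈ Fs, ∃ c, facetTest 8 band ks f c = true) {s : ℝ}
    (hs : band.Mem s) : DropGain (-s) (1 / s ^ 2) (coord 8 ks s)
      (fun i => (H 36 i : ℝ) / (10000000 : ℕ)) S36.a ((S36.L : ℝ) / (10000000 : ℕ)) :=
  S36.drop_of_regions (by norm_num) ks_sum (by decide +kernel) regs36
    (fun f hf => let ⟨_, _, h⟩ := List.mem_filterMap.1 hf; hF f (List.mem_of_getElem? h))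
    sc36 hs

theorem drop37 (hF : ∀ f ∈ Fs, ∃ c, facetTest 8 band ks f c = true) {s : ℝ}
    (hs : band.Mem s) : DropGain (-s) (1 / s ^ 2) (coord 8 ks s)
      (fun i => (H 37 i : ℝ) / (10000000 : ℕ)) S37.a ((S37.L : ℝ) / (10000000 : ℕ)) :=
  S37.drop_of_regions (by norm_num) ks_sum (by decide +kernel) regs37
    (fun f hf => let ⟨_, _, h⟩ := List.mem_filterMap.1 hf; hF f (List.mem_of_getElem? h))
    sc37 hs

theorem drop38 (hF : ∀ f ∈ Fs, ∃ c, facetTest 8 band ks f c = true) {s : ℝ}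
    (hs : band.Mem s) : DropGain (-s) (1 / s ^ 2) (coord 8 ks s)
      (fun i => (H 38 i : ℝ) / (10000000 : ℕ)) S38.a ((S38.L : ℝ) / (10000000 : ℕ)) :=
  S38.drop_of_regions (by norm_num) ks_sum (by decide +kernel) regs38
    (fun f hf => let ⟨_, _, h⟩ := List.mem_filterMap.1 hf; hF f (List.mem_of_getElem? h))
    sc38 hs

theorem drop39 (hF : ∀ f ∈ Fs, ∃ c, facetTest 8 band ks f c = true) {s : ℝ}
    (hs : band.Mem s) : DropGain (-s) (1 / s ^ 2) (coord 8 ks s)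
      (fun i => (H 39 i : ℝ) / (10000000 : ℕ)) S39.a ((S39.L : ℝ) / (10000000 : ℕ)) :=
  S39.drop_of_regions (by norm_num) ks_sum (by decide +kernel) regs39
    (fun f hf => let ⟨_, _, h⟩ := List.mem_filterMap.1 hf; hF f (List.mem_of_getElem? h))
    sc39 hs

theorem drop40 (hF : ∀ f ∈ Fs, ∃ c, facetTest 8 band ks f c = true) {s : ℝ}
    (hs : band.Mem s) : DropGain (-s) (1 / s ^ 2) (coord 8 ks s)
      (fun i => (H 40 i : ℝ) / (10000000 : ℕ)) S40.a ((S40.L : ℝ) / (10000000 : ℕ)) :=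
  S40.drop_of_regions (by norm_num) ks_sum (by decide +kernel) regs40
    (fun f hf => let ⟨_, _, h⟩ := List.mem_filterMap.1 hf; hF f (List.mem_of_getElem? h))
    sc40 hs

theorem drop41 (hF : ∀ f ∈ Fs, ∃ c, facetTest 8 band ks f c = true) {s : ℝ}
    (hs : band.Mem s) : DropGain (-s) (1 / s ^ 2) (coord 8 ks s)
      (fun i => (H 41 i : ℝ) / (10000000 : ℕ)) S41.a ((S41.L : ℝ) / (10000000 : ℕ)) :=
  S41.drop_of_regions (by norm_num) ks_sum (by decide +kernel) regs41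
    (fun f hf => let ⟨_, _, h⟩ := List.mem_filterMap.1 hf; hF f (List.mem_of_getElem? h))
    sc41 hs

end Vale.Agent.P154.Ly.BD
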