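import Vale.Agent.P154.LyBDF0
import Vale.Agent.P154.LyBDF1
import Vale.Agent.P154.LyBDS0
import Vale.Agent.P154.LyBDS8

/-!
Band D: the chain.
-/

open scoped BigOperators

namespace Vale.Agent.P154.Ly.BD

lemma facets : ∀ f ∈ Fs, ∃ c, facetTest 8 band ks f c = true := by
  intro f hf
  simp only [Fs, List.mem_cons, List.not_mem_nil, or_false] at hf
  rcases hf with rfl | rfl | rfl | rfl | rfl | rfl | rfl | rfl | rfl | rfl | rfl | rfl | rfl | rfl | rfl | rfl | rfl | rfl | rfl | rfl | rfl | rfl | rfl | rfl | rfl | rfl | rfl | rfl | rfl | rfl | rfl | rfl | rfl | rfl | rfl | rfl | rfl | rfl | rfl | rfl | rfl | rfl | rfl | rfl | rfl | rfl | rfl | rfl | rfl | rfl | rfl | rfl | rfl | rfl | rfl | rfl | rfl | rfl | rfl | rfl | rfl | rfl | rfl | rfl | rfl | rfl | rfl | rfl | rfl | rfl | rfl | rfl | rfl | rfl | rfl | rfl | rfl | rfl | rfl | rfl | rfl | rfl | rfl | rfl | rfl | rfl | rfl | rfl | rfl | rfl | rfl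
  · exact ⟨_, facet0⟩
  · exact ⟨_, facet1⟩
  · exact ⟨_, facet2⟩
  · exact ⟨_, facet3⟩
  · exact ⟨_, facet4⟩
  · exact ⟨_, facet5⟩
  · exact ⟨_, facet6⟩
  · exact ⟨_, facet7⟩
  · exact ⟨_, facet8⟩
  · exact ⟨_, facet9⟩
  · exact ⟨_, facet10⟩
  · exact ⟨_, facet11⟩
  · exact ⟨_, facet12⟩
  · exact ⟨_, facet13⟩
  · exact ⟨_, facet14⟩
  · exact ⟨_, facet15⟩
  · exact ⟨_, facet16⟩
  · exact ⟨_, facet17⟩
  · exact ⟨_, facet18⟩
  · exact ⟨_, facet19⟩
  · exact ⟨_, facet20⟩
  · exact ⟨_, facet21⟩
  · exact ⟨_, facet22⟩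
  · exact ⟨_, facet23⟩
  · exact ⟨_, facet24⟩
  · exact ⟨_, facet25⟩
  · exact ⟨_, facet26⟩
  · exact ⟨_, facet27⟩
  · exact ⟨_, facet28⟩
  · exact ⟨_, facet29⟩
  · exact ⟨_, facet30⟩
  · exact ⟨_, facet31⟩
  · exact ⟨_, facet32⟩
  · exact ⟨_, facet33⟩
  · exact ⟨_, facet34⟩
  · exact ⟨_, facet35⟩
  · exact ⟨_, facet36⟩
  · exact ⟨_, facet37⟩
  · exact ⟨_, facet38⟩
  · exact ⟨_, facet39⟩
  · exact ⟨_, facet40⟩
  · exact ⟨_, facet41⟩
  · exact ⟨_, facet42⟩
  · exact ⟨_, facet43⟩
  · exact ⟨_, facet44⟩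
  · exact ⟨_, facet45⟩
  · exact ⟨_, facet46⟩
  · exact ⟨_, facet47⟩
  · exact ⟨_, facet48⟩
  · exact ⟨_, facet49⟩
  · exact ⟨_, facet50⟩
  · exact ⟨_, facet51⟩
  · exact ⟨_, facet52⟩
  · exact ⟨_, facet53⟩
  · exact ⟨_, facet54⟩
  · exact ⟨_, facet55⟩
  · exact ⟨_, facet56⟩
  · exact ⟨_, facet57⟩
  · exact ⟨_, facet58⟩
  · exact ⟨_, facet59⟩
  · exact ⟨_, facet60⟩
  · exact ⟨_, facet61⟩
  · exact ⟨_, facet62⟩
  · exact ⟨_, facet63⟩
  · exact ⟨_, facet64⟩
  · exact ⟨_, facet65⟩
  · exact ⟨_, facet66⟩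
  · exact ⟨_, facet67⟩
  · exact ⟨_, facet68⟩
  · exact ⟨_, facet69⟩
  · exact ⟨_, facet70⟩
  · exact ⟨_, facet71⟩
  · exact ⟨_, facet72⟩
  · exact ⟨_, facet73⟩
  · exact ⟨_, facet74⟩
  · exact ⟨_, facet75⟩
  · exact ⟨_, facet76⟩
  · exact ⟨_, facet77⟩
  · exact ⟨_, facet78⟩
  · exact ⟨_, facet79⟩
  · exact ⟨_, facet80⟩
  · exact ⟨_, facet81⟩
  · exact ⟨_, facet82⟩
  · exact ⟨_, facet83⟩
  · exact ⟨_, facet84⟩
  · exact ⟨_, facet85⟩
  · exact ⟨_, facet86⟩
  · exact ⟨_, facet87⟩
  · exact ⟨_, facet88⟩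
  · exact ⟨_, facet89⟩
  · exact ⟨_, facet90⟩

theorem at0 : BandAt band 8 ks 10000000 (H 0) :=
  BandAt.start (by norm_num) ks_sum (by decide +kernel)

theorem at1 : BandAt band 8 ks 10000000 (H 1) :=
  at0.drop (by norm_num) ks_sum (fun hs => drop0 facets hs) (by decide +kernel)

theorem at2 : BandAt band 8 ks 10000000 (H 2) :=
  at1.drop (by norm_num) ks_sum (fun hs => drop1 facets hs) (by decide +kernel)

theorem at3 : BandAt band 8 ks 10000000 (H 3) :=
  at2.drop (by norm_num) ks_sum (fun hs => drop2 facets hs) (by decide +kernel)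

theorem at4 : BandAt band 8 ks 10000000 (H 4) :=
  at3.drop (by norm_num) ks_sum (fun hs => drop3 facets hs) (by decide +kernel)

theorem at5 : BandAt band 8 ks 10000000 (H 5) :=
  at4.drop (by norm_num) ks_sum (fun hs => drop4 facets hs) (by decide +kernel)

theorem at6 : BandAt band 8 ks 10000000 (H 6) :=
  at5.drop (by norm_num) ks_sum (fun hs => drop5 facets hs) (by decide +kernel)

theorem at7 : BandAt band 8 ks 10000000 (H 7) :=
  at6.drop (by norm_num) ks_sum (fun hs => drop6 facets hs) (by decide +kernel)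

theorem at8 : BandAt band 8 ks 10000000 (H 8) :=
  at7.drop (by norm_num) ks_sum (fun hs => drop7 facets hs) (by decide +kernel)

theorem at9 : BandAt band 8 ks 10000000 (H 9) :=
  at8.drop (by norm_num) ks_sum (fun hs => drop8 facets hs) (by decide +kernel)

theorem at10 : BandAt band 8 ks 10000000 (H 10) :=
  at9.drop (by norm_num) ks_sum (fun hs => drop9 facets hs) (by decide +kernel)

theorem at11 : BandAt band 8 ks 10000000 (H 11) :=
  at10.drop (by norm_num) ks_sum (fun hs => drop10 facets hs) (by decide +kernel)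

theorem at12 : BandAt band 8 ks 10000000 (H 12) :=
  at11.drop (by norm_num) ks_sum (fun hs => drop11 facets hs) (by decide +kernel)

theorem at13 : BandAt band 8 ks 10000000 (H 13) :=
  at12.drop (by norm_num) ks_sum (fun hs => drop12 facets hs) (by decide +kernel)

theorem at14 : BandAt band 8 ks 10000000 (H 14) :=
  at13.drop (by norm_num) ks_sum (fun hs => drop13 facets hs) (by decide +kernel)

theorem at15 : BandAt band 8 ks 10000000 (H 15) :=
  at14.drop (by norm_num) ks_sum (fun hs => drop14 facets hs) (by decide +kernel)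

theorem at16 : BandAt band 8 ks 10000000 (H 16) :=
  at15.drop (by norm_num) ks_sum (fun hs => drop15 facets hs) (by decide +kernel)

theorem at17 : BandAt band 8 ks 10000000 (H 17) :=
  at16.drop (by norm_num) ks_sum (fun hs => drop16 facets hs) (by decide +kernel)

theorem at18 : BandAt band 8 ks 10000000 (H 18) :=
  at17.drop (by norm_num) ks_sum (fun hs => drop17 facets hs) (by decide +kernel)

theorem at19 : BandAt band 8 ks 10000000 (H 19) :=
  at18.drop (by norm_num) ks_sum (fun hs => drop18 facets hs) (by decide +kernel)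

theorem at20 : BandAt band 8 ks 10000000 (H 20) :=
  at19.drop (by norm_num) ks_sum (fun hs => drop19 facets hs) (by decide +kernel)

theorem at21 : BandAt band 8 ks 10000000 (H 21) :=
  at20.drop (by norm_num) ks_sum (fun hs => drop20 facets hs) (by decide +kernel)

theorem at22 : BandAt band 8 ks 10000000 (H 22) :=
  at21.drop (by norm_num) ks_sum (fun hs => drop21 facets hs) (by decide +kernel)

theorem at23 : BandAt band 8 ks 10000000 (H 23) :=
  at22.drop (by norm_num) ks_sum (fun hs => drop22 facets hs) (by decide +kernel)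

theorem at24 : BandAt band 8 ks 10000000 (H 24) :=
  at23.drop (by norm_num) ks_sum (fun hs => drop23 facets hs) (by decide +kernel)

theorem at25 : BandAt band 8 ks 10000000 (H 25) :=
  at24.drop (by norm_num) ks_sum (fun hs => drop24 facets hs) (by decide +kernel)

theorem at26 : BandAt band 8 ks 10000000 (H 26) :=
  at25.drop (by norm_num) ks_sum (fun hs => drop25 facets hs) (by decide +kernel)

theorem at27 : BandAt band 8 ks 10000000 (H 27) :=
  at26.drop (by norm_num) ks_sum (fun hs => drop26 facets hs) (by decide +kernel)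

theorem at28 : BandAt band 8 ks 10000000 (H 28) :=
  at27.drop (by norm_num) ks_sum (fun hs => drop27 facets hs) (by decide +kernel)

theorem at29 : BandAt band 8 ks 10000000 (H 29) :=
  at28.drop (by norm_num) ks_sum (fun hs => drop28 facets hs) (by decide +kernel)

theorem at30 : BandAt band 8 ks 10000000 (H 30) :=
  at29.drop (by norm_num) ks_sum (fun hs => drop29 facets hs) (by decide +kernel)

theorem at31 : BandAt band 8 ks 10000000 (H 31) :=
  at30.drop (by norm_num) ks_sum (fun hs => drop30 facets hs) (by decide +kernel)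

theorem at32 : BandAt band 8 ks 10000000 (H 32) :=
  at31.drop (by norm_num) ks_sum (fun hs => drop31 facets hs) (by decide +kernel)

theorem at33 : BandAt band 8 ks 10000000 (H 33) :=
  at32.drop (by norm_num) ks_sum (fun hs => drop32 facets hs) (by decide +kernel)

theorem at34 : BandAt band 8 ks 10000000 (H 34) :=
  at33.drop (by norm_num) ks_sum (fun hs => drop33 facets hs) (by decide +kernel)

theorem at35 : BandAt band 8 ks 10000000 (H 35) :=
  at34.drop (by norm_num) ks_sum (fun hs => drop34 facets hs) (by decide +kernel)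

theorem at36 : BandAt band 8 ks 10000000 (H 36) :=
  at35.drop (by norm_num) ks_sum (fun hs => drop35 facets hs) (by decide +kernel)

theorem at37 : BandAt band 8 ks 10000000 (H 37) :=
  at36.drop (by norm_num) ks_sum (fun hs => drop36 facets hs) (by decide +kernel)

theorem at38 : BandAt band 8 ks 10000000 (H 38) :=
  at37.drop (by norm_num) ks_sum (fun hs => drop37 facets hs) (by decide +kernel)

theorem at39 : BandAt band 8 ks 10000000 (H 39) :=
  at38.drop (by norm_num) ks_sum (fun hs => drop38 facets hs) (by decide +kernel)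

theorem at40 : BandAt band 8 ks 10000000 (H 40) :=
  at39.drop (by norm_num) ks_sum (fun hs => drop39 facets hs) (by decide +kernel)

theorem at41 : BandAt band 8 ks 10000000 (H 41) :=
  at40.drop (by norm_num) ks_sum (fun hs => drop40 facets hs) (by decide +kernel)

theorem at42 : BandAt band 8 ks 10000000 (H 42) :=
  at41.drop (by norm_num) ks_sum (fun hs => drop41 facets hs) (by decide +kernel)

theorem at43 : BandAt band 8 ks 10000000 (H 43) :=
  at42.facet ⟨![0, 0, 0, 0, 0, 0, 0, 0, 1160000000], (-1000000000), 2000000⟩ 0 628589 (by norm_num) ks_sum ⟨_, facet90⟩ (by decide +kernel) (by decide +kernel)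

theorem reach : BandReach ((band.P0 : ℝ) / band.Q) ((band.P1 : ℝ) / band.Q) :=
  at43.finish (by decide +kernel) (by decide +kernel)

end Vale.Agent.P154.Ly.BD
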