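import Vale.Agent.P154.LyBDR2a

/-!
Band D: forms of drop 2, second part.
-/

open scoped BigOperators

namespace Vale.Agent.P154.Ly.BD

set_option maxHeartbeats 2000000 in
/-- region 8 of step 2 -/
noncomputable def r2_8 : Reg := ⟨2999880, 2999970, ⟨0, 0, 0, 0⟩, ⟨4096, 635, 32, (.mult [(0, 1386334847060407429789207092071541851718218537687908287585239790307310653902812811519987203052069789048695605480701785914487078912)])⟩, ⟨256, 363, 32, (.cut 2 128 (.cut 1 128 (.cut 2 64 (.cut 1 64 (.mult [(2, 3291009114642412084309938365114701009965471731267159726697218048)]) (.mult [])) (.mult [(1, 12855504354071922204335696738729300820177623950262342682411008)])) (.out 1)) (.out 1))⟩⟩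

lemma r2_8_ok : S2.regTest 8 band ks 1000000 r2_8 = true := by decide +kernel

end Vale.Agent.P154.Ly.BD
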