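import Vale.Agent.P154.LyBDR0

/-!
Band D: scalar check of drop 0.
-/

open scoped BigOperators

namespace Vale.Agent.P154.Ly.BD

/-- the facets of step 0 -/
def F0 : List (Facet 9) := ([0, 3, 4, 5, 6, 7, 8] : List ℕ).filterMap fun i => Fs[i]?

set_option maxHeartbeats 2000000 in
/-- scalar tree of step 0 -/
noncomputable def T0 : STree 9 := (.cut 8 375821596 (.leaf [796541687058038958063616, 148515551606233595117568, 0, 0, 737651312516573033398272, 700738333337012225966080, 415090444401477725192192] []) (.leaf [5644957608920, 40498678047061, 38608686759217, 4213407473365, 1475930062533, 42969003622, 78169473943] [0, 0, 405981895, 0, 0, 215886987]))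

lemma sc0 : S0.scalarChk 10000000 (H 0) F0 16 12 40 T0 = true := by decide +kernel

end Vale.Agent.P154.Ly.BD
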