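import Vale.Agent.P154.LyBH

/-!
Band H: drops 0 to 16.
-/

open scoped BigOperators

namespace Vale.Agent.P154.Ly.BH

/-- step 0 -/
def S0 : Step 6 := ⟨100000000, 6, 119239, ![(-7285876), 0, 14028951, 46543366, 0, (-32141806)], 23004816, ![0, 3811392, 0, (-4980240), (-19209728), 0, 6043117], ![0, 0, 0, 0, 0, 0, 0], 0, 1, ![3811392, 0, (-4980240), (-19209728), 0, 6043117], ⟨1841340, 1945166, 2887596, 12008372⟩, ⟨21163475, (-1945166), (-2887596), (-12008372)⟩⟩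

theorem drop0 (hF : ∀ f ∈ Fs, ∃ c, facetTest 6 band ks f c = true) {s : ℝ}
    (hs : band.Mem s) : DropGain (-s) (1 / s ^ 2) (coord 6 ks s)
      (fun i => (H 0 i : ℝ) / (100000 : ℕ)) S0.a ((S0.L : ℝ) / (100000 : ℕ)) :=
  S0.drop_of_tests (r := 16) (n := 14) (K := 40) (T := (.cut 1 1377475 (.cut 1 725723 (.leaf [0, 0, 0, 0, 0, 0, 0, 0, 0, 0, 0, 0, 0, 0, 0, 0, 0, 0, 329109217011770, 0, 0, 0, 0, 0, 477153713135378, 0, 0, 0, 0, 0, 13431316544880278216114176, 0, 0, 0, 0, 0, 0, 0, 0, 0, 5685476293447820465143808] []) (.cut 6 3593300 (.leaf [0, 0, 0, 0, 0, 0, 0, 573418066927, 0, 0, 0, 0, 0, 0, 0, 0, 0, 0, 0, 0, 0, 0, 0, 0, 0, 0, 125600757, 0, 0, 312615156, 0, 0, 0, 0, 0, 0, 0, 0, 1843796079082] [0, 0, 1664111, 1415948]) (.leaf [0, 0, 0, 0, 0, 0, 0, 0, 607623532420, 0, 0, 0, 0, 0, 0, 0, 0, 0, 0, 0, 0, 0, 0, 0, 0, 0, 0, 0, 0, 0, 0, 0, 0, 0, 0, 0, 0, 0, 214781446192424, 1007399497136367, 0, 5117497211283413401600000]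 []))) (.leaf [0, 0, 0, 0, 0, 0, 0, 0, 3616535280221995600445440, 0, 0, 0, 0, 0, 0, 0, 0, 0, 0, 0, 0, 0, 0, 0, 0, 0, 0, 0, 0, 5117497211283413401600000, 0, 0, 0, 0, 0, 0, 0, 0, 214781446192424, 0, 0, 651447093139154] [])))
    (cw := ⟨64, 282, 24, (.cut 2 32 (.out 2) (.cut 1 32 (.cut 2 48 (.out 0) (.out 3)) (.cut 2 48 (.cut 1 48 (.out 0) (.cut 1 56 (.out 0) (.cut 2 40 (.cut 1 60 (.out 0) (.cut 0 1748 (.out 2) (.cut 2 36 (.out 2) (.cut 1 62 (.out 0) (.cut 0 1814 (.mult []) (.cut 2 38 (.cut 1 63 (.out 0) (.cut 0 1847 (.out 2) (.cut 2 37 (.out 2) (.mult [(2, 5238021868193956058842006440455158342446862234025984)])))) (.mult []))))))) (.mult [])))) (.cut 1 48 (.cut 2 56 (.out 0) (.out 3)) (.cut 2 56 (.cut 1 56 (.out 0) (.cut 1 60 (.mult [(0, 187072209578355573530071658587684226515959365500928)]) (.cut 0 1748 (.mult []) (.cut 2 52 (.mult []) (.mult []))))) (.cut 1 56 (.cut 2 60 (.mult [(0, 187072209578355573530071658587684226515959365500928)])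 (.out 3)) (.mult [(0, 187072209578355573530071658587684226515959365500928)])))))))⟩)
    (cu := ⟨16, 184, 24, (.cut 1 8 (.cut 2 8 (.mult []) (.cut 1 4 (.out 0) (.mult []))) (.cut 2 8 (.cut 1 12 (.cut 2 4 (.cut 2 2 (.mult []) (.mult [])) (.mult [])) (.cut 2 4 (.cut 2 2 (.mult []) (.mult [])) (.mult []))) (.cut 1 12 (.cut 2 12 (.cut 1 10 (.cut 2 10 (.mult []) (.mult [])) (.mult [])) (.mult [])) (.cut 2 12 (.mult []) (.cut 1 14 (.mult []) (.cut 2 14 (.mult []) (.cut 1 15 (.mult []) (.mult []))))))))⟩)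
    (by norm_num) ks_sum (by decide +kernel) (by decide +kernel) (by decide +kernel) hF
    (by decide +kernel) hs

/-- step 1 -/
def S1 : Step 6 := ⟨100000000, 0, 67821, ![(-3876039), 0, 8519322, 56074910, 0, (-31529729)], 32473972, ![(-11778986), 2634729, 0, (-3762112), (-26669009), 0, 13054106], ![0, 0, 0, 0, 0, 0, 0], 0, 1, ![2634729, 0, (-3762112), (-26669009), 0, 13054106], ⟨1509591, 3350437, 1733625, 5921269⟩, ⟨30964380, (-15129423), (-1733625), (-5921269)⟩⟩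

theorem drop1 (hF : ∀ f ∈ Fs, ∃ c, facetTest 6 band ks f c = true) {s : ℝ}
    (hs : band.Mem s) : DropGain (-s) (1 / s ^ 2) (coord 6 ks s)
      (fun i => (H 1 i : ℝ) / (100000 : ℕ)) S1.a ((S1.L : ℝ) / (100000 : ℕ)) :=
  S1.drop_of_tests (r := 16) (n := 14) (K := 40) (T := (.cut 1 837504 (.cut 1 415584 (.leaf [0, 0, 0, 0, 0, 0, 0, 0, 0, 0, 0, 0, 0, 0, 0, 0, 0, 0, 0, 0, 0, 0, 171046063529293, 0, 1317516086548077, 0, 0, 0, 418644107343325, 0, 0, 0, 0, 0, 0, 0, 0, 0, 0, 0, 0, 0, 6165501557149270016000000] []) (.cut 6 958709 (.leaf [0, 0, 0, 0, 0, 0, 0, 0, 0, 0, 333940850723, 0, 0, 0, 0, 0, 0, 0, 0, 0, 0, 0, 171046063529293, 0, 0, 0, 0, 0, 987583153194995, 0, 0, 0, 0, 0, 0, 0, 0, 0, 0, 0, 0, 0, 0, 0, 0, 0, 0, 6165501557162853923815424] []) (.leaf [0, 0, 0, 0, 0, 0, 0, 0, 465248669821, 0, 0, 0, 0, 0, 0, 0, 0, 0, 0, 0, 23788247136181, 0, 941371819822] [0, 0, 1226890, 1202387]))) (.leaf [0, 0,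 0, 0, 0, 0, 0, 0, 68448958434709, 0, 6165501557722610569052160, 0, 0, 0, 0, 0, 0, 0, 0, 0, 0, 17701764062517, 0, 0, 0, 0, 0, 0, 0, 0, 0, 0, 0, 0, 16349648159709] [])))
    (cw := ⟨64, 281, 24, (.cut 2 32 (.out 2) (.cut 1 32 (.mult [(0, 374144419156711147060143317175368453031918731001856)]) (.cut 2 48 (.cut 1 48 (.out 0) (.cut 1 56 (.out 0) (.cut 2 40 (.mult [(2, 46768052394588893382517914646921056628989841375232)]) (.mult [])))) (.cut 1 48 (.cut 2 56 (.out 0) (.out 3)) (.cut 2 56 (.cut 1 56 (.out 0) (.cut 1 60 (.mult [(0, 187072209578355573530071658587684226515959365500928)]) (.mult [(0, 23384026197294446691258957323460528314494920687616)]))) (.cut 1 56 (.cut 2 60 (.mult [(0, 187072209578355573530071658587684226515959365500928)]) (.out 3)) (.mult [(0, 93536104789177786765035829293842113257979682750464)])))))))⟩)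
    (cu := ⟨16, 181, 24, (.cut 1 8 (.cut 2 8 (.mult []) (.cut 1 4 (.out 0) (.mult []))) (.cut 2 8 (.cut 1 12 (.cut 2 4 (.mult []) (.mult [])) (.cut 2 4 (.mult []) (.mult []))) (.cut 1 12 (.cut 2 12 (.cut 1 10 (.cut 2 10 (.mult []) (.mult [])) (.cut 2 10 (.mult []) (.mult []))) (.mult [])) (.mult []))))⟩)
    (by norm_num) ks_sum (by decide +kernel) (by decide +kernel) (by decide +kernel) hF
    (by decide +kernel) hs

/-- step 2 -/
def S2 : Step 6 := ⟨100000000, 4, 68324, ![(-9392122), (-16192302), 18801744, 34582561, 0, (-21031271)], 7175283, ![0, 6003819, 7928393, (-8759289), (-17463440), 0, 7498857], ![0, 0, 0, 0, 0, 0, 0], 0, 1, ![6003819, 7928393, (-8759289), (-17463440), 0, 7498857], ⟨404037, 2252857, 974256, 3541498⟩, ⟨6771245, (-2252857), (-974256), (-3541498)⟩⟩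

theorem drop2 (hF : ∀ f ∈ Fs, ∃ c, facetTest 6 band ks f c = true) {s : ℝ}
    (hs : band.Mem s) : DropGain (-s) (1 / s ^ 2) (coord 6 ks s)
      (fun i => (H 2 i : ℝ) / (100000 : ℕ)) S2.a ((S2.L : ℝ) / (100000 : ℕ)) :=
  S2.drop_of_tests (r := 16) (n := 14) (K := 40) (T := (.cut 1 837504 (.cut 1 605936 (.leaf [0, 0, 0, 0, 0, 0, 0, 0, 0, 0, 0, 0, 932022538701645, 0, 0, 0, 0, 0, 0, 0, 0, 0, 0, 0, 3802392793777281433600000, 0, 2857447607706, 0, 526230309077829] []) (.cut 2 1330221 (.cut 2 969692 (.leaf [0, 0, 0, 0, 0, 0, 0, 0, 0, 844754410247, 0, 0, 0, 0, 0, 0, 0, 0, 0, 0, 0, 0, 0, 0, 0, 3802392794240698741161984, 2857447607706, 0, 525450079641931, 0, 0, 0, 0, 0, 780229435898] []) (.cut 6 1403436 (.leaf [0, 0, 0, 0, 0, 0, 0, 0, 0, 844754410247, 0, 0, 0, 0, 0, 0, 1519880515340, 0, 0, 0, 0, 0, 0, 0, 0, 0, 2857447607706, 0, 3802392794490149904842752, 0, 0, 0, 0, 0, 780229435898] []) (.leaf [0,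 0, 0, 0, 0, 0, 0, 0, 1086359773126, 0, 63553874, 0, 0, 0, 1994756897971, 0, 0, 0, 0, 0, 0, 0, 518208373002] [0, 0, 1221005, 1095754]))) (.leaf [0, 0, 0, 0, 0, 0, 0, 0, 0, 0, 0, 0, 0, 2857447607706, 29008905, 0, 3802392794303511564124160] []))) (.leaf [0, 0, 0, 0, 0, 0, 0, 0, 0, 0, 3802392794020108147097600, 0, 0, 2857447607706, 153935443745957, 0, 283403473486422] [])))
    (cw := ⟨64, 280, 24, (.cut 2 32 (.out 2) (.cut 1 32 (.cut 2 48 (.out 0) (.out 3)) (.cut 2 48 (.cut 1 48 (.out 0) (.cut 1 56 (.out 0) (.cut 2 40 (.cut 1 60 (.out 0) (.cut 0 1748 (.out 2) (.cut 2 36 (.out 2) (.cut 1 62 (.out 0) (.cut 0 1814 (.mult []) (.cut 2 38 (.cut 1 63 (.out 0) (.cut 0 1847 (.out 2) (.cut 2 37 (.out 2) (.cut 1 64 (.mult [(0, 3367299772410400323541289854578316077287268579016704)]) (.mult [(1, 3367299772410400323541289854578316077287268579016704)]))))) (.mult []))))))) (.mult [])))) (.cut 1 48 (.cut 2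 56 (.out 0) (.out 3)) (.cut 2 56 (.cut 1 56 (.out 0) (.cut 1 60 (.mult [(0, 93536104789177786765035829293842113257979682750464)]) (.cut 0 1748 (.mult []) (.cut 2 52 (.mult []) (.mult [(0, 730750818665451459101842416358141509827966271488)]))))) (.cut 1 56 (.cut 2 60 (.mult [(0, 93536104789177786765035829293842113257979682750464)]) (.out 3)) (.mult [(0, 70152078591883340073776871970381584943484762062848)])))))))⟩)
    (cu := ⟨16, 184, 24, (.cut 2 8 (.cut 1 8 (.mult []) (.cut 1 12 (.cut 2 4 (.mult []) (.mult [])) (.cut 2 4 (.mult []) (.mult [])))) (.cut 1 8 (.cut 2 12 (.cut 1 4 (.out 0) (.mult [])) (.out 0)) (.cut 2 12 (.cut 1 12 (.cut 2 10 (.cut 1 10 (.mult []) (.mult [])) (.mult [])) (.mult [])) (.cut 1 12 (.mult []) (.cut 2 14 (.mult []) (.cut 1 14 (.mult []) (.cut 2 15 (.mult []) (.cut 1 15 (.mult []) (.cut 1 16 (.mult []) (.mult []))))))))))⟩)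
    (by norm_num) ks_sum (by decide +kernel) (by decide +kernel) (by decide +kernel) hF
    (by decide +kernel) hs

/-- step 3 -/
def S3 : Step 6 := ⟨100000000, 6, 87672, ![(-17140120), (-1169865), 22865363, 31767665, 0, (-27056987)], 9697480, ![0, 11800375, 667684, (-11352309), (-17343784), 0, 10175325], ![0, 0, 0, 0, 0, 0, 0], 0, 1, ![11800375, 667684, (-11352309), (-17343784), 0, 10175325], ⟨427912, 3564077, 1276460, 4425519⟩, ⟨9269567, (-3564077), (-1276460), (-4425519)⟩⟩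

theorem drop3 (hF : ∀ f ∈ Fs, ∃ c, facetTest 6 band ks f c = true) {s : ℝ}
    (hs : band.Mem s) : DropGain (-s) (1 / s ^ 2) (coord 6 ks s)
      (fun i => (H 3 i : ℝ) / (100000 : ℕ)) S3.a ((S3.L : ℝ) / (100000 : ℕ)) :=
  S3.drop_of_tests (r := 16) (n := 14) (K := 40) (T := (.cut 1 670607 (.cut 1 533896 (.leaf [0, 0, 0, 0, 0, 0, 0, 0, 0, 0, 0, 0, 0, 0, 47674774560412, 0, 0, 0, 0, 0, 0, 0, 0, 0, 0, 0, 0, 0, 0, 0, 0, 0, 0, 0, 0, 0, 3492891705784190191534080, 0, 80427181946962, 95460243544235, 193894440] []) (.cut 2 1002863 (.cut 2 802471 (.leaf [0, 0, 0, 0, 0, 0, 0, 0, 2202266526992, 0, 0, 0, 0, 0, 0, 0, 0, 0, 0, 0, 0, 0, 0, 0, 0, 0, 0, 0, 0, 0, 0, 0, 0, 0, 0, 0, 0, 3492891705507004276539392, 80427181946962, 140932751577655] []) (.cut 6 1732948 (.leaf [0, 0, 0, 0, 0, 0, 0, 0, 2202266526992, 0, 0, 0, 0, 0, 178773074152, 0, 0, 0, 0, 0, 0, 0, 0, 0, 0, 0, 0, 0, 0, 0, 0, 0, 0, 0, 0, 0, 0, 0, 232207906749,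 416572213] [0, 0, 1120621, 970343]) (.leaf [0, 0, 0, 0, 0, 0, 0, 0, 2202266526992, 0, 0, 0, 0, 0, 178773074152, 0, 0, 0, 0, 0, 0, 0, 0, 0, 0, 0, 0, 0, 0, 0, 0, 0, 0, 0, 0, 0, 0, 0, 80427181946962, 5534608945626261714108416] []))) (.leaf [0, 0, 0, 0, 0, 0, 0, 2078292474512, 0, 0, 0, 0, 0, 327750374953, 3492891705622401457848320, 0, 0, 0, 0, 0, 0, 0, 0, 0, 0, 0, 0, 0, 0, 0, 0, 0, 78021139097498, 0, 0, 0, 0, 0, 0, 0, 63485800883634] []))) (.leaf [0, 0, 0, 0, 0, 0, 0, 0, 2111018800046195414663168, 1957979298226, 0, 0, 0, 0, 47674774560412, 0, 0, 0, 0, 0, 0, 0, 0, 0, 0, 0, 0, 0, 0, 0, 0, 0, 80427181946962, 0, 0, 0, 0, 0, 0, 0, 63485827810425] [])))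
    (cw := ⟨256, 328, 24, (.cut 2 128 (.out 0) (.cut 1 128 (.out 0) (.cut 2 192 (.cut 1 192 (.out 0) (.cut 1 224 (.out 0) (.cut 2 160 (.cut 1 240 (.out 0) (.cut 0 1748 (.out 0) (.cut 2 144 (.out 2) (.cut 1 248 (.out 0) (.cut 0 1814 (.mult []) (.cut 2 152 (.cut 1 252 (.out 0) (.cut 0 1847 (.out 2) (.cut 2 148 (.out 2) (.mult [(2, 147838300071827105349860512495386959432042675428016940847726592)])))) (.mult []))))))) (.mult [])))) (.cut 1 192 (.cut 2 224 (.out 0) (.out 3)) (.cut 2 224 (.cut 1 224 (.out 0) (.cut 1 240 (.cut 0 1748 (.mult [(0, 3213876088517980551083924184682325205044405987565585670602752)]) (.cut 2 208 (.out 0) (.mult [(0, 3213876088517980551083924184682325205044405987565585670602752)]))) (.cut 0 1748 (.mult []) (.cut 2 208 (.mult []) (.mult []))))) (.cut 1 224 (.cut 2 240 (.cut 0 1748 (.mult [(0, 3213876088517980551083924184682325205044405987565585670602752)]) (.cut 1 208 (.out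 0) (.mult [(0, 3213876088517980551083924184682325205044405987565585670602752)]))) (.out 3)) (.mult [(0, 7231221199165456239938829415535231711349913472022567758856192)])))))))⟩)
    (cu := ⟨16, 184, 24, (.cut 2 8 (.cut 1 8 (.mult []) (.cut 1 12 (.cut 2 4 (.mult []) (.mult [])) (.cut 2 4 (.cut 1 14 (.mult []) (.mult [])) (.mult [])))) (.cut 1 8 (.cut 2 12 (.cut 1 4 (.out 0) (.mult [])) (.out 0)) (.cut 2 12 (.cut 1 12 (.cut 2 10 (.cut 1 10 (.mult []) (.mult [])) (.cut 1 10 (.mult []) (.mult []))) (.mult [])) (.cut 1 12 (.mult []) (.cut 2 14 (.mult []) (.cut 1 14 (.mult []) (.cut 2 15 (.mult []) (.cut 1 15 (.mult []) (.mult [])))))))))⟩)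
    (by norm_num) ks_sum (by decide +kernel) (by decide +kernel) (by decide +kernel) hF
    (by decide +kernel) hs

/-- step 4 -/
def S4 : Step 6 := ⟨100000000, 4, 55219, ![(-4581823), (-26677161), 16835966, 35407157, 0, (-16497894)], 4646240, ![0, 3250808, 15421164, (-9090122), (-20383464), 0, 7471586], ![0, 0, 0, 0, 0, 0, 0], 0, 1, ![3250808, 15421164, (-9090122), (-20383464), 0, 7471586], ⟨158777, 2054183, 564596, 1867466⟩, ⟨4487462, (-2054183), (-564596), (-1867466)⟩⟩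

theorem drop4 (hF : ∀ f ∈ Fs, ∃ c, facetTest 6 band ks f c = true) {s : ℝ}
    (hs : band.Mem s) : DropGain (-s) (1 / s ^ 2) (coord 6 ks s)
      (fun i => (H 4 i : ℝ) / (100000 : ℕ)) S4.a ((S4.L : ℝ) / (100000 : ℕ)) :=
  S4.drop_of_tests (r := 16) (n := 14) (K := 40) (T := (.cut 1 618402 (.cut 1 489741 (.leaf [0, 0, 0, 0, 0, 0, 0, 0, 0, 0, 0, 0, 1950786576543807, 0, 0, 0, 0, 0, 0, 0, 0, 0, 199504482052634, 0, 3893058082799039283200000, 0, 0, 0, 186999828548514] []) (.cut 2 980690 (.cut 2 783762 (.leaf [0, 0, 0, 0, 0, 0, 0, 0, 0, 474988175634, 0, 0, 0, 0, 0, 0, 0, 0, 0, 0, 0, 0, 199504482052634, 0, 0, 3893058083422476334792704, 0, 0, 186561205575072, 0, 0, 0, 0, 0, 438707098581] []) (.cut 6 1134356 (.leaf [0, 0, 0, 0, 0, 0, 0, 0, 0, 474988175634, 0, 0, 0, 0, 0, 0, 3155947895865, 0, 0, 0, 0, 0, 199504482052634, 0, 0, 0, 0, 0, 3893058083073806057865216, 0, 0, 0, 0, 0, 438707098581] []) (.cut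 6 1294841 (.leaf [0, 0, 0, 0, 0, 0, 0, 0, 66018126, 0, 438428598021, 0, 0, 0, 4142002460968, 0, 0, 0, 0, 0, 0, 0, 27480806443904] [0, 0, 929340, 886464]) (.leaf [0, 0, 0, 0, 0, 0, 0, 0, 610887729813, 0, 0, 0, 0, 0, 4142002460968, 0, 0, 0, 0, 0, 0, 0, 0, 0, 0, 0, 0, 0, 0, 0, 0, 0, 0, 0, 0, 0, 0, 0, 29005443667940, 399512913] [0, 0, 1033247, 886901])))) (.leaf [0, 0, 0, 0, 0, 0, 0, 0, 0, 474988175634, 0, 0, 0, 139628496204093, 20317414, 0, 2694157843636342728163328, 0, 0, 0, 0, 0, 0, 0, 0, 0, 0, 0, 0, 0, 0, 0, 0, 0, 438707098581] []))) (.leaf [0, 0, 0, 0, 0, 0, 0, 0, 0, 0, 1688815757026336381599744, 0, 0, 139628496204093, 20317414, 0, 737030918735168] [])))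
    (cw := ⟨64, 280, 24, (.cut 2 32 (.out 2) (.cut 1 32 (.cut 2 48 (.out 0) (.out 3)) (.cut 2 48 (.cut 1 48 (.out 0) (.cut 1 56 (.out 0) (.cut 2 40 (.cut 1 60 (.out 0) (.cut 0 1748 (.out 2) (.cut 2 36 (.out 2) (.cut 1 62 (.out 0) (.cut 0 1814 (.mult []) (.cut 2 38 (.cut 1 63 (.out 0) (.cut 0 1847 (.out 2) (.cut 2 37 (.out 2) (.cut 1 64 (.mult [(0, 1870722095783555735300716585876842265159593655009280)]) (.mult [(1, 1870722095783555735300716585876842265159593655009280)]))))) (.mult []))))))) (.mult [])))) (.cut 1 48 (.cut 2 56 (.out 0) (.out 3)) (.cut 2 56 (.cut 1 56 (.out 0) (.cut 1 60 (.cut 0 1748 (.mult [(0, 11692013098647223345629478661730264157247460343808)]) (.cut 2 52 (.out 0) (.mult [(0, 23384026197294446691258957323460528314494920687616)]))) (.cut 0 1748 (.mult []) (.cut 2 52 (.mult []) (.mult []))))) (.cut 1 56 (.cut 2 60 (.cut 0 1748 (.mult [(0, 11692013098647223345629478661730264157247460343808)])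 (.cut 1 52 (.out 0) (.mult [(0, 23384026197294446691258957323460528314494920687616)]))) (.out 3)) (.cut 2 60 (.cut 1 60 (.mult [(0, 46768052394588893382517914646921056628989841375232)]) (.mult [])) (.mult []))))))))⟩)
    (cu := ⟨16, 184, 24, (.cut 1 8 (.cut 2 8 (.mult []) (.cut 2 12 (.cut 1 4 (.out 0) (.mult [])) (.out 0))) (.cut 2 8 (.cut 2 4 (.mult []) (.cut 1 12 (.mult []) (.cut 2 6 (.cut 2 5 (.mult []) (.mult [])) (.mult [])))) (.cut 1 12 (.cut 2 12 (.cut 1 10 (.cut 2 10 (.mult []) (.mult [])) (.cut 2 10 (.mult []) (.mult []))) (.mult [])) (.cut 2 12 (.mult []) (.cut 1 14 (.mult []) (.cut 2 14 (.mult []) (.cut 1 15 (.mult []) (.cut 2 15 (.mult []) (.cut 1 16 (.mult []) (.mult []))))))))))⟩)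
    (by norm_num) ks_sum (by decide +kernel) (by decide +kernel) (by decide +kernel) hF
    (by decide +kernel) hs

/-- step 5 -/
def S5 : Step 6 := ⟨100000000, 0, 55905, ![(-5810553), (-27236661), 12847488, 39975687, 0, (-14129611)], 6217712, ![(-4645363), 4419884, 17879912, (-7083848), (-22788029), 0, 7165564], ![0, 0, 0, 0, 0, 0, 0], 0, 1, ![4419884, 17879912, (-7083848), (-22788029), 0, 7165564], ⟨28814, 1468867, 28672, 32379⟩, ⟨6188897, (-6114230), (-28672), (-32379)⟩⟩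

theorem drop5 (hF : ∀ f ∈ Fs, ∃ c, facetTest 6 band ks f c = true) {s : ℝ}
    (hs : band.Mem s) : DropGain (-s) (1 / s ^ 2) (coord 6 ks s)
      (fun i => (H 5 i : ℝ) / (100000 : ℕ)) S5.a ((S5.L : ℝ) / (100000 : ℕ)) :=
  S5.drop_of_tests (r := 16) (n := 14) (K := 40) (T := (.cut 1 543882 (.cut 1 342684 (.leaf [0, 0, 0, 0, 0, 0, 0, 0, 0, 0, 0, 0, 3614756038811686, 0, 0, 0, 0, 0, 0, 0, 0, 0, 139924531428387, 0, 0, 778979502597900, 0, 0, 106816178229971, 0, 0, 0, 0, 0, 0, 0, 0, 0, 0, 0, 0, 0, 4395373268483388211200000] []) (.cut 2 812418 (.cut 2 546805 (.leaf [0, 0, 0, 0, 0, 0, 0, 0, 0, 645556052468, 0, 0, 0, 0, 0, 0, 0, 0, 0, 0, 0, 0, 139924531428387, 0, 0, 779842395535502, 0, 0, 106219931760526, 0, 0, 0, 0, 0, 596246469445, 0, 0, 0, 0, 0, 0, 0, 0, 4395373268483388211200000] []) (.cut 6 790407 (.leaf [0, 0, 0, 0, 0, 0, 0, 0, 0, 0, 595932361466, 0, 0, 0, 0, 4007910976795, 0, 0, 0, 0, 0, 0,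 139924531428387, 0, 0, 0, 0, 0, 645079684575133, 0, 0, 0, 0, 0, 3701774246601, 0, 0, 0, 0, 0, 0, 0, 0, 0, 0, 0, 0, 4395373268483388211200000] []) (.leaf [] [0, 0, 953146, 883504]))) (.leaf [0, 0, 0, 0, 0, 0, 0, 783518667457, 0, 0, 0, 0, 0, 121951071405140, 3992164640907878855606272, 0, 246740709658358] []))) (.leaf [0, 0, 0, 0, 0, 0, 0, 122734590072597, 2656456707653444002906112, 0, 246740709658358, 0, 0, 0, 1343139981147937] [])))
    (cw := ⟨256, 325, 24, (.cut 2 128 (.out 0) (.cut 1 128 (.out 0) (.cut 2 192 (.mult [(0, 3213876088517980551083924184682325205044405987565585670602752)]) (.mult [(0, 1054553091544962368324412623098887957905195714669957798166528)]))))⟩)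
    (cu := ⟨16, 181, 24, (.cut 2 8 (.cut 1 8 (.mult []) (.cut 1 12 (.cut 2 4 (.mult []) (.mult [])) (.cut 2 4 (.mult []) (.mult [])))) (.cut 1 8 (.cut 2 12 (.cut 1 4 (.out 0) (.mult [])) (.out 0)) (.cut 2 12 (.cut 1 12 (.mult []) (.mult [])) (.mult []))))⟩)
    (by norm_num) ks_sum (by decide +kernel) (by decide +kernel) (by decide +kernel) hF
    (by decide +kernel) hs

/-- step 6 -/
def S6 : Step 6 := ⟨100000000, 6, 75972, ![(-3630040), (-28560568), 16452683, 35610725, 0, (-15745983)], 4255096, ![0, 2658275, 17882570, (-9142174), (-21106671), 0, 6956794], ![0, 0, 0, 0, 0, 0, 0], 0, 1, ![2658275, 17882570, (-9142174), (-21106671), 0, 6956794], ⟨126887, 1896233, 519007, 1711576⟩, ⟨4128208, (-1896233), (-519007), (-1711576)⟩⟩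

theorem drop6 (hF : ∀ f ∈ Fs, ∃ c, facetTest 6 band ks f c = true) {s : ℝ}
    (hs : band.Mem s) : DropGain (-s) (1 / s ^ 2) (coord 6 ks s)
      (fun i => (H 6 i : ℝ) / (100000 : ℕ)) S6.a ((S6.L : ℝ) / (100000 : ℕ)) :=
  S6.drop_of_tests (r := 16) (n := 14) (K := 40) (T := (.cut 1 543882 (.cut 1 462662 (.leaf [0, 0, 0, 0, 0, 0, 0, 0, 0, 0, 0, 0, 2212695649666795, 0, 66632287347337, 0, 0, 0, 0, 0, 0, 0, 0, 0, 0, 0, 0, 0, 0, 0, 0, 0, 0, 0, 0, 0, 3915440621103349760000000, 0, 164926579020500] []) (.cut 2 812418 (.cut 2 695415 (.leaf [0, 0, 0, 0, 0, 0, 0, 0, 506494204671, 0, 0, 0, 0, 0, 0, 0, 0, 0, 0, 0, 0, 0, 0, 0, 0, 0, 0, 0, 0, 0, 0, 0, 0, 0, 0, 0, 0, 3915440621683970819489792, 164926579020500, 66125625302980] []) (.cut 2 761923 (.leaf [0, 0, 0, 0, 0, 0, 557952936783, 0, 0, 0, 0, 0, 0, 0, 0, 0, 0, 0, 0, 0, 0, 0, 0, 0, 0, 23834168072709, 0, 0, 0, 0, 0, 0, 0, 0, 0, 0, 0, 1045458424380, 274968426]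 [0, 0, 940145, 822360]) (.leaf [0, 0, 0, 0, 0, 0, 0, 0, 506494204671, 0, 0, 0, 0, 0, 41896082201310, 0, 0, 0, 0, 0, 0, 0, 0, 0, 0, 0, 0, 0, 0, 0, 0, 0, 0, 0, 0, 0, 0, 0, 812895663465] [0, 0, 941439, 866397]))) (.leaf [0, 0, 0, 0, 0, 0, 0, 477981697968, 0, 0, 0, 0, 0, 0, 3556258512929045881028608, 0, 0, 0, 0, 0, 0, 0, 0, 0, 0, 0, 0, 0, 0, 0, 0, 0, 164448597322532, 0, 0, 0, 0, 0, 0, 0, 133811823641344] []))) (.leaf [0, 0, 0, 0, 0, 0, 0, 0, 2366397087576060604710912, 133535502414088, 0, 0, 0, 0, 1321899787792737, 0, 0, 0, 0, 0, 0, 0, 0, 0, 0, 0, 0, 0, 0, 0, 0, 0, 164926579020500, 0, 0, 0, 0, 0, 0, 0, 665254934893] [])))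
    (cw := ⟨64, 280, 24, (.cut 2 32 (.out 2) (.cut 1 32 (.cut 2 48 (.out 0) (.out 3)) (.cut 2 48 (.cut 1 48 (.out 0) (.cut 1 56 (.out 0) (.cut 2 40 (.cut 1 60 (.out 0) (.cut 0 1748 (.out 2) (.cut 2 36 (.out 2) (.cut 1 62 (.out 0) (.cut 0 1814 (.mult []) (.cut 2 38 (.cut 1 63 (.out 0) (.cut 0 1847 (.out 2) (.cut 2 37 (.out 2) (.cut 1 64 (.mult [(0, 1964258200572733522065752415170684378417573337759744)]) (.mult [(1, 1964258200572733522065752415170684378417573337759744)]))))) (.mult []))))))) (.mult [])))) (.cut 1 48 (.cut 2 56 (.out 0) (.out 3)) (.cut 2 56 (.cut 1 56 (.out 0) (.cut 1 60 (.mult [(0, 5846006549323611672814739330865132078623730171904)]) (.cut 0 1748 (.mult []) (.cut 2 52 (.mult []) (.mult []))))) (.cut 1 56 (.cut 2 60 (.mult [(0, 5846006549323611672814739330865132078623730171904)]) (.out 3)) (.cut 2 60 (.cut 1 60 (.mult [(0, 46768052394588893382517914646921056628989841375232)])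 (.mult [])) (.mult []))))))))⟩)
    (cu := ⟨16, 184, 24, (.cut 1 8 (.cut 2 8 (.mult []) (.cut 2 12 (.cut 1 4 (.out 0) (.mult [])) (.out 0))) (.cut 2 8 (.cut 2 4 (.mult []) (.cut 1 12 (.mult []) (.cut 2 6 (.cut 1 14 (.mult []) (.mult [])) (.mult [])))) (.cut 1 12 (.cut 2 12 (.cut 1 10 (.cut 2 10 (.mult []) (.mult [])) (.cut 2 10 (.mult []) (.mult []))) (.mult [])) (.cut 2 12 (.mult []) (.cut 1 14 (.mult []) (.cut 2 14 (.mult []) (.cut 1 15 (.mult []) (.cut 2 15 (.mult []) (.mult [])))))))))⟩)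
    (by norm_num) ks_sum (by decide +kernel) (by decide +kernel) (by decide +kernel) hF
    (by decide +kernel) hs

/-- step 7 -/
def S7 : Step 6 := ⟨100000000, 2, 43548, ![(-501602), (-34939739), 14917506, 36583106, 0, (-13058047)], 3074169, ![0, 371366, 21873027, (-8707534), (-22341258), 0, 6525192], ![0, 0, 0, 0, 0, 0, 0], 0, 1, ![371366, 21873027, (-8707534), (-22341258), 0, 6525192], ⟨72096, 1544864, 345367, 1110994⟩, ⟨3002072, (-1544864), (-345367), (-1110994)⟩⟩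

theorem drop7 (hF : ∀ f ∈ Fs, ∃ c, facetTest 6 band ks f c = true) {s : ℝ}
    (hs : band.Mem s) : DropGain (-s) (1 / s ^ 2) (coord 6 ks s)
      (fun i => (H 7 i : ℝ) / (100000 : ℕ)) S7.a ((S7.L : ℝ) / (100000 : ℕ)) :=
  S7.drop_of_tests (r := 16) (n := 14) (K := 40) (T := (.cut 1 537195 (.cut 1 434502 (.leaf [0, 0, 0, 0, 0, 0, 0, 0, 0, 0, 0, 0, 6439889600210183789740032, 0, 140827081136415, 0, 166213768441000, 0, 0, 0, 0, 0, 122110613242877] []) (.cut 2 811721 (.cut 6 1005452 (.leaf [0, 0, 0, 0, 0, 0, 0, 0, 0, 54891128726, 0, 0, 0, 0, 140827081136415, 0, 4022355042942548055162880, 0, 0, 0, 0, 0, 122110613242877, 0, 0, 0, 0, 0, 0, 0, 0, 0, 0, 0, 50698373258] []) (.leaf [0, 0, 0, 0, 0, 0, 0, 0, 70596108987, 0, 0, 0, 0, 0, 6144961772204, 0, 0, 0, 0, 0, 107932340, 0, 279076767890] [0, 0, 860742, 793096])) (.leaf [0, 0, 0, 0, 0, 0, 0, 66621982507, 0, 0, 0, 0, 0, 195474844790182, 3653365162652248492212224,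 0, 288324072638120] []))) (.leaf [0, 0, 0, 0, 0, 0, 0, 0, 0, 0, 4022355043148574951997440, 0, 0, 0, 1789568540231133, 0, 0, 0, 0, 0, 0, 0, 0, 0, 0, 0, 0, 0, 0, 0, 0, 0, 0, 0, 0, 0, 0, 0, 195541466772689] [])))
    (cw := ⟨64, 280, 24, (.cut 2 32 (.out 2) (.cut 1 32 (.cut 2 48 (.out 0) (.out 3)) (.cut 2 48 (.cut 1 48 (.out 0) (.cut 1 56 (.out 0) (.cut 2 40 (.cut 1 60 (.out 0) (.cut 0 1748 (.out 2) (.cut 2 36 (.out 2) (.cut 1 62 (.out 0) (.cut 0 1814 (.mult []) (.cut 2 38 (.cut 1 63 (.out 0) (.cut 0 1847 (.out 2) (.cut 2 37 (.out 2) (.cut 1 64 (.mult [(0, 1309505467048489014710501610113789585611715558506496)]) (.mult [(1, 1309505467048489014710501610113789585611715558506496)]))))) (.mult []))))))) (.mult [])))) (.cut 1 48 (.cut 2 56 (.out 0) (.out 3)) (.cut 2 56 (.cut 1 56 (.out 0) (.cut 1 60 (.mult []) (.cut 0 1748 (.mult []) (.cut 2 52 (.mult []) (.mult []))))) (.cut 1 56 (.cut 2 60 (.mult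 []) (.out 3)) (.cut 2 60 (.cut 1 60 (.mult [(0, 17538019647970835018444217992595396235871190515712)]) (.mult [])) (.mult []))))))))⟩)
    (cu := ⟨16, 184, 24, (.cut 1 8 (.cut 2 8 (.mult []) (.cut 2 12 (.cut 1 4 (.out 0) (.mult [])) (.out 0))) (.cut 2 8 (.cut 2 4 (.mult []) (.cut 1 12 (.mult []) (.cut 2 6 (.cut 1 14 (.mult []) (.mult [])) (.mult [])))) (.cut 1 12 (.cut 2 12 (.cut 1 10 (.cut 2 10 (.mult []) (.mult [])) (.cut 2 10 (.mult []) (.mult []))) (.mult [])) (.cut 2 12 (.mult []) (.cut 1 14 (.mult []) (.cut 2 14 (.mult []) (.cut 1 15 (.mult []) (.cut 2 15 (.mult []) (.mult [])))))))))⟩)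
    (by norm_num) ks_sum (by decide +kernel) (by decide +kernel) (by decide +kernel) hF
    (by decide +kernel) hs

/-- step 8 -/
def S8 : Step 6 := ⟨100000000, 6, 68173, ![(-1369908), (-33217622), 15591482, 36004269, 0, (-13816718)], 3264770, ![0, 1040700, 21981329, (-9304477), (-22587650), 0, 6722148], ![0, 0, 0, 0, 0, 0, 0], 0, 1, ![1040700, 21981329, (-9304477), (-22587650), 0, 6722148], ⟨71976, 1610269, 371025, 1210209⟩, ⟨3192793, (-1610269), (-371025), (-1210209)⟩⟩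

theorem drop8 (hF : ∀ f ∈ Fs, ∃ c, facetTest 6 band ks f c = true) {s : ℝ}
    (hs : band.Mem s) : DropGain (-s) (1 / s ^ 2) (coord 6 ks s)
      (fun i => (H 8 i : ℝ) / (100000 : ℕ)) S8.a ((S8.L : ℝ) / (100000 : ℕ)) :=
  S8.drop_of_tests (r := 16) (n := 14) (K := 40) (T := (.cut 1 473817 (.cut 1 415164 (.leaf [0, 0, 0, 0, 0, 0, 0, 0, 0, 0, 0, 0, 0, 0, 0, 0, 0, 0, 0, 0, 171049636678644, 0, 0, 0, 0, 0, 0, 0, 0, 0, 0, 0, 0, 0, 0, 0, 3958711241525738837377024, 544079399609999, 0, 33507483165403] []) (.cut 2 624042 (.leaf [0, 0, 0, 0, 0, 0, 0, 0, 200300961421, 0, 0, 0, 0, 0, 0, 0, 0, 0, 0, 0, 171049636678644, 0, 0, 0, 0, 0, 0, 0, 0, 0, 0, 0, 0, 0, 0, 0, 0, 3958711242114922451042304, 0, 33307182203982] []) (.leaf [] [0, 0, 825967, 745797]))) (.leaf [0, 0, 0, 0, 0, 0, 3958711242051576515264512, 226754794849486, 204557119844047, 0, 0, 0, 0, 0, 0, 0, 0, 0, 0, 0, 0, 0, 0, 0, 0, 0, 0, 0, 0, 0, 0,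 0, 165510313, 0, 0, 0, 0, 0, 0, 0, 134675741] [])))
    (cw := ⟨64, 280, 24, (.cut 2 32 (.out 2) (.cut 1 32 (.cut 2 48 (.out 0) (.out 3)) (.cut 2 48 (.cut 1 48 (.out 0) (.cut 1 56 (.out 0) (.cut 2 40 (.cut 1 60 (.out 0) (.cut 0 1748 (.out 2) (.cut 2 36 (.out 2) (.cut 1 62 (.out 0) (.cut 0 1814 (.mult []) (.cut 2 38 (.cut 1 63 (.out 0) (.cut 0 1847 (.out 2) (.cut 2 37 (.out 2) (.mult [(2, 774595867785378546647952961339630000417644247777280)])))) (.mult []))))))) (.mult [])))) (.cut 1 48 (.cut 2 56 (.out 0) (.out 3)) (.cut 2 56 (.cut 1 56 (.out 0) (.mult [])) (.cut 1 56 (.mult []) (.cut 2 60 (.cut 1 60 (.mult [(0, 2923003274661805836407369665432566039311865085952)]) (.mult [])) (.mult []))))))))⟩)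
    (cu := ⟨16, 183, 24, (.cut 1 8 (.cut 2 8 (.mult []) (.cut 2 12 (.cut 1 4 (.out 0) (.mult [])) (.out 0))) (.cut 2 8 (.cut 2 4 (.mult []) (.cut 1 12 (.mult []) (.cut 2 6 (.mult []) (.mult [])))) (.cut 1 12 (.cut 2 12 (.cut 1 10 (.mult []) (.cut 2 10 (.mult []) (.mult []))) (.mult [])) (.cut 2 12 (.mult []) (.cut 1 14 (.mult []) (.cut 2 14 (.mult []) (.cut 1 15 (.mult []) (.mult []))))))))⟩)
    (by norm_num) ks_sum (by decide +kernel) (by decide +kernel) (by decide +kernel) hF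
    (by decide +kernel) hs

/-- step 9 -/
def S9 : Step 6 := ⟨100000000, 0, 47716, ![(-13196096), (-13242862), 21268267, 31413220, 0, (-20879554)], 5761433, ![(-3274843), 10421349, 9212107, (-13168736), (-19872269), 0, 12055461], ![0, 0, 0, 0, 0, 0, 0], 0, 1, ![10421349, 9212107, (-13168736), (-19872269), 0, 12055461], ⟨526, 2257070, 88226, 140241⟩, ⟨5760906, (-5531913), (-88226), (-140241)⟩⟩

theorem drop9 (hF : ∀ f ∈ Fs, ∃ c, facetTest 6 band ks f c = true) {s : ℝ}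
    (hs : band.Mem s) : DropGain (-s) (1 / s ^ 2) (coord 6 ks s)
      (fun i => (H 9 i : ℝ) / (100000 : ℕ)) S9.a ((S9.L : ℝ) / (100000 : ℕ)) :=
  S9.drop_of_tests (r := 16) (n := 14) (K := 40) (T := (.cut 1 473817 (.cut 1 292454 (.leaf [0, 0, 0, 0, 0, 0, 0, 0, 0, 0, 0, 0, 0, 0, 0, 0, 0, 0, 0, 0, 0, 0, 110988607818540, 0, 0, 167560234171472, 0, 0, 223061865339222, 0, 0, 0, 0, 0, 0, 0, 0, 0, 0, 0, 0, 0, 3453920065768766499192832, 0, 0, 0, 0, 4857697947992] []) (.cut 2 466681 (.leaf [0, 0, 0, 0, 0, 0, 0, 0, 0, 1537708602647, 0, 0, 0, 0, 0, 0, 0, 0, 0, 0, 0, 0, 110988607818540, 0, 0, 162585535654278, 0, 0, 226499309659573, 0, 0, 0, 0, 0, 1420253627641, 0, 0, 0, 0, 0, 0, 0, 0, 3453920065676034934046720] []) (.cut 6 674711 (.leaf [0, 0, 0, 0, 0, 0, 0, 0, 0, 0, 1419505425314, 0, 0, 0, 0, 0, 0, 0, 0, 0, 0, 0, 110988607818540, 0, 0, 0, 0, 0, 338843550054113, 0, 0, 0, 0, 0, 0, 0, 0, 0, 0, 0, 0, 0,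 0, 0, 0, 0, 0, 3453920065684911020834816] []) (.cut 6 976670 (.leaf [0, 0, 0, 0, 0, 0, 0, 0, 0, 0, 1419505425314, 0, 0, 0, 0, 0, 0, 0, 0, 0, 0, 0, 39637982871411, 0, 0, 226694418352, 0, 0, 5717353121480] [0, 0, 710449, 727125]) (.leaf [0, 0, 0, 0, 0, 0, 226323794780, 0, 1772214170599, 0, 0, 0, 0, 0, 0, 0, 0, 0, 0, 0, 0, 0, 0, 0, 0, 0, 0, 0, 0, 0, 0, 0, 0, 0, 0, 0, 0, 370623572, 32582430841518] [0, 0, 803409, 733944]))))) (.leaf [0, 0, 0, 0, 0, 0, 3453920065756119431118848, 0, 196599878844837, 0, 227919988658843, 0, 0, 0, 0, 0, 0, 0, 0, 0, 0, 0, 110987849753732] [])))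
    (cw := ⟨64, 279, 24, (.cut 2 32 (.out 2) (.cut 1 32 (.cut 2 48 (.out 0) (.out 3)) (.cut 2 48 (.cut 1 48 (.out 0) (.mult [(0, 16076518010639932100240533159879113216215257972736)])) (.cut 1 48 (.mult [(0, 16076518010639932100240533159879113216215257972736)]) (.cut 2 56 (.cut 1 56 (.out 0) (.mult [(0, 913438523331814323877303020447676887284957839360)])) (.cut 1 56 (.mult [(0, 913438523331814323877303020447676887284957839360)]) (.mult [])))))))⟩)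
    (cu := ⟨64, 229, 24, (.cut 1 32 (.cut 2 32 (.mult []) (.cut 2 48 (.mult []) (.out 0))) (.cut 2 32 (.cut 2 16 (.mult []) (.cut 1 48 (.mult []) (.cut 1 56 (.cut 2 24 (.cut 2 20 (.cut 1 52 (.mult []) (.cut 1 54 (.mult []) (.mult []))) (.cut 1 52 (.mult []) (.mult []))) (.mult [])) (.cut 2 24 (.mult []) (.mult []))))) (.cut 1 48 (.cut 2 48 (.cut 1 40 (.mult []) (.cut 2 40 (.mult []) (.cut 1 44 (.mult []) (.cut 2 44 (.mult []) (.cut 1 46 (.cut 2 46 (.mult []) (.mult [])) (.mult [])))))) (.mult [])) (.cut 2 48 (.mult []) (.mult [])))))⟩)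
    (by norm_num) ks_sum (by decide +kernel) (by decide +kernel) (by decide +kernel) hF
    (by decide +kernel) hs

/-- step 10 -/
def S10 : Step 6 := ⟨100000000, 1, 26023, ![(-693659), (-34687156), 15212351, 36250878, 0, (-13155956)], 2987819, ![0, 475678, 22950278, (-9284118), (-23289973), 0, 6933733], ![0, 0, 0, 0, 0, 0, 0], 0, 1, ![475678, 22950278, (-9284118), (-23289973), 0, 6933733], ⟨60696, 1580242, 323854, 1022360⟩, ⟨2927122, (-1580242), (-323854), (-1022360)⟩⟩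

theorem drop10 (hF : ∀ f ∈ Fs, ∃ c, facetTest 6 band ks f c = true) {s : ℝ}
    (hs : band.Mem s) : DropGain (-s) (1 / s ^ 2) (coord 6 ks s)
      (fun i => (H 10 i : ℝ) / (100000 : ℕ)) S10.a ((S10.L : ℝ) / (100000 : ℕ)) :=
  S10.drop_of_tests (r := 16) (n := 14) (K := 40) (T := (.cut 1 473400 (.cut 2 624525 (.leaf [0, 0, 0, 0, 0, 0, 3985826188443153332174848, 0, 266168610004050, 0, 195680462190647, 0, 0, 0, 0, 0, 0, 0, 0, 0, 0, 0, 90678646802367] []) (.cut 6 958558 (.leaf [0, 0, 0, 0, 0, 0, 555983939106, 0, 266168610004050, 4315454013795303719698432, 0, 0, 0, 0, 0, 0, 0, 0, 0, 0, 0, 0, 90678646802367, 0, 0, 0, 0, 0, 0, 0, 0, 0, 0, 0, 3985826188044059602321408] []) (.leaf [0, 0, 0, 0, 0, 0, 0, 0, 0, 0, 0, 0, 0, 0, 0, 0, 0, 0, 152043250, 0, 0, 0, 264092403944, 0, 1426076579, 555983939106] [0, 0, 789540, 707596]))) (.leaf [0, 0, 0, 0, 0, 0, 3985826188377452143706112, 0, 266168610004050, 0,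 195528339315293, 0, 0, 0, 0, 0, 0, 0, 0, 0, 0, 98342474330068, 0, 0, 0, 0, 0, 0, 0, 0, 0, 0, 0, 0, 90830769677721] [])))
    (cw := ⟨64, 280, 24, (.cut 2 32 (.out 2) (.cut 1 32 (.cut 2 48 (.out 0) (.out 3)) (.cut 2 48 (.cut 1 48 (.out 0) (.cut 1 56 (.out 0) (.cut 2 40 (.cut 1 60 (.out 0) (.cut 0 1748 (.out 2) (.cut 2 36 (.out 2) (.cut 1 62 (.out 0) (.cut 0 1814 (.mult []) (.cut 2 38 (.cut 1 63 (.out 0) (.cut 0 1847 (.out 2) (.cut 2 37 (.out 2) (.cut 1 64 (.mult [(0, 1192585336062016781254206823496486944039240955068416)]) (.mult [(1, 1192585336062016781254206823496486944039240955068416)]))))) (.mult []))))))) (.mult [])))) (.cut 1 48 (.cut 2 56 (.out 0) (.out 3)) (.cut 2 56 (.cut 1 56 (.out 0) (.cut 1 60 (.mult []) (.cut 0 1748 (.mult []) (.cut 2 52 (.mult []) (.mult []))))) (.cut 1 56 (.cut 2 60 (.mult []) (.out 3)) (.cut 2 60 (.cut 1 60 (.cut 0 1748 (.cut 0 1681 (.cut 2 58 (.mult [(0, 2923003274661805836407369665432566039311865085952)])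 (.mult [(0, 5846006549323611672814739330865132078623730171904)])) (.mult [(0, 1461501637330902918203684832716283019655932542976)])) (.mult [])) (.mult [])) (.mult []))))))))⟩)
    (cu := ⟨16, 184, 24, (.cut 2 8 (.cut 1 8 (.mult []) (.cut 1 12 (.mult []) (.cut 2 4 (.mult []) (.cut 1 14 (.cut 2 6 (.mult []) (.mult [])) (.cut 2 6 (.mult []) (.mult [])))))) (.cut 1 8 (.cut 2 12 (.mult []) (.out 0)) (.cut 2 12 (.cut 1 12 (.cut 2 10 (.mult []) (.cut 1 10 (.mult []) (.mult []))) (.mult [])) (.cut 1 12 (.mult []) (.cut 2 14 (.mult []) (.cut 1 14 (.mult []) (.cut 2 15 (.mult []) (.cut 1 15 (.mult []) (.mult [])))))))))⟩)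
    (by norm_num) ks_sum (by decide +kernel) (by decide +kernel) (by decide +kernel) hF
    (by decide +kernel) hs

/-- step 11 -/
def S11 : Step 6 := ⟨100000000, 6, 63167, ![(-5426301), (-5542451), (-587517), 12942533, 38987021, (-36514177)], 3954959, ![0, 4224125, 3755696, 361304, (-8329170), (-21624802), 18936760], ![0, 0, 0, 0, 0, 0, 0], 0, 1, ![4224125, 3755696, 361304, (-8329170), (-21624802), 18936760], ⟨95178, 1961965, 436061, 1461083⟩, ⟨3859780, (-1961965), (-436061), (-1461083)⟩⟩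

theorem drop11 (hF : ∀ f ∈ Fs, ∃ c, facetTest 6 band ks f c = true) {s : ℝ}
    (hs : band.Mem s) : DropGain (-s) (1 / s ^ 2) (coord 6 ks s)
      (fun i => (H 11 i : ℝ) / (100000 : ℕ)) S11.a ((S11.L : ℝ) / (100000 : ℕ)) :=
  S11.drop_of_tests (r := 16) (n := 14) (K := 40) (T := (.cut 1 384689 (.leaf [0, 0, 0, 0, 0, 0, 0, 0, 0, 0, 0, 0, 0, 0, 0, 0, 0, 0, 56933396676886, 0, 0, 0, 0, 0, 0, 81099462718854, 0, 0, 0, 0, 0, 0, 0, 0, 0, 0, 4286668292193651651510272, 341009621, 0, 0, 386539650615188] []) (.cut 2 578155 (.leaf [0, 0, 0, 0, 0, 0, 0, 0, 0, 0, 0, 0, 0, 0, 0, 0, 0, 0, 0, 37886694987783, 0, 0, 0, 0, 0, 184513304968489, 0, 0, 0, 0, 0, 0, 0, 0, 0, 0, 0, 4286668292184709529600000, 0, 0, 386539650615188] []) (.cut 3 821446 (.cut 3 743578 (.leaf [0, 0, 0, 0, 0, 0, 0, 0, 0, 0, 0, 0, 0, 0, 3368314344937, 0, 0, 0, 0, 0, 0, 0, 0, 0, 0, 0, 0, 0, 0, 0, 0, 0, 0, 0, 0, 0, 0, 0, 4286668292196650075553792,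 15502726, 386539650615188] []) (.cut 6 1030696 (.cut 3 784597 (.leaf [0, 0, 0, 0, 0, 0, 0, 0, 0, 0, 0, 0, 61293038665, 0, 3333542653792, 0, 0, 0, 0, 0, 0, 0, 0, 0, 0, 0, 0, 0, 0, 0, 0, 0, 345446003049, 0, 12678316505309] [0, 0, 0, 711043, 933622]) (.leaf [0, 0, 0, 0, 0, 0, 0, 0, 0, 0, 0, 0, 0, 0, 3368314344937, 0, 0, 0, 61110925567, 0, 93203253896374, 386538865016338, 4286668292223958014492672] [])) (.leaf [0, 0, 0, 0, 0, 0, 0, 0, 0, 0, 0, 0, 0, 0, 3368314344937, 0, 0, 0, 61110925567, 0, 15502726, 65318944755, 0, 0, 0, 0, 0, 0, 0, 0, 0, 0, 0, 0, 0, 0, 0, 0, 0, 0, 14535179482378] [0, 0, 0, 711104, 952876]))) (.leaf [0, 0, 0, 0, 0, 0, 0, 0, 0, 0, 0, 0, 0, 0, 3368314344937, 0, 0, 0, 4286668292184771269754880, 0, 93203253896374, 386539930537658, 0, 0, 0, 0, 0, 0, 0, 0, 0, 0, 0, 0, 38759192] [])))))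
    (cw := ⟨256, 328, 24, (.cut 2 128 (.out 0) (.cut 1 128 (.out 0) (.cut 2 192 (.cut 1 192 (.out 0) (.cut 1 224 (.out 0) (.cut 2 160 (.cut 1 240 (.out 0) (.cut 0 1748 (.out 0) (.cut 2 144 (.out 2) (.cut 1 248 (.out 0) (.cut 0 1814 (.mult []) (.cut 2 152 (.cut 1 252 (.out 0) (.cut 0 1847 (.out 2) (.cut 2 148 (.out 2) (.cut 1 254 (.out 0) (.cut 0 1864 (.out 2) (.cut 2 150 (.mult [(2, 77133026124431533226014180432375804921065743701574056094466048)]) (.mult [(1, 803469022129495137770981046170581301261101496891396417650688)]))))))) (.mult []))))))) (.mult [])))) (.cut 1 192 (.cut 2 224 (.out 0) (.out 3)) (.cut 2 224 (.cut 1 224 (.out 0) (.cut 1 240 (.mult []) (.cut 0 1748 (.mult []) (.cut 2 208 (.mult []) (.mult []))))) (.cut 1 224 (.cut 2 240 (.mult []) (.out 3)) (.cut 2 240 (.cut 1 240 (.cut 0 1748 (.cut 0 1681 (.cut 2 232 (.mult [(0, 1606938044258990275541962092341162602522202993782792835301376)])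 (.mult [(0, 1606938044258990275541962092341162602522202993782792835301376)])) (.mult [(0, 1606938044258990275541962092341162602522202993782792835301376)])) (.mult [(0, 401734511064747568885490523085290650630550748445698208825344)])) (.mult [])) (.mult []))))))))⟩)
    (cu := ⟨16, 184, 24, (.cut 2 8 (.cut 1 8 (.mult []) (.cut 1 12 (.mult []) (.cut 2 4 (.mult []) (.cut 1 14 (.cut 2 6 (.mult []) (.mult [])) (.cut 2 6 (.mult []) (.cut 1 15 (.mult []) (.mult []))))))) (.cut 1 8 (.cut 2 12 (.mult []) (.out 0)) (.cut 2 12 (.cut 1 12 (.cut 2 10 (.mult []) (.cut 1 10 (.mult []) (.cut 1 11 (.cut 2 11 (.mult []) (.mult [])) (.mult [])))) (.mult [])) (.cut 1 12 (.mult []) (.cut 2 14 (.mult []) (.cut 1 14 (.mult []) (.cut 2 15 (.mult []) (.cut 1 15 (.mult []) (.cut 1 16 (.mult []) (.mult []))))))))))⟩)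
    (by norm_num) ks_sum (by decide +kernel) (by decide +kernel) (by decide +kernel) hF
    (by decide +kernel) hs

/-- step 12 -/
def S12 : Step 6 := ⟨100000000, 4, 42076, ![244032, (-36455097), 14744884, 36281417, 0, (-12274570)], 2585915, ![0, (-191159), 24554857, (-9244092), (-23944195), 0, 6831898], ![0, 0, 0, 0, 0, 0, 0], 0, 1, ![(-191159), 24554857, (-9244092), (-23944195), 0, 6831898], ⟨44084, 1457532, 267429, 815013⟩, ⟨2541830, (-1457532), (-267429), (-815013)⟩⟩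

theorem drop12 (hF : ∀ f ∈ Fs, ∃ c, facetTest 6 band ks f c = true) {s : ℝ}
    (hs : band.Mem s) : DropGain (-s) (1 / s ^ 2) (coord 6 ks s)
      (fun i => (H 12 i : ℝ) / (100000 : ℕ)) S12.a ((S12.L : ℝ) / (100000 : ℕ)) :=
  S12.drop_of_tests (r := 16) (n := 14) (K := 40) (T := (.cut 2 597226 (.leaf [0, 0, 0, 0, 0, 0, 0, 0, 0, 2731883378543, 0, 0, 0, 0, 0, 0, 0, 0, 0, 0, 0, 0, 67368785206211, 0, 0, 4008280304965566729289728, 0, 0, 179479035845379, 0, 0, 0, 0, 0, 2523213612767] []) (.cut 2 666973 (.cut 6 864381 (.leaf [0, 0, 0, 0, 0, 0, 0, 0, 0, 2731883378543, 0, 0, 0, 0, 0, 0, 0, 0, 0, 0, 0, 0, 67368785206211, 0, 0, 0, 0, 0, 4008280304541840288251904, 0, 0, 0, 0, 0, 2523213612767] []) (.leaf [0, 0, 0, 0, 0, 0, 1004136, 0, 0, 0, 0, 0, 0, 0, 0, 0, 0, 0, 0, 0, 0, 0, 241494561463, 0, 0, 509226852922] [390710, 0, 746559, 673216])) (.leaf [0, 0, 0, 0, 0, 0, 0, 0, 0, 0, 0, 0, 4008280304320531897778176,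 0, 180182804609258, 0, 182002249458147, 0, 0, 0, 0, 0, 67368785206211] []))))
    (cw := ⟨64, 280, 24, (.cut 2 32 (.out 2) (.cut 1 32 (.cut 2 48 (.out 0) (.out 3)) (.cut 2 48 (.cut 1 48 (.out 0) (.cut 1 56 (.out 0) (.cut 2 40 (.cut 1 60 (.out 0) (.cut 0 1748 (.out 2) (.cut 2 36 (.out 2) (.cut 1 62 (.out 0) (.cut 0 1814 (.mult []) (.cut 2 38 (.cut 1 63 (.out 0) (.cut 0 1847 (.out 2) (.cut 2 37 (.out 2) (.mult [(2, 467680523945888933825179146469210566289898413752320)])))) (.mult []))))))) (.mult [])))) (.cut 1 48 (.cut 2 56 (.out 0) (.out 3)) (.cut 2 56 (.cut 1 56 (.out 0) (.mult [])) (.cut 1 56 (.mult []) (.cut 2 60 (.cut 1 60 (.mult []) (.mult [])) (.mult []))))))))⟩)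
    (cu := ⟨16, 183, 24, (.cut 1 8 (.cut 2 8 (.cut 1 4 (.cut 2 4 (.cut 1 2 (.cut 2 2 (.cut 1 1 (.mult []) (.mult [])) (.mult [])) (.mult [])) (.mult [])) (.mult [])) (.cut 2 12 (.mult []) (.out 0))) (.cut 2 8 (.cut 2 4 (.mult []) (.cut 1 12 (.mult []) (.cut 2 6 (.mult []) (.mult [])))) (.cut 1 12 (.cut 2 12 (.cut 1 10 (.mult []) (.cut 2 10 (.mult []) (.mult []))) (.mult [])) (.cut 2 12 (.mult []) (.cut 1 14 (.mult []) (.cut 2 14 (.mult []) (.mult [])))))))⟩)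
    (by norm_num) ks_sum (by decide +kernel) (by decide +kernel) (by decide +kernel) hF
    (by decide +kernel) hs

/-- step 13 -/
def S13 : Step 6 := ⟨100000000, 5, 54067, ![(-3269885), (-12052230), 0, 16116851, 35504585, (-33056449)], 3305767, ![0, 2568240, 8383351, 0, (-10751397), (-20499965), 17990244], ![0, 0, 0, 0, 0, 0, 0], 0, 1, ![2568240, 8383351, 0, (-10751397), (-20499965), 17990244], ⟨62544, 1756459, 347919, 1138494⟩, ⟨3243222, (-1756459), (-347919), (-1138494)⟩⟩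

theorem drop13 (hF : ∀ f ∈ Fs, ∃ c, facetTest 6 band ks f c = true) {s : ℝ}
    (hs : band.Mem s) : DropGain (-s) (1 / s ^ 2) (coord 6 ks s)
      (fun i => (H 13 i : ℝ) / (100000 : ℕ)) S13.a ((S13.L : ℝ) / (100000 : ℕ)) :=
  S13.drop_of_tests (r := 16) (n := 14) (K := 40) (T := (.cut 1 365606 (.leaf [0, 0, 0, 0, 0, 0, 0, 0, 0, 0, 0, 0, 0, 0, 0, 0, 0, 0, 0, 0, 0, 0, 0, 0, 0, 0, 0, 0, 0, 0, 3903770404725163126947840, 152552375828305, 0, 18682493337686, 716506693874583] []) (.cut 2 549500 (.leaf [0, 0, 0, 0, 0, 0, 0, 0, 475652672880, 0, 0, 0, 0, 0, 0, 0, 0, 0, 0, 0, 0, 0, 0, 0, 0, 0, 0, 0, 0, 0, 0, 3903770404885937174609920, 0, 18206840664807, 716506693874583] []) (.cut 2 611753 (.cut 6 935440 (.leaf [0, 0, 0, 0, 0, 0, 523977971070, 0, 0, 0, 0, 0, 0, 0, 330641104083, 0, 0, 0, 0, 0, 0, 0, 0, 0, 0, 0, 0, 0, 0, 0, 0, 0, 0, 18351852233604, 3903770405460215641145344] []) (.leaf [0, 0, 0, 0, 0,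 0, 159789844163, 0, 330599883122, 0, 0, 0, 0, 0, 0, 0, 0, 0, 0, 0, 0, 0, 0, 0, 0, 0, 0, 0, 0, 0, 0, 152271311, 0, 0, 631460552683] [0, 0, 0, 648175, 878297])) (.leaf [0, 0, 0, 0, 0, 0, 0, 0, 0, 0, 341408516635, 0, 0, 0, 3545658859879558388121600, 0, 0, 0, 0, 0, 0, 0, 0, 0, 0, 0, 0, 0, 0, 0, 0, 0, 0, 0, 716165285357948] [])))))
    (cw := ⟨256, 328, 24, (.cut 2 128 (.out 0) (.cut 1 128 (.out 0) (.cut 2 192 (.cut 1 192 (.out 0) (.cut 1 224 (.out 0) (.cut 2 160 (.cut 1 240 (.out 0) (.cut 0 1748 (.out 0) (.cut 2 144 (.out 2) (.cut 1 248 (.out 0) (.cut 0 1814 (.mult []) (.cut 2 152 (.cut 1 252 (.out 0) (.cut 0 1847 (.out 2) (.cut 2 148 (.out 2) (.cut 1 254 (.out 0) (.cut 0 1864 (.out 2) (.cut 2 150 (.mult [(2, 51422017416287688817342786954917203280710495801049370729644032)]) (.mult [(1, 1606938044258990275541962092341162602522202993782792835301376)]))))))) (.mult []))))))) (.mult [])))) (.cut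 1 192 (.cut 2 224 (.out 0) (.out 3)) (.cut 2 224 (.cut 1 224 (.out 0) (.cut 1 240 (.mult []) (.cut 0 1748 (.mult []) (.cut 2 208 (.mult []) (.cut 1 248 (.mult []) (.mult [])))))) (.cut 1 224 (.cut 2 240 (.mult []) (.out 3)) (.cut 2 240 (.cut 1 240 (.cut 0 1748 (.cut 0 1681 (.cut 2 232 (.mult [(0, 401734511064747568885490523085290650630550748445698208825344)]) (.cut 1 232 (.mult []) (.mult []))) (.mult [(0, 200867255532373784442745261542645325315275374222849104412672)])) (.mult [])) (.mult [])) (.mult []))))))))⟩)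
    (cu := ⟨16, 184, 24, (.cut 2 8 (.cut 1 8 (.mult []) (.cut 1 12 (.mult []) (.cut 2 4 (.mult []) (.cut 1 14 (.cut 2 6 (.mult []) (.cut 1 13 (.mult []) (.mult []))) (.cut 2 6 (.mult []) (.mult [])))))) (.cut 1 8 (.cut 2 12 (.mult []) (.out 0)) (.cut 2 12 (.cut 1 12 (.cut 2 10 (.mult []) (.cut 1 10 (.mult []) (.cut 1 11 (.cut 2 11 (.mult []) (.mult [])) (.mult [])))) (.mult [])) (.cut 1 12 (.mult []) (.cut 2 14 (.mult []) (.cut 1 14 (.mult []) (.cut 2 15 (.mult []) (.cut 1 15 (.mult []) (.cut 1 16 (.mult []) (.mult []))))))))))⟩)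
    (by norm_num) ks_sum (by decide +kernel) (by decide +kernel) (by decide +kernel) hF
    (by decide +kernel) hs

/-- step 14 -/
def S14 : Step 6 := ⟨100000000, 0, 43515, ![(-7938952), (-23268906), 18061479, 33955485, 0, (-16775178)], 4277363, ![(-2762610), 6433767, 16833284, (-11918896), (-22293394), 0, 10266141], ![0, 0, 0, 0, 0, 0, 0], 0, 1, ![6433767, 16833284, (-11918896), (-22293394), 0, 10266141], ⟨461, 1516376, (-12306), 9759⟩, ⟨4276901, (-4278986), 12306, (-9759)⟩⟩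

theorem drop14 (hF : ∀ f ∈ Fs, ∃ c, facetTest 6 band ks f c = true) {s : ℝ}
    (hs : band.Mem s) : DropGain (-s) (1 / s ^ 2) (coord 6 ks s)
      (fun i => (H 14 i : ℝ) / (100000 : ℕ)) S14.a ((S14.L : ℝ) / (100000 : ℕ)) :=
  S14.drop_of_tests (r := 16) (n := 14) (K := 40) (T := (.cut 1 266708 (.leaf [0, 0, 0, 0, 0, 0, 0, 0, 0, 0, 0, 0, 0, 0, 0, 0, 0, 0, 0, 0, 0, 0, 32691648705267, 0, 199521661110798, 223304378613829, 0, 0, 205941785790391, 0, 0, 0, 0, 0, 0, 0, 0, 0, 0, 0, 0, 0, 3733445058427355136000000] []) (.cut 2 425518 (.leaf [0, 0, 0, 0, 0, 0, 0, 0, 0, 954568314032, 0, 0, 0, 0, 0, 0, 0, 0, 0, 0, 0, 0, 32691648705267, 0, 0, 349270126712975, 0, 0, 205060130378891, 0, 0, 0, 0, 0, 881655411501, 0, 0, 0, 0, 0, 0, 0, 0, 3733445058473738098442240] []) (.cut 2 611877 (.cut 6 615278 (.leaf [0, 0, 0, 0, 0, 0, 0, 0, 0, 954568314032, 0, 0, 0, 0, 0, 0, 0, 0, 0, 0, 0, 0, 32691648705267, 0, 0, 0,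 0, 0, 446400707941158, 0, 0, 0, 0, 0, 881655411501, 0, 0, 0, 0, 0, 0, 0, 0, 0, 0, 0, 0, 3733445058427355136000000] []) (.cut 6 911823 (.leaf [0, 0, 0, 0, 0, 0, 0, 0, 0, 0, 881190947536, 0, 0, 0, 0, 0, 0, 0, 0, 0, 0, 0, 8237046690856, 0, 0, 257366418663, 0, 0, 8240009804251, 0, 0, 0, 0, 0, 0, 0, 0, 0, 0, 0, 0, 0, 0, 114787224] [0, 0, 651890, 666167]) (.cut 1 347275 (.leaf [0, 0, 0, 0, 0, 0, 0, 0, 0, 0, 0, 0, 0, 0, 0, 0, 0, 0, 83316949210961, 257479335652, 0, 0, 0, 0, 0, 1870235, 0, 0, 0, 0, 0, 0, 0, 0, 0, 0, 9793927225982427661860864] []) (.cut 2 522035 (.leaf [0, 0, 0, 0, 0, 0, 13159844908628, 0, 0, 0, 0, 0, 0, 0, 0, 0, 0, 0, 0, 55701279043984, 0, 0, 0, 0, 0, 1870235, 0, 0, 0, 0, 0, 828991333, 0, 0, 0, 0, 0, 6516748225771517136338944] []) (.leaf [0, 0, 0, 0, 0, 0, 0, 11273648008190, 0, 0, 0, 0, 0, 0, 50426817382173, 0, 0, 0, 0, 0, 0, 0, 0, 0, 0, 0, 0, 0, 0, 0, 0, 0, 0, 0, 0, 0, 0, 0, 23438430466086,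 0, 110964688274115] [0, 0, 708002, 673216]))))) (.leaf [0, 0, 0, 0, 0, 0, 0, 0, 0, 0, 881190947536, 0, 0, 0, 3390958272867715902341120, 0, 205060594842856, 0, 0, 0, 0, 0, 32691648705267] [])))))
    (cw := ⟨64, 279, 24, (.cut 2 32 (.out 2) (.cut 1 32 (.cut 2 48 (.out 0) (.out 3)) (.cut 2 48 (.cut 1 48 (.out 0) (.mult [(0, 35076039295941670036888435985190792471742381031424)])) (.cut 1 48 (.mult [(0, 35076039295941670036888435985190792471742381031424)]) (.cut 2 56 (.cut 1 56 (.out 0) (.cut 1 60 (.mult [(0, 11692013098647223345629478661730264157247460343808)]) (.cut 0 1748 (.mult [(0, 593735040165679310520246963290989976735222595584)]) (.cut 2 52 (.mult [(0, 1461501637330902918203684832716283019655932542976)]) (.mult []))))) (.cut 1 56 (.cut 2 60 (.mult [(0, 11692013098647223345629478661730264157247460343808)]) (.out 3)) (.mult [])))))))⟩)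
    (cu := ⟨64, 229, 24, (.cut 1 32 (.cut 2 32 (.mult []) (.cut 2 48 (.mult []) (.out 0))) (.cut 2 32 (.cut 2 16 (.mult []) (.cut 1 48 (.mult []) (.cut 1 56 (.cut 2 24 (.cut 2 20 (.mult []) (.cut 1 52 (.mult []) (.mult []))) (.mult [])) (.cut 2 24 (.cut 2 20 (.mult []) (.mult [])) (.mult []))))) (.cut 1 48 (.cut 2 48 (.cut 1 40 (.mult []) (.cut 2 40 (.mult []) (.cut 1 44 (.mult []) (.cut 2 44 (.mult []) (.cut 1 46 (.mult []) (.mult [])))))) (.mult [])) (.cut 2 48 (.mult []) (.mult [])))))⟩)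
    (by norm_num) ks_sum (by decide +kernel) (by decide +kernel) (by decide +kernel) hF
    (by decide +kernel) hs

/-- step 15 -/
def S15 : Step 6 := ⟨100000000, 1, 23175, ![130050, (-36329577), 14921603, 36221141, 0, (-12397630)], 2584670, ![0, (-341004), 25218066, (-9626337), (-24320675), 0, 7030311], ![0, 0, 0, 0, 0, 0, 0], 0, 1, ![(-341004), 25218066, (-9626337), (-24320675), 0, 7030311], ⟨38610, 1465660, 262404, 817336⟩, ⟨2546059, (-1465660), (-262404), (-817336)⟩⟩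

theorem drop15 (hF : ∀ f ∈ Fs, ∃ c, facetTest 6 band ks f c = true) {s : ℝ}
    (hs : band.Mem s) : DropGain (-s) (1 / s ^ 2) (coord 6 ks s)
      (fun i => (H 15 i : ℝ) / (100000 : ℕ)) S15.a ((S15.L : ℝ) / (100000 : ℕ)) :=
  S15.drop_of_tests (r := 16) (n := 14) (K := 40) (T := (.cut 2 556082 (.leaf [0, 0, 0, 0, 0, 0, 3994479235035164464644096, 0, 0, 0, 192124503868203, 0, 0, 0, 59348323019754, 0, 0, 0, 0, 0, 0, 0, 45461872143306] []) (.cut 2 611746 (.cut 6 853595 (.leaf [0, 0, 0, 0, 0, 0, 487329503572, 0, 59348323019754, 4324822667308244655931392, 0, 0, 0, 0, 0, 0, 0, 0, 0, 0, 0, 0, 45461872143306, 0, 0, 0, 0, 0, 0, 0, 0, 0, 0, 0, 3994479234606302316462080] []) (.cut 6 961421 (.leaf [0, 0, 0, 0, 0, 0, 370258817, 0, 0, 0, 0, 0, 0, 0, 0, 0, 0, 0, 0, 0, 0, 181200293, 209591525770, 0, 0, 486959244755] [370800, 0, 700875, 637047]) (.leaf [0, 0, 0, 0, 0, 0, 487329503572, 0, 59348323019754,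 0, 0, 0, 0, 0, 0, 0, 0, 0, 0, 0, 0, 49304143278560, 0, 0, 0, 0, 0, 0, 0, 0, 0, 0, 0, 0, 0, 0, 0, 0, 0, 0, 4437817169653694956830720] []))) (.leaf [0, 0, 0, 0, 0, 0, 0, 0, 0, 0, 0, 0, 26152496800337, 0, 3994479234427701470167040, 0, 192124503868203, 0, 0, 0, 0, 0, 45461872143306] []))))
    (cw := ⟨256, 328, 24, (.cut 2 128 (.out 0) (.cut 1 128 (.out 0) (.cut 2 192 (.cut 1 192 (.out 0) (.cut 1 224 (.out 0) (.cut 2 160 (.cut 1 240 (.out 0) (.cut 0 1748 (.out 0) (.cut 2 144 (.out 2) (.cut 1 248 (.out 0) (.cut 0 1814 (.mult []) (.cut 2 152 (.cut 1 252 (.out 0) (.cut 0 1847 (.out 2) (.cut 2 148 (.out 2) (.cut 1 254 (.out 0) (.cut 0 1864 (.out 2) (.cut 2 150 (.mult [(2, 51422017416287688817342786954917203280710495801049370729644032)]) (.mult [(1, 803469022129495137770981046170581301261101496891396417650688)]))))))) (.mult []))))))) (.mult [])))) (.cut 1 192 (.cut 2 224 (.out 0) (.out 3)) (.cut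 2 224 (.cut 1 224 (.out 0) (.cut 1 240 (.mult []) (.mult []))) (.cut 1 224 (.cut 2 240 (.mult []) (.out 3)) (.cut 2 240 (.cut 1 240 (.cut 0 1748 (.cut 0 1681 (.cut 2 232 (.mult []) (.mult [])) (.mult [])) (.mult [])) (.mult [])) (.mult []))))))))⟩)
    (cu := ⟨16, 184, 24, (.cut 2 8 (.cut 1 8 (.cut 2 4 (.cut 1 4 (.cut 2 2 (.cut 1 2 (.cut 1 1 (.cut 2 1 (.mult []) (.mult [])) (.mult [])) (.mult [])) (.mult [])) (.mult [])) (.mult [])) (.cut 1 12 (.mult []) (.cut 2 4 (.mult []) (.cut 1 14 (.cut 2 6 (.mult []) (.mult [])) (.cut 2 6 (.mult []) (.mult [])))))) (.cut 1 8 (.cut 2 12 (.mult []) (.out 0)) (.cut 2 12 (.cut 1 12 (.cut 2 10 (.mult []) (.cut 1 10 (.mult []) (.cut 1 11 (.mult []) (.mult [])))) (.mult [])) (.cut 1 12 (.mult []) (.cut 2 14 (.mult []) (.cut 1 14 (.mult []) (.cut 2 15 (.mult []) (.cut 1 15 (.mult []) (.mult [])))))))))⟩)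
    (by norm_num) ks_sum (by decide +kernel) (by decide +kernel) (by decide +kernel) hF
    (by decide +kernel) hs

/-- step 16 -/
def S16 : Step 6 := ⟨100000000, 6, 56545, ![(-4360632), 0, (-6360577), 5163086, 46363689, (-37752016)], 3112637, ![0, 3486953, 0, 4131990, (-3484323), (-27383721), 21072556], ![0, 0, 0, 0, 0, 0, 0], 0, 1, ![3486953, 0, 4131990, (-3484323), (-27383721), 21072556], ⟨58452, 1672561, 319939, 1061051⟩, ⟨3054184, (-1672561), (-319939), (-1061051)⟩⟩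

theorem drop16 (hF : ∀ f ∈ Fs, ∃ c, facetTest 6 band ks f c = true) {s : ℝ}
    (hs : band.Mem s) : DropGain (-s) (1 / s ^ 2) (coord 6 ks s)
      (fun i => (H 16 i : ℝ) / (100000 : ℕ)) S16.a ((S16.L : ℝ) / (100000 : ℕ)) :=
  S16.drop_of_tests (r := 16) (n := 14) (K := 40) (T := (.cut 1 344346 (.leaf [0, 0, 0, 0, 0, 0, 0, 0, 0, 0, 0, 0, 0, 0, 0, 0, 0, 0, 546859229746443, 0, 10391594302902, 42161707853645, 0, 0, 0, 0, 0, 0, 0, 0, 0, 0, 0, 0, 0, 0, 13372879108720420875927552] []) (.cut 3 723940 (.cut 3 665621 (.leaf [0, 0, 0, 0, 0, 0, 0, 0, 0, 0, 0, 0, 0, 0, 0, 0, 0, 0, 0, 0, 0, 0, 0, 0, 0, 0, 0, 0, 0, 0, 0, 0, 0, 0, 0, 0, 0, 0, 5097741516326826003136512, 10391594302902, 42161707853645] []) (.cut 6 961370 (.leaf [0, 0, 0, 0, 0, 0, 0, 0, 0, 0, 0, 0, 0, 0, 0, 0, 0, 0, 44800335560, 0, 0, 1037889183713, 0, 0, 50729447, 0, 0, 0, 0, 0, 0, 0, 0, 0, 0, 0, 0, 0, 0, 0, 86344901380] [0, 0, 0, 629217,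 843106]) (.leaf [0, 0, 0, 0, 0, 0, 0, 0, 0, 0, 0, 0, 0, 0, 0, 0, 0, 0, 44851065007, 0, 0, 1037867696133, 0, 0, 0, 0, 0, 0, 0, 0, 0, 0, 0, 0, 0, 0, 0, 0, 0, 10391594302902, 5663527959424537924206592] []))) (.leaf [0, 0, 0, 0, 0, 0, 0, 0, 0, 0, 0, 0, 0, 0, 0, 0, 0, 0, 44851065007, 0, 0, 4207445952942634149347328, 0, 0, 0, 0, 0, 0, 0, 0, 0, 0, 0, 0, 0, 0, 0, 0, 0, 10391594302902, 31823261072515] []))))
    (cw := ⟨64, 280, 24, (.cut 2 32 (.out 2) (.cut 1 32 (.cut 2 48 (.out 0) (.out 3)) (.cut 2 48 (.cut 1 48 (.out 0) (.cut 1 56 (.out 0) (.cut 2 40 (.cut 1 60 (.out 0) (.cut 0 1748 (.out 2) (.cut 2 36 (.out 2) (.cut 1 62 (.out 0) (.cut 0 1814 (.mult []) (.cut 2 38 (.cut 1 63 (.out 0) (.cut 0 1847 (.out 2) (.cut 2 37 (.out 2) (.cut 1 64 (.mult [(0, 1327043486696459849728945828106384981847586749022208)]) (.mult [(1, 1327043486696459849728945828106384981847586749022208)]))))) (.mult []))))))) (.mult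 [])))) (.cut 1 48 (.cut 2 56 (.out 0) (.out 3)) (.cut 2 56 (.cut 1 56 (.out 0) (.cut 1 60 (.mult []) (.cut 0 1748 (.mult []) (.cut 2 52 (.mult []) (.mult []))))) (.cut 1 56 (.cut 2 60 (.mult []) (.out 3)) (.cut 2 60 (.cut 1 60 (.cut 0 1748 (.cut 0 1681 (.cut 2 58 (.mult []) (.mult [])) (.mult [])) (.mult [])) (.mult [])) (.mult []))))))))⟩)
    (cu := ⟨16, 184, 24, (.cut 2 8 (.cut 1 8 (.mult []) (.cut 1 12 (.mult []) (.cut 2 4 (.mult []) (.cut 1 14 (.cut 2 6 (.mult []) (.mult [])) (.cut 2 6 (.mult []) (.mult [])))))) (.cut 1 8 (.cut 2 12 (.mult []) (.out 0)) (.cut 2 12 (.cut 1 12 (.cut 2 10 (.mult []) (.cut 1 10 (.mult []) (.cut 1 11 (.mult []) (.mult [])))) (.mult [])) (.cut 1 12 (.mult []) (.cut 2 14 (.mult []) (.cut 1 14 (.mult []) (.cut 2 15 (.mult []) (.cut 1 15 (.mult []) (.mult [])))))))))⟩)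
    (by norm_num) ks_sum (by decide +kernel) (by decide +kernel) (by decide +kernel) hF
    (by decide +kernel) hs

end Vale.Agent.P154.Ly.BH
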