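import Vale.Agent.P154.LyBH

/-!
Band H: drops 17 to 30.
-/

open scoped BigOperators

namespace Vale.Agent.P154.Ly.BH

/-- step 17 -/
def S17 : Step 6 := ⟨100000000, 4, 37473, ![1086495, (-37536700), 14124158, 35890857, 0, (-11361790)], 2231358, ![0, (-874141), 26400335, (-9302604), (-24722532), 0, 6732712], ![0, 0, 0, 0, 0, 0, 0], 0, 1, ![(-874141), 26400335, (-9302604), (-24722532), 0, 6732712], ⟨28168, 1330389, 218822, 640160⟩, ⟨2203189, (-1330389), (-218822), (-640160)⟩⟩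

theorem drop17 (hF : ∀ f ∈ Fs, ∃ c, facetTest 6 band ks f c = true) {s : ℝ}
    (hs : band.Mem s) : DropGain (-s) (1 / s ^ 2) (coord 6 ks s)
      (fun i => (H 17 i : ℝ) / (100000 : ℕ)) S17.a ((S17.L : ℝ) / (100000 : ℕ)) :=
  S17.drop_of_tests (r := 16) (n := 14) (K := 40) (T := (.cut 2 531797 (.leaf [0, 0, 0, 0, 0, 0, 0, 0, 0, 0, 0, 0, 0, 0, 0, 0, 0, 0, 0, 0, 0, 0, 27073406285993, 0, 1362689833161, 4127203812442582030483456, 0, 0, 186838846989732] []) (.cut 2 594083 (.cut 6 769797 (.leaf [0, 0, 0, 0, 0, 0, 0, 0, 0, 0, 0, 0, 0, 0, 0, 0, 0, 0, 0, 0, 0, 0, 27073406285993, 0, 1362689833161, 0, 0, 0, 4127203812058231849615360] []) (.cut 6 870989 (.leaf [0, 0, 0, 0, 0, 0, 0, 0, 0, 0, 0, 0, 0, 0, 0, 0, 0, 0, 0, 0, 0, 0, 7962575735784, 0, 11256934, 487889650516, 0, 0, 65834842] [347953, 0, 651864, 599568]) (.leaf [] [347953, 0, 668148, 599568]))) (.leaf [0, 0, 0, 0, 0, 0, 0, 0, 0, 0, 0, 0, 4127203811835300498374656,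 0, 67054625363676, 0, 186838846989732, 0, 0, 0, 0, 0, 27073406285993] []))))
    (cw := ⟨256, 328, 24, (.cut 2 128 (.out 0) (.cut 1 128 (.out 0) (.cut 2 192 (.cut 1 192 (.out 0) (.cut 1 224 (.out 0) (.cut 2 160 (.cut 1 240 (.out 0) (.cut 0 1748 (.out 0) (.cut 2 144 (.out 2) (.cut 1 248 (.out 0) (.cut 0 1814 (.mult []) (.cut 2 152 (.cut 1 252 (.out 0) (.cut 0 1847 (.out 2) (.cut 2 148 (.out 2) (.cut 1 254 (.out 0) (.cut 0 1864 (.out 2) (.cut 2 150 (.mult [(2, 38566513062215766613007090216187902460532871850787028047233024)]) (.mult [(1, 803469022129495137770981046170581301261101496891396417650688)]))))))) (.mult []))))))) (.mult [])))) (.cut 1 192 (.cut 2 224 (.out 0) (.out 3)) (.cut 2 224 (.cut 1 224 (.out 0) (.cut 1 240 (.mult []) (.cut 0 1748 (.mult []) (.cut 2 208 (.mult []) (.mult []))))) (.cut 1 224 (.cut 2 240 (.mult []) (.out 3)) (.cut 2 240 (.cut 1 240 (.cut 0 1748 (.cut 0 1681 (.cut 2 232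 (.mult []) (.cut 1 232 (.mult []) (.mult []))) (.mult [])) (.mult [])) (.mult [])) (.mult []))))))))⟩)
    (cu := ⟨64, 231, 24, (.cut 1 32 (.cut 2 32 (.cut 1 16 (.cut 2 16 (.cut 1 8 (.cut 2 8 (.cut 1 4 (.cut 2 4 (.cut 1 2 (.cut 2 2 (.cut 1 1 (.mult []) (.mult [])) (.mult [])) (.cut 2 2 (.mult []) (.mult []))) (.mult [])) (.mult [])) (.mult [])) (.mult [])) (.mult [])) (.mult [])) (.cut 2 48 (.mult []) (.out 0))) (.cut 2 32 (.cut 2 16 (.mult []) (.cut 1 48 (.mult []) (.cut 2 24 (.mult []) (.cut 1 56 (.cut 2 28 (.cut 1 52 (.mult []) (.cut 1 54 (.mult []) (.mult []))) (.mult [])) (.mult []))))) (.cut 1 48 (.cut 2 48 (.cut 1 40 (.mult []) (.cut 2 40 (.mult []) (.cut 1 44 (.cut 2 44 (.mult []) (.mult [])) (.cut 2 44 (.mult []) (.mult []))))) (.mult [])) (.cut 2 48 (.mult []) (.cut 1 56 (.mult []) (.cut 2 56 (.mult []) (.cut 1 60 (.mult []) (.mult []))))))))⟩)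
    (by norm_num) ks_sum (by decide +kernel) (by decide +kernel) (by decide +kernel) hF
    (by decide +kernel) hs

/-- step 18 -/
def S18 : Step 6 := ⟨100000000, 3, 39880, ![(-2348064), (-13444047), (-642123), 15771452, 35645657, (-32148657)], 2877196, ![0, 1892805, 9724339, 424207, (-10920845), (-21816971), 18648318], ![0, 0, 0, 0, 0, 0, 0], 0, 1, ![1892805, 9724339, 424207, (-10920845), (-21816971), 18648318], ⟨42799, 1618846, 288075, 927296⟩, ⟨2834396, (-1618846), (-288075), (-927296)⟩⟩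

theorem drop18 (hF : ∀ f ∈ Fs, ∃ c, facetTest 6 band ks f c = true) {s : ℝ}
    (hs : band.Mem s) : DropGain (-s) (1 / s ^ 2) (coord 6 ks s)
      (fun i => (H 18 i : ℝ) / (100000 : ℕ)) S18.a ((S18.L : ℝ) / (100000 : ℕ)) :=
  S18.drop_of_tests (r := 16) (n := 14) (K := 40) (T := (.cut 1 326929 (.leaf [0, 0, 0, 0, 0, 0, 0, 0, 0, 0, 0, 0, 0, 0, 0, 0, 0, 0, 3919281435146885508628480, 129172956828518, 8616658863366, 116376659792253, 649492715573721] []) (.cut 2 491228 (.leaf [0, 0, 0, 0, 0, 0, 342881243210, 0, 0, 0, 0, 0, 0, 0, 0, 0, 0, 0, 0, 3919281435324769095385088, 8616658863366, 116376659792253, 649492715573721] []) (.cut 2 544919 (.cut 3 697824 (.cut 6 837370 (.leaf [0, 0, 0, 0, 0, 0, 342881243210, 0, 0, 0, 0, 0, 0, 0, 160436242182, 0, 0, 0, 0, 0, 8456222621183, 116376659792253, 3919281435823181259603968] []) (.cut 6 854207 (.leaf [0, 0, 0, 0, 0, 0, 165970753185, 0, 160594437336, 0, 0, 0, 0,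 0, 0, 0, 0, 0, 0, 0, 0, 0, 17638996573628, 0, 0, 0, 0, 0, 0, 0, 0, 270187382, 0, 0, 15434503840934] [0, 0, 0, 588259, 774395]) (.leaf [0, 0, 0, 0, 0, 0, 166240940567, 0, 160349168723, 0, 0, 0, 0, 0, 0, 0, 0, 0, 0, 0, 245268613, 109583675041, 0, 0, 0, 0, 0, 0, 0, 0, 0, 0, 0, 0, 0, 0, 0, 0, 0, 0, 11380562963193] [0, 0, 0, 588259, 793185]))) (.leaf [0, 0, 0, 0, 0, 0, 342881243210, 0, 0, 0, 0, 0, 0, 0, 160436242182, 0, 0, 0, 0, 0, 8456222621183, 116376659792253, 3919281435770989353893888] [])) (.leaf [0, 0, 0, 0, 0, 0, 0, 0, 311258084915, 0, 0, 0, 0, 0, 3559746989271143455653888, 0, 0, 0, 0, 0, 0, 116376659792253, 649492715573721] [])))))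
    (cw := ⟨256, 328, 24, (.cut 2 128 (.out 0) (.cut 1 128 (.out 0) (.cut 2 192 (.cut 1 192 (.out 0) (.cut 1 224 (.out 0) (.cut 2 160 (.cut 1 240 (.out 0) (.cut 0 1748 (.out 0) (.cut 2 144 (.out 2) (.cut 1 248 (.out 0) (.cut 0 1814 (.mult []) (.cut 2 152 (.cut 1 252 (.out 0) (.cut 0 1847 (.out 2) (.cut 2 148 (.out 2) (.cut 1 254 (.out 0) (.cut 0 1864 (.out 2) (.cut 2 150 (.mult [(2, 51422017416287688817342786954917203280710495801049370729644032)]) (.mult [(1, 1606938044258990275541962092341162602522202993782792835301376)]))))))) (.mult []))))))) (.mult [])))) (.cut 1 192 (.cut 2 224 (.out 0) (.out 3)) (.cut 2 224 (.cut 1 224 (.out 0) (.cut 1 240 (.mult []) (.cut 0 1748 (.mult []) (.cut 2 208 (.mult []) (.cut 1 248 (.mult []) (.cut 0 1814 (.mult []) (.cut 2 216 (.mult []) (.mult [])))))))) (.cut 1 224 (.cut 2 240 (.mult []) (.out 3)) (.cut 2 240 (.cut 1 240 (.cut 0 1748 (.cut 0 1681 (.cut 2 232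 (.cut 1 232 (.out 0) (.mult [])) (.cut 1 232 (.mult []) (.mult []))) (.cut 2 232 (.mult []) (.mult []))) (.mult [])) (.mult [])) (.mult []))))))))⟩)
    (cu := ⟨64, 231, 24, (.cut 1 32 (.cut 2 32 (.mult []) (.cut 2 48 (.mult []) (.out 0))) (.cut 2 32 (.cut 2 16 (.mult []) (.cut 1 48 (.mult []) (.cut 2 24 (.mult []) (.cut 1 56 (.cut 2 28 (.cut 2 26 (.mult []) (.mult [])) (.mult [])) (.mult []))))) (.cut 1 48 (.cut 2 48 (.cut 1 40 (.mult []) (.cut 2 40 (.mult []) (.cut 1 44 (.cut 2 44 (.mult []) (.mult [])) (.cut 2 44 (.mult []) (.mult []))))) (.mult [])) (.cut 2 48 (.mult []) (.cut 1 56 (.mult []) (.cut 2 56 (.mult []) (.cut 1 60 (.mult []) (.mult []))))))))⟩)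
    (by norm_num) ks_sum (by decide +kernel) (by decide +kernel) (by decide +kernel) hF
    (by decide +kernel) hs

/-- step 19 -/
def S19 : Step 6 := ⟨100000000, 0, 40320, ![(-4655617), (-29280137), 16262192, 35364481, 0, (-14437572)], 3416149, ![(-2154082), 3848472, 21837796, (-11195500), (-24312192), 0, 9226429], ![0, 0, 0, 0, 0, 0, 0], 0, 1, ![3848472, 21837796, (-11195500), (-24312192), 0, 9226429], ⟨2650, 1259188, (-11245), 8823⟩, ⟨3413498, (-3413270), 11245, (-8823)⟩⟩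

theorem drop19 (hF : ∀ f ∈ Fs, ∃ c, facetTest 6 band ks f c = true) {s : ℝ}
    (hs : band.Mem s) : DropGain (-s) (1 / s ^ 2) (coord 6 ks s)
      (fun i => (H 19 i : ℝ) / (100000 : ℕ)) S19.a ((S19.L : ℝ) / (100000 : ℕ)) :=
  S19.drop_of_tests (r := 16) (n := 14) (K := 40) (T := (.cut 1 247128 (.leaf [0, 0, 0, 0, 0, 0, 0, 0, 0, 0, 0, 0, 0, 0, 0, 0, 0, 0, 0, 0, 0, 0, 177967564077186, 0, 0, 0, 0, 0, 4024356, 0, 0, 0, 0, 0, 0, 0, 0, 0, 0, 0, 0, 0, 3888365807027515887190016, 208881518350591, 0, 0, 0, 20066820407101] []) (.cut 2 394212 (.leaf [0, 0, 0, 0, 0, 0, 0, 0, 0, 487629913562, 0, 0, 0, 0, 0, 0, 0, 0, 0, 0, 0, 0, 177967564077186, 0, 0, 591658091739581, 0, 0, 19616441210286, 0, 0, 0, 0, 0, 450383221171, 0, 0, 0, 0, 0, 0, 0, 0, 3888365806976342425600000] []) (.cut 2 545016 (.cut 6 570122 (.leaf [0, 0, 0, 0, 0, 0, 0, 0, 0, 487629913562, 0, 0, 0, 0, 0, 0, 0, 0, 0, 0, 0, 0, 177967564077186, 0, 0,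 0, 0, 0, 428443577168475, 0, 0, 0, 0, 0, 450383221171, 0, 0, 0, 0, 0, 0, 0, 0, 0, 0, 0, 0, 3888365806976342425600000] []) (.cut 6 792520 (.leaf [0, 0, 0, 0, 0, 0, 0, 0, 0, 0, 450145955258, 0, 0, 0, 0, 0, 0, 0, 0, 0, 0, 0, 11351770031266, 0, 0, 307962525933, 0, 0, 11532326995499, 0, 0, 0, 0, 0, 0, 0, 0, 0, 0, 0, 0, 0, 0, 616328820] [0, 0, 578058, 590555]) (.leaf [0, 0, 0, 0, 0, 0, 308578854753, 0, 347027085834, 0, 0, 0, 0, 0, 0, 0, 0, 0, 0, 0, 0, 0, 0, 0, 0, 0, 0, 0, 0, 0, 0, 0, 0, 0, 0, 0, 0, 0, 108944344726520] [0, 0, 638080, 599568]))) (.leaf [0, 0, 0, 0, 0, 0, 0, 0, 0, 487629913562, 0, 0, 0, 30955409598527, 3531667399615206354059264, 0, 197584060099207, 0, 0, 0, 0, 0, 0, 0, 0, 0, 0, 0, 0, 0, 0, 0, 0, 0, 450383221171] [])))))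
    (cw := ⟨64, 279, 24, (.cut 2 32 (.out 2) (.cut 1 32 (.cut 2 48 (.out 0) (.out 3)) (.cut 2 48 (.cut 1 48 (.out 0) (.mult [(0, 23384026197294446691258957323460528314494920687616)])) (.cut 1 48 (.mult [(0, 23384026197294446691258957323460528314494920687616)]) (.cut 2 56 (.cut 1 56 (.out 0) (.cut 1 60 (.mult [(0, 5846006549323611672814739330865132078623730171904)]) (.mult []))) (.cut 1 56 (.cut 2 60 (.mult [(0, 5846006549323611672814739330865132078623730171904)]) (.out 3)) (.mult [])))))))⟩)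
    (cu := ⟨16, 182, 24, (.cut 2 8 (.cut 1 8 (.mult []) (.cut 1 12 (.mult []) (.cut 2 4 (.mult []) (.cut 1 14 (.cut 2 6 (.mult []) (.mult [])) (.cut 2 6 (.mult []) (.mult [])))))) (.cut 1 8 (.cut 2 12 (.mult []) (.out 0)) (.cut 2 12 (.cut 1 12 (.mult []) (.mult [])) (.cut 1 12 (.mult []) (.mult [])))))⟩)
    (by norm_num) ks_sum (by decide +kernel) (by decide +kernel) (by decide +kernel) hF
    (by decide +kernel) hs

/-- step 20 -/
def S20 : Step 6 := ⟨100000000, 1, 20991, ![197567, (-34366501), 12960304, 33755911, 4285049, (-14434667)], 2428367, ![0, (-685432), 24761597, (-8697983), (-23463141), (-2647539), 8646415], ![0, 0, 0, 0, 0, 0, 0], 0, 1, ![(-685432), 24761597, (-8697983), (-23463141), (-2647539), 8646415], ⟨30191, 1435269, 232244, 729714⟩, ⟨2398175, (-1435269), (-232244), (-729714)⟩⟩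

theorem drop20 (hF : ∀ f ∈ Fs, ∃ c, facetTest 6 band ks f c = true) {s : ℝ}
    (hs : band.Mem s) : DropGain (-s) (1 / s ^ 2) (coord 6 ks s)
      (fun i => (H 20 i : ℝ) / (100000 : ℕ)) S20.a ((S20.L : ℝ) / (100000 : ℕ)) :=
  S20.drop_of_tests (r := 16) (n := 14) (K := 40) (T := (.cut 2 503596 (.leaf [0, 0, 0, 0, 0, 0, 3778636746066737951145984, 20263181785000, 28235503429976, 0, 261563635569483, 0, 0, 0, 0, 0, 0, 0, 0, 0, 0, 16724306749231] []) (.cut 2 544907 (.cut 6 773148 (.leaf [0, 0, 0, 0, 0, 0, 432720624068, 968809596, 28235503429976, 16723614255088, 3778636745855488910950400] []) (.cut 6 866349 (.leaf [] [335856, 0, 638080, 581721, 768782]) (.leaf [0, 0, 0, 0, 0, 0, 0, 0, 0, 0, 0, 0, 0, 0, 0, 0, 0, 0, 0, 0, 0, 0, 0, 0, 0, 432720624068, 0, 0, 0, 0, 0, 0, 0, 0, 0, 0, 0, 0, 49725528491711, 0, 1676197410223] [335856, 0, 638080, 581721, 779642]))) (.leaf [0, 0, 0, 0, 0, 0, 0, 0, 0, 0, 0, 0,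 57754364877674, 11727632, 3778636745575788292603904, 16724306749231, 261563635569483] []))))
    (cw := ⟨64, 280, 24, (.cut 2 32 (.out 2) (.cut 1 32 (.cut 2 48 (.out 0) (.out 3)) (.cut 2 48 (.cut 1 48 (.out 0) (.cut 1 56 (.out 0) (.cut 2 40 (.cut 1 60 (.out 0) (.cut 0 1748 (.out 2) (.cut 2 36 (.out 2) (.cut 1 62 (.out 0) (.cut 0 1814 (.mult []) (.cut 2 38 (.cut 1 63 (.out 0) (.cut 0 1847 (.out 2) (.cut 2 37 (.out 2) (.cut 1 64 (.mult [(0, 1045704421510261037974736497808500500563819734499328)]) (.mult [(1, 1045704421510261037974736497808500500563819734499328)]))))) (.mult []))))))) (.mult [])))) (.cut 1 48 (.cut 2 56 (.out 0) (.out 3)) (.cut 2 56 (.cut 1 56 (.out 0) (.mult [])) (.cut 1 56 (.mult []) (.cut 2 60 (.cut 1 60 (.mult []) (.mult [])) (.mult []))))))))⟩)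
    (cu := ⟨16, 184, 24, (.cut 1 8 (.cut 2 8 (.cut 1 4 (.cut 2 4 (.cut 1 2 (.cut 2 2 (.cut 1 1 (.cut 2 1 (.mult []) (.mult [])) (.mult [])) (.mult [])) (.mult [])) (.mult [])) (.mult [])) (.cut 2 12 (.mult []) (.out 0))) (.cut 2 8 (.cut 2 4 (.mult []) (.cut 2 6 (.mult []) (.cut 1 12 (.mult []) (.cut 1 14 (.cut 1 13 (.mult []) (.mult [])) (.mult []))))) (.cut 1 12 (.cut 2 12 (.cut 1 10 (.mult []) (.cut 2 10 (.mult []) (.cut 1 11 (.mult []) (.mult [])))) (.mult [])) (.cut 2 12 (.mult []) (.cut 1 14 (.mult []) (.cut 2 14 (.mult []) (.cut 1 15 (.mult []) (.cut 2 15 (.mult []) (.mult [])))))))))⟩)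
    (by norm_num) ks_sum (by decide +kernel) (by decide +kernel) (by decide +kernel) hF
    (by decide +kernel) hs

/-- step 21 -/
def S21 : Step 6 := ⟨100000000, 6, 50962, ![(-3344284), 0, (-8252951), 3442603, 47857650, (-37102511)], 2639228, ![0, 2732520, 0, 5604250, (-2417615), (-29752175), 21937172], ![0, 0, 0, 0, 0, 0, 0], 0, 1, ![2732520, 0, 5604250, (-2417615), (-29752175), 21937172], ⟨38257, 1511690, 257680, 831138⟩, ⟨2600970, (-1511690), (-257680), (-831138)⟩⟩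

theorem drop21 (hF : ∀ f ∈ Fs, ∃ c, facetTest 6 band ks f c = true) {s : ℝ}
    (hs : band.Mem s) : DropGain (-s) (1 / s ^ 2) (coord 6 ks s)
      (fun i => (H 21 i : ℝ) / (100000 : ℕ)) S21.a ((S21.L : ℝ) / (100000 : ℕ)) :=
  S21.drop_of_tests (r := 16) (n := 14) (K := 40) (T := (.cut 1 310329 (.leaf [0, 0, 0, 0, 0, 0, 0, 0, 0, 0, 0, 0, 0, 0, 0, 0, 0, 0, 0, 0, 0, 0, 0, 0, 0, 0, 0, 0, 0, 0, 0, 0, 0, 0, 0, 0, 5262004265337211106361344, 0, 132122003857666, 5597827376077, 206916262659765] []) (.cut 3 599899 (.leaf [0, 0, 0, 0, 0, 0, 0, 0, 0, 0, 0, 0, 0, 0, 0, 0, 0, 0, 0, 0, 0, 0, 0, 0, 0, 0, 0, 0, 0, 0, 0, 0, 0, 0, 0, 0, 0, 0, 5262004265443931379990528, 5597827376077, 206916262659765] []) (.cut 6 866441 (.leaf [] [0, 0, 0, 565514, 760507]) (.leaf [0, 0, 0, 0, 0, 0, 0, 0, 0, 0, 0, 0, 0, 0, 0, 0, 0, 0, 0, 0, 0, 0, 0, 0, 0, 0, 0, 0, 0, 0, 0, 0, 0, 0, 0, 0, 31894670527, 0, 5262004265303532120309760, 5597827376077,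 206916262659765] [])))))
    (cw := ⟨256, 328, 24, (.cut 2 128 (.out 0) (.cut 1 128 (.out 0) (.cut 2 192 (.cut 1 192 (.out 0) (.cut 1 224 (.out 0) (.cut 2 160 (.cut 1 240 (.out 0) (.cut 0 1748 (.out 0) (.cut 2 144 (.out 2) (.cut 1 248 (.out 0) (.cut 0 1814 (.mult []) (.cut 2 152 (.cut 1 252 (.out 0) (.cut 0 1847 (.out 2) (.cut 2 148 (.out 2) (.cut 1 254 (.out 0) (.cut 0 1864 (.out 2) (.cut 2 150 (.mult [(2, 51422017416287688817342786954917203280710495801049370729644032)]) (.mult [(1, 803469022129495137770981046170581301261101496891396417650688)]))))))) (.mult []))))))) (.mult [])))) (.cut 1 192 (.cut 2 224 (.out 0) (.out 3)) (.cut 2 224 (.cut 1 224 (.out 0) (.cut 1 240 (.mult []) (.mult []))) (.cut 1 224 (.cut 2 240 (.mult []) (.out 3)) (.cut 2 240 (.cut 1 240 (.cut 0 1748 (.cut 0 1681 (.cut 2 232 (.mult []) (.mult [])) (.mult [])) (.mult [])) (.mult [])) (.mult []))))))))⟩)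
    (cu := ⟨16, 184, 24, (.cut 1 8 (.cut 2 8 (.mult []) (.cut 2 12 (.mult []) (.out 0))) (.cut 2 8 (.cut 2 4 (.mult []) (.cut 1 12 (.mult []) (.cut 2 6 (.mult []) (.cut 1 14 (.cut 1 13 (.mult []) (.mult [])) (.mult []))))) (.cut 1 12 (.cut 2 12 (.cut 1 10 (.mult []) (.cut 2 10 (.mult []) (.cut 1 11 (.mult []) (.mult [])))) (.mult [])) (.cut 2 12 (.mult []) (.cut 1 14 (.mult []) (.cut 2 14 (.mult []) (.cut 1 15 (.mult []) (.cut 2 15 (.mult []) (.mult [])))))))))⟩)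
    (by norm_num) ks_sum (by decide +kernel) (by decide +kernel) (by decide +kernel) hF
    (by decide +kernel) hs

/-- step 22 -/
def S22 : Step 6 := ⟨100000000, 2, 30172, ![1629231, (-38187378), 13839805, 35518977, 0, (-10824610)], 1996996, ![0, (-1337940), 27759526, (-9521647), (-25265659), 0, 6748337], ![0, 0, 0, 0, 0, 0, 0], 0, 1, ![(-1337940), 27759526, (-9521647), (-25265659), 0, 6748337], ⟨20615, 1222187, 185242, 538341⟩, ⟨1976380, (-1222187), (-185242), (-538341)⟩⟩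

theorem drop22 (hF : ∀ f ∈ Fs, ∃ c, facetTest 6 band ks f c = true) {s : ℝ}
    (hs : band.Mem s) : DropGain (-s) (1 / s ^ 2) (coord 6 ks s)
      (fun i => (H 22 i : ℝ) / (100000 : ℕ)) S22.a ((S22.L : ℝ) / (100000 : ℕ)) :=
  S22.drop_of_tests (r := 16) (n := 14) (K := 40) (T := (.cut 2 538185 (.cut 6 696599 (.leaf [0, 0, 0, 0, 0, 0, 0, 0, 0, 0, 0, 0, 1890297586512, 25663599158357, 93156654290925, 0, 4198746614750685368942592] []) (.leaf [0, 0, 0, 0, 0, 0, 0, 0, 0, 0, 0, 0, 851820799, 0, 184743670787, 0, 0, 0, 0, 0, 0, 0, 192055335645] [315163, 0, 597984, 545100])) (.leaf [0, 0, 0, 0, 0, 0, 0, 0, 0, 0, 0, 0, 4198746614529631455281152, 25663599158357, 93156654290925, 0, 190491442755771] [])))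
    (cw := ⟨256, 328, 24, (.cut 2 128 (.out 0) (.cut 1 128 (.out 0) (.cut 2 192 (.cut 1 192 (.out 0) (.cut 1 224 (.out 0) (.cut 2 160 (.cut 1 240 (.out 0) (.cut 0 1748 (.out 0) (.cut 2 144 (.out 2) (.cut 1 248 (.out 0) (.cut 0 1814 (.mult []) (.cut 2 152 (.cut 1 252 (.out 0) (.cut 0 1847 (.out 2) (.cut 2 148 (.out 2) (.cut 1 254 (.out 0) (.cut 0 1864 (.out 2) (.cut 2 150 (.mult [(2, 32138760885179805510839241846823252050444059875655856706027520)]) (.mult [(1, 803469022129495137770981046170581301261101496891396417650688)]))))))) (.mult []))))))) (.mult [])))) (.cut 1 192 (.cut 2 224 (.out 0) (.out 3)) (.cut 2 224 (.cut 1 224 (.out 0) (.cut 1 240 (.mult []) (.cut 0 1748 (.mult []) (.cut 2 208 (.mult []) (.mult []))))) (.cut 1 224 (.cut 2 240 (.mult []) (.out 3)) (.cut 2 240 (.cut 1 240 (.cut 0 1748 (.cut 0 1681 (.cut 2 232 (.mult []) (.cut 1 232 (.mult []) (.mult []))) (.mult [])) (.mult [])) (.mult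 [])) (.mult []))))))))⟩)
    (cu := ⟨256, 277, 24, (.cut 1 128 (.cut 2 128 (.cut 1 64 (.cut 2 64 (.cut 1 32 (.cut 2 32 (.cut 1 16 (.cut 2 16 (.cut 1 8 (.mult []) (.cut 2 8 (.mult []) (.cut 1 12 (.cut 2 12 (.cut 1 10 (.mult []) (.cut 2 10 (.mult []) (.mult []))) (.mult [])) (.mult [])))) (.mult [])) (.mult [])) (.mult [])) (.mult [])) (.mult [])) (.mult [])) (.cut 2 192 (.mult []) (.out 0))) (.cut 2 128 (.cut 2 64 (.mult []) (.cut 1 192 (.mult []) (.cut 2 96 (.mult []) (.cut 1 224 (.cut 2 112 (.mult []) (.mult [])) (.mult []))))) (.cut 1 192 (.cut 2 192 (.cut 1 160 (.mult []) (.cut 2 160 (.mult []) (.cut 1 176 (.mult []) (.mult [])))) (.mult [])) (.cut 2 192 (.mult []) (.mult [])))))⟩)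
    (by norm_num) ks_sum (by decide +kernel) (by decide +kernel) (by decide +kernel) hF
    (by decide +kernel) hs

/-- step 23 -/
def S23 : Step 6 := ⟨100000000, 0, 37359, ![0, (-37777633), 13151280, 38046600, 0, (-11024486)], 2487621, ![(-1703992), 0, 28983775, (-9423109), (-27087636), 0, 7252196], ![0, 0, 0, 0, 0, 0, 0], 0, 1, ![0, 28983775, (-9423109), (-27087636), 0, 7252196], ⟨1323, 819868, (-20542), (-18344)⟩, ⟨2486297, (-2523860), 20542, 18344⟩⟩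

theorem drop23 (hF : ∀ f ∈ Fs, ∃ c, facetTest 6 band ks f c = true) {s : ℝ}
    (hs : band.Mem s) : DropGain (-s) (1 / s ^ 2) (coord 6 ks s)
      (fun i => (H 23 i : ℝ) / (100000 : ℕ)) S23.a ((S23.L : ℝ) / (100000 : ℕ)) :=
  S23.drop_of_tests (r := 16) (n := 14) (K := 40) (T := (.cut 2 365413 (.leaf [0, 0, 0, 0, 0, 0, 0, 0, 0, 0, 0, 0, 0, 0, 0, 0, 0, 0, 0, 0, 0, 0, 113022995037249, 0, 0, 494924665333234, 0, 0, 39286751974852, 0, 0, 0, 0, 0, 0, 0, 0, 0, 0, 0, 0, 0, 0, 4183267909766026971054080] []) (.cut 6 528265 (.leaf [0, 0, 0, 0, 0, 0, 0, 0, 0, 0, 0, 0, 0, 0, 0, 0, 0, 0, 0, 0, 0, 0, 113022995037249, 0, 0, 0, 0, 0, 381272497235834, 0, 0, 0, 0, 0, 0, 0, 0, 0, 0, 0, 0, 0, 0, 0, 0, 0, 0, 4183267909734236160000000] []) (.leaf [] [0, 0, 532941, 543341]))))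
    (cw := ⟨64, 279, 24, (.cut 2 32 (.out 2) (.cut 1 32 (.cut 2 48 (.out 0) (.out 3)) (.cut 2 48 (.mult [(0, 46768052394588893382517914646921056628989841375232)]) (.cut 1 48 (.mult [(0, 23384026197294446691258957323460528314494920687616)]) (.cut 2 56 (.cut 1 56 (.out 0) (.cut 1 60 (.mult [(0, 5846006549323611672814739330865132078623730171904)]) (.mult []))) (.cut 1 56 (.cut 2 60 (.mult [(0, 5846006549323611672814739330865132078623730171904)]) (.out 3)) (.mult [])))))))⟩)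
    (cu := ⟨16, 182, 24, (.cut 1 8 (.cut 2 8 (.cut 1 4 (.cut 2 4 (.cut 1 2 (.mult []) (.mult [])) (.mult [])) (.mult [])) (.cut 2 12 (.mult []) (.out 0))) (.cut 2 8 (.cut 2 4 (.mult []) (.cut 1 12 (.mult []) (.cut 2 6 (.cut 1 14 (.mult []) (.mult [])) (.mult [])))) (.cut 1 12 (.cut 2 12 (.mult []) (.mult [])) (.cut 2 12 (.mult []) (.mult [])))))⟩)
    (by norm_num) ks_sum (by decide +kernel) (by decide +kernel) (by decide +kernel) hF
    (by decide +kernel) hs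

/-- step 24 -/
def S24 : Step 6 := ⟨100000000, 3, 35943, ![0, (-30087078), 9420025, 29249699, 12483235, (-18759963)], 2329526, ![0, 0, 22527006, (-6575876), (-21025030), (-8076843), 11483117], ![0, 0, 0, 0, 0, 0, 0], 0, 1, ![0, 22527006, (-6575876), (-21025030), (-8076843), 11483117], ⟨23186, 1397247, 224274, 684397⟩, ⟨2306339, (-1397247), (-224274), (-684397)⟩⟩

theorem drop24 (hF : ∀ f ∈ Fs, ∃ c, facetTest 6 band ks f c = true) {s : ℝ}
    (hs : band.Mem s) : DropGain (-s) (1 / s ^ 2) (coord 6 ks s)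
      (fun i => (H 24 i : ℝ) / (100000 : ℕ)) S24.a ((S24.L : ℝ) / (100000 : ℕ)) :=
  S24.drop_of_tests (r := 16) (n := 14) (K := 40) (T := (.cut 2 442863 (.leaf [0, 0, 0, 0, 0, 0, 0, 0, 0, 0, 0, 0, 0, 0, 0, 0, 0, 0, 0, 3308109211093233796382720, 100780897745525, 88745097322685, 353482666006981] []) (.cut 6 754688 (.leaf [0, 0, 0, 0, 0, 0, 0, 0, 0, 0, 0, 0, 0, 0, 0, 0, 0, 0, 0, 0, 100780897745525, 88745097322685, 3308109211062237017407488] []) (.leaf [] [0, 0, 575088, 528017, 696617]))))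
    (cw := ⟨256, 328, 24, (.cut 2 128 (.out 0) (.cut 1 128 (.out 0) (.cut 2 192 (.cut 1 192 (.out 0) (.cut 1 224 (.out 0) (.cut 2 160 (.cut 1 240 (.out 0) (.cut 0 1748 (.out 0) (.cut 2 144 (.out 2) (.cut 1 248 (.out 0) (.cut 0 1814 (.mult []) (.cut 2 152 (.cut 1 252 (.out 0) (.cut 0 1847 (.out 2) (.cut 2 148 (.out 2) (.cut 1 254 (.out 0) (.cut 0 1864 (.out 2) (.cut 2 150 (.mult [(2, 51422017416287688817342786954917203280710495801049370729644032)]) (.mult [(1, 803469022129495137770981046170581301261101496891396417650688)]))))))) (.mult []))))))) (.mult [])))) (.cut 1 192 (.cut 2 224 (.out 0) (.out 3)) (.cut 2 224 (.mult []) (.cut 1 224 (.mult []) (.cut 2 240 (.cut 1 240 (.cut 0 1748 (.cut 0 1681 (.cut 2 232 (.mult []) (.mult [])) (.mult [])) (.mult [])) (.mult [])) (.mult []))))))))⟩)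
    (cu := ⟨16, 184, 24, (.cut 1 8 (.cut 2 8 (.cut 1 4 (.cut 2 4 (.cut 1 2 (.cut 2 2 (.mult []) (.mult [])) (.mult [])) (.mult [])) (.mult [])) (.cut 2 12 (.mult []) (.out 0))) (.cut 2 8 (.cut 2 4 (.mult []) (.cut 2 6 (.mult []) (.cut 1 12 (.mult []) (.cut 2 7 (.cut 1 14 (.mult []) (.mult [])) (.mult []))))) (.cut 1 12 (.cut 2 12 (.cut 1 10 (.mult []) (.cut 2 10 (.mult []) (.cut 1 11 (.mult []) (.mult [])))) (.mult [])) (.cut 2 12 (.mult []) (.cut 1 14 (.mult []) (.cut 2 14 (.mult []) (.cut 1 15 (.mult []) (.cut 2 15 (.mult []) (.mult [])))))))))⟩)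
    (by norm_num) ks_sum (by decide +kernel) (by decide +kernel) (by decide +kernel) hF
    (by decide +kernel) hs

/-- step 25 -/
def S25 : Step 6 := ⟨100000000, 6, 45932, ![(-2537102), 0, (-9719779), 2085307, 49039518, (-36618294)], 2276767, ![0, 2102404, 0, 6857384, (-1514620), (-31934353), 22803372], ![0, 0, 0, 0, 0, 0, 0], 0, 1, ![2102404, 0, 6857384, (-1514620), (-31934353), 22803372], ⟨26685, 1367581, 211389, 670679⟩, ⟨2250081, (-1367581), (-211389), (-670679)⟩⟩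

theorem drop25 (hF : ∀ f ∈ Fs, ∃ c, facetTest 6 band ks f c = true) {s : ℝ}
    (hs : band.Mem s) : DropGain (-s) (1 / s ^ 2) (coord 6 ks s)
      (fun i => (H 25 i : ℝ) / (100000 : ℕ)) S25.a ((S25.L : ℝ) / (100000 : ℕ)) :=
  S25.drop_of_tests (r := 16) (n := 14) (K := 40) (T := (.cut 1 279650 (.leaf [0, 0, 0, 0, 0, 0, 0, 0, 0, 0, 0, 0, 0, 0, 0, 0, 0, 0, 0, 0, 0, 0, 0, 0, 0, 0, 0, 0, 0, 0, 0, 0, 0, 0, 0, 0, 5391952026177822863130624, 0, 143745428301276, 8908665112652, 371173160595871] []) (.cut 3 540672 (.leaf [0, 0, 0, 0, 0, 0, 0, 0, 606853899040, 0, 0, 0, 0, 0, 0, 0, 0, 0, 0, 0, 0, 0, 0, 0, 0, 0, 0, 0, 0, 0, 0, 0, 0, 0, 0, 0, 0, 0, 5391952026305932073893888, 8301811213612, 371173160595871] []) (.cut 6 780926 (.leaf [0, 0, 0, 0, 0, 0, 55532298, 0, 606803488359, 0, 0, 0, 0, 0, 0, 0, 0, 0, 0, 0, 0, 0, 0, 0, 0, 0, 0, 0, 0, 0, 0, 0, 50210952486, 0, 0, 0, 0, 0, 86384260462] [0, 0, 0, 517443, 686292])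 (.leaf [0, 0, 0, 0, 0, 0, 0, 0, 606853899040, 0, 0, 0, 0, 0, 0, 0, 0, 0, 0, 0, 0, 0, 0, 0, 0, 0, 0, 0, 0, 0, 0, 0, 0, 0, 0, 0, 0, 0, 5391952026153181562011648, 8301811213612, 371173160595871] [])))))
    (cw := ⟨256, 328, 24, (.cut 2 128 (.out 0) (.cut 1 128 (.out 0) (.cut 2 192 (.cut 1 192 (.out 0) (.cut 1 224 (.out 0) (.cut 2 160 (.cut 1 240 (.out 0) (.cut 0 1748 (.out 0) (.cut 2 144 (.out 2) (.cut 1 248 (.out 0) (.cut 0 1814 (.mult []) (.cut 2 152 (.cut 1 252 (.out 0) (.cut 0 1847 (.out 2) (.cut 2 148 (.out 2) (.cut 1 254 (.out 0) (.cut 0 1864 (.out 2) (.cut 2 150 (.mult [(2, 51422017416287688817342786954917203280710495801049370729644032)]) (.mult [(1, 401734511064747568885490523085290650630550748445698208825344)]))))))) (.mult []))))))) (.mult [])))) (.cut 1 192 (.cut 2 224 (.out 0) (.out 3)) (.cut 2 224 (.cut 1 224 (.out 0) (.mult [])) (.cut 1 224 (.mult []) (.cut 2 240 (.cut 1 240 (.cut 0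 1748 (.cut 0 1681 (.cut 2 232 (.mult []) (.mult [])) (.mult [])) (.mult [])) (.mult [])) (.mult []))))))))⟩)
    (cu := ⟨16, 183, 24, (.cut 1 8 (.cut 2 8 (.mult []) (.cut 2 12 (.mult []) (.out 0))) (.cut 2 8 (.cut 1 12 (.mult []) (.cut 2 4 (.mult []) (.cut 2 6 (.mult []) (.cut 1 14 (.cut 1 13 (.mult []) (.mult [])) (.mult []))))) (.cut 1 12 (.cut 2 12 (.cut 1 10 (.mult []) (.cut 2 10 (.mult []) (.mult []))) (.mult [])) (.cut 2 12 (.mult []) (.cut 1 14 (.mult []) (.cut 2 14 (.mult []) (.cut 1 15 (.mult []) (.mult []))))))))⟩)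
    (by norm_num) ks_sum (by decide +kernel) (by decide +kernel) (by decide +kernel) hF
    (by decide +kernel) hs

/-- step 26 -/
def S26 : Step 6 := ⟨100000000, 1, 17884, ![(-976323), (-18066626), 0, 18112091, 33085833, (-29759127)], 2421897, ![0, 210490, 13585370, 0, (-13239447), (-22028118), 19249547], ![0, 0, 0, 0, 0, 0, 0], 0, 1, ![210490, 13585370, 0, (-13239447), (-22028118), 19249547], ⟨25842, 1512114, 209789, 673946⟩, ⟨2396054, (-1512114), (-209789), (-673946)⟩⟩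

theorem drop26 (hF : ∀ f ∈ Fs, ∃ c, facetTest 6 band ks f c = true) {s : ℝ}
    (hs : band.Mem s) : DropGain (-s) (1 / s ^ 2) (coord 6 ks s)
      (fun i => (H 26 i : ℝ) / (100000 : ℕ)) S26.a ((S26.L : ℝ) / (100000 : ℕ)) :=
  S26.drop_of_tests (r := 16) (n := 14) (K := 40) (T := (.cut 1 318927 (.cut 2 429143 (.leaf [0, 0, 0, 0, 0, 0, 3637825810064113586405376, 0, 86623875597061, 0, 180002455706835, 0, 0, 0, 0, 0, 0, 0, 0, 0, 0, 0, 0, 0, 0, 0, 0, 0, 0, 0, 0, 0, 0, 0, 327047461109467] []) (.cut 6 658722 (.leaf [0, 0, 0, 0, 0, 0, 227778793831, 0, 86623875597061, 0, 3637825810054083764027392, 0, 0, 0, 0, 0, 0, 0, 0, 0, 0, 0, 0, 0, 0, 0, 0, 0, 0, 0, 0, 0, 0, 0, 327045858568864] []) (.leaf [0, 0, 0, 0, 0, 0, 0, 0, 0, 0, 0, 0, 0, 0, 0, 0, 0, 0, 0, 0, 0, 0, 0, 0, 0, 227683312662, 0, 0, 0, 0, 643048677, 95481169, 0, 0, 491513149065] [0, 0, 0, 501184, 650505]))) (.leaf [0, 0, 0, 0, 0, 0, 221040493406680,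 0, 86623875597061, 303500436624129, 3637825810322539621122048] [])))
    (cw := ⟨256, 328, 24, (.cut 2 128 (.out 0) (.cut 1 128 (.out 0) (.cut 2 192 (.cut 1 192 (.out 0) (.cut 1 224 (.out 0) (.cut 2 160 (.cut 1 240 (.out 0) (.cut 0 1748 (.out 0) (.cut 2 144 (.out 2) (.cut 1 248 (.out 0) (.cut 0 1814 (.mult []) (.cut 2 152 (.cut 1 252 (.out 0) (.cut 0 1847 (.out 2) (.cut 2 148 (.out 2) (.cut 1 254 (.out 0) (.cut 0 1864 (.out 2) (.cut 2 150 (.mult [(2, 38566513062215766613007090216187902460532871850787028047233024)]) (.mult [(1, 803469022129495137770981046170581301261101496891396417650688)]))))))) (.mult []))))))) (.mult [])))) (.cut 1 192 (.cut 2 224 (.out 0) (.out 3)) (.cut 2 224 (.cut 1 224 (.out 0) (.cut 1 240 (.mult []) (.cut 0 1748 (.mult []) (.cut 2 208 (.mult []) (.mult []))))) (.cut 1 224 (.cut 2 240 (.mult []) (.out 3)) (.cut 2 240 (.cut 1 240 (.cut 0 1748 (.cut 0 1681 (.cut 2 232 (.mult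 []) (.cut 1 232 (.mult []) (.mult []))) (.mult [])) (.mult [])) (.mult [])) (.mult []))))))))⟩)
    (cu := ⟨16, 184, 24, (.cut 1 8 (.cut 2 8 (.mult []) (.cut 2 12 (.mult []) (.out 0))) (.cut 2 8 (.cut 2 4 (.mult []) (.cut 1 12 (.mult []) (.cut 2 6 (.mult []) (.cut 1 14 (.cut 2 7 (.mult []) (.mult [])) (.cut 2 7 (.mult []) (.mult [])))))) (.cut 1 12 (.cut 2 12 (.cut 1 10 (.mult []) (.cut 2 10 (.mult []) (.cut 1 11 (.mult []) (.cut 2 11 (.mult []) (.mult []))))) (.mult [])) (.cut 2 12 (.mult []) (.cut 1 14 (.mult []) (.cut 2 14 (.mult []) (.cut 1 15 (.mult []) (.cut 2 15 (.mult []) (.cut 1 16 (.mult []) (.mult []))))))))))⟩)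
    (by norm_num) ks_sum (by decide +kernel) (by decide +kernel) (by decide +kernel) hF
    (by decide +kernel) hs

/-- step 27 -/
def S27 : Step 6 := ⟨100000000, 6, 43230, ![(-2628223), 0, (-9620251), 2191257, 48939228, (-36621040)], 2286929, ![0, 2213445, 0, 6892152, (-1619321), (-32659070), 23449364], ![0, 0, 0, 0, 0, 0, 0], 0, 1, ![2213445, 0, 6892152, (-1619321), (-32659070), 23449364], ⟨25607, 1400138, 207542, 653291⟩, ⟨2261321, (-1400138), (-207542), (-653291)⟩⟩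

theorem drop27 (hF : ∀ f ∈ Fs, ∃ c, facetTest 6 band ks f c = true) {s : ℝ}
    (hs : band.Mem s) : DropGain (-s) (1 / s ^ 2) (coord 6 ks s)
      (fun i => (H 27 i : ℝ) / (100000 : ℕ)) S27.a ((S27.L : ℝ) / (100000 : ℕ)) :=
  S27.drop_of_tests (r := 16) (n := 14) (K := 40) (T := (.cut 1 263220 (.leaf [0, 0, 0, 0, 0, 0, 0, 0, 0, 0, 0, 0, 0, 0, 0, 0, 0, 0, 0, 0, 0, 0, 0, 0, 0, 0, 0, 0, 0, 0, 1217597458877904, 0, 0, 0, 0, 0, 5380925024038079692800000, 0, 130730199395901, 12412043115269] []) (.cut 3 508823 (.leaf [0, 0, 0, 0, 0, 0, 0, 0, 0, 0, 0, 0, 0, 0, 0, 0, 0, 0, 0, 0, 0, 0, 0, 0, 0, 0, 0, 0, 0, 0, 21936065246, 0, 622713053793750, 12412043115269, 0, 0, 0, 0, 7304092607626008133107712] []) (.leaf [0, 0, 0, 0, 0, 0, 0, 0, 0, 0, 0, 0, 0, 0, 0, 0, 0, 0, 21839476716, 0, 0, 3212105208576, 0, 0, 96588530, 0, 0, 0, 0, 0, 0, 0, 0, 0, 0, 0, 0, 0, 0, 0, 1044926296] [0, 0, 0, 483949, 648563]))))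
    (cw := ⟨256, 328, 24, (.cut 2 128 (.out 0) (.cut 1 128 (.out 0) (.cut 2 192 (.cut 1 192 (.out 0) (.cut 1 224 (.out 0) (.cut 2 160 (.cut 1 240 (.out 0) (.cut 0 1748 (.out 0) (.cut 2 144 (.out 2) (.cut 1 248 (.out 0) (.cut 0 1814 (.mult []) (.cut 2 152 (.cut 1 252 (.out 0) (.cut 0 1847 (.out 2) (.cut 2 148 (.out 2) (.cut 1 254 (.out 0) (.cut 0 1864 (.out 2) (.cut 2 150 (.mult [(2, 38566513062215766613007090216187902460532871850787028047233024)]) (.mult [(1, 401734511064747568885490523085290650630550748445698208825344)]))))))) (.mult []))))))) (.mult [])))) (.cut 1 192 (.cut 2 224 (.out 0) (.out 3)) (.cut 2 224 (.cut 1 224 (.out 0) (.mult [])) (.cut 1 224 (.mult []) (.cut 2 240 (.cut 1 240 (.cut 0 1748 (.cut 0 1681 (.cut 2 232 (.mult []) (.mult [])) (.mult [])) (.mult [])) (.mult [])) (.mult []))))))))⟩)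
    (cu := ⟨16, 184, 24, (.cut 1 8 (.cut 2 8 (.mult []) (.cut 2 12 (.mult []) (.out 0))) (.cut 2 8 (.cut 1 12 (.mult []) (.cut 2 4 (.mult []) (.cut 2 6 (.mult []) (.cut 1 14 (.cut 2 7 (.mult []) (.mult [])) (.cut 2 7 (.mult []) (.mult [])))))) (.cut 1 12 (.cut 2 12 (.cut 1 10 (.mult []) (.cut 2 10 (.mult []) (.cut 1 11 (.mult []) (.mult [])))) (.mult [])) (.cut 2 12 (.mult []) (.cut 1 14 (.mult []) (.cut 2 14 (.mult []) (.cut 1 15 (.mult []) (.cut 2 15 (.mult []) (.mult [])))))))))⟩)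
    (by norm_num) ks_sum (by decide +kernel) (by decide +kernel) (by decide +kernel) hF
    (by decide +kernel) hs

/-- step 28 -/
def S28 : Step 6 := ⟨100000000, 2, 25708, ![1850886, (-38541187), 13823704, 35228941, 0, (-10555283)], 1821053, ![0, (-1564936), 29370178, (-10048612), (-26339039), 0, 7063501], ![0, 0, 0, 0, 0, 0, 0], 0, 1, ![(-1564936), 29370178, (-10048612), (-26339039), 0, 7063501], ⟨13822, 1175687, 155696, 436315⟩, ⟨1807230, (-1175687), (-155696), (-436315)⟩⟩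

theorem drop28 (hF : ∀ f ∈ Fs, ∃ c, facetTest 6 band ks f c = true) {s : ℝ}
    (hs : band.Mem s) : DropGain (-s) (1 / s ^ 2) (coord 6 ks s)
      (fun i => (H 28 i : ℝ) / (100000 : ℕ)) S28.a ((S28.L : ℝ) / (100000 : ℕ)) :=
  S28.drop_of_tests (r := 16) (n := 14) (K := 40) (T := (.cut 2 458453 (.cut 6 593515 (.leaf [0, 0, 0, 0, 0, 0, 0, 0, 0, 0, 0, 0, 1885846126813, 43831158586504, 233097802117502, 0, 4237648325671912145420288] []) (.leaf [0, 0, 0, 0, 0, 0, 0, 0, 0, 0, 10433297, 0, 0, 0, 66691174876, 0, 148179856, 0, 0, 0, 0, 0, 169999686544] [268511, 0, 509997, 465342])) (.leaf [0, 0, 0, 0, 0, 0, 0, 0, 0, 0, 0, 0, 4237648325480807038713856, 43831158586504, 233099466434839, 0, 165625743818090] [])))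
    (cw := ⟨256, 328, 24, (.cut 2 128 (.out 0) (.cut 1 128 (.out 0) (.cut 2 192 (.cut 1 192 (.out 0) (.cut 1 224 (.out 0) (.cut 2 160 (.cut 1 240 (.out 0) (.cut 0 1748 (.out 0) (.cut 2 144 (.out 2) (.cut 1 248 (.out 0) (.cut 0 1814 (.mult []) (.cut 2 152 (.cut 1 252 (.out 0) (.cut 0 1847 (.out 2) (.cut 2 148 (.out 2) (.cut 1 254 (.out 0) (.cut 0 1864 (.out 2) (.cut 2 150 (.mult [(2, 25711008708143844408671393477458601640355247900524685364822016)]) (.mult [(1, 803469022129495137770981046170581301261101496891396417650688)]))))))) (.mult []))))))) (.mult [])))) (.cut 1 192 (.cut 2 224 (.out 0) (.out 3)) (.cut 2 224 (.cut 1 224 (.out 0) (.mult [])) (.cut 1 224 (.mult []) (.cut 2 240 (.cut 1 240 (.cut 0 1748 (.cut 0 1681 (.cut 2 232 (.mult []) (.cut 1 232 (.mult []) (.mult []))) (.mult [])) (.mult [])) (.mult [])) (.mult []))))))))⟩)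
    (cu := ⟨64, 230, 24, (.cut 1 32 (.cut 2 32 (.cut 1 16 (.cut 2 16 (.cut 1 8 (.cut 2 8 (.cut 1 4 (.cut 2 4 (.cut 1 2 (.mult []) (.cut 2 2 (.mult []) (.cut 1 3 (.cut 2 3 (.mult []) (.mult [])) (.mult [])))) (.mult [])) (.mult [])) (.mult [])) (.mult [])) (.mult [])) (.mult [])) (.cut 2 48 (.mult []) (.out 0))) (.cut 2 32 (.cut 2 16 (.mult []) (.cut 2 24 (.mult []) (.cut 1 48 (.mult []) (.cut 2 28 (.cut 1 56 (.mult []) (.mult [])) (.cut 1 56 (.mult []) (.mult [])))))) (.cut 1 48 (.cut 2 48 (.cut 1 40 (.mult []) (.cut 2 40 (.mult []) (.cut 1 44 (.mult []) (.cut 2 44 (.mult []) (.mult []))))) (.mult [])) (.cut 2 48 (.mult []) (.cut 1 56 (.mult []) (.cut 2 56 (.mult []) (.mult [])))))))⟩)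
    (by norm_num) ks_sum (by decide +kernel) (by decide +kernel) (by decide +kernel) hF
    (by decide +kernel) hs

/-- step 29 -/
def S29 : Step 6 := ⟨100000000, 0, 32979, ![1520841, (-39359558), 12466144, 36911500, 0, (-9741957)], 1855861, ![(-1447781), (-1293022), 31292992, (-9164676), (-27633711), 0, 6788060], ![0, 0, 0, 0, 0, 0, 0], 0, 1, ![(-1293022), 31292992, (-9164676), (-27633711), 0, 6788060], ⟨2320, 497492, (-65050), (-52269)⟩, ⟨1853540, (-1945273), 65050, 52269⟩⟩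

theorem drop29 (hF : ∀ f ∈ Fs, ∃ c, facetTest 6 band ks f c = true) {s : ℝ}
    (hs : band.Mem s) : DropGain (-s) (1 / s ^ 2) (coord 6 ks s)
      (fun i => (H 29 i : ℝ) / (100000 : ℕ)) S29.a ((S29.L : ℝ) / (100000 : ℕ)) :=
  S29.drop_of_tests (r := 16) (n := 14) (K := 40) (T := (.cut 2 322568 (.leaf [0, 0, 0, 0, 0, 0, 0, 0, 0, 0, 4661354032921, 0, 0, 0, 0, 0, 0, 0, 0, 0, 0, 0, 104670389833624, 0, 0, 367716177450373, 0, 0, 0, 0, 0, 0, 0, 0, 0, 0, 0, 0, 0, 0, 0, 0, 0, 4327629168623260197191680, 0, 0, 0, 13973771430624] []) (.cut 6 466340 (.leaf [0, 0, 0, 0, 0, 0, 0, 0, 0, 0, 10866286635793, 0, 0, 0, 0, 0, 0, 0, 0, 0, 0, 0, 104670389833624, 0, 0, 0, 0, 0, 254086530331268, 0, 0, 0, 0, 0, 0, 0, 0, 0, 0, 0, 0, 0, 0, 0, 0, 0, 0, 4327629168512388300800000] []) (.leaf [] [259650, 0, 491910, 462969]))))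
    (cw := ⟨64, 279, 24, (.cut 2 32 (.out 2) (.cut 1 32 (.cut 2 48 (.out 0) (.out 3)) (.cut 2 48 (.mult [(0, 46768052394588893382517914646921056628989841375232)]) (.cut 1 48 (.mult [(0, 23384026197294446691258957323460528314494920687616)]) (.cut 2 56 (.cut 1 56 (.out 0) (.cut 1 60 (.mult [(0, 5846006549323611672814739330865132078623730171904)]) (.mult []))) (.cut 1 56 (.cut 2 60 (.mult [(0, 5846006549323611672814739330865132078623730171904)]) (.out 3)) (.mult [])))))))⟩)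
    (cu := ⟨16, 182, 24, (.cut 1 8 (.cut 2 8 (.cut 1 4 (.cut 2 4 (.cut 1 2 (.cut 2 2 (.cut 1 1 (.cut 2 1 (.mult []) (.mult [])) (.mult [])) (.mult [])) (.mult [])) (.mult [])) (.mult [])) (.cut 2 12 (.mult []) (.out 0))) (.cut 2 8 (.cut 2 4 (.mult []) (.cut 1 12 (.mult []) (.cut 2 6 (.mult []) (.mult [])))) (.cut 1 12 (.cut 2 12 (.mult []) (.mult [])) (.cut 2 12 (.mult []) (.mult [])))))⟩)
    (by norm_num) ks_sum (by decide +kernel) (by decide +kernel) (by decide +kernel) hF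
    (by decide +kernel) hs

/-- step 30 -/
def S30 : Step 6 := ⟨100000000, 5, 36421, ![0, (-24622796), 4163601, 23154376, 23737604, (-24321624)], 2127247, ![0, 0, 19285519, (-3075784), (-17516283), (-16376020), 16089407], ![0, 0, 0, 0, 0, 0, 0], 0, 1, ![0, 19285519, (-3075784), (-17516283), (-16376020), 16089407], ⟨15964, 1354575, 188115, 568471⟩, ⟨2111282, (-1354575), (-188115), (-568471)⟩⟩

theorem drop30 (hF : ∀ f ∈ Fs, ∃ c, facetTest 6 band ks f c = true) {s : ℝ}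
    (hs : band.Mem s) : DropGain (-s) (1 / s ^ 2) (coord 6 ks s)
      (fun i => (H 30 i : ℝ) / (100000 : ℕ)) S30.a ((S30.L : ℝ) / (100000 : ℕ)) :=
  S30.drop_of_tests (r := 16) (n := 14) (K := 40) (T := (.cut 2 370163 (.leaf [0, 0, 0, 0, 0, 0, 0, 0, 0, 0, 0, 0, 0, 0, 0, 0, 0, 0, 0, 0, 0, 0, 0, 0, 0, 208164693037554, 0, 0, 0, 0, 0, 2707305051123959340204032, 18612743609229, 0, 402132639511182] []) (.cut 6 630074 (.leaf [0, 0, 0, 0, 0, 0, 0, 0, 0, 0, 0, 0, 0, 0, 0, 0, 0, 0, 0, 0, 0, 0, 0, 0, 0, 275901295938, 0, 0, 0, 0, 0, 0, 18612743609229, 0, 2707305051477051285962752] []) (.leaf [0, 0, 0, 0, 0, 0, 0, 0, 0, 0, 0, 0, 0, 0, 0, 0, 0, 0, 0, 0, 0, 0, 0, 0, 0, 275901295938, 0, 0, 0, 0, 0, 0, 43381152, 0, 386480031031] [0, 0, 484513, 446281, 593616]))))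
    (cw := ⟨256, 328, 24, (.cut 2 128 (.out 0) (.cut 1 128 (.out 0) (.cut 2 192 (.cut 1 192 (.out 0) (.cut 1 224 (.out 0) (.cut 2 160 (.cut 1 240 (.out 0) (.cut 0 1748 (.out 0) (.cut 2 144 (.out 2) (.cut 1 248 (.out 0) (.cut 0 1814 (.mult []) (.cut 2 152 (.cut 1 252 (.out 0) (.cut 0 1847 (.out 2) (.cut 2 148 (.out 2) (.cut 1 254 (.out 0) (.cut 0 1864 (.out 2) (.cut 2 150 (.mult [(2, 38566513062215766613007090216187902460532871850787028047233024)]) (.mult [(1, 1205203533194242706656471569255871951891652245337094626476032)]))))))) (.mult []))))))) (.mult [])))) (.cut 1 192 (.cut 2 224 (.out 0) (.out 3)) (.cut 2 224 (.cut 1 224 (.out 0) (.mult [])) (.cut 1 224 (.mult []) (.cut 2 240 (.cut 1 240 (.cut 0 1748 (.cut 0 1681 (.cut 2 232 (.mult []) (.cut 1 232 (.mult []) (.mult []))) (.mult [])) (.mult [])) (.mult [])) (.mult []))))))))⟩)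
    (cu := ⟨16, 184, 24, (.cut 1 8 (.cut 2 8 (.cut 1 4 (.cut 2 4 (.cut 1 2 (.cut 2 2 (.mult []) (.mult [])) (.mult [])) (.mult [])) (.mult [])) (.cut 2 12 (.mult []) (.out 0))) (.cut 2 8 (.cut 2 4 (.mult []) (.cut 1 12 (.mult []) (.cut 2 6 (.mult []) (.cut 2 7 (.cut 1 14 (.mult []) (.mult [])) (.cut 1 14 (.mult []) (.mult [])))))) (.cut 1 12 (.cut 2 12 (.cut 1 10 (.mult []) (.cut 2 10 (.mult []) (.cut 1 11 (.mult []) (.cut 2 11 (.mult []) (.mult []))))) (.mult [])) (.cut 2 12 (.mult []) (.cut 1 14 (.mult []) (.cut 2 14 (.mult []) (.cut 1 15 (.mult []) (.cut 2 15 (.mult []) (.cut 1 16 (.mult []) (.mult []))))))))))⟩)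
    (by norm_num) ks_sum (by decide +kernel) (by decide +kernel) (by decide +kernel) hF
    (by decide +kernel) hs

end Vale.Agent.P154.Ly.BH
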