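import Vale.Agent.P154.LyBH

/-!
Band H: drops 31 to 48.
-/

open scoped BigOperators

namespace Vale.Agent.P154.Ly.BH

/-- step 31 -/
def S31 : Step 6 := ⟨100000000, 6, 37503, ![(-1849603), 0, (-11014744), 875622, 50086072, (-36173959)], 1940282, ![0, 1580869, 0, 8255048, (-669553), (-35171327), 24495498], ![0, 0, 0, 0, 0, 0, 0], 0, 1, ![1580869, 0, 8255048, (-669553), (-35171327), 24495498], ⟨16714, 1247876, 164768, 510745⟩, ⟨1923567, (-1247876), (-164768), (-510745)⟩⟩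

theorem drop31 (hF : ∀ f ∈ Fs, ∃ c, facetTest 6 band ks f c = true) {s : ℝ}
    (hs : band.Mem s) : DropGain (-s) (1 / s ^ 2) (coord 6 ks s)
      (fun i => (H 31 i : ℝ) / (100000 : ℕ)) S31.a ((S31.L : ℝ) / (100000 : ℕ)) :=
  S31.drop_of_tests (r := 16) (n := 14) (K := 40) (T := (.cut 1 228290 (.leaf [0, 0, 0, 0, 0, 0, 0, 0, 0, 0, 0, 0, 0, 0, 0, 0, 0, 0, 0, 0, 0, 0, 0, 0, 11181498512398, 0, 0, 0, 0, 0, 0, 0, 0, 0, 0, 0, 5507021855367117261504512, 0, 109674144553207, 0, 41150843171093] []) (.cut 3 441318 (.leaf [0, 0, 0, 0, 0, 0, 0, 0, 389000815856, 0, 0, 0, 0, 0, 0, 0, 0, 0, 0, 0, 0, 0, 0, 0, 0, 0, 0, 0, 0, 0, 0, 0, 0, 0, 0, 0, 0, 0, 5507021855513355529224192, 7042035070502, 41150843171093] []) (.cut 3 481231 (.cut 6 647683 (.leaf [0, 0, 0, 0, 0, 0, 0, 62333786264, 322948702078, 0, 0, 0, 0, 0, 0, 0, 0, 0, 0, 0, 0, 0, 0, 0, 0, 0, 0, 0, 0, 0, 0, 0, 0, 0, 0, 0, 0, 0, 64031804666, 0, 34171136123]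 [0, 0, 0, 436353, 565633]) (.leaf [0, 0, 0, 0, 0, 0, 0, 0, 389000815856, 0, 0, 0, 0, 0, 0, 0, 0, 0, 0, 0, 0, 0, 0, 0, 0, 0, 0, 0, 0, 0, 0, 0, 0, 0, 0, 0, 0, 0, 126365590930, 7042035070502, 6118233368996972049989632] [])) (.leaf [0, 0, 0, 0, 0, 0, 0, 0, 389000815856, 0, 0, 0, 0, 0, 0, 0, 0, 0, 0, 0, 7042035070502, 4545247487119138404433920, 0, 0, 0, 0, 0, 0, 0, 0, 0, 0, 0, 0, 0, 0, 0, 0, 0, 0, 40649694244034] [])))))
    (cw := ⟨256, 328, 24, (.cut 2 128 (.out 0) (.cut 1 128 (.out 0) (.cut 2 192 (.cut 1 192 (.out 0) (.cut 1 224 (.out 0) (.cut 2 160 (.cut 1 240 (.out 0) (.cut 0 1748 (.out 0) (.cut 2 144 (.out 2) (.cut 1 248 (.out 0) (.cut 0 1814 (.mult []) (.cut 2 152 (.cut 1 252 (.out 0) (.cut 0 1847 (.out 2) (.cut 2 148 (.out 2) (.cut 1 254 (.out 0) (.cut 0 1864 (.out 2) (.cut 2 150 (.mult [(2, 32138760885179805510839241846823252050444059875655856706027520)]) (.mult [(1, 803469022129495137770981046170581301261101496891396417650688)])))))))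 (.mult []))))))) (.mult [])))) (.cut 1 192 (.cut 2 224 (.out 0) (.out 3)) (.cut 2 224 (.cut 1 224 (.out 0) (.mult [])) (.cut 1 224 (.mult []) (.cut 2 240 (.cut 1 240 (.cut 0 1748 (.cut 0 1681 (.cut 2 232 (.mult []) (.cut 1 232 (.mult []) (.mult []))) (.mult [])) (.mult [])) (.mult [])) (.mult []))))))))⟩)
    (cu := ⟨16, 184, 24, (.cut 1 8 (.cut 2 8 (.mult []) (.cut 2 12 (.mult []) (.out 0))) (.cut 2 8 (.cut 1 12 (.mult []) (.cut 2 4 (.mult []) (.cut 2 6 (.mult []) (.cut 1 14 (.cut 2 7 (.mult []) (.mult [])) (.cut 2 7 (.mult []) (.mult [])))))) (.cut 1 12 (.cut 2 12 (.cut 1 10 (.mult []) (.cut 2 10 (.mult []) (.mult []))) (.mult [])) (.cut 2 12 (.mult []) (.cut 1 14 (.mult []) (.cut 2 14 (.mult []) (.cut 1 15 (.mult []) (.cut 2 15 (.mult []) (.mult [])))))))))⟩)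
    (by norm_num) ks_sum (by decide +kernel) (by decide +kernel) (by decide +kernel) hF
    (by decide +kernel) hs

/-- step 32 -/
def S32 : Step 6 := ⟨100000000, 4, 25554, ![1618104, (-33114428), 8970959, 29673789, 10599143, (-16023577)], 1735477, ![0, (-1398343), 25997649, (-6839970), (-22982295), (-7560611), 11273026], ![0, 0, 0, 0, 0, 0, 0], 0, 1, ![(-1398343), 25997649, (-6839970), (-22982295), (-7560611), 11273026], ⟨11000, 1175602, 137189, 381131⟩, ⟨1724476, (-1175602), (-137189), (-381131)⟩⟩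

theorem drop32 (hF : ∀ f ∈ Fs, ∃ c, facetTest 6 band ks f c = true) {s : ℝ}
    (hs : band.Mem s) : DropGain (-s) (1 / s ^ 2) (coord 6 ks s)
      (fun i => (H 32 i : ℝ) / (100000 : ℕ)) S32.a ((S32.L : ℝ) / (100000 : ℕ)) :=
  S32.drop_of_tests (r := 16) (n := 14) (K := 40) (T := (.cut 2 362661 (.leaf [0, 0, 0, 0, 0, 0, 0, 0, 0, 0, 0, 0, 0, 0, 0, 0, 0, 0, 0, 0, 0, 0, 54836734964790, 0, 4972015488177, 3640969863714463419465728, 0, 21650087400112, 174826056797708] []) (.cut 6 524914 (.leaf [0, 0, 0, 0, 0, 0, 0, 0, 0, 0, 0, 0, 0, 0, 0, 0, 0, 0, 0, 0, 0, 0, 54836734964790, 0, 4972015488177, 0, 0, 21650087400112, 3640969863522780639657984] []) (.leaf [0, 0, 0, 0, 0, 0, 26024427, 0, 0, 0, 0, 0, 0, 0, 0, 0, 0, 0, 0, 0, 0, 0, 0, 0, 0, 371469197490, 0, 0, 0, 0, 0, 0, 1551510856197, 0, 235437760273] [233547, 0, 437239, 408864, 537596]))))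
    (cw := ⟨64, 280, 24, (.cut 2 32 (.out 2) (.cut 1 32 (.cut 2 48 (.out 0) (.out 3)) (.cut 2 48 (.cut 1 48 (.out 0) (.cut 1 56 (.out 0) (.cut 2 40 (.cut 1 60 (.out 0) (.cut 0 1748 (.out 2) (.cut 2 36 (.out 2) (.cut 1 62 (.out 0) (.cut 0 1814 (.mult []) (.cut 2 38 (.cut 1 63 (.out 0) (.cut 0 1847 (.out 2) (.cut 2 37 (.out 2) (.cut 1 64 (.mult [(0, 561216628735066720590214975763052679547878096502784)]) (.mult [(1, 561216628735066720590214975763052679547878096502784)]))))) (.mult []))))))) (.mult [])))) (.cut 1 48 (.cut 2 56 (.out 0) (.out 3)) (.cut 2 56 (.mult []) (.cut 1 56 (.mult []) (.cut 2 60 (.cut 1 60 (.mult []) (.mult [])) (.mult []))))))))⟩)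
    (cu := ⟨64, 229, 24, (.cut 1 32 (.cut 2 32 (.cut 1 16 (.cut 2 16 (.cut 1 8 (.cut 2 8 (.cut 1 4 (.cut 2 4 (.cut 1 2 (.mult []) (.cut 2 2 (.mult []) (.cut 1 3 (.mult []) (.mult [])))) (.mult [])) (.mult [])) (.mult [])) (.mult [])) (.mult [])) (.mult [])) (.cut 2 48 (.mult []) (.out 0))) (.cut 2 32 (.cut 2 16 (.mult []) (.cut 1 48 (.mult []) (.cut 2 24 (.mult []) (.cut 1 56 (.mult []) (.mult []))))) (.cut 1 48 (.cut 2 48 (.mult []) (.mult [])) (.cut 2 48 (.mult []) (.mult [])))))⟩)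
    (by norm_num) ks_sum (by decide +kernel) (by decide +kernel) (by decide +kernel) hF
    (by decide +kernel) hs

/-- step 33 -/
def S33 : Step 6 := ⟨100000000, 0, 29594, ![0, (-37740751), 14526121, 36423599, 0, (-11309529)], 1947702, ![(-1180951), 0, 30697701, (-11108557), (-28210010), 0, 8229300], ![0, 0, 0, 0, 0, 0, 0], 0, 1, ![0, 30697701, (-11108557), (-28210010), 0, 8229300], ⟨1571, 797728, (-29075), (-4601)⟩, ⟨1946130, (-1978679), 29075, 4601⟩⟩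

theorem drop33 (hF : ∀ f ∈ Fs, ∃ c, facetTest 6 band ks f c = true) {s : ℝ}
    (hs : band.Mem s) : DropGain (-s) (1 / s ^ 2) (coord 6 ks s)
      (fun i => (H 33 i : ℝ) / (100000 : ℕ)) S33.a ((S33.L : ℝ) / (100000 : ℕ)) :=
  S33.drop_of_tests (r := 16) (n := 14) (K := 40) (T := (.cut 2 289400 (.leaf [0, 0, 0, 0, 0, 0, 0, 0, 0, 0, 0, 0, 0, 0, 0, 0, 0, 0, 0, 0, 0, 0, 86031147053281, 0, 0, 32291179, 0, 0, 0, 0, 0, 0, 0, 0, 0, 0, 0, 0, 0, 0, 0, 0, 0, 4149639456970617858818048, 0, 0, 0, 46078467480245] []) (.cut 2 371626 (.cut 6 418478 (.leaf [0, 0, 0, 0, 0, 0, 0, 0, 0, 0, 0, 0, 0, 0, 0, 0, 0, 0, 0, 0, 0, 0, 86031147053281, 0, 0, 0, 0, 24170093, 0, 0, 0, 0, 0, 0, 22323906, 0, 0, 0, 0, 0, 0, 0, 0, 0, 0, 0, 0, 4149639456653193468968960] []) (.leaf [] [0, 0, 428874, 408722])) (.leaf [0, 0, 0, 0, 0, 0, 0, 0, 0, 0, 0, 0, 0, 0, 3768973166766074210811904, 0, 46078467480245, 0, 0, 0, 0, 0, 86031147053281]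 []))))
    (cw := ⟨64, 280, 24, (.cut 2 32 (.out 2) (.cut 1 32 (.cut 2 48 (.out 0) (.out 3)) (.cut 2 48 (.mult [(0, 46768052394588893382517914646921056628989841375232)]) (.cut 1 48 (.mult [(0, 23384026197294446691258957323460528314494920687616)]) (.cut 2 56 (.cut 1 56 (.out 0) (.cut 1 60 (.mult [(0, 5846006549323611672814739330865132078623730171904)]) (.mult []))) (.cut 1 56 (.cut 2 60 (.mult [(0, 5846006549323611672814739330865132078623730171904)]) (.out 3)) (.mult [(0, 730750818665451459101842416358141509827966271488)])))))))⟩)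
    (cu := ⟨16, 182, 24, (.cut 1 8 (.cut 2 8 (.cut 1 4 (.cut 2 4 (.cut 1 2 (.mult []) (.mult [])) (.mult [])) (.mult [])) (.cut 2 12 (.mult []) (.out 0))) (.cut 2 8 (.cut 2 4 (.mult []) (.cut 2 6 (.mult []) (.cut 1 12 (.mult []) (.mult [])))) (.cut 1 12 (.cut 2 12 (.mult []) (.mult [])) (.cut 2 12 (.mult []) (.mult [])))))⟩)
    (by norm_num) ks_sum (by decide +kernel) (by decide +kernel) (by decide +kernel) hF
    (by decide +kernel) hs

/-- step 34 -/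
def S34 : Step 6 := ⟨100000000, 6, 34749, ![(-1030729), (-13639396), (-2915773), 13223534, 37818225, (-31372343)], 2098202, ![0, 893020, 10994833, 2224384, (-10316308), (-27292041), 21860870], ![0, 0, 0, 0, 0, 0, 0], 0, 1, ![893020, 10994833, 2224384, (-10316308), (-27292041), 21860870], ⟨14470, 1384344, 172902, 526270⟩, ⟨2083731, (-1384344), (-172902), (-526270)⟩⟩

theorem drop34 (hF : ∀ f ∈ Fs, ∃ c, facetTest 6 band ks f c = true) {s : ℝ}
    (hs : band.Mem s) : DropGain (-s) (1 / s ^ 2) (coord 6 ks s)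
      (fun i => (H 34 i : ℝ) / (100000 : ℕ)) S34.a ((S34.L : ℝ) / (100000 : ℕ)) :=
  S34.drop_of_tests (r := 16) (n := 14) (K := 40) (T := (.cut 1 211492 (.leaf [0, 0, 0, 0, 0, 0, 0, 0, 0, 0, 0, 0, 0, 0, 0, 0, 0, 0, 0, 0, 0, 0, 0, 0, 0, 0, 0, 0, 0, 0, 0, 0, 0, 0, 0, 0, 4158157812942872682430464, 113515054823616, 24728382232374, 8213934711163, 111931116380974] []) (.cut 1 247280 (.cut 2 317949 (.leaf [0, 0, 0, 0, 0, 0, 0, 0, 0, 0, 0, 0, 0, 0, 0, 0, 0, 0, 0, 0, 0, 0, 0, 0, 0, 0, 0, 0, 0, 0, 0, 0, 0, 0, 0, 0, 0, 4158157813086067965820928, 24728382232374, 8213934711163, 111931116380974] []) (.cut 2 371597 (.cut 3 408856 (.leaf [0, 0, 0, 0, 0, 0, 0, 0, 0, 0, 0, 0, 0, 0, 0, 0, 0, 0, 0, 0, 0, 0, 0, 0, 0, 0, 0, 0, 0, 0, 0, 0, 0, 0, 0, 0, 0, 0, 4158157812973237027471360, 8213934711163, 111931116380974] []) (.cut 3 456947 (.leaf [] [0, 0, 0, 397083, 521898]) (.leaf [0, 0, 0, 0, 0, 0, 0, 0, 0, 0, 0,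 0, 0, 0, 0, 0, 0, 0, 6600145030, 121685617254, 8213934711163, 111930354333674, 4158157812934901760000000] []))) (.leaf [0, 0, 0, 0, 0, 0, 0, 0, 0, 0, 0, 0, 6600145030, 0, 3776710093523679667290112, 0, 0, 0, 0, 0, 0, 0, 0, 0, 0, 0, 0, 0, 0, 0, 0, 0, 0, 0, 0, 0, 0, 0, 24728382232374, 0, 111931116380974] []))) (.leaf [0, 0, 0, 0, 0, 0, 113515054823616, 24728382232374, 4158157812943115348082688, 111931116380974, 71903644] []))))
    (cw := ⟨256, 328, 24, (.cut 2 128 (.out 0) (.cut 1 128 (.out 0) (.cut 2 192 (.cut 1 192 (.out 0) (.cut 1 224 (.out 0) (.cut 2 160 (.cut 1 240 (.out 0) (.cut 0 1748 (.out 0) (.cut 2 144 (.out 2) (.cut 1 248 (.out 0) (.cut 0 1814 (.mult []) (.cut 2 152 (.cut 1 252 (.out 0) (.cut 0 1847 (.out 2) (.cut 2 148 (.out 2) (.cut 1 254 (.out 0) (.cut 0 1864 (.out 2) (.cut 2 150 (.mult [(2, 38566513062215766613007090216187902460532871850787028047233024)]) (.mult [(1, 803469022129495137770981046170581301261101496891396417650688)])))))))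 (.mult []))))))) (.mult [])))) (.cut 1 192 (.cut 2 224 (.out 0) (.out 3)) (.cut 2 224 (.mult []) (.cut 1 224 (.mult []) (.cut 2 240 (.cut 1 240 (.cut 0 1748 (.cut 0 1681 (.cut 2 232 (.mult []) (.mult [])) (.mult [])) (.mult [])) (.mult [])) (.mult []))))))))⟩)
    (cu := ⟨16, 184, 24, (.cut 1 8 (.cut 2 8 (.mult []) (.cut 2 12 (.mult []) (.out 0))) (.cut 2 8 (.cut 2 4 (.mult []) (.cut 1 12 (.mult []) (.cut 2 6 (.mult []) (.cut 2 7 (.mult []) (.cut 1 14 (.mult []) (.mult [])))))) (.cut 1 12 (.cut 2 12 (.cut 1 10 (.mult []) (.cut 2 10 (.mult []) (.mult []))) (.mult [])) (.cut 2 12 (.mult []) (.cut 1 14 (.mult []) (.cut 2 14 (.mult []) (.cut 1 15 (.mult []) (.cut 2 15 (.mult []) (.mult [])))))))))⟩)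
    (by norm_num) ks_sum (by decide +kernel) (by decide +kernel) (by decide +kernel) hF
    (by decide +kernel) hs

/-- step 35 -/
def S35 : Step 6 := ⟨100000000, 1, 13531, ![130864, (-20923187), 0, 18947899, 31893795, (-28104255)], 1956978, ![0, (-459353), 16831142, 0, (-14957408), (-23444867), 20212894], ![0, 0, 0, 0, 0, 0, 0], 0, 1, ![(-459353), 16831142, 0, (-14957408), (-23444867), 20212894], ⟨11671, 1354362, 148411, 442144⟩, ⟨1945306, (-1354362), (-148411), (-442144)⟩⟩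

theorem drop35 (hF : ∀ f ∈ Fs, ∃ c, facetTest 6 band ks f c = true) {s : ℝ}
    (hs : band.Mem s) : DropGain (-s) (1 / s ^ 2) (coord 6 ks s)
      (fun i => (H 35 i : ℝ) / (100000 : ℕ)) S35.a ((S35.L : ℝ) / (100000 : ℕ)) :=
  S35.drop_of_tests (r := 16) (n := 14) (K := 40) (T := (.cut 2 324603 (.leaf [0, 0, 0, 0, 0, 0, 3506759845871979964923904, 0, 31038681544922, 141485526749972, 387915819949916] []) (.cut 2 371590 (.cut 6 498348 (.leaf [0, 0, 0, 0, 0, 0, 190122396707, 0, 31038681544922, 141484884081514, 3506759846073140663812096] []) (.leaf [0, 0, 0, 0, 0, 0, 165067239, 0, 0, 0, 608134857, 0, 0, 0, 0, 0, 0, 0, 0, 0, 0, 0, 0, 0, 0, 189957329467, 0, 0, 0, 0, 0, 0, 0, 0, 389657717827] [216496, 0, 0, 378214, 492154])) (.leaf [0, 0, 0, 0, 0, 0, 0, 0, 0, 0, 0, 0, 37938701515714, 0, 3506759845671443646906368, 141485526749972, 387915819949916] []))))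
    (cw := ⟨256, 328, 24, (.cut 2 128 (.out 0) (.cut 1 128 (.out 0) (.cut 2 192 (.cut 1 192 (.out 0) (.cut 1 224 (.out 0) (.cut 2 160 (.cut 1 240 (.out 0) (.cut 0 1748 (.out 0) (.cut 2 144 (.out 2) (.cut 1 248 (.out 0) (.cut 0 1814 (.mult []) (.cut 2 152 (.cut 1 252 (.out 0) (.cut 0 1847 (.out 2) (.cut 2 148 (.out 2) (.cut 1 254 (.out 0) (.cut 0 1864 (.out 2) (.cut 2 150 (.mult [(2, 25711008708143844408671393477458601640355247900524685364822016)]) (.mult [(1, 803469022129495137770981046170581301261101496891396417650688)]))))))) (.mult []))))))) (.mult [])))) (.cut 1 192 (.cut 2 224 (.out 0) (.out 3)) (.cut 2 224 (.mult []) (.cut 1 224 (.mult []) (.cut 2 240 (.cut 1 240 (.cut 0 1748 (.cut 0 1681 (.cut 2 232 (.mult []) (.mult [])) (.mult [])) (.mult [])) (.mult [])) (.mult []))))))))⟩)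
    (cu := ⟨16, 184, 24, (.cut 1 8 (.cut 2 8 (.cut 1 4 (.cut 2 4 (.cut 1 2 (.cut 2 2 (.cut 1 1 (.cut 2 1 (.mult []) (.mult [])) (.mult [])) (.mult [])) (.mult [])) (.mult [])) (.mult [])) (.cut 2 12 (.mult []) (.out 0))) (.cut 2 8 (.cut 1 12 (.mult []) (.cut 2 4 (.mult []) (.cut 2 6 (.mult []) (.cut 1 14 (.mult []) (.cut 2 7 (.mult []) (.cut 1 15 (.mult []) (.mult []))))))) (.cut 1 12 (.cut 2 12 (.mult []) (.mult [])) (.cut 2 12 (.mult []) (.cut 1 14 (.mult []) (.cut 2 14 (.mult []) (.cut 1 15 (.mult []) (.cut 2 15 (.mult []) (.mult [])))))))))⟩)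
    (by norm_num) ks_sum (by decide +kernel) (by decide +kernel) (by decide +kernel) hF
    (by decide +kernel) hs

/-- step 36 -/
def S36 : Step 6 := ⟨100000000, 5, 29640, ![(-735575), (-13078165), (-3839211), 12161824, 38805947, (-31379278)], 1948541, ![0, 645690, 10679706, 2982676, (-9668938), (-28664431), 22466521], ![0, 0, 0, 0, 0, 0, 0], 0, 1, ![645690, 10679706, 2982676, (-9668938), (-28664431), 22466521], ⟨12739, 1312797, 154476, 468267⟩, ⟨1935801, (-1312797), (-154476), (-468267)⟩⟩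

theorem drop36 (hF : ∀ f ∈ Fs, ∃ c, facetTest 6 band ks f c = true) {s : ℝ}
    (hs : band.Mem s) : DropGain (-s) (1 / s ^ 2) (coord 6 ks s)
      (fun i => (H 36 i : ℝ) / (100000 : ℕ)) S36.a ((S36.L : ℝ) / (100000 : ℕ)) :=
  S36.drop_of_tests (r := 16) (n := 14) (K := 40) (T := (.cut 1 200367 (.leaf [0, 0, 0, 0, 0, 0, 0, 0, 0, 0, 0, 0, 0, 0, 0, 0, 0, 0, 0, 0, 0, 0, 0, 0, 0, 0, 0, 0, 0, 0, 4266758995340941888323584, 93749397352463, 26642407317614, 27446860079629, 444313822141498] []) (.cut 2 301138 (.leaf [0, 0, 0, 0, 0, 0, 0, 0, 0, 0, 0, 0, 0, 0, 0, 0, 0, 0, 0, 0, 0, 0, 0, 0, 0, 0, 0, 0, 0, 0, 0, 4266758995472416205963264, 26642407317614, 27446860079629, 444313822141498] []) (.cut 2 346983 (.cut 3 385152 (.leaf [0, 0, 0, 0, 0, 0, 0, 0, 0, 0, 0, 0, 0, 0, 0, 0, 0, 0, 0, 0, 0, 0, 0, 0, 0, 0, 0, 0, 0, 0, 0, 0, 4266758995383131352072192, 27446860079629, 444313822141498] []) (.cut 3 422358 (.cut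 6 512741 (.leaf [0, 0, 0, 0, 0, 0, 0, 0, 0, 0, 0, 0, 0, 0, 0, 0, 0, 0, 0, 0, 0, 0, 0, 0, 0, 0, 0, 0, 0, 0, 0, 0, 39896790797, 27446860079629, 4266758995817667688923136] []) (.leaf [0, 0, 0, 0, 0, 0, 0, 0, 0, 0, 0, 0, 0, 0, 0, 0, 0, 0, 0, 0, 0, 0, 0, 0, 4847838937, 111718687882, 0, 0, 0, 0, 0, 0, 39896790797, 0, 433230630021] [0, 0, 0, 366860, 484412])) (.leaf [0, 0, 0, 0, 0, 0, 0, 0, 0, 0, 0, 0, 0, 0, 0, 0, 0, 0, 4266758995335922682167296, 111718687882, 27446860079629, 85148649232978, 444313822141498] []))) (.leaf [0, 0, 0, 0, 0, 0, 0, 0, 0, 0, 0, 0, 6831186351817641611493376, 0, 27447548920717, 0, 0, 0, 0, 0, 0, 0, 0, 0, 0, 0, 0, 0, 0, 0, 0, 0, 26641933612207, 0, 444313822141498] [])))))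
    (cw := ⟨256, 328, 24, (.cut 2 128 (.out 0) (.cut 1 128 (.out 0) (.cut 2 192 (.cut 1 192 (.out 0) (.cut 1 224 (.out 0) (.cut 2 160 (.cut 1 240 (.out 0) (.cut 0 1748 (.out 0) (.cut 2 144 (.out 2) (.cut 1 248 (.out 0) (.cut 0 1814 (.mult []) (.cut 2 152 (.cut 1 252 (.out 0) (.cut 0 1847 (.out 2) (.cut 2 148 (.out 2) (.cut 1 254 (.out 0) (.cut 0 1864 (.out 2) (.cut 2 150 (.mult [(2, 32138760885179805510839241846823252050444059875655856706027520)]) (.mult [(1, 803469022129495137770981046170581301261101496891396417650688)]))))))) (.mult []))))))) (.mult [])))) (.cut 1 192 (.cut 2 224 (.out 0) (.out 3)) (.cut 2 224 (.mult []) (.cut 1 224 (.mult []) (.cut 2 240 (.cut 1 240 (.mult []) (.mult [])) (.mult []))))))))⟩)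
    (cu := ⟨64, 229, 24, (.cut 1 32 (.cut 2 32 (.mult []) (.cut 2 48 (.mult []) (.out 0))) (.cut 2 32 (.cut 2 16 (.mult []) (.cut 2 24 (.mult []) (.cut 1 48 (.mult []) (.cut 2 28 (.mult []) (.mult []))))) (.cut 1 48 (.cut 2 48 (.mult []) (.mult [])) (.cut 2 48 (.mult []) (.mult [])))))⟩)
    (by norm_num) ks_sum (by decide +kernel) (by decide +kernel) (by decide +kernel) hF
    (by decide +kernel) hs

/-- step 37 -/
def S37 : Step 6 := ⟨100000000, 4, 22242, ![2420634, (-39240974), 13563042, 34796017, 0, (-9979332)], 1567136, ![0, (-2129470), 31899510, (-10677017), (-27788887), 0, 7337209], ![0, 0, 0, 0, 0, 0, 0], 0, 1, ![(-2129470), 31899510, (-10677017), (-27788887), 0, 7337209], ⟨7388, 1059583, 115601, 317256⟩, ⟨1559747, (-1059583), (-115601), (-317256)⟩⟩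

theorem drop37 (hF : ∀ f ∈ Fs, ∃ c, facetTest 6 band ks f c = true) {s : ℝ}
    (hs : band.Mem s) : DropGain (-s) (1 / s ^ 2) (coord 6 ks s)
      (fun i => (H 37 i : ℝ) / (100000 : ℕ)) S37.a ((S37.L : ℝ) / (100000 : ℕ)) :=
  S37.drop_of_tests (r := 16) (n := 14) (K := 40) (T := (.cut 2 315583 (.leaf [0, 0, 0, 0, 0, 0, 0, 0, 0, 0, 0, 0, 0, 0, 0, 0, 0, 0, 0, 0, 0, 0, 54809661256921, 0, 1668958552808, 4314590720233916619292672, 0, 0, 65344489730246] []) (.cut 2 346969 (.cut 6 456826 (.leaf [0, 0, 0, 0, 0, 0, 0, 0, 0, 0, 0, 0, 0, 0, 0, 0, 0, 0, 0, 0, 0, 0, 54806105412317, 0, 1668958552808, 0, 0, 0, 4314590719918529117683712] []) (.cut 6 527052 (.leaf [] [205050, 0, 382554, 359625]) (.leaf [0, 0, 0, 0, 0, 0, 18216530, 0, 0, 0, 0, 0, 0, 0, 0, 0, 0, 0, 0, 0, 0, 0, 0, 0, 0, 348423082790, 0, 0, 0, 0, 0, 0, 0, 0, 0, 0, 0, 0, 3890928421704, 0, 24067158697448] [205050, 0, 388120, 359625]))) (.leaf [0,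 0, 0, 0, 0, 0, 0, 0, 0, 0, 0, 0, 4314590719827237977194496, 0, 42819093133908, 0, 65344489730246, 0, 0, 0, 0, 0, 54809661256921] []))))
    (cw := ⟨64, 280, 24, (.cut 2 32 (.out 2) (.cut 1 32 (.cut 2 48 (.out 0) (.out 3)) (.cut 2 48 (.cut 1 48 (.out 0) (.cut 1 56 (.out 0) (.cut 2 40 (.cut 1 60 (.out 0) (.cut 0 1748 (.out 2) (.cut 2 36 (.out 2) (.cut 1 62 (.out 0) (.cut 0 1814 (.mult []) (.cut 2 38 (.cut 1 63 (.out 0) (.cut 0 1847 (.out 2) (.cut 2 37 (.out 2) (.cut 1 64 (.mult [(0, 537832602537772273898956018439592151233383175815168)]) (.mult [(1, 537832602537772273898956018439592151233383175815168)]))))) (.mult []))))))) (.mult [])))) (.cut 1 48 (.cut 2 56 (.out 0) (.out 3)) (.cut 2 56 (.mult []) (.cut 1 56 (.mult []) (.cut 2 60 (.cut 1 60 (.mult []) (.mult [])) (.mult []))))))))⟩)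
    (cu := ⟨16, 182, 24, (.cut 1 8 (.cut 2 8 (.cut 1 4 (.cut 2 4 (.cut 1 2 (.cut 2 2 (.cut 1 1 (.cut 2 1 (.mult []) (.mult [])) (.cut 2 1 (.mult []) (.mult []))) (.mult [])) (.mult [])) (.mult [])) (.mult [])) (.cut 2 12 (.mult []) (.out 0))) (.cut 2 8 (.cut 2 4 (.mult []) (.cut 2 6 (.mult []) (.cut 1 12 (.mult []) (.mult [])))) (.cut 1 12 (.cut 2 12 (.mult []) (.mult [])) (.cut 2 12 (.mult []) (.cut 1 14 (.mult []) (.mult []))))))⟩)
    (by norm_num) ks_sum (by decide +kernel) (by decide +kernel) (by decide +kernel) hF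
    (by decide +kernel) hs

/-- step 38 -/
def S38 : Step 6 := ⟨100000000, 0, 26124, ![2904584, (-40463886), 12204300, 35567668, 0, (-8859562)], 1375603, ![(-844850), (-2574159), 33767165, (-9687585), (-28474730), 0, 6696562], ![0, 0, 0, 0, 0, 0, 0], 0, 1, ![(-2574159), 33767165, (-9687585), (-28474730), 0, 6696562], ⟨1742, 480938, (-34303), (-5542)⟩, ⟨1373860, (-1325788), 34303, 5542⟩⟩

theorem drop38 (hF : ∀ f ∈ Fs, ∃ c, facetTest 6 band ks f c = true) {s : ℝ}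
    (hs : band.Mem s) : DropGain (-s) (1 / s ^ 2) (coord 6 ks s)
      (fun i => (H 38 i : ℝ) / (100000 : ℕ)) S38.a ((S38.L : ℝ) / (100000 : ℕ)) :=
  S38.drop_of_tests (r := 16) (n := 14) (K := 40) (T := (.cut 2 255400 (.leaf [0, 0, 0, 0, 0, 0, 0, 0, 0, 0, 6697395195258, 0, 0, 0, 0, 0, 0, 0, 0, 0, 0, 0, 42608913329482, 0, 0, 0, 0, 0, 0, 0, 0, 0, 0, 0, 0, 0, 0, 0, 0, 0, 0, 0, 0, 4449051316599635541229568, 0, 13593034, 0, 37282538612877] []) (.cut 2 323529 (.cut 6 369365 (.leaf [0, 0, 0, 0, 0, 0, 0, 0, 0, 0, 15760286726006, 0, 0, 0, 0, 0, 0, 0, 0, 0, 0, 0, 42608913329482, 0, 0, 0, 0, 0, 0, 0, 0, 0, 0, 0, 0, 0, 0, 0, 0, 0, 0, 0, 0, 0, 0, 13593034, 0, 4449051316275440672309248] []) (.cut 6 509329 (.leaf [0, 0, 0, 0, 0, 0, 0, 0, 0, 0, 0, 0, 0, 0, 0, 0, 0, 0, 0, 0, 0, 0, 4157013870344, 0, 987219440272, 301577979821, 0, 0, 30423813, 0, 0, 0, 0, 0, 0, 0, 0, 0, 0, 0, 0, 0, 1716676601] [198828, 0, 361325,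 355455]) (.leaf [0, 0, 0, 0, 0, 0, 0, 0, 0, 0, 0, 0, 0, 0, 0, 0, 0, 0, 0, 0, 0, 0, 0, 0, 0, 301577979821, 0, 0, 0, 0, 0, 0, 0, 0, 0, 0, 1327888794902, 0, 12317984774128, 0, 31559823284867] [200752, 0, 388120, 355735]))) (.leaf [0, 0, 0, 0, 0, 0, 0, 0, 0, 0, 0, 0, 4086261586421, 0, 4040918543424394062987264, 0, 43979933808135, 0, 0, 0, 0, 0, 42608913329482] []))))
    (cw := ⟨64, 280, 24, (.cut 2 32 (.out 2) (.cut 1 32 (.cut 2 48 (.out 0) (.out 3)) (.cut 2 48 (.mult [(0, 23384026197294446691258957323460528314494920687616)]) (.cut 1 48 (.mult [(0, 11692013098647223345629478661730264157247460343808)]) (.cut 2 56 (.cut 1 56 (.out 0) (.cut 1 60 (.mult [(0, 3653754093327257295509212081790707549139831357440)]) (.mult []))) (.cut 1 56 (.cut 2 60 (.mult [(0, 3653754093327257295509212081790707549139831357440)]) (.out 3)) (.cut 2 60 (.cut 1 60 (.mult [(0, 2557627865329080106856448457253495284397881950208)])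 (.mult [])) (.mult []))))))))⟩)
    (cu := ⟨64, 230, 24, (.cut 1 32 (.cut 2 32 (.cut 1 16 (.cut 2 16 (.cut 1 8 (.cut 2 8 (.cut 1 4 (.cut 2 4 (.mult []) (.mult [])) (.cut 2 4 (.mult []) (.cut 1 6 (.cut 2 6 (.cut 1 5 (.cut 2 5 (.mult []) (.mult [])) (.mult [])) (.mult [])) (.mult [])))) (.mult [])) (.mult [])) (.mult [])) (.mult [])) (.cut 2 48 (.mult []) (.out 0))) (.cut 2 32 (.cut 2 16 (.mult []) (.cut 2 24 (.mult []) (.mult []))) (.cut 1 48 (.cut 2 48 (.mult []) (.mult [])) (.cut 2 48 (.mult []) (.cut 1 56 (.cut 2 56 (.mult []) (.mult [])) (.mult []))))))⟩)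
    (by norm_num) ks_sum (by decide +kernel) (by decide +kernel) (by decide +kernel) hF
    (by decide +kernel) hs

/-- step 39 -/
def S39 : Step 6 := ⟨100000000, 6, 30041, ![0, (-20405580), 0, 18368969, 32592500, (-28632951)], 1933058, ![0, 0, 16924971, 0, (-14802988), (-24557196), 20898644], ![0, 0, 0, 0, 0, 0, 0], 0, 1, ![0, 16924971, 0, (-14802988), (-24557196), 20898644], ⟨9994, 1325499, 150125, 447314⟩, ⟨1923063, (-1325499), (-150125), (-447314)⟩⟩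

theorem drop39 (hF : ∀ f ∈ Fs, ∃ c, facetTest 6 band ks f c = true) {s : ℝ}
    (hs : band.Mem s) : DropGain (-s) (1 / s ^ 2) (coord 6 ks s)
      (fun i => (H 39 i : ℝ) / (100000 : ℕ)) S39.a ((S39.L : ℝ) / (100000 : ℕ)) :=
  S39.drop_of_tests (r := 16) (n := 14) (K := 40) (T := (.cut 2 274794 (.leaf [0, 0, 0, 0, 0, 0, 0, 0, 0, 0, 0, 0, 0, 0, 0, 0, 0, 0, 0, 0, 0, 0, 0, 0, 0, 0, 0, 0, 0, 0, 0, 0, 0, 0, 0, 0, 0, 3583583273029530890010624, 0, 10684640482577, 35734025632668] []) (.cut 2 323510 (.cut 6 527129 (.leaf [] [0, 0, 0, 345193, 452960]) (.leaf [0, 0, 0, 0, 0, 0, 0, 0, 0, 0, 0, 0, 0, 0, 0, 0, 0, 0, 0, 0, 0, 0, 0, 0, 0, 0, 0, 0, 0, 0, 0, 0, 0, 0, 0, 0, 0, 161747646945, 0, 10684640482577, 3981316823548109369901056] [])) (.leaf [0, 0, 0, 0, 0, 0, 0, 0, 0, 0, 0, 0, 0, 0, 3254844026254629827248128, 0, 0, 0, 0, 0, 0, 0, 0, 0, 0, 0, 0, 0, 0, 0, 0, 0, 0, 0, 0, 0, 0, 0, 0, 0, 35734025632668] []))))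
    (cw := ⟨256, 328, 24, (.cut 2 128 (.out 0) (.cut 1 128 (.out 0) (.cut 2 192 (.cut 1 192 (.out 0) (.cut 1 224 (.out 0) (.cut 2 160 (.cut 1 240 (.out 0) (.cut 0 1748 (.out 0) (.cut 2 144 (.out 2) (.cut 1 248 (.out 0) (.cut 0 1814 (.mult []) (.cut 2 152 (.cut 1 252 (.out 0) (.cut 0 1847 (.out 2) (.cut 2 148 (.out 2) (.cut 1 254 (.out 0) (.cut 0 1864 (.out 2) (.cut 2 150 (.mult [(2, 32138760885179805510839241846823252050444059875655856706027520)]) (.mult [(1, 803469022129495137770981046170581301261101496891396417650688)]))))))) (.mult []))))))) (.mult [])))) (.cut 1 192 (.cut 2 224 (.out 0) (.out 3)) (.cut 2 224 (.mult []) (.cut 1 224 (.mult []) (.cut 2 240 (.cut 1 240 (.cut 0 1748 (.cut 0 1681 (.cut 2 232 (.mult []) (.mult [])) (.mult [])) (.mult [])) (.mult [])) (.cut 1 240 (.mult []) (.mult [])))))))))⟩)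
    (cu := ⟨64, 230, 24, (.cut 1 32 (.cut 1 16 (.mult []) (.cut 2 32 (.mult []) (.cut 2 48 (.mult []) (.out 0)))) (.cut 2 32 (.cut 2 16 (.mult []) (.cut 1 48 (.mult []) (.cut 2 24 (.mult []) (.cut 2 28 (.mult []) (.cut 1 56 (.mult []) (.mult [])))))) (.cut 1 48 (.cut 2 48 (.mult []) (.mult [])) (.cut 2 48 (.mult []) (.cut 1 56 (.mult []) (.mult []))))))⟩)
    (by norm_num) ks_sum (by decide +kernel) (by decide +kernel) (by decide +kernel) hF
    (by decide +kernel) hs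

/-- step 40 -/
def S40 : Step 6 := ⟨100000000, 2, 18136, ![2293742, (-36261388), 10901934, 31709688, 5845489, (-12987760)], 1508303, ![0, (-2041266), 29935283, (-8776127), (-25805086), (-4460506), 9804891], ![0, 0, 0, 0, 0, 0, 0], 0, 1, ![(-2041266), 29935283, (-8776127), (-25805086), (-4460506), 9804891], ⟨6235, 1050427, 104661, 286437⟩, ⟨1502067, (-1050427), (-104661), (-286437)⟩⟩

theorem drop40 (hF : ∀ f ∈ Fs, ∃ c, facetTest 6 band ks f c = true) {s : ℝ}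
    (hs : band.Mem s) : DropGain (-s) (1 / s ^ 2) (coord 6 ks s)
      (fun i => (H 40 i : ℝ) / (100000 : ℕ)) S40.a ((S40.L : ℝ) / (100000 : ℕ)) :=
  S40.drop_of_tests (r := 16) (n := 14) (K := 40) (T := (.cut 2 323494 (.cut 6 418661 (.leaf [0, 0, 0, 0, 0, 0, 0, 0, 0, 0, 0, 0, 4157064949134, 0, 46066688250755, 0, 3986981774691902158798848, 0, 0, 0, 0, 12583200722400, 16222358257623] []) (.leaf [0, 0, 0, 0, 0, 0, 0, 0, 0, 0, 0, 0, 59756604656, 0, 80121586814, 0, 0, 0, 0, 0, 0, 0, 0, 0, 0, 0, 0, 0, 0, 0, 0, 0, 1148796623035, 0, 164025443967] [187009, 0, 348954, 329726, 429028])) (.leaf [0, 0, 0, 0, 0, 0, 0, 0, 0, 0, 0, 0, 4157064949134, 0, 3986981774575777517404160, 12583200722400, 127597584594054, 0, 0, 0, 0, 0, 27824950339251] [])))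
    (cw := ⟨64, 280, 24, (.cut 2 32 (.out 2) (.cut 1 32 (.cut 2 48 (.out 0) (.out 3)) (.cut 2 48 (.cut 1 48 (.out 0) (.cut 1 56 (.out 0) (.cut 2 40 (.cut 1 60 (.out 0) (.cut 0 1748 (.out 2) (.cut 2 36 (.out 2) (.cut 1 62 (.out 0) (.cut 0 1814 (.mult []) (.cut 2 38 (.cut 1 63 (.out 0) (.cut 0 1847 (.out 2) (.cut 2 37 (.out 2) (.cut 1 64 (.mult [(0, 491064550143183380516438103792671094604393334439936)]) (.mult [(1, 491064550143183380516438103792671094604393334439936)]))))) (.mult []))))))) (.mult [])))) (.cut 1 48 (.cut 2 56 (.out 0) (.out 3)) (.cut 2 56 (.mult []) (.cut 1 56 (.mult []) (.cut 2 60 (.cut 1 60 (.mult []) (.mult [])) (.mult []))))))))⟩)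
    (cu := ⟨64, 229, 24, (.cut 1 32 (.cut 2 32 (.cut 1 16 (.cut 2 16 (.cut 1 8 (.cut 2 8 (.cut 1 4 (.cut 2 4 (.cut 1 2 (.mult []) (.cut 2 2 (.mult []) (.cut 1 3 (.mult []) (.cut 2 3 (.mult []) (.mult []))))) (.mult [])) (.cut 2 4 (.mult []) (.mult []))) (.mult [])) (.mult [])) (.mult [])) (.mult [])) (.cut 2 48 (.mult []) (.out 0))) (.cut 2 32 (.cut 2 16 (.mult []) (.cut 1 48 (.mult []) (.mult []))) (.cut 1 48 (.cut 2 48 (.mult []) (.mult [])) (.cut 2 48 (.mult []) (.mult [])))))⟩)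
    (by norm_num) ks_sum (by decide +kernel) (by decide +kernel) (by decide +kernel) hF
    (by decide +kernel) hs

/-- step 41 -/
def S41 : Step 6 := ⟨100000000, 5, 24907, ![410332, (-22093782), 831602, 19416287, 30233468, (-27014530)], 1791067, ![0, (-367030), 18642782, (-675572), (-15923862), (-23433867), 20316340], ![0, 0, 0, 0, 0, 0, 0], 0, 1, ![(-367030), 18642782, (-675572), (-15923862), (-23433867), 20316340], ⟨7526, 1253682, 132620, 395031⟩, ⟨1783540, (-1253682), (-132620), (-395031)⟩⟩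

theorem drop41 (hF : ∀ f ∈ Fs, ∃ c, facetTest 6 band ks f c = true) {s : ℝ}
    (hs : band.Mem s) : DropGain (-s) (1 / s ^ 2) (coord 6 ks s)
      (fun i => (H 41 i : ℝ) / (100000 : ℕ)) S41.a ((S41.L : ℝ) / (100000 : ℕ)) :=
  S41.drop_of_tests (r := 16) (n := 14) (K := 40) (T := (.cut 2 253081 (.leaf [0, 0, 0, 0, 0, 0, 0, 0, 2877496223012, 0, 0, 0, 0, 0, 0, 0, 0, 0, 0, 0, 0, 0, 1609803098404, 0, 0, 0, 0, 0, 0, 0, 0, 3324204961596420258791424, 0, 38858798483078, 330225903497282] []) (.cut 6 430826 (.leaf [0, 0, 0, 0, 0, 0, 3169843708785, 0, 0, 0, 0, 0, 0, 0, 2708237775274, 0, 0, 0, 0, 0, 0, 0, 1609803098404, 0, 0, 0, 0, 0, 0, 0, 0, 0, 0, 39028056930816, 3324204961767927966597120] []) (.leaf [0, 0, 0, 0, 0, 0, 0, 0, 0, 0, 0, 0, 0, 0, 0, 0, 0, 0, 0, 0, 0, 0, 0, 0, 0, 187994455339, 0, 0, 0, 0, 5063117, 79462869, 11398226, 0, 338825988010] [178437, 0, 332471, 317117, 407400]))))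
    (cw := ⟨256, 328, 24, (.cut 2 128 (.out 0) (.cut 1 128 (.out 0) (.cut 2 192 (.cut 1 192 (.out 0) (.cut 1 224 (.out 0) (.cut 2 160 (.cut 1 240 (.out 0) (.cut 0 1748 (.out 0) (.cut 2 144 (.out 2) (.cut 1 248 (.out 0) (.cut 0 1814 (.mult []) (.cut 2 152 (.cut 1 252 (.out 0) (.cut 0 1847 (.out 2) (.cut 2 148 (.out 2) (.cut 1 254 (.out 0) (.cut 0 1864 (.out 2) (.cut 2 150 (.mult [(2, 32138760885179805510839241846823252050444059875655856706027520)]) (.mult [(1, 803469022129495137770981046170581301261101496891396417650688)]))))))) (.mult []))))))) (.mult [])))) (.cut 1 192 (.cut 2 224 (.out 0) (.out 3)) (.cut 2 224 (.mult []) (.cut 1 224 (.mult []) (.cut 2 240 (.cut 1 240 (.mult []) (.mult [])) (.cut 1 240 (.mult []) (.mult [])))))))))⟩)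
    (cu := ⟨64, 229, 24, (.cut 2 32 (.cut 1 32 (.cut 2 16 (.cut 1 16 (.cut 2 8 (.cut 1 8 (.cut 1 4 (.cut 1 2 (.cut 1 1 (.cut 2 4 (.cut 2 2 (.mult []) (.out 0)) (.out 0)) (.cut 2 4 (.mult []) (.out 0))) (.mult [])) (.mult [])) (.mult [])) (.mult [])) (.mult [])) (.mult [])) (.cut 1 48 (.mult []) (.cut 2 16 (.mult []) (.cut 1 56 (.mult []) (.mult []))))) (.cut 1 32 (.cut 2 48 (.mult []) (.out 0)) (.cut 2 48 (.cut 1 48 (.mult []) (.cut 1 56 (.mult []) (.cut 2 40 (.mult []) (.mult [])))) (.cut 1 48 (.cut 2 56 (.mult []) (.out 0)) (.mult [])))))⟩)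
    (by norm_num) ks_sum (by decide +kernel) (by decide +kernel) (by decide +kernel) hF
    (by decide +kernel) hs

/-- step 42 -/
def S42 : Step 6 := ⟨100000000, 0, 23443, ![(-21374935), 0, 30662908, 21613550, 0, (-26348607)], 4635114, ![(-1949644), 19273968, 0, (-24963133), (-17772724), 777823, 20686292], ![0, 0, 0, 0, 0, 0, 0], 0, 1, ![19273968, 0, (-24963133), (-17772724), 777823, 20686292], ⟨5169, 2595498, (-87993), 171602⟩, ⟨4629944, (-4545142), 87993, (-171602)⟩⟩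

theorem drop42 (hF : ∀ f ∈ Fs, ∃ c, facetTest 6 band ks f c = true) {s : ℝ}
    (hs : band.Mem s) : DropGain (-s) (1 / s ^ 2) (coord 6 ks s)
      (fun i => (H 42 i : ℝ) / (100000 : ℕ)) S42.a ((S42.L : ℝ) / (100000 : ℕ)) :=
  S42.drop_of_tests (r := 16) (n := 14) (K := 40) (T := (.cut 1 143617 (.leaf [0, 0, 0, 0, 0, 0, 0, 0, 0, 0, 0, 0, 0, 0, 0, 0, 0, 0, 0, 0, 0, 0, 54890319431430, 0, 92373370354894, 0, 0, 0, 94034212204395, 0, 0, 0, 0, 0, 78990064916562, 0, 0, 0, 0, 0, 0, 0, 3371422388778812047360000] []) (.cut 1 187420 (.cut 6 331460 (.leaf [0, 0, 0, 0, 0, 0, 0, 0, 0, 0, 0, 0, 0, 0, 0, 0, 0, 0, 0, 0, 0, 0, 54890319431430, 0, 0, 0, 0, 0, 133923529479838, 0, 0, 0, 0, 0, 78990064916562, 0, 0, 0, 0, 0, 0, 0, 0, 0, 0, 0, 0, 3371422388816957799399424] []) (.cut 6 442919 (.leaf [] [0, 0, 329046, 313005]) (.leaf [0, 0, 0, 0, 0, 0, 0, 0, 0, 0, 0, 0, 0, 0, 0, 0, 0, 0, 0, 0, 0, 0, 0, 0, 96389219948,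 0, 0, 0, 0, 0, 0, 0, 0, 0, 0, 0, 593511549, 0, 249237063, 0, 115172774704450] [0, 0, 329046, 313005]))) (.leaf [0, 0, 0, 0, 0, 0, 0, 0, 51607630246524, 1584315032303840769605632, 173025292200963, 0, 0, 0, 0, 0, 0, 0, 0, 0, 0, 0, 54888979604697] []))))
    (cw := ⟨64, 280, 24, (.cut 2 32 (.out 2) (.cut 1 32 (.cut 2 48 (.out 0) (.out 3)) (.cut 2 48 (.mult [(0, 116920130986472233456294786617302641572474603438080)]) (.cut 1 48 (.mult [(0, 46768052394588893382517914646921056628989841375232)]) (.cut 2 56 (.cut 1 56 (.out 0) (.mult [])) (.cut 1 56 (.mult []) (.mult [])))))))⟩)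
    (cu := ⟨16, 182, 24, (.cut 1 8 (.cut 2 8 (.mult []) (.cut 2 12 (.mult []) (.out 0))) (.cut 2 8 (.cut 1 12 (.mult []) (.cut 1 14 (.mult []) (.mult []))) (.cut 1 12 (.cut 2 12 (.mult []) (.cut 2 14 (.mult []) (.out 0))) (.cut 2 12 (.cut 1 14 (.mult []) (.cut 1 15 (.mult []) (.mult []))) (.cut 1 14 (.cut 2 14 (.mult []) (.mult [])) (.mult []))))))⟩)
    (by norm_num) ks_sum (by decide +kernel) (by decide +kernel) (by decide +kernel) hF
    (by decide +kernel) hs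

/-- step 43 -/
def S43 : Step 6 := ⟨100000000, 6, 25246, ![(-1711966), 0, (-11263812), 0, 50820526, (-36203696)], 1648966, ![0, 1538867, 0, 9261267, 0, (-39962787), 27786313], ![0, 0, 0, 0, 0, 0, 0], 0, 1, ![1538867, 0, 9261267, 0, (-39962787), 27786313], ⟨7784, 1177828, 111661, 351561⟩, ⟨1641181, (-1177828), (-111661), (-351561)⟩⟩

theorem drop43 (hF : ∀ f ∈ Fs, ∃ c, facetTest 6 band ks f c = true) {s : ℝ}
    (hs : band.Mem s) : DropGain (-s) (1 / s ^ 2) (coord 6 ks s)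
      (fun i => (H 43 i : ℝ) / (100000 : ℕ)) S43.a ((S43.L : ℝ) / (100000 : ℕ)) :=
  S43.drop_of_tests (r := 16) (n := 14) (K := 40) (T := (.cut 1 153601 (.leaf [0, 0, 0, 0, 0, 0, 0, 0, 0, 0, 0, 0, 0, 0, 0, 0, 0, 0, 0, 0, 0, 0, 0, 0, 0, 0, 0, 0, 0, 0, 0, 0, 0, 0, 0, 0, 5587775926679531948081152, 0, 22043218070761, 0, 38141607896365] []) (.cut 1 187410 (.cut 3 329622 (.cut 3 297088 (.leaf [0, 0, 0, 0, 0, 0, 0, 0, 0, 0, 0, 0, 0, 0, 0, 0, 0, 0, 0, 0, 0, 0, 0, 0, 0, 0, 0, 0, 0, 0, 0, 0, 0, 0, 0, 0, 0, 0, 5587775926781253953519616, 0, 38141607896365] []) (.cut 6 442998 (.leaf [0, 0, 0, 0, 0, 0, 0, 0, 0, 0, 0, 0, 0, 0, 0, 0, 0, 0, 8232310479, 0, 0, 59882891289, 0, 0, 0, 0, 0, 0, 0, 0, 0, 0, 0, 0, 0, 0, 0, 0, 0, 0, 83986014506] [0, 0, 0, 0, 384615]) (.leaf [0, 0, 0, 0, 0, 0, 0, 0, 0, 0, 0, 0, 0, 0, 0, 0, 0, 0, 8232310479, 0, 0, 59882891289, 0, 0, 0, 0, 0, 0, 0, 0, 0, 0, 0, 0, 0, 0, 0, 0, 0, 0, 6207950146363411415433216]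 []))) (.leaf [0, 0, 0, 0, 0, 0, 0, 0, 0, 0, 0, 0, 0, 0, 0, 0, 0, 0, 8232310479, 0, 0, 4611898255821351117914112, 0, 0, 0, 0, 0, 0, 0, 0, 0, 0, 0, 0, 0, 0, 0, 0, 0, 0, 39553253838287] [])) (.leaf [0, 0, 0, 0, 0, 0, 0, 22043925728035, 0, 2625834552006228131708928, 0, 0, 0, 0, 0, 0, 0, 0, 0, 0, 0, 0, 0, 0, 0, 0, 0, 0, 0, 0, 0, 0, 0, 0, 0, 0, 0, 0, 0, 0, 39553564022162] []))))
    (cw := ⟨256, 328, 24, (.cut 2 128 (.out 0) (.cut 1 128 (.out 0) (.cut 2 192 (.cut 1 192 (.out 0) (.cut 1 224 (.out 0) (.cut 2 160 (.cut 1 240 (.out 0) (.cut 0 1748 (.out 0) (.cut 2 144 (.out 2) (.cut 1 248 (.out 0) (.cut 0 1814 (.mult []) (.cut 2 152 (.cut 1 252 (.out 0) (.cut 0 1847 (.out 2) (.cut 2 148 (.out 2) (.cut 1 254 (.out 0) (.cut 0 1864 (.out 2) (.cut 2 150 (.mult [(2, 25711008708143844408671393477458601640355247900524685364822016)]) (.mult [(1, 803469022129495137770981046170581301261101496891396417650688)])))))))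 (.mult []))))))) (.mult [])))) (.cut 1 192 (.cut 2 224 (.out 0) (.out 3)) (.cut 2 224 (.mult []) (.cut 1 224 (.mult []) (.cut 2 240 (.cut 1 240 (.mult []) (.mult [])) (.cut 1 240 (.mult []) (.mult [])))))))))⟩)
    (cu := ⟨16, 183, 24, (.cut 1 8 (.cut 2 8 (.mult []) (.mult [])) (.cut 2 8 (.mult []) (.cut 1 12 (.cut 2 12 (.mult []) (.cut 2 14 (.mult []) (.out 0))) (.cut 2 12 (.cut 2 10 (.cut 1 14 (.mult []) (.cut 2 9 (.cut 1 15 (.mult []) (.mult [])) (.mult []))) (.mult [])) (.cut 1 14 (.cut 2 14 (.cut 1 13 (.mult []) (.mult [])) (.mult [])) (.cut 2 14 (.mult []) (.mult [])))))))⟩)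
    (by norm_num) ks_sum (by decide +kernel) (by decide +kernel) (by decide +kernel) hF
    (by decide +kernel) hs

/-- step 44 -/
def S44 : Step 6 := ⟨100000000, 4, 17054, ![1288594, (-36253798), 13203268, 32246146, 4016709, (-12991485)], 1515282, ![0, (-1165298), 30798686, (-11006343), (-27049783), (-3200750), 10262831], ![0, 0, 0, 0, 0, 0, 0], 0, 1, ![(-1165298), 30798686, (-11006343), (-27049783), (-3200750), 10262831], ⟨5571, 1104957, 94498, 290352⟩, ⟨1509710, (-1104957), (-94498), (-290352)⟩⟩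

theorem drop44 (hF : ∀ f ∈ Fs, ∃ c, facetTest 6 band ks f c = true) {s : ℝ}
    (hs : band.Mem s) : DropGain (-s) (1 / s ^ 2) (coord 6 ks s)
      (fun i => (H 44 i : ℝ) / (100000 : ℕ)) S44.a ((S44.L : ℝ) / (100000 : ℕ)) :=
  S44.drop_of_tests (r := 16) (n := 14) (K := 40) (T := (.cut 2 241960 (.leaf [0, 0, 0, 0, 0, 0, 0, 0, 0, 6370553837325, 0, 0, 0, 0, 0, 0, 0, 0, 0, 0, 0, 0, 2100030901059, 0, 0, 3986147245517258352492544, 0, 1284607989718, 131870509426493] []) (.cut 6 350255 (.leaf [0, 0, 0, 0, 0, 0, 0, 0, 0, 6370553837325, 0, 0, 0, 0, 0, 0, 7446414557460, 0, 0, 0, 0, 0, 2100030901059, 0, 0, 0, 0, 1284607989718, 3986147245349164069945344] []) (.cut 2 260267 (.leaf [0, 0, 0, 0, 0, 0, 0, 0, 0, 0, 0, 0, 0, 0, 0, 0, 0, 0, 0, 0, 0, 0, 0, 0, 0, 20827672053605, 0, 0, 0, 0, 18809492, 0, 870842446106, 0, 144154514743] [160920, 0, 292340, 272864, 359398]) (.leaf [0, 0, 0, 0, 0, 0, 0, 0, 0, 0, 0,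 0, 495785086177, 2005250455451, 25051019131767, 0, 0, 0, 0, 0, 0, 0, 0, 0, 0, 0, 0, 0, 0, 0, 0, 0, 238866695748, 0, 144753611477] [167123, 0, 294158, 294685, 361729])))))
    (cw := ⟨256, 328, 24, (.cut 2 128 (.out 0) (.cut 1 128 (.out 0) (.cut 2 192 (.cut 1 192 (.out 0) (.cut 1 224 (.out 0) (.cut 2 160 (.cut 1 240 (.out 0) (.cut 0 1748 (.out 0) (.cut 2 144 (.out 2) (.cut 1 248 (.out 0) (.cut 0 1814 (.mult []) (.cut 2 152 (.cut 1 252 (.out 0) (.cut 0 1847 (.out 2) (.cut 2 148 (.out 2) (.cut 1 254 (.out 0) (.cut 0 1864 (.out 2) (.cut 2 150 (.mult [(2, 25711008708143844408671393477458601640355247900524685364822016)]) (.mult [(1, 803469022129495137770981046170581301261101496891396417650688)]))))))) (.mult []))))))) (.mult [])))) (.cut 1 192 (.cut 2 224 (.out 0) (.out 3)) (.cut 2 224 (.mult []) (.cut 1 224 (.mult []) (.cut 2 240 (.cut 1 240 (.mult []) (.mult [])) (.cut 1 240 (.mult []) (.mult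 [])))))))))⟩)
    (cu := ⟨64, 230, 24, (.cut 1 32 (.cut 2 32 (.cut 1 16 (.cut 2 16 (.cut 1 8 (.cut 2 8 (.cut 1 4 (.cut 2 4 (.cut 1 2 (.cut 2 2 (.mult []) (.mult [])) (.cut 2 2 (.mult []) (.mult []))) (.mult [])) (.mult [])) (.mult [])) (.mult [])) (.mult [])) (.mult [])) (.mult [])) (.cut 2 32 (.mult []) (.cut 1 48 (.cut 2 48 (.mult []) (.cut 2 56 (.mult []) (.out 0))) (.cut 2 48 (.cut 2 40 (.mult []) (.mult [])) (.cut 1 56 (.mult []) (.mult []))))))⟩)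
    (by norm_num) ks_sum (by decide +kernel) (by decide +kernel) (by decide +kernel) hF
    (by decide +kernel) hs

/-- step 45 -/
def S45 : Step 6 := ⟨100000000, 0, 20694, ![(-25115142), 0, 24981309, 27331908, 0, (-22571641)], 4843558, ![(-14571406), 22925665, 0, (-21054074), (-7434043), 0, 18157837], ![0, 0, 0, 0, 0, 0, 0], 0, 1, ![22925665, 0, (-21054074), (-7434043), 0, 18157837], ⟨2273, (-6238619), (-2034919), (-1458857)⟩, ⟨4841284, (-8332787), 2034919, 1458857⟩⟩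

theorem drop45 (hF : ∀ f ∈ Fs, ∃ c, facetTest 6 band ks f c = true) {s : ℝ}
    (hs : band.Mem s) : DropGain (-s) (1 / s ^ 2) (coord 6 ks s)
      (fun i => (H 45 i : ℝ) / (100000 : ℕ)) S45.a ((S45.L : ℝ) / (100000 : ℕ)) :=
  S45.drop_of_tests (r := 16) (n := 14) (K := 40) (T := (.cut 1 126732 (.leaf [0, 0, 0, 0, 0, 0, 0, 0, 0, 0, 0, 0, 0, 0, 0, 0, 0, 0, 0, 0, 0, 0, 0, 0, 2600877501133311, 0, 20009248164284, 0, 196807840892591, 0, 0, 0, 0, 0, 0, 0, 0, 0, 0, 0, 0, 0, 3005175065530387660800000] []) (.cut 1 165100 (.cut 6 292593 (.leaf [0, 0, 0, 0, 0, 0, 0, 0, 0, 0, 0, 0, 0, 0, 0, 0, 0, 0, 0, 0, 0, 0, 0, 0, 0, 0, 20009248164284, 1429811298057814, 0, 0, 0, 0, 0, 0, 1320597855414994, 0, 0, 0, 0, 0, 0, 0, 0, 0, 0, 0, 0, 3005175065530387660800000] []) (.leaf [] [0, 0, 273421, 272864])) (.leaf [0, 0, 0, 0, 0, 0, 0, 20009248164284, 1816254723516492083625984, 0, 196807840892591] []))))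
    (cw := ⟨64, 281, 24, (.cut 2 32 (.out 2) (.cut 1 32 (.mult [(0, 374144419156711147060143317175368453031918731001856)]) (.cut 2 48 (.mult [(0, 374144419156711147060143317175368453031918731001856)]) (.cut 1 48 (.mult [(0, 374144419156711147060143317175368453031918731001856)]) (.cut 2 56 (.cut 1 56 (.out 0) (.cut 1 60 (.mult [(0, 93536104789177786765035829293842113257979682750464)]) (.mult []))) (.cut 1 56 (.cut 2 60 (.mult [(0, 93536104789177786765035829293842113257979682750464)]) (.out 3)) (.cut 2 60 (.cut 1 60 (.cut 0 1748 (.cut 0 1681 (.mult [(0, 26307029471956252527666326988893094353806785773568)]) (.cut 2 58 (.mult [(0, 46768052394588893382517914646921056628989841375232)]) (.mult []))) (.cut 0 1814 (.cut 2 58 (.mult [(0, 40922045845265281709703175316055924550366111203328)]) (.mult [])) (.cut 2 58 (.cut 1 58 (.cut 0 1847 (.mult [(0, 46768052394588893382517914646921056628989841375232)])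 (.cut 2 57 (.mult [(0, 93536104789177786765035829293842113257979682750464)]) (.mult [(0, 46768052394588893382517914646921056628989841375232)]))) (.mult [])) (.mult [])))) (.mult [])) (.mult []))))))))⟩)
    (cu := ⟨16, 183, 24, (.cut 2 8 (.cut 1 8 (.mult []) (.cut 1 12 (.mult []) (.cut 2 4 (.mult []) (.cut 1 14 (.mult []) (.cut 2 6 (.cut 1 15 (.mult []) (.cut 1 16 (.mult []) (.mult []))) (.mult [])))))) (.cut 1 8 (.cut 2 12 (.mult []) (.out 0)) (.cut 2 12 (.cut 1 12 (.mult []) (.cut 1 14 (.mult []) (.mult []))) (.cut 1 12 (.cut 2 14 (.mult []) (.out 0)) (.cut 2 14 (.cut 1 14 (.mult []) (.mult [])) (.mult []))))))⟩)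
    (by norm_num) ks_sum (by decide +kernel) (by decide +kernel) (by decide +kernel) hF
    (by decide +kernel) hs

/-- step 46 -/
def S46 : Step 6 := ⟨100000000, 3, 17248, ![(-21960), (-20124299), 0, 17503806, 33369475, (-28980460)], 1753128, ![0, 19955, 17426583, 0, (-14759373), (-26947389), 22808891], ![0, 0, 0, 0, 0, 0, 0], 0, 1, ![19955, 17426583, 0, (-14759373), (-26947389), 22808891], ⟨6403, 1260952, 116367, 369242⟩, ⟨1746724, (-1260952), (-116367), (-369242)⟩⟩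

theorem drop46 (hF : ∀ f ∈ Fs, ∃ c, facetTest 6 band ks f c = true) {s : ℝ}
    (hs : band.Mem s) : DropGain (-s) (1 / s ^ 2) (coord 6 ks s)
      (fun i => (H 46 i : ℝ) / (100000 : ℕ)) S46.a ((S46.L : ℝ) / (100000 : ℕ)) :=
  S46.drop_of_tests (r := 16) (n := 14) (K := 40) (T := (.cut 1 141248 (.leaf [0, 0, 0, 0, 0, 0, 0, 0, 0, 0, 0, 0, 0, 0, 0, 0, 0, 0, 3669012577528170797858816, 107569428084865, 0, 102808240038185, 308163072453294, 0, 0, 8039165] []) (.cut 1 165086 (.cut 2 212374 (.leaf [0, 0, 0, 0, 0, 0, 0, 0, 0, 0, 0, 0, 0, 0, 0, 0, 0, 0, 0, 3669012577684108712345600, 0, 102808240038185, 308163072453294, 0, 0, 8039165] []) (.cut 2 248058 (.cut 6 362056 (.leaf [0, 0, 0, 0, 0, 0, 0, 0, 0, 0, 0, 0, 0, 0, 0, 0, 0, 0, 0, 0, 0, 102808240038185, 3669012577871826163597312, 0, 0, 8039165] []) (.leaf [0, 0, 0, 0, 0, 0, 0, 0, 0, 0, 0, 0, 0, 0, 0, 0, 0, 0, 0, 0, 0, 0, 0, 0, 0, 127879148356, 0, 0,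 0, 0, 49920162, 341729746, 0, 0, 320047961088] [0, 0, 0, 272752, 341821])) (.leaf [0, 0, 0, 0, 0, 0, 0, 0, 0, 0, 0, 0, 49920162, 0, 3332436491892767579963392, 0, 0, 0, 0, 0, 0, 102808240038185, 308163072453294] []))) (.leaf [0, 0, 0, 0, 0, 0, 107569436124030, 0, 2217461971188235202723840, 102808240038185, 308162998246849, 0, 0, 0, 0, 0, 0, 0, 0, 0, 0, 0, 74206444] []))))
    (cw := ⟨256, 328, 24, (.cut 2 128 (.out 0) (.cut 1 128 (.out 0) (.cut 2 192 (.cut 1 192 (.out 0) (.cut 1 224 (.out 0) (.cut 2 160 (.cut 1 240 (.out 0) (.cut 0 1748 (.out 0) (.cut 2 144 (.out 2) (.cut 1 248 (.out 0) (.cut 0 1814 (.mult []) (.cut 2 152 (.cut 1 252 (.out 0) (.cut 0 1847 (.out 2) (.cut 2 148 (.out 2) (.cut 1 254 (.out 0) (.cut 0 1864 (.out 2) (.cut 2 150 (.mult [(2, 32138760885179805510839241846823252050444059875655856706027520)]) (.mult [(1, 803469022129495137770981046170581301261101496891396417650688)])))))))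 (.mult []))))))) (.mult [])))) (.cut 1 192 (.cut 2 224 (.out 0) (.out 3)) (.cut 2 224 (.mult []) (.cut 1 224 (.mult []) (.cut 2 240 (.cut 1 240 (.mult []) (.mult [])) (.cut 1 240 (.mult []) (.mult [])))))))))⟩)
    (cu := ⟨16, 183, 24, (.cut 1 8 (.cut 2 8 (.mult []) (.mult [])) (.cut 2 8 (.mult []) (.cut 1 12 (.cut 2 12 (.mult []) (.cut 2 14 (.mult []) (.out 0))) (.cut 2 12 (.cut 2 10 (.cut 2 9 (.cut 1 14 (.mult []) (.mult [])) (.mult [])) (.mult [])) (.cut 1 14 (.cut 2 14 (.mult []) (.mult [])) (.cut 2 14 (.mult []) (.mult [])))))))⟩)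
    (by norm_num) ks_sum (by decide +kernel) (by decide +kernel) (by decide +kernel) hF
    (by decide +kernel) hs

/-- step 47 -/
def S47 : Step 6 := ⟨100000000, 2, 13908, ![1455460, (-38454326), 15121401, 34147713, 0, (-10821099)], 1454264, ![0, (-1328284), 33196636, (-12776113), (-29097823), 0, 8705705], ![0, 0, 0, 0, 0, 0, 0], 0, 1, ![(-1328284), 33196636, (-12776113), (-29097823), 0, 8705705], ⟨4900, 1067182, 86692, 270059⟩, ⟨1449363, (-1067182), (-86692), (-270059)⟩⟩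

theorem drop47 (hF : ∀ f ∈ Fs, ∃ c, facetTest 6 band ks f c = true) {s : ℝ}
    (hs : band.Mem s) : DropGain (-s) (1 / s ^ 2) (coord 6 ks s)
      (fun i => (H 47 i : ℝ) / (100000 : ℕ)) S47.a ((S47.L : ℝ) / (100000 : ℕ)) :=
  S47.drop_of_tests (r := 16) (n := 14) (K := 40) (T := (.cut 2 248047 (.cut 6 320987 (.leaf [0, 0, 0, 0, 0, 0, 0, 7975331704445, 0, 0, 0, 0, 0, 0, 33441839237477, 0, 4228097857647876692246528, 0, 0, 0, 0, 0, 1859051803878] []) (.cut 6 374902 (.leaf [] [146295, 0, 269509, 256087]) (.leaf [0, 0, 0, 0, 0, 0, 0, 0, 2124832720055, 0, 0, 0, 0, 0, 31316502346763, 0, 0, 0, 0, 0, 0, 0, 0, 0, 0, 0, 0, 0, 0, 0, 0, 0, 0, 0, 0, 0, 0, 0, 5739239660042522810384384] []))) (.leaf [0, 0, 0, 0, 0, 0, 0, 2004490875150, 0, 0, 0, 0, 0, 3528046759000, 4228097857562337586708480, 0, 94282256946343] [])))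
    (cw := ⟨256, 328, 24, (.cut 2 128 (.out 0) (.cut 1 128 (.out 0) (.cut 2 192 (.cut 1 192 (.out 0) (.cut 1 224 (.out 0) (.cut 2 160 (.cut 1 240 (.out 0) (.cut 0 1748 (.out 0) (.cut 2 144 (.out 2) (.cut 1 248 (.out 0) (.cut 0 1814 (.mult []) (.cut 2 152 (.cut 1 252 (.out 0) (.cut 0 1847 (.out 2) (.cut 2 148 (.out 2) (.cut 1 254 (.out 0) (.cut 0 1864 (.out 2) (.cut 2 150 (.mult [(2, 25711008708143844408671393477458601640355247900524685364822016)]) (.mult [(1, 803469022129495137770981046170581301261101496891396417650688)]))))))) (.mult []))))))) (.mult [])))) (.cut 1 192 (.cut 2 224 (.out 0) (.out 3)) (.cut 2 224 (.mult []) (.cut 1 224 (.mult []) (.cut 2 240 (.cut 1 240 (.mult []) (.mult [])) (.mult []))))))))⟩)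
    (cu := ⟨64, 230, 24, (.cut 1 32 (.cut 2 32 (.cut 1 16 (.cut 2 16 (.cut 1 8 (.cut 2 8 (.cut 1 4 (.cut 2 4 (.cut 1 2 (.cut 2 2 (.mult []) (.mult [])) (.cut 2 2 (.mult []) (.cut 1 3 (.mult []) (.mult [])))) (.mult [])) (.mult [])) (.mult [])) (.mult [])) (.mult [])) (.mult [])) (.mult [])) (.cut 2 32 (.mult []) (.cut 1 48 (.cut 2 48 (.mult []) (.cut 2 56 (.mult []) (.out 0))) (.cut 2 48 (.cut 2 40 (.cut 2 36 (.mult []) (.mult [])) (.mult [])) (.cut 1 56 (.cut 2 56 (.mult []) (.mult [])) (.mult []))))))⟩)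
    (by norm_num) ks_sum (by decide +kernel) (by decide +kernel) (by decide +kernel) hF
    (by decide +kernel) hs

/-- step 48 -/
def S48 : Step 6 := ⟨100000000, 6, 20680, ![(-2513348), (-32289961), 18792957, 32242133, 0, (-14161602)], 2077796, ![0, 2306950, 28390267, (-16073734), (-27711870), 0, 11359282], ![0, 0, 0, 0, 0, 0, 0], 0, 1, ![2306950, 28390267, (-16073734), (-27711870), 0, 11359282], ⟨7349, 1502351, 120998, 446830⟩, ⟨2070446, (-1502351), (-120998), (-446830)⟩⟩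

theorem drop48 (hF : ∀ f ∈ Fs, ∃ c, facetTest 6 band ks f c = true) {s : ℝ}
    (hs : band.Mem s) : DropGain (-s) (1 / s ^ 2) (coord 6 ks s)
      (fun i => (H 48 i : ℝ) / (100000 : ℕ)) S48.a ((S48.L : ℝ) / (100000 : ℕ)) :=
  S48.drop_of_tests (r := 16) (n := 14) (K := 40) (T := (.cut 1 148479 (.cut 1 125820 (.leaf [0, 0, 0, 0, 0, 0, 0, 0, 0, 0, 0, 0, 0, 0, 0, 0, 0, 0, 0, 0, 0, 0, 0, 0, 0, 0, 0, 0, 0, 0, 0, 0, 0, 0, 0, 0, 3550318758005463186407424, 192945353592798, 28372782637667, 57724541808620] []) (.cut 2 189176 (.leaf [0, 0, 0, 0, 0, 0, 0, 0, 3166822963, 0, 0, 0, 0, 0, 0, 0, 0, 0, 0, 0, 0, 0, 0, 0, 0, 0, 0, 0, 0, 0, 0, 0, 0, 0, 0, 0, 0, 3550318758220278660071424, 28372782637667, 57721374985657] []) (.cut 6 374892 (.leaf [] [0, 0, 250111, 242158]) (.leaf [0, 0, 0, 0, 0, 0, 0, 0, 3166822963, 0, 0, 0, 0, 0, 0, 0, 0, 0, 0, 0, 0, 0, 0, 0, 0, 0, 0, 0, 0, 0, 0, 0, 0, 0, 0, 0, 0, 220408992385,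 3550318758021728764428288, 57721374985657] [])))) (.leaf [0, 0, 0, 0, 0, 0, 3550318758186300636921856, 13108933333719, 57724541808620, 0, 0, 0, 0, 0, 0, 0, 0, 0, 0, 0, 0, 0, 0, 0, 0, 0, 0, 0, 0, 0, 0, 0, 0, 0, 0, 0, 0, 0, 15263849303948] [])))
    (cw := ⟨256, 328, 24, (.cut 2 128 (.out 0) (.cut 1 128 (.out 0) (.cut 2 192 (.cut 1 192 (.out 0) (.cut 1 224 (.out 0) (.cut 2 160 (.cut 1 240 (.out 0) (.cut 0 1748 (.out 0) (.cut 2 144 (.out 2) (.cut 1 248 (.out 0) (.cut 0 1814 (.mult []) (.cut 2 152 (.cut 1 252 (.out 0) (.cut 0 1847 (.out 2) (.cut 2 148 (.out 2) (.cut 1 254 (.out 0) (.cut 0 1864 (.out 2) (.cut 2 150 (.mult [(2, 38566513062215766613007090216187902460532871850787028047233024)]) (.mult [(1, 1606938044258990275541962092341162602522202993782792835301376)]))))))) (.mult []))))))) (.mult [])))) (.cut 1 192 (.cut 2 224 (.out 0) (.out 3)) (.cut 2 224 (.mult []) (.cut 1 224 (.mult []) (.cut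 2 240 (.cut 1 240 (.mult []) (.mult [])) (.cut 1 240 (.mult []) (.mult [])))))))))⟩)
    (cu := ⟨16, 182, 24, (.cut 2 8 (.cut 1 8 (.mult []) (.mult [])) (.cut 1 8 (.mult []) (.cut 2 12 (.cut 1 12 (.mult []) (.cut 1 14 (.mult []) (.cut 2 10 (.cut 1 15 (.mult []) (.cut 1 16 (.mult []) (.mult []))) (.mult [])))) (.cut 1 12 (.cut 2 14 (.mult []) (.out 0)) (.cut 2 14 (.cut 1 14 (.mult []) (.mult [])) (.mult []))))))⟩)
    (by norm_num) ks_sum (by decide +kernel) (by decide +kernel) (by decide +kernel) hF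
    (by decide +kernel) hs

end Vale.Agent.P154.Ly.BH
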