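import Vale.Agent.P154.LyBH

/-!
Band H: drops 49 to 66.
-/

open scoped BigOperators

namespace Vale.Agent.P154.Ly.BH

/-- step 49 -/
def S49 : Step 6 := ⟨100000000, 0, 17965, ![(-10811166), 0, 5167387, 8684660, 37535341, (-37801447)], 2799211, ![(-973077), 9987028, 0, (-4446965), (-7474645), (-31076063), 31486588], ![0, 0, 0, 0, 0, 0, 0], 0, 1, ![9987028, 0, (-4446965), (-7474645), (-31076063), 31486588], ⟨1610, 1768347, (-55400), 111245⟩, ⟨2797600, (-2741424), 55400, (-111245)⟩⟩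

theorem drop49 (hF : ∀ f ∈ Fs, ∃ c, facetTest 6 band ks f c = true) {s : ℝ}
    (hs : band.Mem s) : DropGain (-s) (1 / s ^ 2) (coord 6 ks s)
      (fun i => (H 49 i : ℝ) / (100000 : ℕ)) S49.a ((S49.L : ℝ) / (100000 : ℕ)) :=
  S49.drop_of_tests (r := 16) (n := 14) (K := 40) (T := (.cut 1 143824 (.cut 1 110042 (.leaf [0, 0, 0, 0, 0, 0, 0, 0, 0, 0, 0, 0, 0, 0, 0, 0, 0, 0, 0, 0, 0, 0, 24555898820034, 0, 0, 0, 0, 0, 42773662418351, 0, 0, 0, 0, 0, 209621713510667, 0, 0, 0, 0, 0, 0, 0, 4156313052376478326456320, 0, 0, 0, 0, 15766641172809] []) (.cut 6 254006 (.leaf [0, 0, 0, 0, 0, 0, 0, 0, 0, 0, 10533182368, 0, 0, 0, 0, 0, 0, 0, 0, 0, 0, 0, 24555898820034, 0, 0, 0, 0, 0, 42773662418351, 0, 0, 0, 0, 0, 209621713510667, 0, 0, 0, 0, 0, 0, 0, 0, 0, 0, 0, 0, 4156313052430055359119360] []) (.leaf [0, 0, 0, 0, 0, 0, 0, 13654480688, 205905357, 0, 0, 0, 0, 0, 0, 0, 0, 0, 0, 0, 0, 0, 0, 0, 0, 0, 0, 0, 0, 0, 0,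 0, 1456025728261, 0, 363903133418] [0, 0, 245049, 240067, 301413]))) (.leaf [0, 0, 0, 0, 0, 0, 0, 10798423542873, 16675016826348, 199705519233208, 4156313052618537851420672] [])))
    (cw := ⟨64, 280, 24, (.cut 2 32 (.out 2) (.cut 1 32 (.cut 2 48 (.out 0) (.out 3)) (.cut 2 48 (.mult [(0, 70152078591883340073776871970381584943484762062848)]) (.cut 1 48 (.mult [(0, 23384026197294446691258957323460528314494920687616)]) (.cut 2 56 (.cut 1 56 (.out 0) (.mult [(0, 713623846352979940529142984724747568191373312)])) (.cut 1 56 (.mult [(0, 713623846352979940529142984724747568191373312)]) (.mult [])))))))⟩)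
    (cu := ⟨16, 182, 24, (.cut 2 8 (.cut 1 8 (.mult []) (.mult [])) (.cut 1 8 (.mult []) (.cut 2 12 (.cut 1 12 (.mult []) (.cut 1 14 (.mult []) (.cut 2 10 (.cut 1 15 (.mult []) (.cut 1 16 (.mult []) (.mult []))) (.mult [])))) (.cut 1 12 (.cut 2 14 (.mult []) (.out 0)) (.cut 2 14 (.cut 1 14 (.cut 1 13 (.mult []) (.mult [])) (.mult [])) (.mult []))))))⟩)
    (by norm_num) ks_sum (by decide +kernel) (by decide +kernel) (by decide +kernel) hF
    (by decide +kernel) hs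

/-- step 50 -/
def S50 : Step 6 := ⟨100000000, 4, 13830, ![878192, (-37912425), 16019454, 33822742, 0, (-11367187)], 1445455, ![0, (-811243), 33260387, (-13808323), (-29325517), 0, 9379346], ![0, 0, 0, 0, 0, 0, 0], 0, 1, ![(-811243), 33260387, (-13808323), (-29325517), 0, 9379346], ⟨4310, 1083156, 77197, 271344⟩, ⟨1441144, (-1083156), (-77197), (-271344)⟩⟩

theorem drop50 (hF : ∀ f ∈ Fs, ∃ c, facetTest 6 band ks f c = true) {s : ℝ}
    (hs : band.Mem s) : DropGain (-s) (1 / s ^ 2) (coord 6 ks s)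
      (fun i => (H 50 i : ℝ) / (100000 : ℕ)) S50.a ((S50.L : ℝ) / (100000 : ℕ)) :=
  S50.drop_of_tests (r := 16) (n := 14) (K := 40) (T := (.cut 2 196200 (.leaf [0, 0, 0, 0, 0, 0, 0, 4198437458962, 0, 0, 0, 0, 0, 0, 0, 0, 0, 0, 0, 0, 0, 0, 0, 0, 0, 4168515212734600744796160, 31728003305034, 0, 97798750422036] []) (.cut 6 284006 (.leaf [0, 0, 0, 0, 0, 0, 0, 4198437458962, 0, 0, 0, 0, 0, 0, 0, 0, 0, 0, 0, 0, 0, 0, 0, 0, 0, 0, 31728003305034, 0, 4168515212582474076913664] []) (.leaf [0, 0, 0, 0, 0, 0, 6486216, 0, 0, 0, 0, 0, 0, 0, 0, 0, 0, 0, 0, 0, 0, 0, 108133361538, 0, 0, 258068772385] [126876, 0, 237502, 228167]))))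
    (cw := ⟨256, 328, 24, (.cut 2 128 (.out 0) (.cut 1 128 (.out 0) (.cut 2 192 (.cut 1 192 (.out 0) (.cut 1 224 (.out 0) (.cut 2 160 (.cut 1 240 (.out 0) (.cut 0 1748 (.out 0) (.cut 2 144 (.out 2) (.cut 1 248 (.out 0) (.cut 0 1814 (.mult []) (.cut 2 152 (.cut 1 252 (.out 0) (.cut 0 1847 (.out 2) (.cut 2 148 (.out 2) (.cut 1 254 (.out 0) (.cut 0 1864 (.out 2) (.cut 2 150 (.mult [(2, 28924884796661824959755317662140926845399653888090271035424768)]) (.mult [(1, 803469022129495137770981046170581301261101496891396417650688)]))))))) (.mult []))))))) (.mult [])))) (.cut 1 192 (.cut 2 224 (.out 0) (.out 3)) (.cut 2 224 (.mult []) (.cut 1 224 (.mult []) (.cut 2 240 (.cut 1 240 (.mult []) (.mult [])) (.cut 1 240 (.mult []) (.mult [])))))))))⟩)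
    (cu := ⟨256, 277, 24, (.cut 1 128 (.cut 2 128 (.cut 1 64 (.cut 2 64 (.cut 1 32 (.cut 2 32 (.cut 1 16 (.cut 2 16 (.cut 1 8 (.cut 2 8 (.cut 1 4 (.mult []) (.cut 2 4 (.mult []) (.cut 1 6 (.cut 2 6 (.mult []) (.mult [])) (.cut 2 6 (.mult []) (.mult []))))) (.mult [])) (.mult [])) (.mult [])) (.mult [])) (.mult [])) (.mult [])) (.mult [])) (.mult [])) (.mult [])) (.cut 2 128 (.mult []) (.cut 1 192 (.cut 1 160 (.mult []) (.mult [])) (.cut 2 192 (.cut 2 160 (.mult []) (.mult [])) (.mult [])))))⟩)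
    (by norm_num) ks_sum (by decide +kernel) (by decide +kernel) (by decide +kernel) hF
    (by decide +kernel) hs

/-- step 51 -/
def S51 : Step 6 := ⟨100000000, 6, 18255, ![(-4123603), (-25066148), 16000690, 26427841, 8677934, (-19703784)], 2220541, ![0, 3819688, 22341448, (-13924259), (-23014352), (-7324271), 16218624], ![0, 0, 0, 0, 0, 0, 0], 0, 1, ![3819688, 22341448, (-13924259), (-23014352), (-7324271), 16218624], ⟨7478, 1618501, 115974, 478455⟩, ⟨2213062, (-1618501), (-115974), (-478455)⟩⟩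

theorem drop51 (hF : ∀ f ∈ Fs, ∃ c, facetTest 6 band ks f c = true) {s : ℝ}
    (hs : band.Mem s) : DropGain (-s) (1 / s ^ 2) (coord 6 ks s)
      (fun i => (H 51 i : ℝ) / (100000 : ℕ)) S51.a ((S51.L : ℝ) / (100000 : ℕ)) :=
  S51.drop_of_tests (r := 16) (n := 14) (K := 40) (T := (.cut 1 134051 (.cut 1 111044 (.leaf [0, 0, 0, 0, 0, 0, 0, 0, 0, 0, 0, 0, 0, 0, 0, 0, 0, 0, 0, 0, 0, 0, 0, 0, 0, 46941482, 0, 0, 0, 0, 0, 58335432814898, 0, 0, 0, 0, 2905771847669571634855936, 58177215845705, 50410012278775] []) (.cut 2 166948 (.leaf [0, 0, 0, 0, 0, 0, 6995935627, 0, 0, 0, 0, 0, 0, 0, 0, 0, 0, 0, 0, 0, 0, 0, 0, 0, 0, 46941482, 0, 0, 0, 0, 0, 58335020202387, 0, 0, 0, 0, 0, 2905771847753859831169024, 50409689673294] []) (.cut 2 201183 (.leaf [] [0, 0, 222405, 221207, 271344]) (.leaf [0, 0, 0, 0, 0, 0, 0, 5993210125, 0, 0, 0, 0, 0, 4793814857975, 2639211487455459799990272, 0, 0, 0, 0, 0, 0, 0, 0, 0, 0, 0,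 0, 0, 0, 0, 0, 0, 45610178636891, 0, 0, 0, 0, 0, 25573783] [])))) (.leaf [0, 0, 0, 0, 0, 0, 116512695602085, 4799808068100, 1756177836124459732303872, 0, 0, 0, 0, 0, 0, 0, 0, 0, 0, 0, 0, 0, 0, 0, 0, 0, 0, 0, 0, 0, 0, 0, 45610178636891, 0, 0, 0, 0, 0, 25573783] [])))
    (cw := ⟨256, 328, 24, (.cut 2 128 (.out 0) (.cut 1 128 (.out 0) (.cut 2 192 (.cut 1 192 (.out 0) (.cut 1 224 (.out 0) (.cut 2 160 (.cut 1 240 (.out 0) (.cut 0 1748 (.out 0) (.cut 2 144 (.out 2) (.cut 1 248 (.out 0) (.cut 0 1814 (.mult []) (.cut 2 152 (.cut 1 252 (.out 0) (.cut 0 1847 (.out 2) (.cut 2 148 (.out 2) (.cut 1 254 (.out 0) (.cut 0 1864 (.out 2) (.cut 2 150 (.mult [(2, 44994265239251727715174938585552552870621683825918199388438528)]) (.mult [(1, 1606938044258990275541962092341162602522202993782792835301376)]))))))) (.mult []))))))) (.mult [])))) (.cut 1 192 (.cut 2 224 (.out 0) (.out 3)) (.cut 2 224 (.mult []) (.cut 1 224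 (.mult []) (.cut 2 240 (.cut 1 240 (.cut 0 1748 (.mult []) (.mult [])) (.mult [])) (.cut 1 240 (.mult []) (.mult [])))))))))⟩)
    (cu := ⟨16, 182, 24, (.cut 1 8 (.cut 2 8 (.mult []) (.mult [])) (.cut 2 8 (.mult []) (.cut 1 12 (.cut 2 12 (.mult []) (.cut 2 14 (.mult []) (.out 0))) (.cut 2 12 (.cut 1 14 (.mult []) (.cut 2 10 (.cut 1 15 (.mult []) (.cut 2 9 (.mult []) (.cut 1 16 (.mult []) (.mult [])))) (.mult []))) (.cut 1 14 (.cut 2 14 (.mult []) (.mult [])) (.mult []))))))⟩)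
    (by norm_num) ks_sum (by decide +kernel) (by decide +kernel) (by decide +kernel) hF
    (by decide +kernel) hs

/-- step 52 -/
def S52 : Step 6 := ⟨100000000, 2, 10913, ![0, (-37030676), 17235339, 33517105, 0, (-12216880)], 1509177, ![0, 0, 32928585, (-15114076), (-29498002), 0, 10306483], ![0, 0, 0, 0, 0, 0, 0], 0, 1, ![0, 32928585, (-15114076), (-29498002), 0, 10306483], ⟨3862, 1149001, 70946, 285213⟩, ⟨1505314, (-1149001), (-70946), (-285213)⟩⟩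

theorem drop52 (hF : ∀ f ∈ Fs, ∃ c, facetTest 6 band ks f c = true) {s : ℝ}
    (hs : band.Mem s) : DropGain (-s) (1 / s ^ 2) (coord 6 ks s)
      (fun i => (H 52 i : ℝ) / (100000 : ℕ)) S52.a ((S52.L : ℝ) / (100000 : ℕ)) :=
  S52.drop_of_tests (r := 16) (n := 14) (K := 40) (T := (.cut 2 201176 (.cut 6 251854 (.leaf [0, 0, 0, 0, 0, 0, 0, 0, 0, 0, 0, 0, 0, 0, 34090729829024, 0, 4071565884691894274883584, 0, 0, 0, 0, 0, 58337416304581] []) (.leaf [] [0, 0, 210004, 204399])) (.leaf [0, 0, 0, 0, 0, 0, 0, 0, 0, 0, 0, 0, 0, 66987032375048, 4071565884674656423641088, 0, 94576459946660] [])))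
    (cw := ⟨256, 328, 24, (.cut 2 128 (.out 0) (.cut 1 128 (.out 0) (.cut 2 192 (.cut 1 192 (.out 0) (.cut 1 224 (.out 0) (.cut 2 160 (.cut 1 240 (.out 0) (.cut 0 1748 (.out 0) (.cut 2 144 (.out 2) (.cut 1 248 (.out 0) (.cut 0 1814 (.mult []) (.cut 2 152 (.cut 1 252 (.out 0) (.cut 0 1847 (.out 2) (.cut 2 148 (.out 2) (.cut 1 254 (.out 0) (.cut 0 1864 (.out 2) (.cut 2 150 (.mult [(2, 32138760885179805510839241846823252050444059875655856706027520)]) (.mult [(1, 1205203533194242706656471569255871951891652245337094626476032)]))))))) (.mult []))))))) (.mult [])))) (.cut 1 192 (.cut 2 224 (.out 0) (.out 3)) (.cut 2 224 (.mult []) (.cut 1 224 (.mult []) (.cut 2 240 (.cut 1 240 (.mult []) (.mult [])) (.cut 1 240 (.mult []) (.mult [])))))))))⟩)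
    (cu := ⟨16, 182, 24, (.cut 2 8 (.cut 1 8 (.cut 2 4 (.cut 1 4 (.cut 2 2 (.cut 1 2 (.cut 1 1 (.cut 2 1 (.mult []) (.mult [])) (.mult [])) (.mult [])) (.mult [])) (.mult [])) (.mult [])) (.mult [])) (.cut 1 8 (.mult []) (.cut 2 12 (.cut 1 12 (.mult []) (.cut 1 14 (.mult []) (.cut 2 10 (.cut 1 15 (.mult []) (.cut 1 16 (.mult []) (.mult []))) (.mult [])))) (.cut 1 12 (.cut 2 14 (.mult []) (.out 0)) (.cut 2 14 (.cut 1 14 (.mult []) (.mult [])) (.mult []))))))⟩)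
    (by norm_num) ks_sum (by decide +kernel) (by decide +kernel) (by decide +kernel) hF
    (by decide +kernel) hs

/-- step 53 -/
def S53 : Step 6 := ⟨100000000, 0, 15224, ![0, (-39345767), 12962798, 37863122, 0, (-9828312)], 1684556, ![(-4145171), 0, 40482467, (-11446778), (-33482611), 0, 8387488], ![0, 0, 0, 0, 0, 0, 0], 0, 1, ![0, 40482467, (-11446778), (-33482611), 0, 8387488], ⟨7056, (-1740684), (-577633), (-150095)⟩, ⟨1677499, (-2404487), 577633, 150095⟩⟩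

theorem drop53 (hF : ∀ f ∈ Fs, ∃ c, facetTest 6 band ks f c = true) {s : ℝ}
    (hs : band.Mem s) : DropGain (-s) (1 / s ^ 2) (coord 6 ks s)
      (fun i => (H 53 i : ℝ) / (100000 : ℕ)) S53.a ((S53.L : ℝ) / (100000 : ℕ)) :=
  S53.drop_of_tests (r := 16) (n := 14) (K := 40) (T := (.cut 2 148834 (.leaf [0, 0, 0, 0, 0, 0, 0, 0, 0, 0, 0, 0, 0, 0, 0, 0, 0, 0, 0, 0, 0, 0, 37232468255342, 0, 0, 0, 0, 0, 0, 0, 0, 0, 0, 0, 0, 0, 0, 0, 0, 0, 0, 0, 0, 4451094318755820339200000, 0, 56073799019058, 0, 28290631601717] []) (.cut 6 215215 (.leaf [0, 0, 0, 0, 0, 0, 0, 0, 0, 0, 0, 0, 0, 0, 0, 0, 374277833673916, 0, 0, 0, 0, 0, 37232468255342, 0, 0, 0, 0, 0, 0, 0, 0, 0, 0, 0, 0, 0, 0, 0, 0, 0, 0, 0, 0, 0, 0, 56073799019058, 0, 4451094318755820339200000] []) (.leaf [] [0, 0, 198858, 196722]))))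
    (cw := ⟨256, 328, 24, (.cut 2 128 (.out 0) (.cut 1 128 (.out 0) (.cut 2 192 (.mult []) (.cut 1 192 (.mult []) (.cut 2 224 (.mult []) (.cut 1 224 (.mult []) (.mult [])))))))⟩)
    (cu := ⟨16, 182, 24, (.cut 2 8 (.cut 1 8 (.cut 2 4 (.cut 1 4 (.cut 2 2 (.mult []) (.mult [])) (.mult [])) (.mult [])) (.cut 1 12 (.mult []) (.cut 2 4 (.mult []) (.cut 1 14 (.mult []) (.cut 2 6 (.mult []) (.cut 1 15 (.mult []) (.cut 1 16 (.mult []) (.mult [])))))))) (.cut 1 8 (.cut 2 12 (.mult []) (.out 0)) (.cut 2 12 (.mult []) (.cut 1 12 (.mult []) (.cut 2 14 (.cut 1 14 (.mult []) (.mult [])) (.mult []))))))⟩)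
    (by norm_num) ks_sum (by decide +kernel) (by decide +kernel) (by decide +kernel) hF
    (by decide +kernel) hs

/-- step 54 -/
def S54 : Step 6 := ⟨100000000, 6, 15848, ![(-3836324), (-30038197), 20323033, 30706616, 0, (-15095830)], 2064923, ![0, 3589465, 27182473, (-18004694), (-27279450), 0, 12729571], ![0, 0, 0, 0, 0, 0, 0], 0, 1, ![3589465, 27182473, (-18004694), (-27279450), 0, 12729571], ⟨4995, 1544516, 93848, 421388⟩, ⟨2059927, (-1544516), (-93848), (-421388)⟩⟩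

theorem drop54 (hF : ∀ f ∈ Fs, ∃ c, facetTest 6 band ks f c = true) {s : ℝ}
    (hs : band.Mem s) : DropGain (-s) (1 / s ^ 2) (coord 6 ks s)
      (fun i => (H 54 i : ℝ) / (100000 : ℕ)) S54.a ((S54.L : ℝ) / (100000 : ℕ)) :=
  S54.drop_of_tests (r := 16) (n := 14) (K := 40) (T := (.cut 1 116575 (.cut 1 96381 (.leaf [0, 0, 0, 0, 0, 0, 0, 0, 0, 0, 0, 0, 0, 0, 0, 0, 0, 0, 136930930087785, 0, 0, 0, 0, 0, 1548740672, 140157011726019, 0, 0, 0, 0, 0, 0, 0, 0, 0, 0, 8856841904945584505094144] []) (.cut 2 144932 (.leaf [0, 0, 0, 0, 0, 0, 8056774877, 0, 0, 0, 0, 0, 0, 0, 0, 0, 0, 0, 0, 91122317776265, 0, 0, 0, 0, 0, 170243038149661, 0, 0, 0, 0, 0, 0, 0, 0, 0, 0, 0, 5893224182519212862865408] []) (.leaf [] [0, 0, 193796, 189276]))) (.leaf [0, 0, 0, 0, 0, 0, 3376228134305413195628544, 99103082746862, 59261512769162] [])))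
    (cw := ⟨256, 328, 24, (.cut 2 128 (.out 0) (.cut 1 128 (.out 0) (.cut 2 192 (.cut 1 192 (.out 0) (.cut 1 224 (.out 0) (.cut 2 160 (.cut 1 240 (.out 0) (.cut 0 1748 (.out 0) (.cut 2 144 (.out 2) (.cut 1 248 (.out 0) (.cut 0 1814 (.mult []) (.cut 2 152 (.cut 1 252 (.out 0) (.cut 0 1847 (.out 2) (.cut 2 148 (.out 2) (.cut 1 254 (.out 0) (.cut 0 1864 (.out 2) (.cut 2 150 (.mult [(2, 44994265239251727715174938585552552870621683825918199388438528)]) (.mult [(1, 1606938044258990275541962092341162602522202993782792835301376)]))))))) (.mult []))))))) (.mult [])))) (.cut 1 192 (.cut 2 224 (.out 0) (.out 3)) (.cut 2 224 (.mult []) (.cut 1 224 (.mult []) (.cut 2 240 (.cut 1 240 (.mult []) (.mult [])) (.cut 1 240 (.mult []) (.mult [])))))))))⟩)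
    (cu := ⟨16, 182, 24, (.cut 2 8 (.cut 1 8 (.mult []) (.mult [])) (.cut 1 8 (.mult []) (.cut 2 12 (.cut 1 12 (.mult []) (.cut 1 14 (.mult []) (.cut 2 10 (.cut 1 15 (.mult []) (.cut 1 16 (.mult []) (.mult []))) (.mult [])))) (.cut 1 12 (.cut 2 14 (.mult []) (.out 0)) (.cut 2 14 (.cut 1 14 (.mult []) (.mult [])) (.mult []))))))⟩)
    (by norm_num) ks_sum (by decide +kernel) (by decide +kernel) (by decide +kernel) hF
    (by decide +kernel) hs

/-- step 55 -/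
def S55 : Step 6 := ⟨100000000, 2, 9474, ![0, (-37088391), 17352693, 33369797, 0, (-12189119)], 1448191, ![0, 0, 33494379, (-15503258), (-29842854), 0, 10516270], ![0, 0, 0, 0, 0, 0, 0], 0, 1, ![0, 33494379, (-15503258), (-29842854), 0, 10516270], ⟨2751, 1122745, 60485, 262066⟩, ⟨1445439, (-1122745), (-60485), (-262066)⟩⟩

theorem drop55 (hF : ∀ f ∈ Fs, ∃ c, facetTest 6 band ks f c = true) {s : ℝ}
    (hs : band.Mem s) : DropGain (-s) (1 / s ^ 2) (coord 6 ks s)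
      (fun i => (H 55 i : ℝ) / (100000 : ℕ)) S55.a ((S55.L : ℝ) / (100000 : ℕ)) :=
  S55.drop_of_tests (r := 16) (n := 14) (K := 40) (T := (.cut 6 218623 (.leaf [0, 0, 0, 0, 0, 0, 0, 0, 0, 0, 0, 0, 0, 0, 86112288062763, 0, 4077911716061895811137536, 0, 0, 0, 0, 0, 34780380726006] []) (.leaf [] [0, 0, 180202, 178729])))
    (cw := ⟨256, 328, 24, (.cut 2 128 (.out 0) (.cut 1 128 (.out 0) (.cut 2 192 (.cut 1 192 (.out 0) (.cut 1 224 (.out 0) (.cut 2 160 (.cut 1 240 (.out 0) (.cut 0 1748 (.out 0) (.cut 2 144 (.out 2) (.cut 1 248 (.out 0) (.cut 0 1814 (.mult [(0, 3213876088517980551083924184682325205044405987565585670602752)]) (.cut 2 152 (.cut 1 252 (.out 0) (.cut 0 1847 (.out 2) (.cut 2 148 (.out 2) (.cut 1 254 (.out 0) (.cut 0 1864 (.out 2) (.cut 2 150 (.mult [(2, 32138760885179805510839241846823252050444059875655856706027520)]) (.mult [(1, 1205203533194242706656471569255871951891652245337094626476032)])))))))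 (.mult []))))))) (.mult [])))) (.cut 1 192 (.cut 2 224 (.out 0) (.out 3)) (.cut 2 224 (.mult []) (.cut 1 224 (.mult []) (.cut 2 240 (.cut 1 240 (.mult []) (.mult [])) (.cut 1 240 (.mult []) (.mult [])))))))))⟩)
    (cu := ⟨16, 182, 24, (.cut 2 8 (.cut 1 8 (.cut 2 4 (.cut 1 4 (.cut 2 2 (.cut 1 2 (.cut 1 1 (.cut 2 1 (.mult []) (.mult [])) (.mult [])) (.mult [])) (.mult [])) (.mult [])) (.mult [])) (.mult [])) (.cut 1 8 (.mult []) (.cut 2 12 (.cut 1 12 (.mult []) (.cut 1 14 (.mult []) (.cut 2 10 (.cut 1 15 (.mult []) (.mult [])) (.mult [])))) (.cut 1 12 (.cut 2 14 (.mult []) (.out 0)) (.cut 2 14 (.cut 1 14 (.mult []) (.mult [])) (.mult []))))))⟩)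
    (by norm_num) ks_sum (by decide +kernel) (by decide +kernel) (by decide +kernel) hF
    (by decide +kernel) hs

/-- step 56 -/
def S56 : Step 6 := ⟨100000000, 3, 10301, ![(-7772249), (-23083651), 23304005, 27966738, 0, (-17873356)], 2547958, ![0, 7334656, 21159603, (-20948777), (-25232414), 0, 15432351], ![0, 0, 0, 0, 0, 0, 0], 0, 1, ![7334656, 21159603, (-20948777), (-25232414), 0, 15432351], ⟨4563, 1969788, 98004, 475470⟩, ⟨2543394, (-1969788), (-98004), (-475470)⟩⟩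

theorem drop56 (hF : ∀ f ∈ Fs, ∃ c, facetTest 6 band ks f c = true) {s : ℝ}
    (hs : band.Mem s) : DropGain (-s) (1 / s ^ 2) (coord 6 ks s)
      (fun i => (H 56 i : ℝ) / (100000 : ℕ)) S56.a ((S56.L : ℝ) / (100000 : ℕ)) :=
  S56.drop_of_tests (r := 16) (n := 14) (K := 40) (T := (.cut 1 101246 (.cut 1 84320 (.leaf [0, 0, 0, 0, 0, 0, 0, 0, 0, 0, 0, 0, 0, 0, 0, 0, 0, 0, 3074975362203084780470272, 0, 0, 0, 120579605940880, 0, 19393037835439, 95031304966312] []) (.cut 2 126792 (.leaf [0, 0, 0, 0, 0, 0, 19143568838, 0, 0, 0, 0, 0, 0, 0, 0, 0, 0, 0, 0, 3074975362202912444907520, 0, 0, 120579605940880, 0, 0, 107150862154781] []) (.cut 6 216152 (.leaf [0, 0, 0, 0, 0, 0, 480922650, 0, 0, 13172600834, 0, 0, 0, 0, 0, 0, 0, 0, 0, 0, 0, 0, 3074975362337907561988096, 0, 0, 111839218968, 0, 0, 0, 0, 0, 0, 0, 0, 12166436533] []) (.leaf [0, 0, 0, 0, 0, 0, 19143568838, 0, 0, 0, 0, 0, 0, 0, 0, 0, 0, 0, 0, 855757056,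 0, 0, 136391811188, 0, 0, 92320815724] [0, 0, 170347, 164571])))) (.leaf [0, 0, 0, 0, 0, 0, 3074975362397799807188992, 0, 0, 123830685906203, 0, 0, 0, 0, 96528031779747, 0, 0, 0, 0, 0, 0, 0, 6207493715699, 0, 0, 0, 0, 0, 0, 0, 0, 0, 0, 0, 114372112225181] [])))
    (cw := ⟨256, 328, 24, (.cut 2 128 (.out 0) (.cut 1 128 (.out 0) (.cut 2 192 (.cut 1 192 (.out 0) (.cut 1 224 (.out 0) (.cut 2 160 (.cut 1 240 (.out 0) (.cut 0 1748 (.out 0) (.cut 2 144 (.out 2) (.cut 1 248 (.out 0) (.cut 0 1814 (.mult []) (.cut 2 152 (.cut 1 252 (.out 0) (.cut 0 1847 (.out 2) (.cut 2 148 (.out 2) (.cut 1 254 (.out 0) (.cut 0 1864 (.out 2) (.cut 2 150 (.mult [(2, 48208141327769708266258862770234878075666089813483785059041280)]) (.mult [(1, 1606938044258990275541962092341162602522202993782792835301376)]))))))) (.mult []))))))) (.mult [])))) (.cut 1 192 (.cut 2 224 (.out 0) (.out 3)) (.cut 2 224 (.mult []) (.cut 1 224 (.mult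 []) (.cut 2 240 (.cut 1 240 (.mult []) (.mult [])) (.cut 1 240 (.mult []) (.mult [])))))))))⟩)
    (cu := ⟨16, 182, 24, (.cut 1 8 (.cut 2 8 (.mult []) (.mult [])) (.cut 2 8 (.mult []) (.cut 1 12 (.cut 2 12 (.mult []) (.cut 2 14 (.mult []) (.out 0))) (.cut 2 12 (.cut 1 14 (.mult []) (.cut 1 15 (.mult []) (.cut 2 10 (.cut 1 16 (.mult []) (.mult [])) (.mult [])))) (.cut 1 14 (.cut 2 14 (.mult []) (.mult [])) (.mult []))))))⟩)
    (by norm_num) ks_sum (by decide +kernel) (by decide +kernel) (by decide +kernel) hF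
    (by decide +kernel) hs

/-- step 57 -/
def S57 : Step 6 := ⟨100000000, 0, 12327, ![(-21265455), 0, 32426488, 19575117, 0, (-26732939)], 4016509, ![(-420215), 20167518, 0, (-29252517), (-17689260), 0, 23604413], ![0, 0, 0, 0, 0, 0, 0], 0, 1, ![20167518, 0, (-29252517), (-17689260), 0, 23604413], ⟨1523, 3174211, 51890, 368470⟩, ⟨4014985, (-3594426), (-51890), (-368470)⟩⟩

theorem drop57 (hF : ∀ f ∈ Fs, ∃ c, facetTest 6 band ks f c = true) {s : ℝ}
    (hs : band.Mem s) : DropGain (-s) (1 / s ^ 2) (coord 6 ks s)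
      (fun i => (H 57 i : ℝ) / (100000 : ℕ)) S57.a ((S57.L : ℝ) / (100000 : ℕ)) :=
  S57.drop_of_tests (r := 16) (n := 14) (K := 40) (T := (.cut 1 94313 (.cut 1 75461 (.leaf [0, 0, 0, 0, 0, 0, 0, 0, 0, 0, 0, 0, 0, 0, 0, 0, 0, 0, 0, 0, 0, 0, 0, 0, 0, 0, 0, 0, 49427881212291, 0, 0, 0, 0, 0, 0, 0, 0, 0, 0, 0, 0, 0, 3565330060460331917901824, 0, 5122038, 0, 0, 73477163708272] []) (.cut 6 174213 (.leaf [0, 0, 0, 0, 0, 0, 0, 0, 0, 0, 36510079514, 0, 0, 0, 0, 0, 0, 0, 0, 0, 0, 0, 0, 0, 0, 0, 0, 0, 49427881212291, 0, 0, 0, 0, 0, 0, 0, 0, 0, 0, 0, 0, 0, 0, 0, 5122038, 0, 0, 3565330060534045367861248] []) (.cut 6 224020 (.leaf [] [0, 0, 164746, 162082]) (.leaf [0, 0, 0, 0, 0, 0, 0, 48002643755, 0, 0, 0, 0, 0, 0, 0, 0, 0, 0, 0, 0, 0, 0, 0, 0, 0, 0, 582982547, 0, 0, 0, 0, 0, 0, 0, 0, 0, 0, 0, 4839595575481726591303680] [])))) (.leaf [0, 0, 0, 0, 0, 0, 77780562506080, 3565330060393893068800000, 0, 0, 122905388345127,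 0, 0, 0, 70645379206249] [])))
    (cw := ⟨256, 352, 24, (.cut 2 128 (.out 0) (.cut 1 128 (.out 0) (.cut 2 192 (.cut 1 192 (.out 0) (.cut 1 224 (.out 0) (.cut 2 160 (.cut 1 240 (.out 0) (.cut 0 1748 (.out 0) (.cut 2 144 (.out 2) (.cut 1 248 (.out 0) (.cut 0 1814 (.mult []) (.cut 2 152 (.cut 1 252 (.out 0) (.cut 0 1847 (.out 2) (.cut 2 148 (.out 2) (.cut 1 254 (.out 0) (.cut 0 1864 (.out 2) (.cut 2 150 (.mult [(0, 60473081172481128495292798051730554743750838341679013017386829171654656), (1, 58118905027709991737353417773842568824693274088891839126139107794747392)]) (.mult [(1, 401734511064747568885490523085290650630550748445698208825344)]))))))) (.mult []))))))) (.mult [])))) (.cut 1 192 (.cut 2 224 (.out 0) (.out 3)) (.cut 2 224 (.mult []) (.cut 1 224 (.mult []) (.mult [])))))))⟩)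
    (cu := ⟨16, 183, 24, (.cut 1 8 (.cut 2 8 (.mult []) (.mult [])) (.cut 2 8 (.mult []) (.cut 1 12 (.cut 2 12 (.mult []) (.cut 2 14 (.mult []) (.out 0))) (.cut 2 12 (.cut 1 14 (.mult []) (.cut 1 15 (.mult []) (.cut 1 16 (.cut 2 10 (.mult []) (.mult [])) (.cut 2 10 (.mult []) (.mult []))))) (.cut 1 14 (.cut 2 14 (.mult []) (.mult [])) (.cut 2 14 (.mult []) (.mult [])))))))⟩)
    (by norm_num) ks_sum (by decide +kernel) (by decide +kernel) (by decide +kernel) hF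
    (by decide +kernel) hs

/-- step 58 -/
def S58 : Step 6 := ⟨100000000, 6, 12151, ![(-20731039), 0, 33077038, 19045369, 0, (-27146553)], 4254680, ![0, 19670584, 0, (-30002082), (-17314356), 0, 23820065], ![0, 0, 0, 0, 0, 0, 0], 0, 1, ![19670584, 0, (-30002082), (-17314356), 0, 23820065], ⟨5268, 3379173, 133078, 736993⟩, ⟨4249411, (-3379173), (-133078), (-736993)⟩⟩

theorem drop58 (hF : ∀ f ∈ Fs, ∃ c, facetTest 6 band ks f c = true) {s : ℝ}
    (hs : band.Mem s) : DropGain (-s) (1 / s ^ 2) (coord 6 ks s)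
      (fun i => (H 58 i : ℝ) / (100000 : ℕ)) S58.a ((S58.L : ℝ) / (100000 : ℕ)) :=
  S58.drop_of_tests (r := 16) (n := 14) (K := 40) (T := (.cut 1 94313 (.cut 1 73855 (.leaf [0, 0, 0, 0, 0, 0, 0, 0, 0, 0, 0, 0, 0, 0, 0, 0, 0, 0, 0, 0, 0, 0, 0, 0, 90806527893601, 0, 0, 0, 0, 0, 0, 0, 0, 0, 0, 0, 9540552962617287127334912, 0, 17888197966117] []) (.cut 6 224000 (.leaf [] [0, 0, 156172, 152461]) (.leaf [0, 0, 0, 0, 0, 0, 0, 46589218489, 255235837, 0, 0, 0, 0, 0, 0, 0, 0, 0, 0, 0, 0, 0, 0, 0, 0, 0, 0, 0, 0, 0, 0, 0, 0, 0, 0, 0, 0, 0, 4936689004190143231295488] []))) (.leaf [0, 0, 0, 0, 0, 0, 1591020530, 2074293497651707481423872, 0, 0, 0, 0, 0, 0, 1445068601, 0, 0, 0, 0, 0, 0, 0, 0, 0, 0, 0, 0, 0, 0, 0, 0, 0, 0, 0, 0, 0, 0, 0, 32614250721224] [])))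
    (cw := ⟨256, 329, 24, (.cut 2 128 (.out 0) (.cut 1 128 (.out 0) (.cut 2 192 (.cut 1 192 (.out 0) (.cut 1 224 (.out 0) (.cut 2 160 (.cut 1 240 (.out 0) (.cut 0 1748 (.out 0) (.cut 2 144 (.out 2) (.cut 1 248 (.out 0) (.cut 0 1814 (.mult []) (.cut 2 152 (.cut 1 252 (.out 0) (.cut 0 1847 (.out 2) (.cut 2 148 (.out 2) (.cut 1 254 (.out 0) (.cut 0 1864 (.out 2) (.cut 2 150 (.mult [(2, 64277521770359611021678483693646504100888119751311713412055040)]) (.mult [(1, 2410407066388485413312943138511743903783304490674189252952064)]))))))) (.mult []))))))) (.mult [])))) (.cut 1 192 (.cut 2 224 (.out 0) (.out 3)) (.cut 2 224 (.mult []) (.cut 1 224 (.mult []) (.cut 2 240 (.cut 1 240 (.mult []) (.mult [])) (.cut 1 240 (.mult []) (.mult [])))))))))⟩)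
    (cu := ⟨16, 183, 24, (.cut 1 8 (.cut 2 8 (.mult []) (.mult [])) (.cut 2 8 (.mult []) (.cut 1 12 (.cut 2 12 (.mult []) (.cut 2 14 (.mult []) (.out 0))) (.cut 2 12 (.cut 1 14 (.mult []) (.cut 1 15 (.mult []) (.cut 1 16 (.cut 2 10 (.mult []) (.mult [])) (.cut 2 10 (.mult []) (.mult []))))) (.cut 1 14 (.cut 2 14 (.mult []) (.mult [])) (.cut 2 14 (.mult []) (.mult [])))))))⟩)
    (by norm_num) ks_sum (by decide +kernel) (by decide +kernel) (by decide +kernel) hF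
    (by decide +kernel) hs

/-- step 59 -/
def S59 : Step 6 := ⟨100000000, 4, 7797, ![(-20881253), 0, 32950598, 19126249, 0, (-27041901)], 4160757, ![0, 19903265, 0, (-30334980), (-17607220), 0, 24205468], ![0, 0, 0, 0, 0, 0, 0], 0, 1, ![19903265, 0, (-30334980), (-17607220), 0, 24205468], ⟨2905, 3396197, 109844, 651690⟩, ⟨4157851, (-3396197), (-109844), (-651690)⟩⟩

theorem drop59 (hF : ∀ f ∈ Fs, ∃ c, facetTest 6 band ks f c = true) {s : ℝ}
    (hs : band.Mem s) : DropGain (-s) (1 / s ^ 2) (coord 6 ks s)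
      (fun i => (H 59 i : ℝ) / (100000 : ℕ)) S59.a ((S59.L : ℝ) / (100000 : ℕ)) :=
  S59.drop_of_tests (r := 16) (n := 14) (K := 40) (T := (.cut 1 84625 (.cut 1 69015 (.leaf [0, 0, 0, 0, 0, 0, 0, 0, 0, 0, 0, 0, 0, 0, 0, 0, 0, 0, 0, 0, 0, 0, 0, 0, 3622956564375979650187264, 0, 67032166920743, 0, 138326608565958] []) (.cut 6 160037 (.leaf [0, 0, 0, 0, 0, 0, 0, 0, 0, 41701726799, 0, 0, 0, 0, 0, 0, 0, 0, 0, 0, 0, 0, 80451932390690, 0, 0, 0, 0, 0, 3622956564404777405906944, 0, 0, 0, 0, 0, 38516418951] []) (.leaf [] [0, 0, 132253, 132404]))) (.leaf [0, 0, 0, 0, 0, 0, 0, 57541367938657, 0, 0, 3622956564455587942760448, 0, 0, 0, 0, 0, 0, 0, 0, 0, 0, 0, 0, 0, 0, 0, 9490798982086] [])))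
    (cw := ⟨256, 329, 24, (.cut 2 128 (.out 0) (.cut 1 128 (.out 0) (.cut 2 192 (.cut 1 192 (.out 0) (.cut 1 224 (.out 0) (.cut 2 160 (.cut 1 240 (.out 0) (.cut 0 1748 (.out 0) (.cut 2 144 (.out 2) (.cut 1 248 (.out 0) (.cut 0 1814 (.mult []) (.cut 2 152 (.cut 1 252 (.out 0) (.cut 0 1847 (.out 2) (.cut 2 148 (.out 2) (.cut 1 254 (.out 0) (.cut 0 1864 (.out 2) (.cut 2 150 (.mult [(2, 55037628015870416937312201662684819136385452537060654609072128)]) (.mult [(1, 2008672555323737844427452615426453253152753742228491044126720)]))))))) (.mult []))))))) (.mult [])))) (.cut 1 192 (.cut 2 224 (.out 0) (.out 3)) (.cut 2 224 (.mult []) (.cut 1 224 (.mult []) (.cut 2 240 (.cut 1 240 (.mult []) (.mult [])) (.cut 1 240 (.mult []) (.mult [])))))))))⟩)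
    (cu := ⟨16, 183, 24, (.cut 1 8 (.cut 2 8 (.mult []) (.mult [])) (.cut 2 8 (.mult []) (.cut 1 12 (.cut 2 12 (.mult []) (.cut 2 14 (.mult []) (.out 0))) (.cut 2 12 (.cut 1 14 (.mult []) (.cut 1 15 (.mult []) (.cut 1 16 (.cut 2 10 (.mult []) (.mult [])) (.cut 2 10 (.mult []) (.mult []))))) (.cut 1 14 (.cut 2 14 (.mult []) (.cut 2 15 (.mult []) (.out 0))) (.cut 2 14 (.cut 1 15 (.mult []) (.mult [])) (.mult [])))))))⟩)
    (by norm_num) ks_sum (by decide +kernel) (by decide +kernel) (by decide +kernel) hF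
    (by decide +kernel) hs

/-- step 60 -/
def S60 : Step 6 := ⟨100000000, 5, 9183, ![(-20831019), 0, 33030864, 19057024, 0, (-27081093)], 4183312, ![0, 19954775, 0, (-30550061), (-17472613), 0, 24250546], ![0, 0, 0, 0, 0, 0, 0], 0, 1, ![19954775, 0, (-30550061), (-17472613), 0, 24250546], ⟨3672, 3379384, 114749, 685366⟩, ⟨4179639, (-3379384), (-114749), (-685366)⟩⟩

theorem drop60 (hF : ∀ f ∈ Fs, ∃ c, facetTest 6 band ks f c = true) {s : ℝ}
    (hs : band.Mem s) : DropGain (-s) (1 / s ^ 2) (coord 6 ks s)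
      (fun i => (H 60 i : ℝ) / (100000 : ℕ)) S60.a ((S60.L : ℝ) / (100000 : ℕ)) :=
  S60.drop_of_tests (r := 16) (n := 14) (K := 40) (T := (.cut 1 75712 (.cut 1 61956 (.leaf [0, 0, 0, 0, 0, 0, 0, 0, 0, 0, 0, 0, 0, 0, 0, 0, 0, 0, 0, 0, 0, 0, 68833889941003, 0, 30693068254195, 0, 0, 0, 0, 0, 3631781904370641041096704, 0, 0, 0, 68594029829135] []) (.cut 6 158722 (.leaf [0, 0, 0, 0, 0, 0, 0, 0, 0, 0, 41362921916, 0, 0, 0, 0, 0, 0, 0, 0, 0, 0, 0, 68824045604796, 0, 0, 0, 0, 0, 13254096208080, 0, 0, 0, 0, 0, 3631781904434944217710592] []) (.leaf [] [0, 0, 124844, 124752]))) (.leaf [0, 0, 0, 0, 0, 0, 0, 82719075284926, 2194960657771526455558144, 403208789, 137427906667336] [])))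
    (cw := ⟨256, 329, 24, (.cut 2 128 (.out 0) (.cut 1 128 (.out 0) (.cut 2 192 (.cut 1 192 (.out 0) (.cut 1 224 (.out 0) (.cut 2 160 (.cut 1 240 (.out 0) (.cut 0 1748 (.out 0) (.cut 2 144 (.out 2) (.cut 1 248 (.out 0) (.cut 0 1814 (.mult []) (.cut 2 152 (.cut 1 252 (.out 0) (.cut 0 1847 (.out 2) (.cut 2 148 (.out 2) (.cut 1 254 (.out 0) (.cut 0 1864 (.out 2) (.cut 2 150 (.mult [(2, 61063645681841630470594559508964178895843713763746127741452288)]) (.mult [(1, 2008672555323737844427452615426453253152753742228491044126720)]))))))) (.mult []))))))) (.mult [])))) (.cut 1 192 (.cut 2 224 (.out 0) (.out 3)) (.cut 2 224 (.mult []) (.cut 1 224 (.mult []) (.cut 2 240 (.cut 1 240 (.mult []) (.mult [])) (.cut 1 240 (.mult []) (.mult [])))))))))⟩)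
    (cu := ⟨16, 183, 24, (.cut 1 8 (.cut 2 8 (.mult []) (.mult [])) (.cut 2 8 (.mult []) (.cut 1 12 (.cut 2 12 (.mult []) (.cut 2 14 (.mult []) (.out 0))) (.cut 2 12 (.cut 1 14 (.mult []) (.cut 1 15 (.mult []) (.cut 1 16 (.cut 2 10 (.mult []) (.mult [])) (.cut 2 10 (.mult []) (.mult []))))) (.cut 1 14 (.cut 2 14 (.mult []) (.mult [])) (.cut 2 14 (.mult []) (.mult [])))))))⟩)
    (by norm_num) ks_sum (by decide +kernel) (by decide +kernel) (by decide +kernel) hF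
    (by decide +kernel) hs

/-- step 61 -/
def S61 : Step 6 := ⟨100000000, 0, 9107, ![(-21303000), 0, 32251866, 19741023, 0, (-26704112)], 3993003, ![(-202489), 20487600, 0, (-29982949), (-18378714), 0, 24373678], ![0, 0, 0, 0, 0, 0, 0], 0, 1, ![20487600, 0, (-29982949), (-18378714), 0, 24373678], ⟨1182, 3339647, 58144, 391296⟩, ⟨3991820, (-3542136), (-58144), (-391296)⟩⟩

theorem drop61 (hF : ∀ f ∈ Fs, ∃ c, facetTest 6 band ks f c = true) {s : ℝ}
    (hs : band.Mem s) : DropGain (-s) (1 / s ^ 2) (coord 6 ks s)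
      (fun i => (H 61 i : ℝ) / (100000 : ℕ)) S61.a ((S61.L : ℝ) / (100000 : ℕ)) :=
  S61.drop_of_tests (r := 16) (n := 14) (K := 40) (T := (.cut 1 69338 (.cut 1 55707 (.leaf [0, 0, 0, 0, 0, 0, 0, 0, 0, 0, 0, 0, 0, 0, 0, 0, 0, 0, 0, 0, 0, 0, 54376278982906, 0, 0, 0, 0, 0, 0, 0, 0, 0, 0, 0, 0, 0, 0, 0, 0, 0, 0, 0, 3546130168496690565218304, 0, 0, 13020656488325, 0, 30482925794932] []) (.cut 6 128656 (.leaf [0, 0, 0, 0, 0, 0, 0, 0, 0, 0, 44418016069, 0, 0, 0, 0, 0, 0, 0, 0, 0, 0, 0, 54376278982906, 0, 0, 0, 0, 0, 0, 0, 0, 0, 0, 0, 0, 0, 0, 0, 0, 0, 0, 0, 0, 0, 0, 13020656488325, 0, 3546130168534209788903424] []) (.cut 6 163480 (.leaf [] [0, 0, 116673, 114409]) (.leaf [0, 0, 0, 0, 0, 0, 0, 0, 61883482801, 0, 0, 0, 0, 0, 0, 0, 0, 0, 0, 0, 12958773005524, 49884992603206, 0, 0, 0, 0, 0, 0, 0, 0, 0, 0, 0, 0, 0, 0, 0, 0, 0, 0, 3939706886459011197042688] [])))) (.leaf [0, 0, 0, 0, 0, 0, 14335742793645, 97632420058365,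 0, 3546130168447343001600000, 84859161056216, 0, 0, 0, 13020656488325] [])))
    (cw := ⟨256, 352, 24, (.cut 2 128 (.out 0) (.cut 1 128 (.out 0) (.cut 2 192 (.cut 1 192 (.out 0) (.cut 1 224 (.out 0) (.cut 2 160 (.cut 1 240 (.out 0) (.cut 0 1748 (.out 0) (.cut 2 144 (.out 2) (.cut 1 248 (.out 0) (.cut 0 1814 (.mult []) (.cut 2 152 (.cut 1 252 (.out 0) (.cut 0 1847 (.out 2) (.cut 2 148 (.out 2) (.cut 1 254 (.out 0) (.cut 0 1864 (.out 2) (.cut 2 150 (.mult [(0, 65204110049593040219001964579882114143648654192237653621408879918186496), (1, 62668396027791662202703476569777131500869542210195560732325342024302592)]) (.mult [(1, 401734511064747568885490523085290650630550748445698208825344)]))))))) (.mult []))))))) (.mult [])))) (.cut 1 192 (.cut 2 224 (.out 0) (.out 3)) (.cut 2 224 (.mult []) (.cut 1 224 (.mult []) (.mult [])))))))⟩)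
    (cu := ⟨16, 183, 24, (.cut 2 8 (.cut 1 8 (.mult []) (.cut 1 12 (.mult []) (.mult []))) (.cut 1 8 (.cut 2 12 (.mult []) (.out 0)) (.cut 2 12 (.cut 1 12 (.mult []) (.cut 1 14 (.mult []) (.cut 2 10 (.cut 1 15 (.mult []) (.cut 1 16 (.mult []) (.mult []))) (.mult [])))) (.cut 1 12 (.cut 2 14 (.mult []) (.out 0)) (.cut 2 14 (.cut 1 14 (.mult []) (.mult [])) (.cut 1 14 (.mult []) (.mult [])))))))⟩)
    (by norm_num) ks_sum (by decide +kernel) (by decide +kernel) (by decide +kernel) hF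
    (by decide +kernel) hs

/-- step 62 -/
def S62 : Step 6 := ⟨100000000, 4, 6498, ![(-21031261), 0, 32651720, 19397255, 0, (-26919764)], 4103483, ![0, 20214974, 0, (-30492514), (-18090896), 0, 24534648], ![0, 0, 0, 0, 0, 0, 0], 0, 1, ![20214974, 0, (-30492514), (-18090896), 0, 24534648], ⟨1771, 3438149, 92953, 570455⟩, ⟨4101711, (-3438149), (-92953), (-570455)⟩⟩

theorem drop62 (hF : ∀ f ∈ Fs, ∃ c, facetTest 6 band ks f c = true) {s : ℝ}
    (hs : band.Mem s) : DropGain (-s) (1 / s ^ 2) (coord 6 ks s)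
      (fun i => (H 62 i : ℝ) / (100000 : ℕ)) S62.a ((S62.L : ℝ) / (100000 : ℕ)) :=
  S62.drop_of_tests (r := 16) (n := 14) (K := 40) (T := (.cut 1 69338 (.cut 1 57491 (.leaf [0, 0, 0, 0, 0, 0, 0, 0, 0, 0, 0, 0, 0, 0, 0, 0, 0, 0, 0, 0, 0, 0, 43516375000510, 0, 3590094580737318106169344, 0, 0, 0, 45971223792021] []) (.cut 6 133315 (.leaf [0, 0, 0, 0, 0, 0, 0, 0, 0, 47465573042, 0, 0, 0, 0, 0, 0, 0, 0, 0, 0, 0, 0, 43516375000510, 0, 0, 0, 0, 0, 3590094580787347495845888, 0, 0, 0, 0, 0, 43840004657] []) (.cut 6 163476 (.leaf [] [0, 0, 109466, 111484]) (.leaf [0, 0, 0, 0, 0, 0, 0, 0, 0, 47465573042, 0, 0, 0, 0, 0, 0, 0, 0, 0, 0, 0, 47194219833831, 0, 0, 0, 0, 0, 390321951, 0, 0, 0, 0, 0, 0, 0, 0, 0, 0, 0, 0, 3988550806287661368606720] [])))) (.leaf [0, 0, 0, 0, 0, 0, 0, 113998144112611, 0, 1687074521000290258255872, 89487771697514, 0, 0, 0, 0, 0, 0, 0, 0, 0, 0, 0, 0, 0, 0, 0, 0, 7966845838263] [])))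
    (cw := ⟨256, 329, 24, (.cut 2 128 (.out 0) (.cut 1 128 (.out 0) (.cut 2 192 (.cut 1 192 (.out 0) (.cut 1 224 (.out 0) (.cut 2 160 (.cut 1 240 (.out 0) (.cut 0 1748 (.out 0) (.cut 2 144 (.out 2) (.cut 1 248 (.out 0) (.cut 0 1814 (.mult []) (.cut 2 152 (.cut 1 252 (.out 0) (.cut 0 1847 (.out 2) (.cut 2 148 (.out 2) (.cut 1 254 (.out 0) (.cut 0 1864 (.out 2) (.cut 2 150 (.mult [(2, 42885159056161802978526113339354776954811292396578283792105472)]) (.mult [(1, 1606938044258990275541962092341162602522202993782792835301376)]))))))) (.mult []))))))) (.mult [])))) (.cut 1 192 (.cut 2 224 (.out 0) (.out 3)) (.cut 2 224 (.mult []) (.cut 1 224 (.mult []) (.cut 2 240 (.mult []) (.cut 1 240 (.mult []) (.mult [])))))))))⟩)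
    (cu := ⟨16, 183, 24, (.cut 2 8 (.cut 1 8 (.mult []) (.mult [])) (.cut 1 8 (.mult []) (.cut 2 12 (.cut 1 12 (.mult []) (.cut 1 14 (.mult []) (.cut 2 10 (.cut 1 15 (.mult []) (.cut 1 16 (.mult []) (.mult []))) (.cut 1 15 (.mult []) (.mult []))))) (.cut 1 12 (.cut 2 14 (.mult []) (.out 0)) (.cut 2 14 (.cut 1 14 (.mult []) (.mult [])) (.cut 1 14 (.mult []) (.mult [])))))))⟩)
    (by norm_num) ks_sum (by decide +kernel) (by decide +kernel) (by decide +kernel) hF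
    (by decide +kernel) hs

/-- step 63 -/
def S63 : Step 6 := ⟨100000000, 6, 8270, ![(-21050583), 0, 32609741, 19434112, 0, (-26905565)], 4092776, ![0, 20318907, 0, (-30501201), (-18129889), 0, 24530870], ![0, 0, 0, 0, 0, 0, 0], 0, 1, ![20318907, 0, (-30501201), (-18129889), 0, 24530870], ⟨1741, 3435419, 92701, 562750⟩, ⟨4091034, (-3435419), (-92701), (-562750)⟩⟩

theorem drop63 (hF : ∀ f ∈ Fs, ∃ c, facetTest 6 band ks f c = true) {s : ℝ}
    (hs : band.Mem s) : DropGain (-s) (1 / s ^ 2) (coord 6 ks s)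
      (fun i => (H 63 i : ℝ) / (100000 : ℕ)) S63.a ((S63.L : ℝ) / (100000 : ℕ)) :=
  S63.drop_of_tests (r := 16) (n := 14) (K := 40) (T := (.cut 1 63150 (.cut 1 50215 (.leaf [0, 0, 0, 0, 0, 0, 0, 0, 0, 0, 0, 0, 0, 0, 0, 0, 0, 0, 101015562484875, 0, 0, 0, 0, 0, 16149920667733, 0, 0, 0, 0, 0, 0, 0, 0, 0, 0, 0, 9405768470231523222618112] []) (.cut 6 163477 (.leaf [] [0, 0, 107016, 103968]) (.leaf [0, 0, 0, 0, 0, 0, 0, 0, 64020109715, 0, 0, 0, 0, 0, 0, 0, 0, 0, 0, 0, 0, 42787587761027, 0, 0, 0, 0, 0, 0, 0, 0, 0, 0, 0, 0, 0, 0, 0, 0, 0, 0, 3983422887321701808340992] []))) (.leaf [0, 0, 0, 0, 0, 0, 0, 0, 2166976272778191737716736, 0, 0, 0, 0, 0, 0, 0, 0, 0, 0, 0, 0, 42787587761027, 0, 0, 0, 0, 0, 0, 0, 0, 0, 0, 0, 0, 0, 0, 0, 0, 0, 0, 28752211643171] [])))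
    (cw := ⟨256, 329, 24, (.cut 2 128 (.out 0) (.cut 1 128 (.out 0) (.cut 2 192 (.cut 1 192 (.out 0) (.cut 1 224 (.out 0) (.cut 2 160 (.cut 1 240 (.out 0) (.cut 0 1748 (.out 0) (.cut 2 144 (.out 2) (.cut 1 248 (.out 0) (.cut 0 1814 (.mult []) (.cut 2 152 (.cut 1 252 (.out 0) (.cut 0 1847 (.out 2) (.cut 2 148 (.out 2) (.cut 1 254 (.out 0) (.cut 0 1864 (.out 2) (.cut 2 150 (.mult [(2, 41579521895201373379648269139327582340262002464129764613423104)]) (.mult [(1, 1606938044258990275541962092341162602522202993782792835301376)]))))))) (.mult []))))))) (.mult [])))) (.cut 1 192 (.cut 2 224 (.out 0) (.out 3)) (.cut 2 224 (.mult []) (.cut 1 224 (.mult []) (.cut 2 240 (.mult []) (.cut 1 240 (.mult []) (.mult [])))))))))⟩)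
    (cu := ⟨16, 183, 24, (.cut 2 8 (.cut 1 8 (.mult []) (.mult [])) (.cut 1 8 (.mult []) (.cut 2 12 (.cut 1 12 (.mult []) (.cut 1 14 (.mult []) (.cut 2 10 (.cut 1 15 (.mult []) (.cut 1 16 (.mult []) (.mult []))) (.cut 1 15 (.mult []) (.mult []))))) (.cut 1 12 (.cut 2 14 (.mult []) (.out 0)) (.cut 2 14 (.cut 1 14 (.mult []) (.mult [])) (.cut 1 14 (.mult []) (.mult [])))))))⟩)
    (by norm_num) ks_sum (by decide +kernel) (by decide +kernel) (by decide +kernel) hF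
    (by decide +kernel) hs

/-- step 64 -/
def S64 : Step 6 := ⟨100000000, 0, 7374, ![(-21390473), 0, 32049553, 19926505, 0, (-26633469)], 3956882, ![(-142394), 20715544, 0, (-30254637), (-18786682), 0, 24735432], ![0, 0, 0, 0, 0, 0, 0], 0, 1, ![20715544, 0, (-30254637), (-18786682), 0, 24735432], ⟨703, 3399958, 51650, 362006⟩, ⟨3956178, (-3542352), (-51650), (-362006)⟩⟩

theorem drop64 (hF : ∀ f ∈ Fs, ∃ c, facetTest 6 band ks f c = true) {s : ℝ}
    (hs : band.Mem s) : DropGain (-s) (1 / s ^ 2) (coord 6 ks s)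
      (fun i => (H 64 i : ℝ) / (100000 : ℕ)) S64.a ((S64.L : ℝ) / (100000 : ℕ)) :=
  S64.drop_of_tests (r := 16) (n := 14) (K := 40) (T := (.cut 1 57688 (.cut 1 45074 (.leaf [0, 0, 0, 0, 0, 0, 0, 0, 0, 0, 0, 0, 0, 0, 0, 0, 0, 0, 0, 0, 0, 0, 15563295519956, 0, 0, 0, 0, 0, 0, 0, 0, 0, 0, 0, 0, 0, 0, 0, 0, 0, 0, 0, 3523885618893708475760640, 0, 0, 12515636664622, 0, 75309650309487] []) (.cut 6 104168 (.leaf [0, 0, 0, 0, 0, 0, 0, 0, 0, 0, 48647070901, 0, 0, 0, 0, 0, 0, 0, 0, 0, 0, 0, 15563295519956, 0, 0, 0, 0, 0, 0, 0, 0, 0, 0, 0, 0, 0, 0, 0, 0, 0, 0, 0, 0, 0, 0, 12515636664622, 0, 3523885618952107146084352] []) (.leaf [] [0, 0, 92172, 94244]))) (.leaf [0, 0, 0, 0, 0, 0, 13779715967748, 0, 0, 0, 3523885618927637643657216, 0, 0, 0, 12515636664622, 0, 0, 0, 0, 0, 0, 0, 15553743648257] [])))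
    (cw := ⟨256, 352, 24, (.cut 2 128 (.out 0) (.cut 1 128 (.out 0) (.cut 2 192 (.cut 1 192 (.out 0) (.cut 1 224 (.out 0) (.cut 2 160 (.cut 1 240 (.out 0) (.cut 0 1748 (.out 0) (.cut 2 144 (.out 2) (.cut 1 248 (.out 0) (.cut 0 1814 (.mult []) (.cut 2 152 (.cut 1 252 (.out 0) (.cut 0 1847 (.out 2) (.cut 2 148 (.out 2) (.cut 1 254 (.out 0) (.cut 0 1864 (.out 2) (.cut 2 150 (.mult [(0, 64415340954247777042581561660707154171667883009665205151170281850535936), (1, 61913517521111444288452800147340581842007702166364424702854440937324544)]) (.cut 1 255 (.out 0) (.mult [(1, 401734511064747568885490523085290650630550748445698208825344)])))))))) (.mult [(0, 50216813883093446110686315385661331328818843555712276103168)]))))))) (.mult [(0, 200867255532373784442745261542645325315275374222849104412672)])))) (.cut 1 192 (.cut 2 224 (.out 0) (.out 3)) (.cut 2 224 (.mult []) (.cut 1 224 (.mult []) (.mult [])))))))⟩)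
    (cu := ⟨16, 183, 24, (.cut 2 8 (.cut 1 8 (.mult []) (.cut 1 12 (.mult []) (.mult []))) (.cut 1 8 (.cut 2 12 (.mult []) (.out 0)) (.cut 2 12 (.cut 1 12 (.mult []) (.cut 1 14 (.mult []) (.cut 2 10 (.cut 1 15 (.mult []) (.cut 1 16 (.cut 2 9 (.mult []) (.mult [])) (.cut 2 9 (.mult []) (.mult [])))) (.mult [])))) (.cut 1 12 (.cut 2 14 (.mult []) (.out 0)) (.cut 2 14 (.cut 1 14 (.mult []) (.mult [])) (.cut 1 14 (.mult []) (.mult [])))))))⟩)
    (by norm_num) ks_sum (by decide +kernel) (by decide +kernel) (by decide +kernel) hF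
    (by decide +kernel) hs

/-- step 65 -/
def S65 : Step 6 := ⟨100000000, 2, 4640, ![(-21204800), 0, 32329216, 19683222, 0, (-26782761)], 4028993, ![0, 20528816, 0, (-30576438), (-18631877), 0, 24852163], ![0, 0, 0, 0, 0, 0, 0], 0, 1, ![20528816, 0, (-30576438), (-18631877), 0, 24852163], ⟨1156, 3472672, 77385, 477637⟩, ⟨4027836, (-3472672), (-77385), (-477637)⟩⟩

theorem drop65 (hF : ∀ f ∈ Fs, ∃ c, facetTest 6 band ks f c = true) {s : ℝ}
    (hs : band.Mem s) : DropGain (-s) (1 / s ^ 2) (coord 6 ks s)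
      (fun i => (H 65 i : ℝ) / (100000 : ℕ)) S65.a ((S65.L : ℝ) / (100000 : ℕ)) :=
  S65.drop_of_tests (r := 16) (n := 14) (K := 40) (T := (.cut 1 57688 (.cut 1 46150 (.leaf [0, 0, 0, 0, 0, 0, 0, 0, 0, 0, 0, 0, 3554634890929211594244096, 0, 20557196321126, 0, 82925267447976, 0, 0, 0, 0, 0, 10867375438525] []) (.cut 6 106982 (.leaf [0, 0, 0, 0, 0, 0, 0, 0, 0, 52179643326, 0, 0, 0, 0, 20560998891291, 0, 3554634890993259757174784, 0, 0, 0, 0, 0, 10862557812076, 0, 0, 0, 0, 0, 0, 0, 0, 0, 0, 0, 48193999562] []) (.leaf [] [0, 0, 89145, 87828]))) (.leaf [0, 0, 0, 0, 0, 0, 0, 0, 20560998891291, 0, 3554634890971129938182144, 0, 0, 0, 0, 0, 0, 0, 0, 0, 0, 0, 10852922591162] [])))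
    (cw := ⟨256, 352, 24, (.cut 2 128 (.out 0) (.cut 1 128 (.out 0) (.cut 2 192 (.cut 1 192 (.out 0) (.cut 1 224 (.out 0) (.cut 2 160 (.cut 1 240 (.out 0) (.cut 0 1748 (.out 0) (.cut 2 144 (.out 2) (.cut 1 248 (.out 0) (.cut 0 1814 (.mult []) (.cut 2 152 (.cut 1 252 (.out 0) (.cut 0 1847 (.out 2) (.cut 2 148 (.out 2) (.cut 1 254 (.out 0) (.cut 0 1864 (.out 2) (.cut 2 150 (.mult [(0, 68454566158714389491369491122551700589044680620067911494387805150248960), (1, 65795749841181136418884850319871408659011450963210267140133360813211648)]) (.mult [(1, 903902649895682029992353676941903963918739184002820969857024)]))))))) (.mult []))))))) (.mult [])))) (.cut 1 192 (.cut 2 224 (.out 0) (.out 3)) (.cut 2 224 (.mult []) (.cut 1 224 (.mult []) (.cut 2 240 (.mult []) (.mult []))))))))⟩)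
    (cu := ⟨16, 183, 24, (.cut 2 8 (.cut 1 8 (.mult []) (.cut 1 12 (.mult []) (.mult []))) (.cut 1 8 (.cut 2 12 (.mult []) (.out 0)) (.cut 2 12 (.cut 1 12 (.mult []) (.cut 1 14 (.mult []) (.cut 2 10 (.cut 1 15 (.mult []) (.cut 1 16 (.cut 2 9 (.mult []) (.mult [])) (.cut 2 9 (.mult []) (.mult [])))) (.mult [])))) (.cut 1 12 (.cut 2 14 (.mult []) (.out 0)) (.cut 2 14 (.cut 1 14 (.mult []) (.mult [])) (.cut 1 14 (.mult []) (.mult [])))))))⟩)
    (by norm_num) ks_sum (by decide +kernel) (by decide +kernel) (by decide +kernel) hF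
    (by decide +kernel) hs

/-- step 66 -/
def S66 : Step 6 := ⟨100000000, 6, 6572, ![(-21213647), 0, 32315628, 19694935, 0, (-26775791)], 4025041, ![0, 20628850, 40436, (-30644191), (-18690590), 0, 24880021], ![0, 0, 0, 0, 0, 0, 0], 0, 1, ![20628850, 40436, (-30644191), (-18690590), 0, 24880021], ⟨907, 3475378, 76374, 472219⟩, ⟨4024133, (-3475378), (-76374), (-472219)⟩⟩

theorem drop66 (hF : ∀ f ∈ Fs, ∃ c, facetTest 6 band ks f c = true) {s : ℝ}
    (hs : band.Mem s) : DropGain (-s) (1 / s ^ 2) (coord 6 ks s)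
      (fun i => (H 66 i : ℝ) / (100000 : ℕ)) S66.a ((S66.L : ℝ) / (100000 : ℕ)) :=
  S66.drop_of_tests (r := 16) (n := 14) (K := 40) (T := (.cut 1 49752 (.cut 1 39872 (.leaf [0, 0, 0, 0, 0, 0, 0, 0, 0, 0, 0, 0, 7118131953370, 0, 0, 0, 0, 0, 10531692710127, 0, 0, 0, 0, 0, 74214958365527, 0, 0, 0, 0, 0, 0, 0, 0, 0, 0, 0, 9320936187015897492226048] []) (.leaf [0, 0, 0, 0, 0, 0, 657239706, 66435743704, 0, 0, 0, 0, 0, 0, 0, 0, 0, 0, 0, 0, 0, 0, 0, 0, 0, 132858453, 0, 0, 0, 0, 0, 0, 0, 0, 0, 0, 0, 0, 2839365403151] [0, 0, 86353, 83746])) (.leaf [0, 0, 0, 0, 0, 0, 2365606441151338729439232, 0, 0, 0, 0, 0, 0, 0, 16133601916841, 0, 0, 0, 0, 0, 6361658073019, 0, 0, 0, 0, 0, 0, 0, 0, 0, 0, 0, 0, 0, 0, 0, 0, 0, 0, 3314467584378] [])))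
    (cw := ⟨256, 352, 24, (.cut 2 128 (.out 0) (.cut 1 128 (.out 0) (.cut 2 192 (.cut 1 192 (.out 0) (.cut 1 224 (.out 0) (.cut 2 160 (.cut 1 240 (.out 0) (.cut 0 1748 (.out 0) (.cut 2 144 (.out 2) (.cut 1 248 (.out 0) (.cut 0 1814 (.mult []) (.cut 2 152 (.cut 1 252 (.out 0) (.cut 0 1847 (.out 2) (.cut 2 148 (.out 2) (.cut 1 254 (.out 0) (.cut 0 1864 (.out 2) (.cut 2 150 (.mult [(0, 68045291086627089016544044668792198524313425815956275996195153764155392), (1, 65391350641173876821964845093566114198906893796872158552916806659473408)]) (.mult [(1, 903902649895682029992353676941903963918739184002820969857024)]))))))) (.mult []))))))) (.mult [])))) (.cut 1 192 (.cut 2 224 (.out 0) (.out 3)) (.cut 2 224 (.mult []) (.cut 1 224 (.mult []) (.mult [])))))))⟩)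
    (cu := ⟨16, 183, 24, (.cut 2 8 (.cut 1 8 (.mult []) (.cut 1 12 (.mult []) (.mult []))) (.cut 1 8 (.cut 2 12 (.mult []) (.out 0)) (.cut 2 12 (.cut 1 12 (.mult []) (.cut 1 14 (.mult []) (.cut 2 10 (.cut 1 15 (.mult []) (.cut 1 16 (.cut 2 9 (.mult []) (.mult [])) (.cut 2 9 (.mult []) (.mult [])))) (.mult [])))) (.cut 1 12 (.cut 2 14 (.mult []) (.out 0)) (.cut 2 14 (.cut 1 14 (.mult []) (.mult [])) (.cut 1 14 (.mult []) (.mult [])))))))⟩)
    (by norm_num) ks_sum (by decide +kernel) (by decide +kernel) (by decide +kernel) hF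
    (by decide +kernel) hs

end Vale.Agent.P154.Ly.BH
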