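import Vale.Agent.P154.LyBH

/-!
Band H: drops 67 to 67.
-/

open scoped BigOperators

namespace Vale.Agent.P154.Ly.BH

/-- step 67 -/
def S67 : Step 6 := ⟨100000000, 0, 5863, ![(-21483591), 0, 31867954, 20085942, 0, (-26562513)], 3910716, ![(-80230), 20943128, 0, (-30441025), (-19209205), 0, 25046736], ![0, 0, 0, 0, 0, 0, 0], 0, 1, ![20943128, 0, (-30441025), (-19209205), 0, 25046736], ⟨328, 3457789, 46260, 325978⟩, ⟨3910387, (-3538019), (-46260), (-325978)⟩⟩

theorem drop67 (hF : ∀ f ∈ Fs, ∃ c, facetTest 6 band ks f c = true) {s : ℝ}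
    (hs : band.Mem s) : DropGain (-s) (1 / s ^ 2) (coord 6 ks s)
      (fun i => (H 67 i : ℝ) / (100000 : ℕ)) S67.a ((S67.L : ℝ) / (100000 : ℕ)) :=
  S67.drop_of_tests (r := 16) (n := 14) (K := 40) (T := (.cut 1 45903 (.cut 1 35804 (.leaf [0, 0, 0, 0, 0, 0, 0, 0, 0, 0, 0, 0, 0, 0, 0, 0, 0, 0, 0, 0, 0, 0, 0, 0, 0, 0, 0, 0, 20065400442153, 0, 0, 0, 0, 0, 0, 0, 0, 0, 0, 0, 0, 0, 3503918597676260000792576, 0, 19008061814462, 0, 0, 52694105730778] []) (.cut 6 82790 (.leaf [0, 0, 0, 0, 0, 0, 0, 0, 0, 0, 52858230335, 0, 0, 0, 0, 0, 0, 0, 0, 0, 0, 0, 0, 0, 0, 0, 0, 0, 20065400442153, 0, 0, 0, 0, 0, 0, 0, 0, 0, 0, 0, 0, 0, 0, 0, 19008061814462, 0, 0, 3503918597715337760735232] []) (.leaf [] [0, 0, 73270, 71409]))) (.leaf [0, 0, 0, 0, 0, 0, 46842204580654, 19008061814462, 0, 0, 3503918597715828997619712, 0, 0, 0, 42545144941557] [])))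
    (cw := ⟨256, 352, 24, (.cut 2 128 (.out 0) (.cut 1 128 (.out 0) (.cut 2 192 (.cut 1 192 (.out 0) (.cut 1 224 (.out 0) (.cut 2 160 (.cut 1 240 (.out 0) (.cut 0 1748 (.out 0) (.cut 2 144 (.out 2) (.cut 1 248 (.out 0) (.cut 0 1814 (.mult []) (.cut 2 152 (.cut 1 252 (.out 0) (.cut 0 1847 (.out 2) (.cut 2 148 (.out 2) (.cut 1 254 (.out 0) (.cut 0 1864 (.out 2) (.cut 2 150 (.mult [(0, 64534494384618955212057268262180032898993341648812612633250042033995776), (1, 62021357307780046847631468207688660364702250744054586992778855378321408)]) (.cut 1 255 (.out 0) (.mult [(1, 150650441649280338332058946156983993986456530667136828309504)])))))))) (.mult [(0, 652818580480214799438922100013597307274644966224259589341184)]))))))) (.cut 1 240 (.out 0) (.cut 0 1748 (.mult []) (.cut 2 176 (.cut 1 248 (.out 0) (.cut 0 1814 (.mult []) (.cut 2 168 (.cut 1 252 (.out 0) (.mult [(0, 200867255532373784442745261542645325315275374222849104412672)])) (.cut 1 252 (.out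 0) (.cut 0 1847 (.mult []) (.cut 2 172 (.mult [(0, 175758848590827061387402103849814659650865952444992966361088)]) (.cut 1 254 (.mult [(0, 200867255532373784442745261542645325315275374222849104412672)]) (.mult [])))))))) (.cut 1 248 (.out 0) (.cut 0 1814 (.mult []) (.cut 2 184 (.cut 1 252 (.mult [(0, 401734511064747568885490523085290650630550748445698208825344)]) (.mult [(0, 784637716923335095479473677900958302012794430558004314112)])) (.mult [])))))))))) (.cut 1 192 (.cut 2 224 (.out 0) (.out 3)) (.cut 2 224 (.mult []) (.mult []))))))⟩)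
    (cu := ⟨16, 183, 24, (.cut 2 8 (.cut 1 8 (.mult []) (.cut 1 12 (.mult []) (.cut 2 4 (.mult []) (.cut 1 14 (.mult []) (.mult []))))) (.cut 1 8 (.cut 2 12 (.mult []) (.out 0)) (.cut 2 12 (.cut 1 12 (.mult []) (.cut 1 14 (.mult []) (.cut 2 10 (.cut 1 15 (.mult []) (.cut 2 9 (.cut 1 16 (.mult []) (.mult [])) (.mult []))) (.mult [])))) (.cut 1 12 (.cut 2 14 (.mult []) (.out 0)) (.cut 2 14 (.cut 1 14 (.mult []) (.mult [])) (.cut 1 14 (.mult []) (.mult [])))))))⟩)
    (by norm_num) ks_sum (by decide +kernel) (by decide +kernel) (by decide +kernel) hF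
    (by decide +kernel) hs

end Vale.Agent.P154.Ly.BH
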