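import Vale.Agent.P154.LyBHF0
import Vale.Agent.P154.LyBHF1
import Vale.Agent.P154.LyBHS0
import Vale.Agent.P154.LyBHS1
import Vale.Agent.P154.LyBHS2
import Vale.Agent.P154.LyBHS3
import Vale.Agent.P154.LyBHS4

/-!
Band H: the chain.
-/

open scoped BigOperators

namespace Vale.Agent.P154.Ly.BH

lemma facets : ∀ f ∈ Fs, ∃ c, facetTest 6 band ks f c = true := by
  intro f hf
  simp only [Fs, List.mem_cons, List.not_mem_nil, or_false] at hf
  rcases hf with rfl | rfl | rfl | rfl | rfl | rfl | rfl | rfl | rfl | rfl | rfl | rfl | rfl | rfl | rfl | rfl | rfl | rfl | rfl | rfl | rfl | rfl | rfl | rfl | rfl | rfl | rfl | rfl | rfl | rfl | rfl | rfl | rfl | rfl | rfl | rfl | rfl | rfl | rfl | rfl | rfl | rfl | rfl | rfl | rfl | rfl | rfl | rfl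
  · exact ⟨_, facet0⟩
  · exact ⟨_, facet1⟩
  · exact ⟨_, facet2⟩
  · exact ⟨_, facet3⟩
  · exact ⟨_, facet4⟩
  · exact ⟨_, facet5⟩
  · exact ⟨_, facet6⟩
  · exact ⟨_, facet7⟩
  · exact ⟨_, facet8⟩
  · exact ⟨_, facet9⟩
  · exact ⟨_, facet10⟩
  · exact ⟨_, facet11⟩
  · exact ⟨_, facet12⟩
  · exact ⟨_, facet13⟩
  · exact ⟨_, facet14⟩
  · exact ⟨_, facet15⟩
  · exact ⟨_, facet16⟩
  · exact ⟨_, facet17⟩
  · exact ⟨_, facet18⟩
  · exact ⟨_, facet19⟩
  · exact ⟨_, facet20⟩
  · exact ⟨_, facet21⟩
  · exact ⟨_, facet22⟩
  · exact ⟨_, facet23⟩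
  · exact ⟨_, facet24⟩
  · exact ⟨_, facet25⟩
  · exact ⟨_, facet26⟩
  · exact ⟨_, facet27⟩
  · exact ⟨_, facet28⟩
  · exact ⟨_, facet29⟩
  · exact ⟨_, facet30⟩
  · exact ⟨_, facet31⟩
  · exact ⟨_, facet32⟩
  · exact ⟨_, facet33⟩
  · exact ⟨_, facet34⟩
  · exact ⟨_, facet35⟩
  · exact ⟨_, facet36⟩
  · exact ⟨_, facet37⟩
  · exact ⟨_, facet38⟩
  · exact ⟨_, facet39⟩
  · exact ⟨_, facet40⟩
  · exact ⟨_, facet41⟩
  · exact ⟨_, facet42⟩
  · exact ⟨_, facet43⟩
  · exact ⟨_, facet44⟩
  · exact ⟨_, facet45⟩
  · exact ⟨_, facet46⟩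
  · exact ⟨_, facet47⟩

theorem at0 : BandAt band 6 ks 100000 (H 0) :=
  BandAt.start (by norm_num) ks_sum (by decide +kernel)

theorem at1 : BandAt band 6 ks 100000 (H 1) :=
  at0.drop (by norm_num) ks_sum (fun hs => drop0 facets hs) (by decide +kernel)

theorem at2 : BandAt band 6 ks 100000 (H 2) :=
  at1.drop (by norm_num) ks_sum (fun hs => drop1 facets hs) (by decide +kernel)

theorem at3 : BandAt band 6 ks 100000 (H 3) :=
  at2.drop (by norm_num) ks_sum (fun hs => drop2 facets hs) (by decide +kernel)

theorem at4 : BandAt band 6 ks 100000 (H 4) :=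
  at3.drop (by norm_num) ks_sum (fun hs => drop3 facets hs) (by decide +kernel)

theorem at5 : BandAt band 6 ks 100000 (H 5) :=
  at4.drop (by norm_num) ks_sum (fun hs => drop4 facets hs) (by decide +kernel)

theorem at6 : BandAt band 6 ks 100000 (H 6) :=
  at5.drop (by norm_num) ks_sum (fun hs => drop5 facets hs) (by decide +kernel)

theorem at7 : BandAt band 6 ks 100000 (H 7) :=
  at6.drop (by norm_num) ks_sum (fun hs => drop6 facets hs) (by decide +kernel)

theorem at8 : BandAt band 6 ks 100000 (H 8) :=
  at7.drop (by norm_num) ks_sum (fun hs => drop7 facets hs) (by decide +kernel)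

theorem at9 : BandAt band 6 ks 100000 (H 9) :=
  at8.drop (by norm_num) ks_sum (fun hs => drop8 facets hs) (by decide +kernel)

theorem at10 : BandAt band 6 ks 100000 (H 10) :=
  at9.drop (by norm_num) ks_sum (fun hs => drop9 facets hs) (by decide +kernel)

theorem at11 : BandAt band 6 ks 100000 (H 11) :=
  at10.drop (by norm_num) ks_sum (fun hs => drop10 facets hs) (by decide +kernel)

theorem at12 : BandAt band 6 ks 100000 (H 12) :=
  at11.drop (by norm_num) ks_sum (fun hs => drop11 facets hs) (by decide +kernel)

theorem at13 : BandAt band 6 ks 100000 (H 13) :=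
  at12.drop (by norm_num) ks_sum (fun hs => drop12 facets hs) (by decide +kernel)

theorem at14 : BandAt band 6 ks 100000 (H 14) :=
  at13.drop (by norm_num) ks_sum (fun hs => drop13 facets hs) (by decide +kernel)

theorem at15 : BandAt band 6 ks 100000 (H 15) :=
  at14.drop (by norm_num) ks_sum (fun hs => drop14 facets hs) (by decide +kernel)

theorem at16 : BandAt band 6 ks 100000 (H 16) :=
  at15.drop (by norm_num) ks_sum (fun hs => drop15 facets hs) (by decide +kernel)

theorem at17 : BandAt band 6 ks 100000 (H 17) :=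
  at16.drop (by norm_num) ks_sum (fun hs => drop16 facets hs) (by decide +kernel)

theorem at18 : BandAt band 6 ks 100000 (H 18) :=
  at17.drop (by norm_num) ks_sum (fun hs => drop17 facets hs) (by decide +kernel)

theorem at19 : BandAt band 6 ks 100000 (H 19) :=
  at18.drop (by norm_num) ks_sum (fun hs => drop18 facets hs) (by decide +kernel)

theorem at20 : BandAt band 6 ks 100000 (H 20) :=
  at19.drop (by norm_num) ks_sum (fun hs => drop19 facets hs) (by decide +kernel)

theorem at21 : BandAt band 6 ks 100000 (H 21) :=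
  at20.drop (by norm_num) ks_sum (fun hs => drop20 facets hs) (by decide +kernel)

theorem at22 : BandAt band 6 ks 100000 (H 22) :=
  at21.drop (by norm_num) ks_sum (fun hs => drop21 facets hs) (by decide +kernel)

theorem at23 : BandAt band 6 ks 100000 (H 23) :=
  at22.drop (by norm_num) ks_sum (fun hs => drop22 facets hs) (by decide +kernel)

theorem at24 : BandAt band 6 ks 100000 (H 24) :=
  at23.drop (by norm_num) ks_sum (fun hs => drop23 facets hs) (by decide +kernel)

theorem at25 : BandAt band 6 ks 100000 (H 25) :=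
  at24.drop (by norm_num) ks_sum (fun hs => drop24 facets hs) (by decide +kernel)

theorem at26 : BandAt band 6 ks 100000 (H 26) :=
  at25.drop (by norm_num) ks_sum (fun hs => drop25 facets hs) (by decide +kernel)

theorem at27 : BandAt band 6 ks 100000 (H 27) :=
  at26.drop (by norm_num) ks_sum (fun hs => drop26 facets hs) (by decide +kernel)

theorem at28 : BandAt band 6 ks 100000 (H 28) :=
  at27.drop (by norm_num) ks_sum (fun hs => drop27 facets hs) (by decide +kernel)

theorem at29 : BandAt band 6 ks 100000 (H 29) :=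
  at28.drop (by norm_num) ks_sum (fun hs => drop28 facets hs) (by decide +kernel)

theorem at30 : BandAt band 6 ks 100000 (H 30) :=
  at29.drop (by norm_num) ks_sum (fun hs => drop29 facets hs) (by decide +kernel)

theorem at31 : BandAt band 6 ks 100000 (H 31) :=
  at30.drop (by norm_num) ks_sum (fun hs => drop30 facets hs) (by decide +kernel)

theorem at32 : BandAt band 6 ks 100000 (H 32) :=
  at31.drop (by norm_num) ks_sum (fun hs => drop31 facets hs) (by decide +kernel)

theorem at33 : BandAt band 6 ks 100000 (H 33) :=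
  at32.drop (by norm_num) ks_sum (fun hs => drop32 facets hs) (by decide +kernel)

theorem at34 : BandAt band 6 ks 100000 (H 34) :=
  at33.drop (by norm_num) ks_sum (fun hs => drop33 facets hs) (by decide +kernel)

theorem at35 : BandAt band 6 ks 100000 (H 35) :=
  at34.drop (by norm_num) ks_sum (fun hs => drop34 facets hs) (by decide +kernel)

theorem at36 : BandAt band 6 ks 100000 (H 36) :=
  at35.drop (by norm_num) ks_sum (fun hs => drop35 facets hs) (by decide +kernel)

theorem at37 : BandAt band 6 ks 100000 (H 37) :=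
  at36.drop (by norm_num) ks_sum (fun hs => drop36 facets hs) (by decide +kernel)

theorem at38 : BandAt band 6 ks 100000 (H 38) :=
  at37.drop (by norm_num) ks_sum (fun hs => drop37 facets hs) (by decide +kernel)

theorem at39 : BandAt band 6 ks 100000 (H 39) :=
  at38.drop (by norm_num) ks_sum (fun hs => drop38 facets hs) (by decide +kernel)

theorem at40 : BandAt band 6 ks 100000 (H 40) :=
  at39.drop (by norm_num) ks_sum (fun hs => drop39 facets hs) (by decide +kernel)

theorem at41 : BandAt band 6 ks 100000 (H 41) :=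
  at40.drop (by norm_num) ks_sum (fun hs => drop40 facets hs) (by decide +kernel)

theorem at42 : BandAt band 6 ks 100000 (H 42) :=
  at41.drop (by norm_num) ks_sum (fun hs => drop41 facets hs) (by decide +kernel)

theorem at43 : BandAt band 6 ks 100000 (H 43) :=
  at42.drop (by norm_num) ks_sum (fun hs => drop42 facets hs) (by decide +kernel)

theorem at44 : BandAt band 6 ks 100000 (H 44) :=
  at43.drop (by norm_num) ks_sum (fun hs => drop43 facets hs) (by decide +kernel)

theorem at45 : BandAt band 6 ks 100000 (H 45) :=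
  at44.drop (by norm_num) ks_sum (fun hs => drop44 facets hs) (by decide +kernel)

theorem at46 : BandAt band 6 ks 100000 (H 46) :=
  at45.drop (by norm_num) ks_sum (fun hs => drop45 facets hs) (by decide +kernel)

theorem at47 : BandAt band 6 ks 100000 (H 47) :=
  at46.drop (by norm_num) ks_sum (fun hs => drop46 facets hs) (by decide +kernel)

theorem at48 : BandAt band 6 ks 100000 (H 48) :=
  at47.drop (by norm_num) ks_sum (fun hs => drop47 facets hs) (by decide +kernel)

theorem at49 : BandAt band 6 ks 100000 (H 49) :=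
  at48.drop (by norm_num) ks_sum (fun hs => drop48 facets hs) (by decide +kernel)

theorem at50 : BandAt band 6 ks 100000 (H 50) :=
  at49.drop (by norm_num) ks_sum (fun hs => drop49 facets hs) (by decide +kernel)

theorem at51 : BandAt band 6 ks 100000 (H 51) :=
  at50.drop (by norm_num) ks_sum (fun hs => drop50 facets hs) (by decide +kernel)

theorem at52 : BandAt band 6 ks 100000 (H 52) :=
  at51.drop (by norm_num) ks_sum (fun hs => drop51 facets hs) (by decide +kernel)

theorem at53 : BandAt band 6 ks 100000 (H 53) :=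
  at52.drop (by norm_num) ks_sum (fun hs => drop52 facets hs) (by decide +kernel)

theorem at54 : BandAt band 6 ks 100000 (H 54) :=
  at53.drop (by norm_num) ks_sum (fun hs => drop53 facets hs) (by decide +kernel)

theorem at55 : BandAt band 6 ks 100000 (H 55) :=
  at54.drop (by norm_num) ks_sum (fun hs => drop54 facets hs) (by decide +kernel)

theorem at56 : BandAt band 6 ks 100000 (H 56) :=
  at55.drop (by norm_num) ks_sum (fun hs => drop55 facets hs) (by decide +kernel)

theorem at57 : BandAt band 6 ks 100000 (H 57) :=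
  at56.drop (by norm_num) ks_sum (fun hs => drop56 facets hs) (by decide +kernel)

theorem at58 : BandAt band 6 ks 100000 (H 58) :=
  at57.drop (by norm_num) ks_sum (fun hs => drop57 facets hs) (by decide +kernel)

theorem at59 : BandAt band 6 ks 100000 (H 59) :=
  at58.drop (by norm_num) ks_sum (fun hs => drop58 facets hs) (by decide +kernel)

theorem at60 : BandAt band 6 ks 100000 (H 60) :=
  at59.drop (by norm_num) ks_sum (fun hs => drop59 facets hs) (by decide +kernel)

theorem at61 : BandAt band 6 ks 100000 (H 61) :=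
  at60.drop (by norm_num) ks_sum (fun hs => drop60 facets hs) (by decide +kernel)

theorem at62 : BandAt band 6 ks 100000 (H 62) :=
  at61.drop (by norm_num) ks_sum (fun hs => drop61 facets hs) (by decide +kernel)

theorem at63 : BandAt band 6 ks 100000 (H 63) :=
  at62.drop (by norm_num) ks_sum (fun hs => drop62 facets hs) (by decide +kernel)

theorem at64 : BandAt band 6 ks 100000 (H 64) :=
  at63.drop (by norm_num) ks_sum (fun hs => drop63 facets hs) (by decide +kernel)

theorem at65 : BandAt band 6 ks 100000 (H 65) :=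
  at64.drop (by norm_num) ks_sum (fun hs => drop64 facets hs) (by decide +kernel)

theorem at66 : BandAt band 6 ks 100000 (H 66) :=
  at65.drop (by norm_num) ks_sum (fun hs => drop65 facets hs) (by decide +kernel)

theorem at67 : BandAt band 6 ks 100000 (H 67) :=
  at66.drop (by norm_num) ks_sum (fun hs => drop66 facets hs) (by decide +kernel)

theorem at68 : BandAt band 6 ks 100000 (H 68) :=
  at67.drop (by norm_num) ks_sum (fun hs => drop67 facets hs) (by decide +kernel)

theorem reach : BandReach ((band.P0 : ℝ) / band.Q) ((band.P1 : ℝ) / band.Q) :=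
  at68.finish (by decide +kernel) (by decide +kernel)

end Vale.Agent.P154.Ly.BH
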