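import Vale.Agent.P154.LyBandChk

/-!
Bands of the edge parameter `s`: a list of drops, checked uniformly on the band, gives a level
with second moment at most `7 / 100` for every parameter of the band; bands covering
`[28867 / 100000, 1 / 2]` cover every Poisson mean offspring number in `[4, 12]`.
-/

open scoped BigOperators
open Filter

namespace Vale.Agent.P154.Ly

variable {m N dh : ℕ} {B : Band} {ks : Fin m → Tri}

/-! ### The coordinates -/

/-- Every coordinate is nonincreasing in the depth. -/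
theorem coord_antitone {s d : ℝ} (hN : 0 < N) (hk : ∀ j, ∑ i, tri (ks j) i = N) (hs : s ≤ 1 / 2)
    (hs0 : 0 < s) (hd : 0 ≤ d) (i : Fin (m + 1)) :
    Antitone fun n => mean (-s) d n (coord N ks s i) := by
  have hl : -(1 / 2) ≤ -s := by linarith
  have hu : -s ≤ 1 := by linarith
  refine Fin.cases ?_ (fun j => ?_) i
  · have e : coord N ks s 0 = sq := by simp [coord]
    rw [e]
    exact mean_sq_antitone hl hu hd
  · refine mean_antitone_of_test hl hu hd ?_ (bdd_coord hN ks hk hs hs0.le j.succ)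
    simp only [coord, Fin.cons_succ]
    exact (testFn_defect_img hN (hk j) hl hu).const_mul (by positivity)

/-! ### Chains on a band -/

/-- The bounds `H / dh` are reached at every parameter of the band. -/
def BandAt (B : Band) (N : ℕ) (ks : Fin m → Tri) (dh : ℕ) (H : Fin (m + 1) → ℤ) : Prop :=
  ∀ s, B.Mem s → Reach (-s) (1 / s ^ 2) (coord N ks s) fun i => (H i : ℝ) / dh

/-- Starting bounds: `sq ≤ 1` and `(1 - sHel) / s ^ 2 ≤ (Q / P0) ^ 2`. -/
def startTest (B : Band) (dh : ℕ) (H : Fin (m + 1) → ℤ) : Bool :=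
  decide (0 < dh) && decide ((dh : ℤ) ≤ H 0)
    && decide (∀ j : Fin m, B.Q ^ 2 * dh ≤ H j.succ * B.P0 ^ 2)

/-- The starting bounds are reached. -/
theorem BandAt.start (hN : 0 < N) (hk : ∀ j, ∑ i, tri (ks j) i = N) {H : Fin (m + 1) → ℤ}
    (h : startTest B dh H = true) : BandAt B N ks dh H := by
  simp only [startTest, Bool.and_eq_true, decide_eq_true_eq] at h
  intro s hs
  have hs0 := hs.pos
  have hs2 := hs.le_half
  obtain ⟨hok, hlo, -⟩ := hs
  simp only [Band.ok, Bool.and_eq_true, decide_eq_true_eq] at hok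
  have hl : -(1 / 2) ≤ -s := by linarith
  have hu : -s ≤ 1 := by linarith
  have hdh : (0 : ℝ) < dh := by exact_mod_cast h.1.1
  have hP : (0 : ℝ) < B.P0 := by exact_mod_cast hok.1.1
  have hQ : (0 : ℝ) < B.Q := by exact_mod_cast hok.1.2
  refine reach_start hl hu (by positivity) (bdd_coord hN ks hk hs2 hs0.le) fun i u hu' => ?_
  refine Fin.cases ?_ (fun j => ?_) i
  · rw [le_div_iff₀ hdh, show coord N ks s 0 = sq by simp [coord]]
    have h0 : (dh : ℝ) ≤ H 0 := by exact_mod_cast h.1.2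
    exact (mul_le_of_le_one_left hdh.le (sq_mem hu').2).trans h0
  · rw [le_div_iff₀ hdh]
    simp only [coord, Fin.cons_succ]
    have hj : (B.Q : ℝ) ^ 2 * dh ≤ H j.succ * (B.P0 : ℝ) ^ 2 := by exact_mod_cast h.2 j
    have hd1 := defect_img_le_one hN (hk j) hl hu hu'
    have hsq : (B.P0 : ℝ) ^ 2 ≤ s ^ 2 * (B.Q : ℝ) ^ 2 := by
      rw [← mul_pow]
      exact pow_le_pow_left₀ hP.le hlo 2
    have hH : (0 : ℝ) ≤ H j.succ :=
      nonneg_of_mul_nonneg_left (le_trans (by positivity) hj) (by positivity)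
    have key : (dh : ℝ) ≤ H j.succ * s ^ 2 := by
      refine le_of_mul_le_mul_left ?_ (pow_pos hQ 2)
      calc (B.Q : ℝ) ^ 2 * dh ≤ H j.succ * (B.P0 : ℝ) ^ 2 := hj
        _ ≤ H j.succ * (s ^ 2 * (B.Q : ℝ) ^ 2) := mul_le_mul_of_nonneg_left hsq hH
        _ = (B.Q : ℝ) ^ 2 * (H j.succ * s ^ 2) := by ring
    calc 1 / s ^ 2 * (1 - sHel N (tri (ks j)) (img (-s) u)) * (dh : ℝ)
        ≤ 1 / s ^ 2 * 1 * ((H j.succ : ℝ) * s ^ 2) := by
          refine mul_le_mul (mul_le_mul_of_nonneg_left hd1 (by positivity)) key hdh.le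
            (by positivity)
      _ = (H j.succ : ℝ) := by field_simp

/-- A drop replaces one bound. -/
theorem BandAt.drop {H H' : Fin (m + 1) → ℤ} {a : Fin (m + 1)} {L : ℤ}
    (hR : BandAt B N ks dh H) (hN : 0 < N) (hk : ∀ j, ∑ i, tri (ks j) i = N)
    (hG : ∀ {s : ℝ}, B.Mem s →
      DropGain (-s) (1 / s ^ 2) (coord N ks s) (fun i => (H i : ℝ) / dh) a ((L : ℝ) / dh))
    (hH : ∀ i, Function.update H a L i = H' i) : BandAt B N ks dh H' := by
  intro s hs
  have hs0 := hs.pos
  have hd : (0 : ℝ) ≤ 1 / s ^ 2 := by positivity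
  have := (hR s hs).drop (by linarith [hs.le_half]) (by linarith) hd
    (coord_antitone hN hk hs.le_half hs0 hd) (hG hs)
  have e : Function.update (fun i => (H i : ℝ) / dh) a ((L : ℝ) / dh)
      = fun i => (H' i : ℝ) / dh := by
    funext i
    rw [← hH i]
    rcases eq_or_ne i a with rfl | hne
    · simp
    · simp [hne]
  rwa [e] at this

/-- The coefficients of a facet on all coordinates. -/
def Facet.coef (f : Facet m) : Fin (m + 1) → ℤ := Fin.cons f.c1 f.e

/-- The bound on the coordinate `b` implied by a facet, the other bounds and nonnegativity. -/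
def implTest (dh : ℕ) (H : Fin (m + 1) → ℤ) (f : Facet m) (b : Fin (m + 1)) (L : ℤ) : Bool :=
  decide (0 < dh) && decide (f.coef b < 0) && decide (f.c0 * dh
    + ∑ i, (if i = b then 0 else ipos (f.coef i) * H i) ≤ -f.coef b * L)

/-- A checked facet may replace one bound. -/
theorem BandAt.facet {H H' : Fin (m + 1) → ℤ} (f : Facet m) (b : Fin (m + 1)) (L : ℤ)
    (hR : BandAt B N ks dh H) (hN : 0 < N) (hk : ∀ j, ∑ i, tri (ks j) i = N)
    (hf : ∃ c, facetTest N B ks f c = true) (h : implTest dh H f b L = true)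
    (hH : ∀ i, Function.update H b L i = H' i) : BandAt B N ks dh H' := by
  classical
  simp only [implTest, Bool.and_eq_true, decide_eq_true_eq, ipos_eq] at h
  intro s hs
  have hs0 := hs.pos
  obtain ⟨n, hn⟩ := hR s hs
  refine ⟨n, fun i => ?_⟩
  show mean (-s) (1 / s ^ 2) n (coord N ks s i) ≤ (H' i : ℝ) / dh
  rw [← hH i]
  rcases eq_or_ne i b with rfl | hne
  · rw [Function.update_self]
    have hdh : (0 : ℝ) < dh := by exact_mod_cast h.1.1
    have hl : -(1 / 2) ≤ -s := by linarith [hs.le_half]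
    have hX := xf_of_forms (Fs := [f]) hN hk hs.le_half hs0
      (facets_sound hs fun g hg => by rw [List.mem_singleton] at hg; subst hg; exact hf)
      (mean (-s) (1 / s ^ 2) n) (isLaw_mean hl (by linarith) (by positivity) n)
    set z : Fin (m + 1) → ℝ := fun j => mean (-s) (1 / s ^ 2) n (coord N ks s j) with hz
    have hev : 0 ≤ (f.c0 : ℝ) + ∑ j, (f.coef j : ℝ) * z j := by
      have := hX.2 f (List.mem_singleton_self f)
      simp only [Facet.holds, Facet.eval] at this
      simp only [Fin.sum_univ_succ, Facet.coef, Fin.cons_zero, Fin.cons_succ]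
      linarith
    rw [← Finset.add_sum_erase _ _ (Finset.mem_univ i)] at hev
    have hb : (∑ j ∈ Finset.univ.erase i, (f.coef j : ℝ) * z j) * dh
        ≤ ((∑ j, if j = i then 0 else max 0 (f.coef j) * H j : ℤ) : ℝ) := by
      rw [Finset.sum_mul, ← Finset.add_sum_erase (Finset.univ : Finset (Fin (m + 1))) _
        (Finset.mem_univ i), if_pos rfl, zero_add, Int.cast_sum]
      refine Finset.sum_le_sum fun j hj => ?_
      rw [if_neg (Finset.ne_of_mem_erase hj)]
      push_cast
      rw [mul_assoc]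
      refine (mul_le_mul_of_nonneg_right (le_max_right (0 : ℝ) (f.coef j : ℝ))
        (mul_nonneg (hX.1 j) hdh.le)).trans ?_
      exact mul_le_mul_of_nonneg_left ((le_div_iff₀ hdh).1 (hn j)) (le_max_left _ _)
    have hc : (f.coef i : ℝ) < 0 := by exact_mod_cast h.1.2
    have h2' : (f.c0 : ℝ) * dh + ((∑ j, if j = i then 0 else max 0 (f.coef j) * H j : ℤ) : ℝ)
        ≤ -(f.coef i : ℝ) * L := by exact_mod_cast h.2
    show z i ≤ (L : ℝ) / dh
    rw [le_div_iff₀ hdh]
    refine le_of_mul_le_mul_left ?_ (neg_pos.2 hc)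
    nlinarith [mul_nonneg hev hdh.le]
  · rw [Function.update_of_ne hne]
    exact hn i

/-! ### Covers -/

/-- At every parameter in `[lo, hi]` some level has second moment at most `7 / 100`. -/
def BandReach (lo hi : ℝ) : Prop :=
  ∀ s, lo ≤ s → s ≤ hi → ∃ n, mean (-s) (1 / s ^ 2) n sq ≤ 7 / 100

/-- The end of a chain. -/
theorem BandAt.finish {H : Fin (m + 1) → ℤ} (hR : BandAt B N ks dh H) (hB : B.ok = true)
    (h : (decide (0 < dh) && decide (H 0 * 100 ≤ 7 * (dh : ℤ))) = true) :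
    BandReach ((B.P0 : ℝ) / B.Q) ((B.P1 : ℝ) / B.Q) := by
  simp only [Bool.and_eq_true, decide_eq_true_eq] at h
  have hok := hB
  simp only [Band.ok, Bool.and_eq_true, decide_eq_true_eq] at hok
  have hQ : (0 : ℝ) < B.Q := by exact_mod_cast hok.1.2
  have hdh : (0 : ℝ) < dh := by exact_mod_cast h.1
  intro s hlo hhi
  obtain ⟨n, hn⟩ := hR s ⟨hB, (div_le_iff₀ hQ).1 hlo, (le_div_iff₀ hQ).1 hhi⟩
  refine ⟨n, ?_⟩
  have h0 := hn 0
  simp only [coord, Fin.cons_zero] at h0
  refine h0.trans ((div_le_iff₀ hdh).2 ?_)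
  have h' : (H 0 : ℝ) * 100 ≤ 7 * (dh : ℝ) := by exact_mod_cast h.2
  linarith

/-- Neighbouring bands join. -/
theorem BandReach.glue {a b b' c : ℝ} (h1 : BandReach a b) (h2 : BandReach b' c) (h : b' ≤ b) :
    BandReach a c := fun s hlo hhi =>
  (le_total s b).elim (fun hs => h1 s hlo hs) fun hs => h2 s (h.trans hs) hhi

theorem BandReach.mono {a b a' b' : ℝ} (h : BandReach a b) (h1 : a ≤ a') (h2 : b' ≤ b) :
    BandReach a' b' := fun s hlo hhi => h s (h1.trans hlo) (hhi.trans h2)

/-- Bands covering `[28867 / 100000, 1 / 2]` and the endgame give the threshold for every mean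
offspring number in `[4, 12]`. -/
theorem tendsto_gwTV_of_bands (hcov : BandReach (28867 / 100000) (1 / 2))
    (hEnd : ∀ d : ℝ, 4 ≤ d → d ≤ 12 → (∃ n, mean (-(1 / √d)) d n sq ≤ 7 / 100) →
      Tendsto (gwTV (poissonLaw d) (-(1 / √d))) atTop (nhds 0)) :
    ∀ d : ℝ, 4 ≤ d → d ≤ 12 → Tendsto (gwTV (poissonLaw d) (-(1 / √d))) atTop (nhds 0) := by
  intro d h4 h12
  refine hEnd d h4 h12 ?_
  have hd : (0 : ℝ) < √d := Real.sqrt_pos.2 (by linarith)
  have hlo : (28867 : ℝ) / 100000 ≤ 1 / √d := by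
    rw [le_div_iff₀ hd]
    have hle : √d ≤ 100000 / 28867 := Real.sqrt_le_iff.2 ⟨by norm_num, by norm_num; linarith⟩
    linarith
  have hhi : 1 / √d ≤ 1 / 2 := by
    refine one_div_le_one_div_of_le two_pos (Real.le_sqrt_of_sq_le ?_)
    linarith
  obtain ⟨n, hn⟩ := hcov _ hlo hhi
  refine ⟨n, ?_⟩
  rwa [show 1 / (1 / √d) ^ 2 = d by
    rw [div_pow, one_pow, Real.sq_sqrt (by linarith), one_div_one_div]] at hn

end Vale.Agent.P154.Ly
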