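import Vale.Agent.P154.LyScalar

/-!
Glue for generated band certificates: Boolean checks of forms and facets on a band of the edge
parameter, and one drop from its checks.
-/

open scoped BigOperators

namespace Vale.Agent.P154.Ly

variable {m N : ℕ}

/-- A band of the parameter: `[P0 / Q, P1 / Q]`. -/
structure Band where
  /-- lower end times the unit -/
  P0 : ℤ
  /-- upper end times the unit -/
  P1 : ℤ
  /-- unit -/
  Q : ℤ

/-- A band inside `(0, 1 / 2]`. -/
def Band.ok (B : Band) : Bool :=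
  decide (0 < B.P0) && decide (0 < B.Q) && decide (2 * B.P1 ≤ B.Q)

/-- A point of a band. -/
def Band.Mem (B : Band) (s : ℝ) : Prop :=
  B.ok = true ∧ (B.P0 : ℝ) ≤ s * B.Q ∧ s * B.Q ≤ B.P1

lemma Band.Mem.pos {B : Band} {s : ℝ} (h : B.Mem s) : 0 < s := by
  obtain ⟨hok, h0, -⟩ := h
  simp only [Band.ok, Bool.and_eq_true, decide_eq_true_eq] at hok
  have hP : (0 : ℝ) < B.P0 := by exact_mod_cast hok.1.1
  exact pos_of_mul_pos_left (hP.trans_le h0) (by exact_mod_cast hok.1.2.le)

lemma Band.Mem.le_half {B : Band} {s : ℝ} (h : B.Mem s) : s ≤ 1 / 2 := by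
  obtain ⟨hok, -, h1⟩ := h
  simp only [Band.ok, Bool.and_eq_true, decide_eq_true_eq] at hok
  have hQ : (0 : ℝ) < B.Q := by exact_mod_cast hok.1.2
  have h2 : (2 : ℝ) * B.P1 ≤ B.Q := by exact_mod_cast hok.2
  by_contra hs
  have := mul_lt_mul_of_pos_right (not_le.1 hs) hQ
  linarith

/-- A certificate of one form: root unit, packing width, degree, tree. -/
structure Cert where
  /-- root unit -/
  R : ℤ
  /-- digit width -/
  K : ℕ
  /-- degree -/
  D : ℕ
  /-- tree -/
  T : Box.TrM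

/-- The check of a posterior form. -/
def uTest (N : ℕ) (L : List (Tri × ℤ)) (p : P4) (c : Cert) : Bool :=
  decide (0 < c.R) && okTri N L && c.T.chkM c.K c.D [ordExp] (uExp N c.R L p) (uBox c.R)

/-- The check of an image form on a band. -/
def wTest (N : ℕ) (B : Band) (L : List (Tri × ℤ)) (p : P4) (c : Cert) : Bool :=
  decide (0 < c.R) && okTri N L
    && c.T.chkM c.K c.D (wGuard N c.R B.Q) (wExp N c.R B.Q L p) (wBox c.R B.P0 B.P1)

lemma uTest_sound {L : List (Tri × ℤ)} {p : P4} {c : Cert} (h : uTest N L p c = true)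
    {a : Spin → ℝ} (ha : InS a) : 0 ≤ hsum N L a + p.val a := by
  simp only [uTest, Bool.and_eq_true, decide_eq_true_eq] at h
  exact uChk_sound h.1.1 h.1.2 h.2 ha

lemma wTest_sound {B : Band} {s : ℝ} (hs : B.Mem s) {L : List (Tri × ℤ)} {p : P4} {c : Cert}
    (h : wTest N B L p c = true) {u : Spin → ℝ} (hu : InS u) :
    0 ≤ ((csum L : ℝ) - hsum N L (img (-s) u)) / s ^ 2 + p.val u := by
  simp only [wTest, Bool.and_eq_true, decide_eq_true_eq] at h
  obtain ⟨hok, h0, h1⟩ := id hs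
  simp only [Band.ok, Bool.and_eq_true, decide_eq_true_eq] at hok
  exact wChk_sound h.1.1 hok.1.2 hok.1.1 h.1.2 h.2 h0 h1 hu hs.le_half

/-- The check of a form without cubic and quartic parts, at twice the root degree. -/
def fTest (N : ℕ) (B : Band) (L : List (Tri × ℤ)) (c0 c1 : ℤ) (c : Cert) : Bool :=
  decide (0 < c.R) && okTri N L
    && c.T.chkM c.K c.D (wGuard N c.R B.Q) (fExp N c.R B.Q L c0 c1) (wBox c.R B.P0 B.P1)

lemma fTest_sound {B : Band} {s : ℝ} (hs : B.Mem s) {L : List (Tri × ℤ)} {c0 c1 : ℤ} {c : Cert}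
    (h : fTest N B L c0 c1 c = true) {u : Spin → ℝ} (hu : InS u) :
    0 ≤ ((csum L : ℝ) - hsum N L (img (-s) u)) / s ^ 2 + (⟨c0, c1, 0, 0⟩ : P4).val u := by
  simp only [fTest, Bool.and_eq_true, decide_eq_true_eq] at h
  obtain ⟨hok, h0, h1⟩ := id hs
  simp only [Band.ok, Bool.and_eq_true, decide_eq_true_eq] at hok
  refine wForm_of_nonneg (G' := []) h.1.1 hok.1.2 hok.1.1 h.1.2 (fun y hy hG => ?_) h0 h1 hu
    hs.le_half fun _ _ _ _ he => absurd he List.not_mem_nil
  rw [wExp_eq_fExp]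
  rw [List.append_nil] at hG
  exact mul_nonneg (sq_nonneg _) (Box.nonneg_of_chkM _ _ _ _ h.2 hy hG)

/-- The check of one facet: certificates of degree at most `2 N` are for the reduced form. -/
def facetTest (N : ℕ) (B : Band) (ks : Fin m → Tri) (f : Facet m) (c : Cert) : Bool :=
  match Nat.ble c.D (2 * N) with
  | true => fTest N B (pairs ks f.e) f.c0 f.c1 c
  | false => wTest N B (pairs ks f.e) f.p c

/-- Checked facets hold for the image forms. -/
theorem facets_sound {B : Band} {ks : Fin m → Tri} {Fs : List (Facet m)} {s : ℝ} (hs : B.Mem s)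
    (h : ∀ f ∈ Fs, ∃ c, facetTest N B ks f c = true) :
    ∀ f ∈ Fs, ∀ u, InS u →
      0 ≤ ((csum (pairs ks f.e) : ℝ) - hsum N (pairs ks f.e) (img (-s) u)) / s ^ 2 + f.p.val u :=
  fun f hf u hu => by
    obtain ⟨c, hc⟩ := h f hf
    unfold facetTest at hc
    cases hb : Nat.ble c.D (2 * N) <;> rw [hb] at hc
    · exact wTest_sound hs hc hu
    · exact fTest_sound hs hc hu

/-- One drop from its checks. -/
theorem Step.drop_of_tests (S : Step m) {B : Band} {ks : Fin m → Tri} {dh : ℕ}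
    {H : Fin (m + 1) → ℤ} {Fs : List (Facet m)} {r n K : ℕ} {T : STree m} {cw cu : Cert}
    (hN : 0 < N) (hk : ∀ j, ∑ i, tri (ks j) i = N) (hok : S.ok dh H = true)
    (hw : wTest N B (pairs ks S.e) S.p cw = true)
    (hu : uTest N (pairs ks fun j => -S.c j) S.q cu = true)
    (hF : ∀ f ∈ Fs, ∃ c, facetTest N B ks f c = true)
    (hsc : S.scalarChk dh H Fs r n K T = true) {s : ℝ} (hs : B.Mem s) :
    DropGain (-s) (1 / s ^ 2) (coord N ks s) (fun i => (H i : ℝ) / dh) S.a ((S.L : ℝ) / dh) :=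
  S.dropGain_of_chk hN hk hs.le_half hs.pos hok (fun _ h => wTest_sound hs hw h)
    (fun _ h => uTest_sound hu h) (facets_sound hs hF) hsc

end Vale.Agent.P154.Ly
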