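import Vale.Agent.P154.InvPack

/-!
A sign test for polynomial expressions in three variables on a region cut out of a box by
affine inequalities: a subdivision tree whose leaves are boxes with nonnegative homogenised
coefficients (computed on packed integers) or boxes outside the region.
-/

namespace Vale.Agent.P154.Ly.Box

open Bern

/-- Polynomial expressions in three variables. -/
inductive Ex
  | con (k : ℤ)
  | var (i : ℕ)
  | add (p q : Ex)
  | mul (p q : Ex)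
  | smul (k : ℤ) (p : Ex)

/-- The value of an expression. -/
noncomputable def Ex.eval (y : ℕ → ℝ) : Ex → ℝ
  | .con k => (k : ℝ)
  | .var i => y i
  | .add p q => p.eval y + q.eval y
  | .mul p q => p.eval y * q.eval y
  | .smul k p => (k : ℝ) * p.eval y

/-- A packed homogenised polynomial. -/
structure Pk where
  /-- Degree in the first variable. -/
  d0 : ℕ
  /-- Degree in the second variable. -/
  d1 : ℕ
  /-- Degree in the third variable. -/
  d2 : ℕ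
  /-- The packed integer. -/
  N : ℤ
  /-- A bound on the sum of the absolute coefficients. -/
  m : ℕ

/-- The degrees as a function. -/
def Pk.deg (p : Pk) : ℕ → ℕ
  | 0 => p.d0
  | 1 => p.d1
  | 2 => p.d2
  | _ => 0

variable (K D : ℕ)

/-- A constant. -/
def pcon (k : ℤ) : Pk := ⟨0, 0, 0, k, k.natAbs⟩

/-- An integer multiple. -/
def psmul (k : ℤ) (p : Pk) : Pk := ⟨p.d0, p.d1, p.d2, k * p.N, k.natAbs * p.m⟩

/-- A product. -/
def pmul (p q : Pk) : Pk := ⟨p.d0 + q.d0, p.d1 + q.d1, p.d2 + q.d2, p.N * q.N, p.m * q.m⟩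

/-- The variable `i`, running from `a` to `b`. -/
def plin (i : ℕ) (a b : ℤ) : Pk :=
  match i with
  | 0 => ⟨1, 0, 0, a + (width K D 2 : ℤ) * b, a.natAbs + b.natAbs⟩
  | 1 => ⟨0, 1, 0, a + (width K D 1 : ℤ) * b, a.natAbs + b.natAbs⟩
  | _ => ⟨0, 0, 1, a + (width K D 0 : ℤ) * b, a.natAbs + b.natAbs⟩

/-- Multiplication by powers of the degree-one units. -/
def ptimes (i : ℕ) : ℕ → Pk → Pk
  | 0, p => p
  | k + 1, p => pmul (plin K D i 1 1) (ptimes i k p)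

/-- Raising degrees. -/
def pup (a b c : ℕ) (p : Pk) : Pk := ptimes K D 0 a (ptimes K D 1 b (ptimes K D 2 c p))

/-- A sum. -/
def padd (p q : Pk) : Pk :=
  let p' := pup K D (q.d0 - p.d0) (q.d1 - p.d1) (q.d2 - p.d2) p
  let q' := pup K D (p.d0 - q.d0) (p.d1 - q.d1) (p.d2 - q.d2) q
  ⟨p'.d0, p'.d1, p'.d2, p'.N + q'.N, p'.m + q'.m⟩

/-- A box. -/
structure Bx where
  /-- Lower ends. -/
  a0 : ℤ
  /-- Lower ends. -/
  a1 : ℤ
  /-- Lower ends. -/
  a2 : ℤ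
  /-- Upper ends. -/
  b0 : ℤ
  /-- Upper ends. -/
  b1 : ℤ
  /-- Upper ends. -/
  b2 : ℤ

/-- Lower end of a coordinate. -/
def Bx.lo (B : Bx) : ℕ → ℤ
  | 0 => B.a0
  | 1 => B.a1
  | _ => B.a2

/-- Upper end of a coordinate. -/
def Bx.hi (B : Bx) : ℕ → ℤ
  | 0 => B.b0
  | 1 => B.b1
  | _ => B.b2

/-- A point of the half-open box. -/
def Bx.Mem (B : Bx) (y : ℕ → ℝ) : Prop :=
  ((B.a0 : ℝ) ≤ y 0 ∧ y 0 < B.b0) ∧ ((B.a1 : ℝ) ≤ y 1 ∧ y 1 < B.b1) ∧
    ((B.a2 : ℝ) ≤ y 2 ∧ y 2 < B.b2)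

/-- Packed evaluation of an expression on a box. -/
def Ex.run (B : Bx) : Ex → Pk
  | .con k => pcon k
  | .var i => plin K D (min i 2) (B.lo (min i 2)) (B.hi (min i 2))
  | .add p q => padd K D (p.run B) (q.run B)
  | .mul p q => pmul (p.run B) (q.run B)
  | .smul k p => psmul k (p.run B)

/-- The variables used are among the three. -/
def Ex.ok : Ex → Bool
  | .con _ => true
  | .var i => Nat.ble i 2
  | .add p q => p.ok && q.ok
  | .mul p q => p.ok && q.ok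
  | .smul _ p => p.ok

/-- The homogenising factor. -/
noncomputable def scale (d : ℕ → ℕ) (T : ℕ → ℝ) : ℝ :=
  (1 + T 0) ^ d 0 * ((1 + T 1) ^ d 1 * (1 + T 2) ^ d 2)

/-- `p` represents `f` on nonnegative parameters. -/
def Rep (p : Pk) (f : (ℕ → ℝ) → ℝ) : Prop :=
  ∃ L : MP 3, Fit 3 p.deg L ∧ nm 3 L ≤ p.m ∧ Bern.pk K D 3 L = p.N ∧
    ∀ T : ℕ → ℝ, (∀ i, 0 ≤ T i) → ev 3 L T = f T * scale p.deg T

lemma pk_add (a b : MP 3) :
    Bern.pk K D 3 (Bern.add 3 a b) = Bern.pk K D 3 a + Bern.pk K D 3 b := by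
  have h := ev_add 3 a b (bases K D 3)
  simp only [ev_bases] at h
  exact_mod_cast h

lemma pk_mul (a b : MP 3) :
    Bern.pk K D 3 (Bern.mul 3 a b) = Bern.pk K D 3 a * Bern.pk K D 3 b := by
  have h := ev_mul 3 a b (bases K D 3)
  simp only [ev_bases] at h
  exact_mod_cast h

lemma pk_smul (k : ℤ) (a : MP 3) :
    Bern.pk K D 3 (Bern.smul 3 k a) = k * Bern.pk K D 3 a := by
  have h := ev_smul 3 k a (bases K D 3)
  simp only [ev_bases] at h
  exact_mod_cast h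

set_option backward.isDefEq.respectTransparency false in
lemma rep_con (k : ℤ) : Rep K D (pcon k) fun _ => (k : ℝ) := by
  refine ⟨([[[k]]] : List (List (List ℤ))), ?_, ?_, ?_, fun T _ => ?_⟩ <;>
    simp [pcon, Bern.Fit, Pk.deg, Bern.nm, Bern.pk, Bern.ev, scale]

lemma rep_smul {p : Pk} {f : (ℕ → ℝ) → ℝ} (h : Rep K D p f) (k : ℤ) :
    Rep K D (psmul k p) fun T => (k : ℝ) * f T := by
  obtain ⟨L, h1, h2, h3, h4⟩ := h
  refine ⟨Bern.smul 3 k L, fit_smul 3 _ k L h1, ?_, ?_, fun T hT => ?_⟩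
  · exact (nm_smul 3 k L).trans (Nat.mul_le_mul_left _ h2)
  · rw [pk_smul, h3]; rfl
  · rw [ev_smul, h4 T hT, show (psmul k p).deg = p.deg from rfl]; ring

lemma deg_pmul (p q : Pk) : (pmul p q).deg = fun i => p.deg i + q.deg i := by
  funext i; rcases i with _ | _ | _ | i <;> simp [pmul, Pk.deg]

lemma rep_mul {p q : Pk} {f g : (ℕ → ℝ) → ℝ} (h : Rep K D p f) (h' : Rep K D q g) :
    Rep K D (pmul p q) fun T => f T * g T := by
  obtain ⟨L, h1, h2, h3, h4⟩ := h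
  obtain ⟨M, g1, g2, g3, g4⟩ := h'
  refine ⟨Bern.mul 3 L M, (deg_pmul p q) ▸ fit_mul 3 _ _ L M h1 g1, ?_, ?_, fun T hT => ?_⟩
  · exact (nm_mul 3 L M).trans (Nat.mul_le_mul h2 g2)
  · rw [pk_mul, h3, g3]; rfl
  · rw [ev_mul, h4 T hT, g4 T hT, deg_pmul]; simp only [scale, pow_add]; ring

set_option backward.isDefEq.respectTransparency false in
lemma rep_lin {i : ℕ} (hi : i ≤ 2) (a b : ℤ) :
    Rep K D (plin K D i a b) fun T => ((a : ℝ) + (b : ℝ) * T i) / (1 + T i) := by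
  interval_cases i
  · refine ⟨([[[a]], [[b]]] : List (List (List ℤ))), ?_, ?_, ?_, fun T hT => ?_⟩
    · simp [plin, Bern.Fit, Pk.deg]
    · simp [plin, Bern.nm]
    · simp [plin, Bern.pk]
    · have : (1 + T 0) ≠ 0 := by have := hT 0; positivity
      simp [plin, Bern.ev, scale, Pk.deg]; field_simp
  · refine ⟨([[[a], [b]]] : List (List (List ℤ))), ?_, ?_, ?_, fun T hT => ?_⟩
    · simp [plin, Bern.Fit, Pk.deg]
    · simp [plin, Bern.nm]
    · simp [plin, Bern.pk]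
    · have : (1 + T 1) ≠ 0 := by have := hT 1; positivity
      simp [plin, Bern.ev, scale, Pk.deg]; field_simp
  · refine ⟨([[[a, b]]] : List (List (List ℤ))), ?_, ?_, ?_, fun T hT => ?_⟩
    · simp [plin, Bern.Fit, Pk.deg]
    · simp [plin, Bern.nm]
    · simp [plin, Bern.pk]
    · have : (1 + T 2) ≠ 0 := by have := hT 2; positivity
      simp [plin, Bern.ev, scale, Pk.deg]; field_simp

lemma rep_congr {p : Pk} {f g : (ℕ → ℝ) → ℝ} (h : Rep K D p f)
    (e : ∀ T : ℕ → ℝ, (∀ i, 0 ≤ T i) → f T = g T) : Rep K D p g := by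
  obtain ⟨L, h1, h2, h3, h4⟩ := h
  exact ⟨L, h1, h2, h3, fun T hT => by rw [h4 T hT, e T hT]⟩

lemma rep_times {i : ℕ} (hi : i ≤ 2) {p : Pk} {f : (ℕ → ℝ) → ℝ} (h : Rep K D p f) :
    ∀ k, Rep K D (ptimes K D i k p) f
  | 0 => h
  | k + 1 => rep_congr K D (rep_mul K D (rep_lin K D hi 1 1) (rep_times hi h k)) fun T hT => by
      have : (1 + T i) ≠ 0 := by have := hT i; positivity
      rw [Int.cast_one, one_mul, div_self this, one_mul]

lemma ptimes_deg (i : ℕ) (hi : i ≤ 2) (p : Pk) : ∀ k, (ptimes K D i k p).deg i = k + p.deg i ∧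
    ∀ j, j ≠ i → (ptimes K D i k p).deg j = p.deg j
  | 0 => by simp [ptimes]
  | k + 1 => by
    obtain ⟨h1, h2⟩ := ptimes_deg i hi p k
    refine ⟨?_, fun j hj => ?_⟩
    · simp only [ptimes, deg_pmul, h1]
      interval_cases i <;> simp [plin, Pk.deg] <;> omega
    · simp only [ptimes, deg_pmul, h2 j hj]
      interval_cases i <;> rcases j with _ | _ | _ | j <;> simp_all [plin, Pk.deg]

lemma pup_deg (a b c : ℕ) (p : Pk) : (pup K D a b c p).d0 = a + p.d0 ∧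
    (pup K D a b c p).d1 = b + p.d1 ∧ (pup K D a b c p).d2 = c + p.d2 := by
  obtain ⟨h0, h0'⟩ := ptimes_deg K D 0 (by omega) (ptimes K D 1 b (ptimes K D 2 c p)) a
  obtain ⟨h1, h1'⟩ := ptimes_deg K D 1 (by omega) (ptimes K D 2 c p) b
  obtain ⟨h2, h2'⟩ := ptimes_deg K D 2 (by omega) p c
  have e0 := h1' 0 (by omega)
  have e0' := h2' 0 (by omega)
  have e1 := h0' 1 (by omega)
  have e1' := h2' 1 (by omega)
  have e2 := h0' 2 (by omega)
  have e2' := h1' 2 (by omega)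
  simp only [Pk.deg] at h0 h1 h2 e0 e0' e1 e1' e2 e2'
  unfold pup
  omega

lemma rep_up {p : Pk} {f : (ℕ → ℝ) → ℝ} (h : Rep K D p f) (a b c : ℕ) :
    Rep K D (pup K D a b c p) f :=
  rep_times K D (by omega) (rep_times K D (by omega) (rep_times K D (by omega) h c) b) a

lemma rep_add {p q : Pk} {f g : (ℕ → ℝ) → ℝ} (h : Rep K D p f) (h' : Rep K D q g) :
    Rep K D (padd K D p q) fun T => f T + g T := by
  have u := rep_up K D h (q.d0 - p.d0) (q.d1 - p.d1) (q.d2 - p.d2)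
  have v := rep_up K D h' (p.d0 - q.d0) (p.d1 - q.d1) (p.d2 - q.d2)
  obtain ⟨u0, u1, u2⟩ := pup_deg K D (q.d0 - p.d0) (q.d1 - p.d1) (q.d2 - p.d2) p
  obtain ⟨v0, v1, v2⟩ := pup_deg K D (p.d0 - q.d0) (p.d1 - q.d1) (p.d2 - q.d2) q
  unfold padd
  generalize pup K D (q.d0 - p.d0) (q.d1 - p.d1) (q.d2 - p.d2) p = p' at u u0 u1 u2 ⊢
  generalize pup K D (p.d0 - q.d0) (p.d1 - q.d1) (p.d2 - q.d2) q = q' at v v0 v1 v2 ⊢
  obtain ⟨L, h1, h2, h3, h4⟩ := u
  obtain ⟨M, g1, g2, g3, g4⟩ := v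
  have hd : q'.deg = p'.deg := by
    funext i; rcases i with _ | _ | _ | i <;> simp only [Pk.deg] <;> omega
  rw [hd] at g1 g4
  refine ⟨Bern.add 3 L M, fit_add 3 _ L M h1 g1, ?_, ?_, fun T hT => ?_⟩
  · exact (nm_add 3 L M).trans (Nat.add_le_add h2 g2)
  · rw [pk_add, h3, g3]
  · rw [ev_add, h4 T hT, g4 T hT]
    show _ = (f T + g T) * scale p'.deg T
    ring

/-- The point of the box with given parameters. -/
noncomputable def pt (B : Bx) (T : ℕ → ℝ) (i : ℕ) : ℝ :=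
  ((B.lo i : ℝ) + (B.hi i : ℝ) * T i) / (1 + T i)

lemma rep_run (B : Bx) : ∀ p : Ex, p.ok = true →
    Rep K D (p.run K D B) fun T => p.eval (pt B T)
  | .con k, _ => by simpa [Ex.run, Ex.eval] using rep_con K D k
  | .var i, h => by
    have hi : i ≤ 2 := by simpa [Ex.ok] using h
    simpa [Ex.run, Ex.eval, pt, min_eq_left hi] using rep_lin K D hi (B.lo i) (B.hi i)
  | .add p q, h => by
    simp only [Ex.ok, Bool.and_eq_true] at h
    simpa [Ex.run, Ex.eval] using rep_add K D (rep_run B p h.1) (rep_run B q h.2)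
  | .mul p q, h => by
    simp only [Ex.ok, Bool.and_eq_true] at h
    simpa [Ex.run, Ex.eval] using rep_mul K D (rep_run B p h.1) (rep_run B q h.2)
  | .smul k p, h => by
    simpa [Ex.run, Ex.eval] using rep_smul K D (rep_run B p h) k

/-- The test on a packed element. -/
def Pk.test (p : Pk) : Bool :=
  Nat.ble p.d0 D && Nat.ble p.d1 D && Nat.ble p.d2 D && Nat.blt (2 * p.m) (2 ^ K) &&
    match p.N with
    | .ofNat N => Bern.chk K D 3 N
    | .negSucc _ => false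

lemma Ex.eval_congr {y z : ℕ → ℝ} (h : ∀ i ≤ 2, y i = z i) :
    ∀ p : Ex, p.ok = true → p.eval y = p.eval z
  | .con k, _ => rfl
  | .var i, hp => h i (by simpa [Ex.ok] using hp)
  | .add p q, hp => by
    simp only [Ex.ok, Bool.and_eq_true] at hp
    simp only [Ex.eval, Ex.eval_congr h p hp.1, Ex.eval_congr h q hp.2]
  | .mul p q, hp => by
    simp only [Ex.ok, Bool.and_eq_true] at hp
    simp only [Ex.eval, Ex.eval_congr h p hp.1, Ex.eval_congr h q hp.2]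
  | .smul k p, hp => by simp only [Ex.eval, Ex.eval_congr h p hp]

lemma nonneg_of_test {B : Bx} {p : Ex} (hok : p.ok = true) (ht : (p.run K D B).test K D = true)
    {y : ℕ → ℝ} (hy : B.Mem y) : 0 ≤ p.eval y := by
  obtain ⟨L, h1, h2, h3, h4⟩ := rep_run K D B p hok
  generalize p.run K D B = P at ht h1 h2 h3 h4
  simp only [Pk.test, Bool.and_eq_true, Nat.ble_eq, Nat.blt] at ht
  obtain ⟨⟨⟨⟨e0, e1⟩, e2⟩, hm⟩, hN⟩ := ht
  obtain ⟨N, hN', hc⟩ : ∃ N : ℕ, P.N = (N : ℤ) ∧ Bern.chk K D 3 N = true := by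
    cases hP : P.N with
    | ofNat N => rw [hP] at hN; exact ⟨N, rfl, hN⟩
    | negSucc N => rw [hP] at hN; simp at hN
  have hd : ∀ i, P.deg i ≤ D := fun i => by
    rcases i with _ | _ | _ | i <;> simp [Pk.deg] <;> assumption
  have hpos := pos_of_chk K D 3 L P.deg N hd h1 (by omega) hc (h3.trans hN')
  let T : ℕ → ℝ := fun i => if i ≤ 2 then (y i - B.lo i) / ((B.hi i : ℝ) - y i) else 0
  obtain ⟨⟨a0, b0⟩, ⟨a1, b1⟩, ⟨a2, b2⟩⟩ := hy
  have hlh : ∀ i ≤ 2, (B.lo i : ℝ) ≤ y i ∧ y i < B.hi i := fun i hi => by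
    interval_cases i <;> simp [Bx.lo, Bx.hi, *]
  have hT : ∀ i, 0 ≤ T i := fun i => by
    simp only [T]; split_ifs with hi
    · exact div_nonneg (sub_nonneg.2 (hlh i hi).1) (sub_nonneg.2 (hlh i hi).2.le)
    · exact le_refl _
  have hpt : ∀ i ≤ 2, pt B T i = y i := fun i hi => by
    have h' : (B.hi i : ℝ) - y i ≠ 0 := (sub_pos.2 (hlh i hi).2).ne'
    have h'' : (1 + T i) ≠ 0 := by have := hT i; positivity
    rw [pt, div_eq_iff h'']
    simp only [T, hi, if_true]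
    field_simp; ring
  have hv := ev_nonneg_of_pos 3 L hpos T hT
  simp only [h4 T hT, Ex.eval_congr hpt p hok] at hv
  have : 0 < scale P.deg T := by
    have := hT 0; have := hT 1; have := hT 2; unfold scale; positivity
  exact nonneg_of_mul_nonneg_left hv this

/-- An affine form. -/
structure Aff where
  /-- Constant. -/
  k : ℤ
  /-- First coefficient. -/
  k0 : ℤ
  /-- Second coefficient. -/
  k1 : ℤ
  /-- Third coefficient. -/
  k2 : ℤ

/-- The value of an affine form. -/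
noncomputable def Aff.eval (c : Aff) (y : ℕ → ℝ) : ℝ :=
  (c.k : ℝ) + (c.k0 : ℝ) * y 0 + (c.k1 : ℝ) * y 1 + (c.k2 : ℝ) * y 2

/-- The largest value on a box. -/
def Aff.top (c : Aff) (B : Bx) : ℤ :=
  c.k + max (c.k0 * B.a0) (c.k0 * B.b0) + max (c.k1 * B.a1) (c.k1 * B.b1) +
    max (c.k2 * B.a2) (c.k2 * B.b2)

lemma mul_le_max {k a b : ℤ} {y : ℝ} (h1 : (a : ℝ) ≤ y) (h2 : y ≤ b) :
    (k : ℝ) * y ≤ ((max (k * a) (k * b) : ℤ) : ℝ) := by
  push_cast
  rcases le_or_gt (0 : ℝ) k with hk | hk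
  · exact le_max_of_le_right (by nlinarith)
  · exact le_max_of_le_left (by nlinarith)

lemma Aff.eval_le_top (c : Aff) {B : Bx} {y : ℕ → ℝ} (hy : B.Mem y) :
    c.eval y ≤ (c.top B : ℝ) := by
  obtain ⟨⟨a0, b0⟩, ⟨a1, b1⟩, ⟨a2, b2⟩⟩ := hy
  have h0 := mul_le_max (k := c.k0) a0 b0.le
  have h1 := mul_le_max (k := c.k1) a1 b1.le
  have h2 := mul_le_max (k := c.k2) a2 b2.le
  simp only [Aff.eval, Aff.top]
  push_cast at h0 h1 h2 ⊢
  linarith

/-- Subdivision trees. -/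
inductive Tr
  | pos
  | out (j : ℕ)
  | cut (i : ℕ) (m : ℤ) (l r : Tr)

/-- The lower part of a box. -/
def Bx.left (B : Bx) : ℕ → ℤ → Bx
  | 0, m => ⟨B.a0, B.a1, B.a2, m, B.b1, B.b2⟩
  | 1, m => ⟨B.a0, B.a1, B.a2, B.b0, m, B.b2⟩
  | _, m => ⟨B.a0, B.a1, B.a2, B.b0, B.b1, m⟩

/-- The upper part of a box. -/
def Bx.right (B : Bx) : ℕ → ℤ → Bx
  | 0, m => ⟨m, B.a1, B.a2, B.b0, B.b1, B.b2⟩
  | 1, m => ⟨B.a0, m, B.a2, B.b0, B.b1, B.b2⟩
  | _, m => ⟨B.a0, B.a1, m, B.b0, B.b1, B.b2⟩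

lemma Bx.mem_cut {B : Bx} {y : ℕ → ℝ} (hy : B.Mem y) (i : ℕ) (m : ℤ) :
    (B.left i m).Mem y ∨ (B.right i m).Mem y := by
  obtain ⟨⟨a0, b0⟩, ⟨a1, b1⟩, ⟨a2, b2⟩⟩ := hy
  rcases i with _ | _ | i
  · rcases lt_or_ge (y 0) (m : ℝ) with h | h
    · exact Or.inl ⟨⟨a0, h⟩, ⟨a1, b1⟩, ⟨a2, b2⟩⟩
    · exact Or.inr ⟨⟨h, b0⟩, ⟨a1, b1⟩, ⟨a2, b2⟩⟩
  · rcases lt_or_ge (y 1) (m : ℝ) with h | h
    · exact Or.inl ⟨⟨a0, b0⟩, ⟨a1, h⟩, ⟨a2, b2⟩⟩
    · exact Or.inr ⟨⟨a0, b0⟩, ⟨h, b1⟩, ⟨a2, b2⟩⟩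
  · rcases lt_or_ge (y 2) (m : ℝ) with h | h
    · exact Or.inl ⟨⟨a0, b0⟩, ⟨a1, b1⟩, ⟨a2, h⟩⟩
    · exact Or.inr ⟨⟨a0, b0⟩, ⟨a1, b1⟩, ⟨h, b2⟩⟩

/-- The test along a tree. -/
def Tr.chk (C : List Aff) (p : Ex) : Tr → Bx → Bool
  | .pos, B => (p.run K D B).test K D
  | .out j, B =>
    match C[j]? with
    | some c => decide (c.top B < 0)
    | none => false
  | .cut i m l r, B => l.chk C p (B.left i m) && r.chk C p (B.right i m)

/-- A checked tree gives nonnegativity on the region. -/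
theorem nonneg_of_chk {C : List Aff} {p : Ex} (hok : p.ok = true) :
    ∀ (t : Tr) (B : Bx), t.chk K D C p B = true → ∀ {y : ℕ → ℝ}, B.Mem y →
      (∀ c ∈ C, 0 ≤ c.eval y) → 0 ≤ p.eval y
  | .pos, B, h, y, hy, _ => nonneg_of_test K D hok h hy
  | .out j, B, h, y, hy, hC => by
    simp only [Tr.chk] at h
    cases hj : C[j]? with
    | none => rw [hj] at h; simp at h
    | some c =>
      rw [hj] at h
      simp only [decide_eq_true_eq] at h
      have h1 := hC c (List.mem_of_getElem? hj)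
      have h2 := c.eval_le_top hy
      have h3 : ((c.top B : ℤ) : ℝ) < 0 := Int.cast_lt_zero.2 h
      linarith
  | .cut i m l r, B, h, y, hy, hC => by
    simp only [Tr.chk, Bool.and_eq_true] at h
    rcases Bx.mem_cut hy i m with hy' | hy'
    · exact nonneg_of_chk hok l _ h.1 hy' hC
    · exact nonneg_of_chk hok r _ h.2 hy' hC

end Vale.Agent.P154.Ly.Box
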