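import Vale.Agent.P154.LyBox

/-!
A faster run of the sign test of `LyBox`: digit scans stop as soon as the remaining number is
zero, so variables of low degree cost nothing.
-/

namespace Vale.Agent.P154.Bern

/-- Reads at most `j` digits, stopping at zero. -/
def scanF (w : ℕ) (good : ℕ → Bool) : ℕ → ℕ → Bool
  | 0, N => Nat.beq N 0
  | j + 1, N => Nat.beq N 0 || (good (N % w) && Nat.blt (2 * (N % w)) w && scanF w good j (N / w))

/-- All digits are less than half the base, skipping zero tails. -/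
def chkF (K D : ℕ) : ℕ → ℕ → Bool
  | 0, _ => true
  | n + 1, N => scanF (width K D n) (chkF K D n) (D + 1) N

lemma scan_zero {w : ℕ} {good : ℕ → Bool} (hw : 0 < w) (hg : good 0 = true) :
    ∀ j, scan w good j 0 = true
  | 0 => rfl
  | j + 1 => by
    simp only [scan, Nat.zero_mod, Nat.zero_div, hg, scan_zero hw hg j, Bool.true_and, Bool.and_true,
      Nat.mul_zero]
    simpa [Nat.blt] using Nat.one_le_iff_ne_zero.2 hw.ne'

lemma chk_zero (K D : ℕ) : ∀ n, chk K D n 0 = true
  | 0 => rfl
  | n + 1 => scan_zero (Nat.two_pow_pos _) (chk_zero K D n) _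

lemma scan_of_scanF {w : ℕ} {g g' : ℕ → Bool} (hw : 0 < w) (h0 : g 0 = true)
    (hg : ∀ N, g' N = true → g N = true) :
    ∀ j N, scanF w g' j N = true → scan w g j N = true
  | 0, _, h => h
  | j + 1, N, h => by
    simp only [scanF, Bool.or_eq_true, Bool.and_eq_true] at h
    rcases h with h | ⟨⟨h1, h2⟩, h3⟩
    · obtain rfl : N = 0 := Nat.eq_of_beq_eq_true h
      exact scan_zero hw h0 _
    · simp only [scan, Bool.and_eq_true]
      exact ⟨⟨hg _ h1, h2⟩, scan_of_scanF hw h0 hg j _ h3⟩

lemma chk_of_chkF (K D : ℕ) : ∀ n N, chkF K D n N = true → chk K D n N = true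
  | 0, _, _ => rfl
  | n + 1, N, h => scan_of_scanF (Nat.two_pow_pos _) (chk_zero K D n) (chk_of_chkF K D n) _ N h

end Vale.Agent.P154.Bern

namespace Vale.Agent.P154.Ly.Box

open Bern

variable (K D : ℕ)

/-- The test on a packed element, fast scan. -/
def Pk.testF (p : Pk) : Bool :=
  Nat.ble p.d0 D && Nat.ble p.d1 D && Nat.ble p.d2 D && Nat.blt (2 * p.m) (2 ^ K) &&
    match p.N with
    | .ofNat N => Bern.chkF K D 3 N
    | .negSucc _ => false

lemma Pk.test_of_testF (p : Pk) (h : p.testF K D = true) : p.test K D = true := by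
  unfold Pk.testF at h
  unfold Pk.test
  cases hN : p.N with
  | ofNat N =>
    rw [hN] at h
    simp only [Bool.and_eq_true] at h ⊢
    exact ⟨h.1, chk_of_chkF K D 3 N h.2⟩
  | negSucc N => rw [hN] at h; simp at h

/-- The test along a tree, fast scan. -/
def Tr.chkF (C : List Aff) (p : Ex) : Tr → Bx → Bool
  | .pos, B => (p.run K D B).testF K D
  | .out j, B =>
    match C[j]? with
    | some c => decide (c.top B < 0)
    | none => false
  | .cut i m l r, B => l.chkF C p (B.left i m) && r.chkF C p (B.right i m)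

lemma Tr.chk_of_chkF {C : List Aff} {p : Ex} :
    ∀ (t : Tr) (B : Bx), t.chkF K D C p B = true → t.chk K D C p B = true
  | .pos, _, h => Pk.test_of_testF K D _ h
  | .out _, _, h => h
  | .cut i m l r, B, h => by
    simp only [Tr.chkF, Bool.and_eq_true] at h
    simp only [Tr.chk, Bool.and_eq_true]
    exact ⟨Tr.chk_of_chkF l _ h.1, Tr.chk_of_chkF r _ h.2⟩

/-- A checked tree gives nonnegativity on the region. -/
theorem nonneg_of_chkF {C : List Aff} {p : Ex} (hok : p.ok = true) (t : Tr) (B : Bx)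
    (h : t.chkF K D C p B = true) {y : ℕ → ℝ} (hy : B.Mem y)
    (hC : ∀ c ∈ C, 0 ≤ c.eval y) : 0 ≤ p.eval y :=
  nonneg_of_chk K D hok t B (t.chk_of_chkF K D B h) hy hC

/-- A checked tree for `p - 1` gives strict positivity on the region. -/
theorem pos_of_chkF {C : List Aff} {p : Ex} (hok : p.ok = true) (t : Tr) (B : Bx)
    (h : t.chkF K D C (.add p (.con (-1))) B = true) {y : ℕ → ℝ} (hy : B.Mem y)
    (hC : ∀ c ∈ C, 0 ≤ c.eval y) : 1 ≤ p.eval y := by
  have := nonneg_of_chkF K D (p := .add p (.con (-1))) (by simp [Ex.ok, hok]) t B h hy hC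
  simp only [Ex.eval, Int.cast_neg, Int.cast_one] at this
  linarith

end Vale.Agent.P154.Ly.Box
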