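import Vale.Agent.P154.LyBoxFast

/-!
The digit test of `LyBox` in one bit mask: all top bits of the digits vanish.
-/

namespace Vale.Agent.P154.Bern

/-- The top bits of `M` digits of `K` bits. -/
def mask (K M : ℕ) : ℕ := (2 ^ (K * M) - 1) / (2 ^ K - 1) * 2 ^ (K - 1)

/-- `N` has at most `M` digits of `K` bits, all below half the base. -/
def topClear (K M N : ℕ) : Bool :=
  Nat.blt 0 K && Nat.blt N (2 ^ (K * M)) && Nat.beq (Nat.land N (mask K M)) 0

/-- The top bits of the first `n` digits vanish and there are no other digits. -/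
def Clear (K n N : ℕ) : Prop :=
  N < 2 ^ (K * n) ∧ ∀ i < n, N.testBit (K * i + (K - 1)) = false

lemma geom_testBit {K : ℕ} (hK : 0 < K) : ∀ n i, i < n →
    (∑ j ∈ Finset.range n, (2 ^ K) ^ j).testBit (K * i) = true
  | n + 1, i, h => by
    have hb : (1 : ℕ) < 2 ^ K := Nat.one_lt_two_pow hK.ne'
    rw [geom_sum_succ, Nat.testBit_two_pow_mul_add _ hb]
    rcases i with _ | i
    · simp [hK]
    · rw [if_neg (by rw [Nat.mul_succ]; omega), Nat.mul_succ, Nat.add_sub_cancel]
      exact geom_testBit hK n i (by omega)

lemma clear_of_topClear {K M N : ℕ} (h : topClear K M N = true) : 0 < K ∧ Clear K M N := by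
  simp only [topClear, Bool.and_eq_true] at h
  obtain ⟨⟨hK, hN⟩, hm⟩ := h
  have hK : 0 < K := Nat.le_of_ble_eq_true hK
  have hN : N < 2 ^ (K * M) := Nat.le_of_ble_eq_true hN
  have hm : N &&& mask K M = 0 := Nat.eq_of_beq_eq_true hm
  refine ⟨hK, hN, fun i hi => ?_⟩
  have h2 := congrArg (fun x => x.testBit (K * i + (K - 1))) hm
  simp only [Nat.testBit_and, Nat.zero_testBit] at h2
  have ht : (mask K M).testBit (K * i + (K - 1)) = true := by
    have hb : 2 ≤ 2 ^ K := Nat.one_lt_two_pow hK.ne'
    rw [mask, pow_mul, ← Nat.geomSum_eq hb, Nat.mul_comm, Nat.testBit_two_pow_mul,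
      Nat.add_sub_cancel]
    simp [geom_testBit hK M i hi]
  simpa [ht] using h2

lemma Clear.mono {K n n' N : ℕ} (h : Clear K n N) (hn : n ≤ n') : Clear K n' N := by
  refine ⟨h.1.trans_le (Nat.pow_le_pow_right (by omega) (Nat.mul_le_mul_left _ hn)), fun i hi => ?_⟩
  rcases lt_or_ge i n with hin | hin
  · exact h.2 i hin
  · exact Nat.testBit_lt_two_pow (h.1.trans_le (Nat.pow_le_pow_right (by omega)
      (le_add_right (Nat.mul_le_mul_left _ hin))))

lemma chk_of_clear {K : ℕ} (hK : 0 < K) (D : ℕ) :
    ∀ n N, Clear K ((D + 1) ^ n) N → chk K D n N = true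
  | 0, _, _ => rfl
  | n + 1, N, h => by
    have hW : 0 < (D + 1) ^ n := Nat.pow_pos (by omega)
    have hKW : 0 < K * (D + 1) ^ n := Nat.mul_pos hK hW
    have key : ∀ j N, Clear K (j * (D + 1) ^ n) N →
        scan (width K D n) (chk K D n) j N = true := by
      intro j
      induction j with
      | zero =>
        intro N h
        have : N < 1 := by simpa using h.1
        simp [scan, Nat.lt_one_iff.1 this]
      | succ j ih =>
        intro N h
        have hr : Clear K ((D + 1) ^ n) (N % width K D n) := by
          refine ⟨Nat.mod_lt _ (Nat.two_pow_pos _), fun i hi => ?_⟩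
          rw [width, Nat.testBit_mod_two_pow, h.2 i (hi.trans_le (Nat.le_mul_of_pos_left _ (by omega))),
            Bool.and_false]
        have hq : Clear K (j * (D + 1) ^ n) (N / width K D n) := by
          refine ⟨?_, fun i hi => ?_⟩
          · rw [width, Nat.div_lt_iff_lt_mul (Nat.two_pow_pos _), ← pow_add]
            refine h.1.trans_eq ?_
            congr 1
            ring
          · rw [width, Nat.testBit_div_two_pow,
              show K * i + (K - 1) + K * (D + 1) ^ n = K * (i + (D + 1) ^ n) + (K - 1) by ring]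
            exact h.2 _ (by rw [Nat.add_mul, Nat.one_mul]; omega)
        have hhalf : 2 * (N % width K D n) < width K D n := by
          have hlt : N % width K D n < 2 ^ (K * (D + 1) ^ n - 1) := by
            refine Nat.lt_pow_two_of_testBit _ fun i hi => ?_
            rcases lt_or_ge i (K * (D + 1) ^ n) with hi' | hi'
            · have e : i = K * ((D + 1) ^ n - 1) + (K - 1) := by
                rw [Nat.mul_sub, Nat.mul_one]
                have := Nat.le_mul_of_pos_right K hW
                omega
              rw [e]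
              exact hr.2 _ (by omega)
            · exact Nat.testBit_lt_two_pow (hr.1.trans_le (Nat.pow_le_pow_right (by omega) hi'))
          calc 2 * (N % width K D n) < 2 * 2 ^ (K * (D + 1) ^ n - 1) := by omega
            _ = width K D n := by
              rw [← pow_succ', width]
              congr 1
              omega
        simp only [scan, Bool.and_eq_true]
        exact ⟨⟨chk_of_clear hK D n _ hr, by simpa [Nat.blt] using hhalf⟩, ih _ hq⟩
    show scan (width K D n) (chk K D n) (D + 1) N = true
    refine key _ N ?_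
    rwa [← pow_succ']

end Vale.Agent.P154.Bern

namespace Vale.Agent.P154.Ly.Box

open Bern

variable (K D : ℕ)

/-- The test on a packed element by one mask. -/
def Pk.testQ (p : Pk) : Bool :=
  Nat.ble p.d0 D && Nat.ble p.d1 D && Nat.ble p.d2 D && Nat.blt (2 * p.m) (2 ^ K) &&
    match p.N with
    | .ofNat N => topClear K ((p.d0 + 1) * (D + 1) ^ 2) N
    | .negSucc _ => false

lemma Pk.test_of_testQ (p : Pk) (h : p.testQ K D = true) : p.test K D = true := by
  unfold Pk.testQ at h
  unfold Pk.test
  cases hN : p.N with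
  | ofNat N =>
    rw [hN] at h
    simp only [Bool.and_eq_true, Nat.ble_eq] at h ⊢
    obtain ⟨hK, hc⟩ := clear_of_topClear h.2
    refine ⟨h.1, chk_of_clear hK D 3 N (hc.mono ?_)⟩
    calc (p.d0 + 1) * (D + 1) ^ 2 ≤ (D + 1) * (D + 1) ^ 2 :=
          Nat.mul_le_mul_right _ (by omega)
      _ = (D + 1) ^ 3 := by ring
  | negSucc N => rw [hN] at h; simp at h

end Vale.Agent.P154.Ly.Box
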