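import Vale.Agent.P154.LyBoxRegion
import Vale.Agent.P154.LyBoxMask

/-!
Sign test on polynomial regions with multipliers: at a leaf the polynomial, minus a nonnegative
integer combination of the region polynomials, has nonnegative homogenised coefficients.
-/

namespace Vale.Agent.P154.Ly.Box

variable (K D : ℕ)

/-- Subdivision trees with multipliers: `mult w` subtracts `l * G[j]` for the pairs `(j, l)` of `w`,
`out j` shows that `G[j]` is negative on the box. -/
inductive TrM
  | mult (w : List (ℕ × ℕ))
  | out (j : ℕ)
  | cut (i : ℕ) (m : ℤ) (l r : TrM)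

/-- An element of a list of expressions. -/
def Ex.nth (G : List Ex) (j : ℕ) : Ex :=
  match G[j]? with
  | some q => q
  | none => .con 0

/-- The polynomial minus a combination of the region polynomials. -/
def Ex.minus (G : List Ex) (p : Ex) : List (ℕ × ℕ) → Ex
  | [] => p
  | (j, l) :: w => .add (Ex.minus G p w) (.smul (-(l : ℤ)) (Ex.nth G j))

/-- The test along a tree with multipliers. -/
def TrM.chkM (G : List Ex) (p : Ex) : TrM → Bx → Bool
  | .mult w, B => (Ex.minus G p w).ok && ((Ex.minus G p w).run K D B).testQ K D
  | .out j, B =>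
    match G[j]? with
    | some q => q.ok && ((Ex.add (.smul (-1) q) (.con (-1))).run K D B).testQ K D
    | none => false
  | .cut i m l r, B => l.chkM G p (B.left i m) && r.chkM G p (B.right i m)

lemma Ex.minus_le {G : List Ex} {p : Ex} {y : ℕ → ℝ} (hG : ∀ q ∈ G, 0 ≤ q.eval y) :
    ∀ w, (Ex.minus G p w).eval y ≤ p.eval y
  | [] => le_refl _
  | (j, l) :: w => by
    have hq : 0 ≤ (Ex.nth G j).eval y := by
      unfold Ex.nth
      cases hj : G[j]? with
      | none => simp [Ex.eval]
      | some q => exact hG q (List.mem_of_getElem? hj)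
    have h := Ex.minus_le (p := p) hG w
    have h' := mul_nonneg (Nat.cast_nonneg (α := ℝ) l) hq
    simp only [Ex.minus, Ex.eval, Int.cast_neg, Int.cast_natCast]
    linarith

/-- A checked tree gives nonnegativity where all the region polynomials are nonnegative. -/
theorem nonneg_of_chkM {G : List Ex} {p : Ex} :
    ∀ (t : TrM) (B : Bx), t.chkM K D G p B = true → ∀ {y : ℕ → ℝ}, B.Mem y →
      (∀ q ∈ G, 0 ≤ q.eval y) → 0 ≤ p.eval y
  | .mult w, B, h, y, hy, hG => by
    simp only [TrM.chkM, Bool.and_eq_true] at h
    exact (nonneg_of_test K D h.1 (Pk.test_of_testQ K D _ h.2) hy).trans (Ex.minus_le hG w)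
  | .out j, B, h, y, hy, hG => by
    simp only [TrM.chkM] at h
    cases hj : G[j]? with
    | none => rw [hj] at h; simp at h
    | some q =>
      rw [hj] at h
      simp only [Bool.and_eq_true] at h
      have h1 := hG q (List.mem_of_getElem? hj)
      have h2 := nonneg_of_test K D (p := .add (.smul (-1) q) (.con (-1)))
        (by simp [Ex.ok, h.1]) (Pk.test_of_testQ K D _ h.2) hy
      simp only [Ex.eval, Int.cast_neg, Int.cast_one] at h2
      linarith
  | .cut i m l r, B, h, y, hy, hG => by
    simp only [TrM.chkM, Bool.and_eq_true] at h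
    rcases Bx.mem_cut hy i m with hy' | hy'
    · exact nonneg_of_chkM l _ h.1 hy' hG
    · exact nonneg_of_chkM r _ h.2 hy' hG

end Vale.Agent.P154.Ly.Box
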