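import Vale.Agent.P154.LyBoxFast

/-!
The subdivision test of `LyBoxFast` on regions cut out by polynomial inequalities: a leaf is
either positive or shows that one of the region polynomials is negative on it.
-/

namespace Vale.Agent.P154.Ly.Box

variable (K D : ℕ)

/-- The test along a tree; `G` lists the polynomials that are nonnegative on the region. -/
def Tr.chkR (G : List Ex) (p : Ex) : Tr → Bx → Bool
  | .pos, B => (p.run K D B).testF K D
  | .out j, B =>
    match G[j]? with
    | some q => q.ok && ((Ex.add (.smul (-1) q) (.con (-1))).run K D B).testF K D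
    | none => false
  | .cut i m l r, B => l.chkR G p (B.left i m) && r.chkR G p (B.right i m)

/-- A checked tree gives nonnegativity where all the region polynomials are nonnegative. -/
theorem nonneg_of_chkR {G : List Ex} {p : Ex} (hok : p.ok = true) :
    ∀ (t : Tr) (B : Bx), t.chkR K D G p B = true → ∀ {y : ℕ → ℝ}, B.Mem y →
      (∀ q ∈ G, 0 ≤ q.eval y) → 0 ≤ p.eval y
  | .pos, B, h, y, hy, _ => nonneg_of_test K D hok (Pk.test_of_testF K D _ h) hy
  | .out j, B, h, y, hy, hG => by
    simp only [Tr.chkR] at h
    cases hj : G[j]? with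
    | none => rw [hj] at h; simp at h
    | some q =>
      rw [hj] at h
      simp only [Bool.and_eq_true] at h
      have h1 := hG q (List.mem_of_getElem? hj)
      have h2 := nonneg_of_test K D (p := .add (.smul (-1) q) (.con (-1)))
        (by simp [Ex.ok, h.1]) (Pk.test_of_testF K D _ h.2) hy
      simp only [Ex.eval, Int.cast_neg, Int.cast_one] at h2
      linarith
  | .cut i m l r, B, h, y, hy, hG => by
    simp only [Tr.chkR, Bool.and_eq_true] at h
    rcases Bx.mem_cut hy i m with hy' | hy'
    · exact nonneg_of_chkR hok l _ h.1 hy' hG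
    · exact nonneg_of_chkR hok r _ h.2 hy' hG

/-- A checked tree for `p - 1` gives a lower bound one on the region. -/
theorem pos_of_chkR {G : List Ex} {p : Ex} (hok : p.ok = true) (t : Tr) (B : Bx)
    (h : t.chkR K D G (.add p (.con (-1))) B = true) {y : ℕ → ℝ} (hy : B.Mem y)
    (hG : ∀ q ∈ G, 0 ≤ q.eval y) : 1 ≤ p.eval y := by
  have := nonneg_of_chkR K D (p := .add p (.con (-1))) (by simp [Ex.ok, hok]) t B h hy hG
  simp only [Ex.eval, Int.cast_neg, Int.cast_one] at this
  linarith

end Vale.Agent.P154.Ly.Box
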