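import Vale.Agent.P154.LyTree

/-!
From polynomial facts in the roots `t i = w i ^ (1/N)` to facts on product affinities, and the
calculus of abstract symmetric laws on the simplex of posterior ratios.
-/

open scoped BigOperators

namespace Vale.Agent.P154.Ly

variable {N : ℕ} {k : Spin → ℕ} {l : ℝ}

/-! ### Roots -/

/-- The symmetrised monomial, written out. -/
noncomputable def symMon (k : Spin → ℕ) (t : Spin → ℝ) : ℝ :=
  (1 / 6 : ℝ) * (t 0 ^ k 0 * t 1 ^ k 1 * t 2 ^ k 2 + t 0 ^ k 0 * t 2 ^ k 1 * t 1 ^ k 2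
    + t 1 ^ k 0 * t 0 ^ k 1 * t 2 ^ k 2 + t 1 ^ k 0 * t 2 ^ k 1 * t 0 ^ k 2
    + t 2 ^ k 0 * t 0 ^ k 1 * t 1 ^ k 2 + t 2 ^ k 0 * t 1 ^ k 1 * t 0 ^ k 2)

/-- The mean of the coordinates in root variables. -/
noncomputable def hpow (N : ℕ) (t : Spin → ℝ) : ℝ := (t 0 ^ N + t 1 ^ N + t 2 ^ N) / 3

/-- The second moment in root variables, homogeneous of degree `2 * N`. -/
noncomputable def sqForm (N : ℕ) (t : Spin → ℝ) : ℝ :=
  ((t 0 ^ N - hpow N t) ^ 2 + (t 1 ^ N - hpow N t) ^ 2 + (t 2 ^ N - hpow N t) ^ 2) / 6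

/-- The cubic invariant in root variables, homogeneous of degree `3 * N`. -/
noncomputable def cubForm (N : ℕ) (t : Spin → ℝ) : ℝ :=
  (t 0 ^ N - hpow N t) * (t 1 ^ N - hpow N t) * (t 2 ^ N - hpow N t) / 2

lemma root_pow (hN : 0 < N) {x : ℝ} (hx : 0 ≤ x) : (x ^ ((1 : ℝ) / N)) ^ N = x := by
  rw [one_div, Real.rpow_inv_natCast_pow hx hN.ne']

lemma rpow_root {x : ℝ} (hx : 0 ≤ x) (j : ℕ) :
    x ^ ((j : ℝ) / (N : ℝ)) = (x ^ ((1 : ℝ) / N)) ^ j := by
  rw [← Real.rpow_mul_natCast hx, div_eq_mul_one_div (j : ℝ) (N : ℝ), mul_comm]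

lemma sum_perm_spin (F : Equiv.Perm Spin → ℝ) : ∑ σ, F σ = F 1 + F (Equiv.swap 1 2)
    + F (Equiv.swap 0 1) + F (Equiv.swap 0 1 * Equiv.swap 1 2)
    + F (Equiv.swap 0 2 * Equiv.swap 1 2) + F (Equiv.swap 0 2) := by
  have hu : (Finset.univ : Finset (Equiv.Perm Spin)) = {1, Equiv.swap 1 2, Equiv.swap 0 1,
      Equiv.swap 0 1 * Equiv.swap 1 2, Equiv.swap 0 2 * Equiv.swap 1 2, Equiv.swap 0 2} := by
    decide
  rw [hu, Finset.sum_insert (by decide), Finset.sum_insert (by decide),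
    Finset.sum_insert (by decide), Finset.sum_insert (by decide), Finset.sum_insert (by decide),
    Finset.sum_singleton]
  ring

/-- Product affinities are symmetrised monomials in the roots. -/
lemma sHel_eq_symMon {w : Spin → ℝ} (hw : ∀ i, 0 ≤ w i) :
    sHel N k w = symMon k fun i => w i ^ ((1 : ℝ) / N) := by
  have h : ∀ σ : Equiv.Perm Spin, ∀ i, w (σ i) ^ ((k i : ℝ) / (N : ℝ)) =
      (w (σ i) ^ ((1 : ℝ) / N)) ^ k i := fun σ i => rpow_root (hw _) _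
  simp only [sHel, symMon, h, sum_perm_spin, Fin.prod_univ_three]
  simp [Equiv.swap_apply_of_ne_of_ne]

lemma symMon_smul (hk : ∑ i, k i = N) (s : ℝ) (t : Spin → ℝ) :
    symMon k (fun i => s * t i) = s ^ N * symMon k t := by
  have e : s ^ N = s ^ k 0 * s ^ k 1 * s ^ k 2 := by
    rw [← hk, Fin.sum_univ_three, pow_add, pow_add]
  rw [e]
  simp only [symMon, mul_pow]
  ring

/-- Every point of the simplex in root variables. -/
theorem exists_root (hN : 0 < N) {a : Spin → ℝ} (ha : InS a) : ∃ t : Spin → ℝ,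
    (∀ i, 0 ≤ t i) ∧ (∀ i, t i ^ N = a i) ∧ hpow N t = 1 ∧
      sqForm N t = sq a ∧ cubForm N t = cub a ∧ ∀ k : Spin → ℕ, symMon k t = sHel N k a := by
  refine ⟨fun i => a i ^ ((1 : ℝ) / N), fun i => Real.rpow_nonneg (ha.1 i) _,
    fun i => root_pow hN (ha.1 i), ?_⟩
  have hh : hpow N (fun i => a i ^ ((1 : ℝ) / N)) = 1 := by
    simp only [hpow, root_pow hN (ha.1 _)]; linarith [ha.2]
  exact ⟨hh, by simp only [sqForm, hh, root_pow hN (ha.1 _), sq],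
    by simp only [cubForm, hh, root_pow hN (ha.1 _), cub],
    fun k => (sHel_eq_symMon ha.1).symm⟩

/-- A form that is nonnegative on the orthant gives an inequality on the simplex. -/
theorem lift_form (hN : 0 < N) {P Q : (Spin → ℝ) → ℝ}
    (hP : ∀ t : Spin → ℝ, (∀ i, 0 ≤ t i) → 0 ≤ P t)
    (hPQ : ∀ t : Spin → ℝ, (∀ i, 0 ≤ t i) → hpow N t = 1 → P t = Q fun i => t i ^ N)
    {a : Spin → ℝ} (ha : InS a) : 0 ≤ Q a := by
  obtain ⟨t, ht, htN, hh, -⟩ := exists_root hN ha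
  have h := hP t ht
  rwa [hPQ t ht hh, show (fun i => t i ^ N) = a from funext htN] at h

/-- The same on the part where no coordinate exceeds the sum of the other two. -/
theorem lift_form_ball (hN : 0 < N) {P Q : (Spin → ℝ) → ℝ}
    (hP : ∀ t : Spin → ℝ, (∀ i, 0 ≤ t i) → t 0 ^ N ≤ t 1 ^ N + t 2 ^ N →
      t 1 ^ N ≤ t 0 ^ N + t 2 ^ N → t 2 ^ N ≤ t 0 ^ N + t 1 ^ N → 0 ≤ P t)
    (hPQ : ∀ t : Spin → ℝ, (∀ i, 0 ≤ t i) → hpow N t = 1 → P t = Q fun i => t i ^ N)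
    {a : Spin → ℝ} (ha : InS a) (hb : ∀ i, a i ≤ 3 / 2) : 0 ≤ Q a := by
  obtain ⟨t, ht, htN, hh, -⟩ := exists_root hN ha
  have h := hP t ht (by rw [htN, htN, htN]; linarith [hb 0, ha.2])
    (by rw [htN, htN, htN]; linarith [hb 1, ha.2]) (by rw [htN, htN, htN]; linarith [hb 2, ha.2])
  rwa [hPQ t ht hh, show (fun i => t i ^ N) = a from funext htN] at h

/-- The value of an affinity at an `N`th power. -/
lemma sHel_pow (hN : 0 < N) {t : Spin → ℝ} (ht : ∀ i, 0 ≤ t i) :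
    sHel N k (fun i => t i ^ N) = symMon k t := by
  rw [sHel_eq_symMon fun i => pow_nonneg (ht i) _]
  congr 1
  funext i
  rw [one_div, Real.pow_rpow_inv_natCast (ht i) hN.ne']

lemma sq_pow {t : Spin → ℝ} (hh : hpow N t = 1) : sq (fun i => t i ^ N) = sqForm N t := by
  simp only [sqForm, hh, sq]

lemma cub_pow {t : Spin → ℝ} (hh : hpow N t = 1) : cub (fun i => t i ^ N) = cubForm N t := by
  simp only [cubForm, hh, cub]

lemma img_le (hl : -(1 / 2) ≤ l) (hl0 : l ≤ 0) {a : Spin → ℝ} (ha : InS a) (i : Spin) :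
    img l a i ≤ 3 / 2 := by
  have := mul_nonneg (neg_nonneg.2 hl0) (ha.1 i)
  simp only [img]; linarith

lemma sq_img (l : ℝ) (a : Spin → ℝ) : sq (img l a) = l ^ 2 * sq a := by
  simp only [sq, img]; ring

lemma cub_img (l : ℝ) (a : Spin → ℝ) : cub (img l a) = l ^ 3 * cub a := by
  simp only [cub, img]; ring

/-! ### Bounded functions -/

lemma bdd_const (c : ℝ) : Bdd fun _ => c := ⟨|c|, fun _ _ => le_rfl⟩

lemma Bdd.add {φ ψ : (Spin → ℝ) → ℝ} (h : Bdd φ) (h' : Bdd ψ) : Bdd fun a => φ a + ψ a :=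
  h.elim fun C hC => h'.elim fun D hD =>
    ⟨C + D, fun a ha => (abs_add_le _ _).trans (add_le_add (hC a ha) (hD a ha))⟩

lemma Bdd.sub {φ ψ : (Spin → ℝ) → ℝ} (h : Bdd φ) (h' : Bdd ψ) : Bdd fun a => φ a - ψ a :=
  h.elim fun C hC => h'.elim fun D hD =>
    ⟨C + D, fun a ha => (abs_sub _ _).trans (add_le_add (hC a ha) (hD a ha))⟩

lemma Bdd.neg {φ : (Spin → ℝ) → ℝ} (h : Bdd φ) : Bdd fun a => -φ a :=
  h.elim fun C hC => ⟨C, fun a ha => by rw [abs_neg]; exact hC a ha⟩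

lemma Bdd.mul {φ ψ : (Spin → ℝ) → ℝ} (h : Bdd φ) (h' : Bdd ψ) : Bdd fun a => φ a * ψ a :=
  h.elim fun C hC => h'.elim fun D hD => ⟨C * D, fun a ha => by
    rw [abs_mul]
    exact mul_le_mul (hC a ha) (hD a ha) (abs_nonneg _) ((abs_nonneg _).trans (hC a ha))⟩

lemma Bdd.smul {φ : (Spin → ℝ) → ℝ} (h : Bdd φ) (c : ℝ) : Bdd fun a => c * φ a :=
  (bdd_const c).mul h

lemma Bdd.div_const {φ : (Spin → ℝ) → ℝ} (h : Bdd φ) (c : ℝ) : Bdd fun a => φ a / c := by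
  simp only [div_eq_mul_inv]; exact h.mul (bdd_const c⁻¹)

lemma Bdd.pow {φ : (Spin → ℝ) → ℝ} (h : Bdd φ) (n : ℕ) : Bdd fun a => φ a ^ n := by
  induction n with
  | zero => simpa only [pow_zero] using bdd_const 1
  | succ n ih => simp only [pow_succ]; exact ih.mul h

lemma bdd_sum {α : Type} (s : Finset α) {φ : α → (Spin → ℝ) → ℝ} (h : ∀ i ∈ s, Bdd (φ i)) :
    Bdd fun a => ∑ i ∈ s, φ i a := by
  choose C hC using h
  refine ⟨∑ i ∈ s.attach, C i.1 i.2, fun a ha => ?_⟩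
  refine (Finset.abs_sum_le_sum_abs _ _).trans ?_
  rw [← Finset.sum_attach s fun i => |φ i a|]
  exact Finset.sum_le_sum fun i _ => hC i.1 i.2 a ha

lemma cub_mem {a : Spin → ℝ} (ha : InS a) : |cub a| ≤ 4 := by
  have h : ∀ i, |a i - 1| ≤ 2 := fun i =>
    abs_le.2 ⟨by linarith [ha.1 i], by linarith [inS_le ha i]⟩
  have h01 : |a 0 - 1| * |a 1 - 1| ≤ 2 * 2 :=
    mul_le_mul (h 0) (h 1) (abs_nonneg _) (by norm_num)
  have := mul_le_mul h01 (h 2) (abs_nonneg _) (by norm_num)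
  rw [cub, abs_div, abs_mul, abs_mul, abs_two]
  linarith

lemma bdd_cub : Bdd cub := ⟨4, fun _ ha => cub_mem ha⟩

lemma bdd_sq_img (l : ℝ) : Bdd fun a => sq (img l a) := by
  simp only [sq_img]; exact bdd_sq.smul _

lemma bdd_cub_img (l : ℝ) : Bdd fun a => cub (img l a) := by
  simp only [cub_img]; exact bdd_cub.smul _

/-! ### Laws -/

namespace IsLaw

variable {E : ((Spin → ℝ) → ℝ) → ℝ} (hE : IsLaw E)
include hE

lemma const (c : ℝ) : E (fun _ => c) = c := by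
  have h := hE.smul c (fun _ => 1) (bdd_const 1)
  simpa [hE.one] using h

lemma neg {φ : (Spin → ℝ) → ℝ} (h : Bdd φ) : E (fun a => -φ a) = -E φ := by
  simpa using hE.smul (-1) φ h

lemma sub {φ ψ : (Spin → ℝ) → ℝ} (h : Bdd φ) (h' : Bdd ψ) :
    E (fun a => φ a - ψ a) = E φ - E ψ := by
  simp only [sub_eq_add_neg]
  rw [hE.add _ _ h h'.neg, hE.neg h']

lemma sum {α : Type} [DecidableEq α] (s : Finset α) {φ : α → (Spin → ℝ) → ℝ}
    (h : ∀ i, Bdd (φ i)) : E (fun a => ∑ i ∈ s, φ i a) = ∑ i ∈ s, E (φ i) := by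
  induction s using Finset.induction_on with
  | empty => simpa using hE.const 0
  | insert x s hx ih =>
    simp only [Finset.sum_insert hx]
    rw [hE.add _ _ (h x) (bdd_sum s fun i _ => h i), ih]

/-- Linear combinations pass through a law. -/
lemma comb {α : Type} [DecidableEq α] (s : Finset α) (c : α → ℝ) {φ : α → (Spin → ℝ) → ℝ}
    (h : ∀ i, Bdd (φ i)) : E (fun a => ∑ i ∈ s, c i * φ i a) = ∑ i ∈ s, c i * E (φ i) := by
  rw [hE.sum s fun i => (h i).smul (c i)]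
  exact Finset.sum_congr rfl fun i _ => hE.smul _ _ (h i)

lemma nonneg {φ : (Spin → ℝ) → ℝ} (h : Bdd φ) (h0 : ∀ a, InS a → 0 ≤ φ a) : 0 ≤ E φ := by
  have := hE.mono _ _ (bdd_const 0) h h0
  rwa [hE.const] at this

lemma congr_law {φ ψ : (Spin → ℝ) → ℝ} (h : Bdd φ) (h' : Bdd ψ)
    (e : ∀ a, InS a → φ a = ψ a) : E φ = E ψ :=
  le_antisymm (hE.mono _ _ h h' fun a ha => (e a ha).le) (hE.mono _ _ h' h fun a ha => (e a ha).ge)

lemma sq_bounds : 0 ≤ E sq ∧ E sq ≤ 1 := by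
  refine ⟨hE.nonneg bdd_sq fun a ha => (sq_mem ha).1, ?_⟩
  have := hE.mono _ _ bdd_sq (bdd_const 1) fun a ha => (sq_mem ha).2
  rwa [hE.const] at this

/-- Cauchy–Schwarz for a law. -/
lemma cauchy {D f g : (Spin → ℝ) → ℝ} (hD : Bdd D) (hf : Bdd f) (hg : Bdd g)
    (h : ∀ a, InS a → 0 ≤ f a ∧ 0 ≤ g a ∧ D a ^ 2 ≤ f a * g a) : E D ^ 2 ≤ E f * E g := by
  have key : ∀ τ : ℝ, 0 ≤ E f * (τ * τ) + -2 * E D * τ + E g := fun τ => by
    have h1 : ∀ a, InS a → 0 ≤ τ ^ 2 * f a + (-2 * τ) * D a + g a := fun a ha => by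
      obtain ⟨f0, g0, hd⟩ := h a ha
      have hfg : 0 ≤ τ ^ 2 * f a + g a := by positivity
      have : |2 * τ * D a| ≤ τ ^ 2 * f a + g a := by
        rw [← sq_le_sq₀ (abs_nonneg _) hfg, sq_abs]
        nlinarith [mul_le_mul_of_nonneg_left hd (sq_nonneg τ), sq_nonneg (τ ^ 2 * f a - g a)]
      linarith [le_abs_self (2 * τ * D a)]
    have := hE.nonneg (((hf.smul (τ ^ 2)).add (hD.smul (-2 * τ))).add hg) h1
    rw [hE.add _ _ ((hf.smul (τ ^ 2)).add (hD.smul (-2 * τ))) hg,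
      hE.add _ _ (hf.smul (τ ^ 2)) (hD.smul (-2 * τ)), hE.smul _ _ hf, hE.smul _ _ hD] at this
    linarith
  have hd := discrim_le_zero key
  simp only [discrim] at hd
  linarith

/-- The square of a mean is at most the mean of the square. -/
lemma sq_mean_le {φ : (Spin → ℝ) → ℝ} (h : Bdd φ) : E φ ^ 2 ≤ E (fun a => φ a ^ 2) := by
  have := hE.cauchy h (bdd_const 1) (h.pow 2) fun a _ =>
    ⟨zero_le_one, sq_nonneg _, (one_mul _).ge⟩
  rwa [hE.one, one_mul] at this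

end IsLaw

end Vale.Agent.P154.Ly
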