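import Vale.Agent.P154.LyStage
import Vale.Agent.P154.LyBridge

/-!
Chains of stages over several coordinates of the law of the root posterior. Every coordinate is
the mean of a test function, so it is nonincreasing in the depth: once a bound holds it is kept,
and a gain on the region where one coordinate exceeds a lower value pushes that coordinate below
the value.
-/

open scoped BigOperators ENNReal
open Filter

namespace Vale.Agent.P154.Ly

variable {l d : ℝ} {N : ℕ} {k : Spin → ℕ}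

/-! ### The affinity deficit is a test function -/

/-- Products of powers are superadditive. -/
lemma mon_add_le (hN : 0 < N) (hk : ∑ i, k i = N) {x y : Spin → ℝ} (hx : ∀ i, 0 ≤ x i)
    (hy : ∀ i, 0 ≤ y i) : mon N k x + mon N k y ≤ mon N k (x + y) := by
  have hw : ∀ i ∈ (Finset.univ : Finset Spin), 0 ≤ (k i : ℝ) / (N : ℝ) := fun i _ => by positivity
  have hsum := expo_sum hN hk
  by_cases hz : ∀ i, k i ≠ 0 → 0 < x i + y i
  · have hpos : 0 < mon N k (x + y) := Finset.prod_pos fun i _ => by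
      rcases eq_or_ne (k i) 0 with h | h
      · simp [h]
      · exact Real.rpow_pos_of_pos (hz i h) _
    have key : ∀ u : Spin → ℝ, (∀ i, 0 ≤ u i) →
        mon N k u / mon N k (x + y) ≤ ∑ i, (k i : ℝ) / (N : ℝ) * (u i / (x i + y i)) := by
      intro u hu
      refine le_trans (le_of_eq ?_) (Real.geom_mean_le_arith_mean_weighted Finset.univ
        (fun i => (k i : ℝ) / (N : ℝ)) (fun i => u i / (x i + y i)) hw hsum
        fun i _ => div_nonneg (hu i) (add_nonneg (hx i) (hy i)))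
      simp only [mon, Pi.add_apply]
      rw [← Finset.prod_div_distrib]
      exact Finset.prod_congr rfl fun i _ =>
        (Real.div_rpow (hu i) (add_nonneg (hx i) (hy i)) _).symm
    have h2 : ∑ i, (k i : ℝ) / (N : ℝ) * (x i / (x i + y i)) +
        ∑ i, (k i : ℝ) / (N : ℝ) * (y i / (x i + y i)) = 1 := by
      rw [← Finset.sum_add_distrib]
      refine (Finset.sum_congr rfl fun i _ => ?_).trans hsum
      rcases eq_or_ne (k i) 0 with h | h
      · simp [h]
      · rw [← mul_add, ← add_div, div_self (hz i h).ne', mul_one]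
    have h3 := add_le_add (key x hx) (key y hy)
    rw [h2, ← add_div, div_le_one hpos] at h3
    exact h3
  · simp only [not_forall, not_lt] at hz
    obtain ⟨i, hi, hle⟩ := hz
    have hzero : ∀ u : Spin → ℝ, u i = 0 → mon N k u = 0 := fun u hu => by
      refine Finset.prod_eq_zero (Finset.mem_univ i) ?_
      show u i ^ ((k i : ℝ) / (N : ℝ)) = 0
      rw [hu, Real.zero_rpow]
      positivity
    rw [hzero x (le_antisymm (by linarith [hy i]) (hx i)),
      hzero y (le_antisymm (by linarith [hx i]) (hy i)),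
      hzero (x + y) (le_antisymm hle (add_nonneg (hx i) (hy i)))]
    norm_num

/-- The affinity deficit of a likelihood vector. -/
noncomputable def defect (N : ℕ) (k : Spin → ℕ) (x : Spin → ℝ) : ℝ := wt x - sHel N k x

lemma sHel_smul (hN : 0 < N) (hk : ∑ i, k i = N) {t : ℝ} (ht : 0 ≤ t) {w : Spin → ℝ}
    (hw : ∀ i, 0 ≤ w i) : sHel N k (fun i => t * w i) = t * sHel N k w := by
  simp only [sHel_eq]
  rw [Finset.sum_congr rfl fun σ _ => mon_smul hN hk ht (w := fun i => w (σ i)) fun i => hw _,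
    ← Finset.mul_sum]
  ring

lemma sHel_le_wt (hN : 0 < N) (hk : ∑ i, k i = N) {x : Spin → ℝ} (hx : ∀ i, 0 ≤ x i) :
    sHel N k x ≤ wt x := by
  have h : ∀ σ : Equiv.Perm Spin, mon N k (fun i => x (σ i)) ≤
      ∑ i, (k i : ℝ) / (N : ℝ) * x (σ i) := fun σ =>
    Real.geom_mean_le_arith_mean_weighted Finset.univ _ _ (fun i _ => by positivity)
      (expo_sum hN hk) fun i _ => hx _
  have h2 : ∀ i : Spin, ∑ σ : Equiv.Perm Spin, x (σ i) = 6 * wt x := fun i => by
    rw [sum_perm_spin]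
    simp only [wt, Fin.sum_univ_three]
    fin_cases i <;> simp [Equiv.swap_apply_of_ne_of_ne] <;> ring
  calc sHel N k x ≤ (1 / 6 : ℝ) * ∑ σ : Equiv.Perm Spin, ∑ i, (k i : ℝ) / (N : ℝ) * x (σ i) := by
        rw [sHel_eq]
        exact mul_le_mul_of_nonneg_left (Finset.sum_le_sum fun σ _ => h σ) (by norm_num)
    _ = wt x := by
        rw [Finset.sum_comm, Finset.sum_congr rfl fun i _ => by
          rw [← Finset.mul_sum, h2], ← Finset.sum_mul, expo_sum hN hk]
        ring

lemma test_defect (hN : 0 < N) (hk : ∑ i, k i = N) : De.Test (defect N k) := by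
  refine ⟨fun x hx => sub_nonneg.mpr (sHel_le_wt hN hk hx), fun x y hx hy => ?_,
    fun c x hc hx => ?_, fun σ x _ => ?_⟩
  · have hw : wt (x + y) = wt x + wt y := by
      simp only [wt, Pi.add_apply, Finset.sum_add_distrib]; ring
    have hm : sHel N k x + sHel N k y ≤ sHel N k (x + y) := by
      simp only [sHel_eq]
      rw [← mul_add, ← Finset.sum_add_distrib]
      exact mul_le_mul_of_nonneg_left (Finset.sum_le_sum fun σ _ =>
        mon_add_le hN hk (fun i => hx _) fun i => hy _) (by norm_num)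
    simp only [defect]
    linarith
  · have hw : wt (c • x) = c * wt x := by
      simp only [wt, Pi.smul_apply, smul_eq_mul, ← Finset.mul_sum]; ring
    have hm : sHel N k (c • x) = c * sHel N k x := sHel_smul hN hk hc hx
    simp only [defect, hw, hm]
    ring
  · have hw : wt (fun i => x (σ i)) = wt x := by simp only [wt, Equiv.sum_comp σ x]
    have hm : sHel N k (fun i => x (σ i)) = sHel N k x := by
      simp only [sHel_eq]
      refine congrArg _ ?_
      rw [← Equiv.sum_comp (Equiv.mulLeft σ) fun τ : Equiv.Perm Spin => mon N k fun i => x (τ i)]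
      rfl
    simp only [defect, hw, hm]

/-- The deficit after one edge is the perspective of `1 - sHel ∘ img`. -/
lemma defect_push (hN : 0 < N) (hk : ∑ i, k i = N) (hl : -(1 / 2) ≤ l) (hu : l ≤ 1)
    {x : Spin → ℝ} (hx : ∀ i, 0 ≤ x i) :
    defect N k (push l x) = De.persp (fun a => 1 - sHel N k (img l a)) x := by
  have h1 : push l x = fun i => wt x * img l (post x) i := funext fun i => img_post hx i
  have h2 : wt (push l x) = wt x := by
    have := (inS_img hl hu (post_inS hx)).2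
    rw [h1]
    simp only [wt, Fin.sum_univ_three]
    linear_combination ((x 0 + x 1 + x 2) / 9) * this
  rw [defect, h2, h1, sHel_smul hN hk (wt_nonneg hx) (inS_img hl hu (post_inS hx)).1, De.persp]
  ring

/-! ### Coordinates are nonincreasing -/

/-- The perspective of `φ` is a test function, at least on nonnegative vectors. -/
def TestFn (φ : (Spin → ℝ) → ℝ) : Prop :=
  ∃ H, De.Test H ∧ ∀ x : Spin → ℝ, (∀ i, 0 ≤ x i) → H x = De.persp φ x

lemma testFn_sq : TestFn sq := ⟨_, De.test_sq, fun _ _ => rfl⟩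

lemma testFn_defect_img (hN : 0 < N) (hk : ∑ i, k i = N) (hl : -(1 / 2) ≤ l) (hu : l ≤ 1) :
    TestFn fun a => 1 - sHel N k (img l a) :=
  ⟨_, (test_defect hN hk).comp_push hl hu, fun _ hx => defect_push hN hk hl hu hx⟩

lemma TestFn.const_mul {φ : (Spin → ℝ) → ℝ} (h : TestFn φ) {r : ℝ} (hr : 0 ≤ r) :
    TestFn fun a => r * φ a := by
  obtain ⟨H, hH, e⟩ := h
  refine ⟨fun x => r * H x, ⟨fun x hx => mul_nonneg hr (hH.nonneg x hx), fun x y hx hy => ?_,
    fun c x hc hx => ?_, fun σ x hx => ?_⟩, fun x hx => ?_⟩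
  · rw [← mul_add]; exact mul_le_mul_of_nonneg_left (hH.add_le x y hx hy) hr
  · rw [hH.smul c x hc hx]; ring
  · rw [hH.symm σ x hx]
  · show r * H x = De.persp (fun a => r * φ a) x
    rw [e x hx, De.persp, De.persp]; ring

lemma TestFn.nonneg {φ : (Spin → ℝ) → ℝ} (h : TestFn φ) {a : Spin → ℝ} (ha : InS a) : 0 ≤ φ a := by
  obtain ⟨H, hH, e⟩ := h
  have hw : wt a = 1 := by simp only [wt, Fin.sum_univ_three, ha.2]; norm_num
  have hp : post a = a := by funext i; simp [post, hw]
  have := hH.nonneg a ha.1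
  rwa [e a ha.1, De.persp, hw, hp, one_mul] at this

/-- One more level cannot increase the mean of a test function of the posterior. -/
theorem expect_trunc_of_test (hl : -(1 / 2) ≤ l) (hu : l ≤ 1) {φ : (Spin → ℝ) → ℝ}
    (hφ : TestFn φ) (n : ℕ) (T : Tr (n + 1)) :
    expect φ (lik l (n + 1) T) ≤ expect φ (lik l n (KS.trunc n T)) := by
  obtain ⟨H, hH, hHφ⟩ := hφ
  have h3 : -(1 / (((3 : ℕ) : ℝ) - 1)) ≤ l := by norm_num; linarith
  have hlik := KS.likQ_nonneg (q := 3) (by norm_num) h3 hu n (KS.trunc n T)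
  have hlik' := KS.likQ_nonneg (q := 3) (by norm_num) h3 hu (n + 1) T
  have hker := KS.ker_nonneg (q := 3) (by norm_num) h3 hu n T
  show ∑ c, De.persp φ (lik l (n + 1) T c) ≤ ∑ c, De.persp φ (lik l n (KS.trunc n T) c)
  rw [← Equiv.sum_comp (KS.cfgEquiv (n + 1) T), ← Equiv.sum_comp (KS.cfgEquiv n (KS.trunc n T))]
  have e : ∀ (m : ℕ) (U : Tr m) (c : KS.CfgQ 3 m U),
      lik l m U (KS.cfgEquiv m U c) = KS.likQ 3 l m U c := fun m U c =>
    funext fun i => (KS.likQ_three l m U c i).symm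
  simp only [e]
  rw [Finset.sum_congr rfl fun c _ => (hHφ _ (hlik' c)).symm,
    Finset.sum_congr rfl fun c _ => (hHφ _ (hlik c)).symm]
  calc ∑ c, H (KS.likQ 3 l (n + 1) T c)
      ≤ ∑ c, ∑ c', KS.ker 3 l n T c' c * H (KS.likQ 3 l n (KS.trunc n T) c') :=
        Finset.sum_le_sum fun c _ => by
          rw [show KS.likQ 3 l (n + 1) T c = fun i => ∑ c',
              (KS.ker 3 l n T c' c • KS.likQ 3 l n (KS.trunc n T) c') i from funext fun i => by
            simp only [KS.likQ_factor n T c i, Pi.smul_apply, smul_eq_mul, mul_comm]]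
          refine (test_le_sum hH _ _ fun c' _ i => mul_nonneg (hker c' c) (hlik c' i)).trans
            (le_of_eq (Finset.sum_congr rfl fun c' _ => ?_))
          exact hH.smul _ _ (hker c' c) (hlik c')
    _ = _ := by
        rw [Finset.sum_comm]
        simp only [← Finset.sum_mul, KS.sum_ker, one_mul]

/-- The averaged value of a test function of the posterior is nonincreasing in the depth. -/
theorem mean_antitone_of_test (hl : -(1 / 2) ≤ l) (hu : l ≤ 1) (hd : 0 ≤ d)
    {φ : (Spin → ℝ) → ℝ} (hφ : TestFn φ) (hb : Bdd φ) : Antitone fun n => mean l d n φ := by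
  refine antitone_nat_of_succ_le fun n => ?_
  have h0 : ∀ a, InS a → 0 ≤ φ a := fun a ha => hφ.nonneg ha
  rw [← ENNReal.ofReal_le_ofReal_iff (mean_nonneg hl hu n h0),
    ofReal_mean hl hu hd _ hb h0, ofReal_mean hl hu hd _ hb h0]
  exact (ENNReal.tsum_le_tsum fun T => mul_le_mul' le_rfl
    (ENNReal.ofReal_le_ofReal (expect_trunc_of_test hl hu hφ n T))).trans (le_of_eq
      (KS.tsum_trunc _ (poissonLaw_sum hd) n fun T => ENNReal.ofReal (expect φ (lik l n T))))

lemma bdd_defect_img (hN : 0 < N) (hk : ∑ i, k i = N) (hl : -(1 / 2) ≤ l) (hu : l ≤ 1) :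
    Bdd fun a => 1 - sHel N k (img l a) :=
  (bdd_const 1).sub (bdd_sHel_img hN hk hl hu)

/-- The affinity deficit after one edge is nonincreasing in the depth. -/
theorem mean_defect_antitone (hN : 0 < N) (hk : ∑ i, k i = N) (hl : -(1 / 2) ≤ l) (hu : l ≤ 1)
    (hd : 0 ≤ d) : Antitone fun n => mean l d n (fun u => 1 - sHel N k (img l u)) :=
  mean_antitone_of_test hl hu hd (testFn_defect_img hN hk hl hu) (bdd_defect_img hN hk hl hu)

lemma defect_img_le_one (hN : 0 < N) (hk : ∑ i, k i = N) (hl : -(1 / 2) ≤ l) (hu : l ≤ 1)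
    {a : Spin → ℝ} (ha : InS a) : 1 - sHel N k (img l a) ≤ 1 := by
  linarith [(sHel_mem hN hk (inS_img hl hu ha)).1]

/-! ### Drops and chains -/

variable {ι : Type}

/-- Where every coordinate is below `H` and the coordinate `a` is at least `L`, some bounded
combination of affinities gains a positive amount in one level. -/
def DropGain (l d : ℝ) (F : ι → (Spin → ℝ) → ℝ) (H : ι → ℝ) (a : ι) (L : ℝ) : Prop :=
  ∃ (m N : ℕ) (k : Fin m → Spin → ℕ) (c : Fin m → ℝ) (g : ℝ),
    0 < N ∧ (∀ j, ∑ i, k j i = N) ∧ 0 < g ∧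
    ∀ E : ((Spin → ℝ) → ℝ) → ℝ, IsLaw E → (∀ b, E (F b) ≤ H b) → L ≤ E (F a) →
      g ≤ ∑ j, c j *
        (Real.exp (-(d * (1 - E (fun u => sHel N (k j) (img l u))))) - E (sHel N (k j)))

/-- Some level, hence every later one, has all coordinates below `H`. -/
def Reach (l d : ℝ) (F : ι → (Spin → ℝ) → ℝ) (H : ι → ℝ) : Prop :=
  ∃ n, ∀ b, mean l d n (F b) ≤ H b

variable {F : ι → (Spin → ℝ) → ℝ}

/-- A drop: the coordinate `a` falls to `L`, and all bounds are kept. -/
theorem exists_drop (hl : -(1 / 2) ≤ l) (hu : l ≤ 1) (hd : 0 ≤ d)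
    (hF : ∀ b, Antitone fun n => mean l d n (F b)) {H : ι → ℝ} {a : ι} {L : ℝ}
    (hS : DropGain l d F H a L) {n0 : ℕ} (h0 : ∀ b, mean l d n0 (F b) ≤ H b) :
    ∃ n1, n0 ≤ n1 ∧ mean l d n1 (F a) ≤ L ∧ ∀ b, mean l d n1 (F b) ≤ H b := by
  obtain ⟨m, N, k, c, g, hN, hk, hg, h⟩ := hS
  by_contra hc
  have hkeep : ∀ n, n0 ≤ n → ∀ b, mean l d n (F b) ≤ H b := fun n hn b => (hF b hn).trans (h0 b)
  have hc' : ∀ n, n0 ≤ n → L < mean l d n (F a) := fun n hn =>
    lt_of_not_ge fun hle => hc ⟨n, hn, hle, hkeep n hn⟩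
  set S : ℕ → ℝ := fun n => ∑ j, c j * mean l d n (sHel N (k j)) with hSdef
  have hstep : ∀ i, g ≤ S (n0 + i + 1) - S (n0 + i) := fun i => by
    simp only [hSdef]
    rw [← Finset.sum_sub_distrib]
    refine (h _ (isLaw_mean hl hu hd (n0 + i)) (hkeep _ (Nat.le_add_right n0 i))
      (hc' _ (Nat.le_add_right n0 i)).le).trans
      (le_of_eq (Finset.sum_congr rfl fun j _ => ?_))
    rw [mean_sHel_succ hl hu hd _ hN (hk j), mul_sub]
  have hsum : ∀ i : ℕ, (i : ℝ) * g ≤ S (n0 + i) - S n0 := fun i => by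
    induction i with
    | zero => simp
    | succ i ih =>
      have h' := hstep i
      rw [show n0 + (i + 1) = n0 + i + 1 from rfl]
      push_cast
      linarith
  obtain ⟨i, hi⟩ := exists_nat_gt ((2 * ∑ j, |c j| * 3) / g)
  rw [div_lt_iff₀ hg] at hi
  have := hsum i
  linarith [(abs_le.mp (abs_comb_le hl hu hd c hN hk (n0 + i))).2,
    (abs_le.mp (abs_comb_le hl hu hd c hN hk n0)).1]

/-- A drop replaces one bound. -/
theorem Reach.drop [DecidableEq ι] (hl : -(1 / 2) ≤ l) (hu : l ≤ 1) (hd : 0 ≤ d)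
    (hF : ∀ b, Antitone fun n => mean l d n (F b)) {H : ι → ℝ} {a : ι} {L : ℝ}
    (hR : Reach l d F H) (hS : DropGain l d F H a L) :
    Reach l d F (Function.update H a L) := by
  obtain ⟨n0, h0⟩ := hR
  obtain ⟨n1, -, ha, hb⟩ := exists_drop hl hu hd hF hS h0
  refine ⟨n1, fun b => ?_⟩
  rcases eq_or_ne b a with rfl | hne
  · rw [Function.update_self]; exact ha
  · rw [Function.update_of_ne hne]; exact hb b

/-- The bounds after a list of drops. -/
def chainEnd [DecidableEq ι] : (ι → ℝ) → List (ι × ℝ) → (ι → ℝ)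
  | H, [] => H
  | H, (a, L) :: r => chainEnd (Function.update H a L) r

/-- Every drop of the list has its gain. -/
def ChainOK [DecidableEq ι] (l d : ℝ) (F : ι → (Spin → ℝ) → ℝ) : (ι → ℝ) → List (ι × ℝ) → Prop
  | _, [] => True
  | H, (a, L) :: r => DropGain l d F H a L ∧ ChainOK l d F (Function.update H a L) r

/-- A chain of drops. -/
theorem reach_chain [DecidableEq ι] (hl : -(1 / 2) ≤ l) (hu : l ≤ 1) (hd : 0 ≤ d)
    (hF : ∀ b, Antitone fun n => mean l d n (F b)) (steps : List (ι × ℝ)) {H : ι → ℝ}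
    (hR : Reach l d F H) (hok : ChainOK l d F H steps) : Reach l d F (chainEnd H steps) := by
  induction steps generalizing H with
  | nil => exact hR
  | cons x r ih =>
    obtain ⟨a, L⟩ := x
    exact ih (hR.drop hl hu hd hF hok.1) hok.2

/-- Bounds valid everywhere on the simplex are reached at depth zero. -/
theorem reach_start (hl : -(1 / 2) ≤ l) (hu : l ≤ 1) (hd : 0 ≤ d) {H : ι → ℝ}
    (hb : ∀ b, Bdd (F b)) (h : ∀ b u, InS u → F b u ≤ H b) : Reach l d F H :=
  ⟨0, fun b => by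
    have hE := isLaw_mean hl hu hd 0
    have := hE.mono _ _ (hb b) (bdd_const (H b)) (h b)
    rwa [hE.const] at this⟩

/-- A pointwise linear bound of a function by the coordinates bounds its mean. -/
lemma law_le_of_pointwise [Fintype ι] {E : ((Spin → ℝ) → ℝ) → ℝ} (hE : IsLaw E)
    (hFb : ∀ b, Bdd (F b)) {φ : (Spin → ℝ) → ℝ} (hφ : Bdd φ) {H : ι → ℝ} (μ : ι → ℝ) (a : ι)
    (L ν e : ℝ) (hμ : ∀ b, 0 ≤ μ b) (hν : 0 ≤ ν) (hH : ∀ b, E (F b) ≤ H b) (hL : L ≤ E (F a))
    (hpt : ∀ u, InS u → φ u ≤ e + (∑ b, μ b * F b u) - ν * F a u) :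
    E φ ≤ e + (∑ b, μ b * H b) - ν * L := by
  classical
  have h1 : ∀ b, Bdd fun u => μ b * F b u := fun b => (hFb b).smul (μ b)
  have hS : Bdd fun u => ∑ b, μ b * F b u := bdd_sum _ fun b _ => h1 b
  have hm := hE.mono _ _ hφ (((bdd_const e).add hS).sub ((hFb a).smul ν)) hpt
  rw [hE.sub ((bdd_const e).add hS) ((hFb a).smul ν), hE.add _ _ (bdd_const e) hS, hE.const,
    hE.smul _ _ (hFb a), hE.comb _ μ hFb] at hm
  have h2 : ∑ b, μ b * E (F b) ≤ ∑ b, μ b * H b :=
    Finset.sum_le_sum fun b _ => mul_le_mul_of_nonneg_left (hH b) (hμ b)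
  have h3 : ν * L ≤ ν * E (F a) := mul_le_mul_of_nonneg_left hL hν
  linarith

/-- Bounds implied pointwise by the others may replace a bound. -/
theorem Reach.tighten [Fintype ι] [DecidableEq ι] (hl : -(1 / 2) ≤ l) (hu : l ≤ 1) (hd : 0 ≤ d)
    (hFb : ∀ b, Bdd (F b)) {H : ι → ℝ} (μ : ι → ℝ) (b : ι) (e B : ℝ) (hμ : ∀ j, 0 ≤ μ j)
    (hpt : ∀ u, InS u → F b u ≤ e + ∑ j, μ j * F j u) (hB : e + ∑ j, μ j * H j ≤ B)
    (hR : Reach l d F H) : Reach l d F (Function.update H b B) := by
  obtain ⟨n, hn⟩ := hR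
  refine ⟨n, fun j => ?_⟩
  rcases eq_or_ne j b with rfl | hne
  · rw [Function.update_self]
    have := law_le_of_pointwise (isLaw_mean hl hu hd n) hFb (hFb j) μ j (mean l d n (F j)) 0 e hμ
      le_rfl hn le_rfl (fun u hu' => by simpa using hpt u hu')
    linarith
  · rw [Function.update_of_ne hne]; exact hn j

/-- A gain from one pointwise inequality: lower lines for `c exp(-z)` on the possible range of
each `z = d (1 - E sHel ∘ img)`, plus multipliers for the bounds. -/
theorem dropGain_of_pointwise [Fintype ι] (hl : -(1 / 2) ≤ l) (hu : l ≤ 1) {H : ι → ℝ} {a : ι}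
    {L : ℝ} (hFb : ∀ b, Bdd (F b)) {m N : ℕ} (k : Fin m → Spin → ℕ) (c α β : Fin m → ℝ)
    (μ : ι → ℝ) (ν g : ℝ) (hN : 0 < N) (hk : ∀ j, ∑ i, k j i = N) (hg : 0 < g)
    (hμ : ∀ b, 0 ≤ μ b) (hν : 0 ≤ ν)
    (hline : ∀ E, IsLaw E → (∀ b, E (F b) ≤ H b) → L ≤ E (F a) → ∀ j,
      α j + β j * (d * (1 - E (fun u => sHel N (k j) (img l u)))) ≤
        c j * Real.exp (-(d * (1 - E (fun u => sHel N (k j) (img l u))))))
    (hpt : ∀ u, InS u → g ≤ (∑ j, (α j + β j * (d * (1 - sHel N (k j) (img l u))) -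
      c j * sHel N (k j) u)) + (∑ b, μ b * (F b u - H b)) + ν * (L - F a u)) :
    DropGain l d F H a L := by
  classical
  refine ⟨m, N, k, c, g, hN, hk, hg, fun E hE hH hL => ?_⟩
  have hi : ∀ j, Bdd fun u => 1 - sHel N (k j) (img l u) := fun j => bdd_defect_img hN (hk j) hl hu
  have h1 : ∀ j, Bdd fun u => α j + β j * (d * (1 - sHel N (k j) (img l u))) :=
    fun j => (bdd_const (α j)).add (((hi j).smul d).smul (β j))
  have h2 : ∀ j, Bdd fun u => c j * sHel N (k j) u := fun j => (bdd_sHel hN (hk j)).smul (c j)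
  have hA : Bdd fun u => ∑ j, (α j + β j * (d * (1 - sHel N (k j) (img l u))) -
      c j * sHel N (k j) u) := bdd_sum _ fun j _ => (h1 j).sub (h2 j)
  have h3 : ∀ b, Bdd fun u => μ b * (F b u - H b) := fun b =>
    ((hFb b).sub (bdd_const (H b))).smul (μ b)
  have hB : Bdd fun u => ∑ b, μ b * (F b u - H b) := bdd_sum _ fun b _ => h3 b
  have hC : Bdd fun u => ν * (L - F a u) := ((bdd_const L).sub (hFb a)).smul ν
  have hm := hE.mono _ _ (bdd_const g) ((hA.add hB).add hC) hpt
  rw [hE.const, hE.add _ _ (hA.add hB) hC, hE.add _ _ hA hB,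
    hE.sum _ fun j => (h1 j).sub (h2 j), hE.sum _ h3,
    hE.smul _ _ ((bdd_const L).sub (hFb a)), hE.sub (bdd_const L) (hFb a), hE.const] at hm
  refine hm.trans ?_
  have eA : ∀ j, E (fun u => α j + β j * (d * (1 - sHel N (k j) (img l u))) -
      c j * sHel N (k j) u) ≤ c j * (Real.exp (-(d * (1 - E (fun u => sHel N (k j) (img l u))))) -
        E (sHel N (k j))) := fun j => by
    rw [hE.sub (h1 j) (h2 j), hE.add _ _ (bdd_const (α j)) (((hi j).smul d).smul (β j)), hE.const,
      hE.smul _ _ ((hi j).smul d), hE.smul _ _ (hi j), hE.sub (bdd_const 1)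
        (bdd_sHel_img hN (hk j) hl hu), hE.const, hE.smul _ _ (bdd_sHel hN (hk j)), mul_sub (c j)]
    exact sub_le_sub_right (hline E hE hH hL j) _
  have eB : ∑ b, E (fun u => μ b * (F b u - H b)) ≤ 0 := Finset.sum_nonpos fun b _ => by
    rw [hE.smul _ _ ((hFb b).sub (bdd_const (H b))), hE.sub (hFb b) (bdd_const (H b)), hE.const]
    exact mul_nonpos_of_nonneg_of_nonpos (hμ b) (sub_nonpos.mpr (hH b))
  have eC : ν * (L - E (F a)) ≤ 0 := mul_nonpos_of_nonneg_of_nonpos hν (sub_nonpos.mpr hL)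
  linarith [Finset.sum_le_sum fun j (_ : j ∈ (Finset.univ : Finset (Fin m))) => eA j]

/-- A lower line on an interval for a nonnegative multiple of `exp (-z)`: any tangent. -/
lemma line_le_exp_of_nonneg {c z0 : ℝ} (hc : 0 ≤ c) (z : ℝ) :
    c * Real.exp (-z0) * (1 + z0) + -(c * Real.exp (-z0)) * z ≤ c * Real.exp (-z) := by
  have h := mul_le_mul_of_nonneg_left (Real.add_one_le_exp (z0 - z))
    (mul_nonneg hc (Real.exp_pos (-z0)).le)
  have e : c * Real.exp (-z) = c * Real.exp (-z0) * Real.exp (z0 - z) := by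
    rw [mul_assoc c (Real.exp (-z0)) (Real.exp (z0 - z)), ← Real.exp_add]
    ring_nf
  rw [e]
  linarith

/-- A lower line on an interval for a nonpositive multiple of `exp (-z)`: it suffices at the two
ends. -/
lemma line_le_exp_of_nonpos {c α β lo hi z : ℝ} (hc : c ≤ 0) (h1 : lo ≤ z) (h2 : z ≤ hi)
    (hlo : α + β * lo ≤ c * Real.exp (-lo)) (hhi : α + β * hi ≤ c * Real.exp (-hi)) :
    α + β * z ≤ c * Real.exp (-z) := by
  rcases eq_or_lt_of_le (h1.trans h2) with h | h
  · obtain rfl : z = lo := le_antisymm (h ▸ h2) h1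
    exact hlo
  set t := (hi - z) / (hi - lo) with ht
  have hne : hi - lo ≠ 0 := by linarith
  have t0 : 0 ≤ t := div_nonneg (by linarith) (by linarith)
  have t1 : 0 ≤ 1 - t := by
    rw [ht, one_sub_div hne]; exact div_nonneg (by linarith) (by linarith)
  have hz : -z = t * -lo + (1 - t) * -hi := by rw [ht]; field_simp; ring
  have hcv := convexOn_exp.2 (Set.mem_univ (-lo)) (Set.mem_univ (-hi)) t0 t1 (by ring)
  simp only [smul_eq_mul] at hcv
  rw [hz]
  refine le_trans ?_ (mul_le_mul_of_nonpos_left hcv hc)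
  have := add_le_add (mul_le_mul_of_nonneg_left hlo t0) (mul_le_mul_of_nonneg_left hhi t1)
  have e : α + β * z = t * (α + β * lo) + (1 - t) * (α + β * hi) := by
    linear_combination (-β) * hz
  rw [e]
  linarith

end Vale.Agent.P154.Ly
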