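import Vale.Agent.P154.LyCrit
import Vale.Agent.P154.LyBAEnd
import Vale.Agent.P154.LyBHEnd
import Vale.Agent.P154.LyBCEnd
import Vale.Agent.P154.LyBDEnd

/-!
The bands cover `[28867 / 100000, 1 / 2]`: Poisson trees of mean `4 ≤ d ≤ 12` at `-1 / √d`.
-/

open Filter

namespace Vale.Agent.P154.Ly

/-- The bands cover every parameter of a critical point with `4 ≤ d ≤ 12`. -/
theorem cover : BandReach (28867 / 100000) (1 / 2) :=
  (((BA.reach.glue BH.reach (by norm_num [BA.band, BH.band])).glue BC.reach
      (by norm_num [BH.band, BC.band])).glue BD.reach (by norm_num [BC.band, BD.band])).mono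
    (by norm_num [BA.band]) (by norm_num [BD.band])

/-- Non-reconstruction on the critical antiferromagnetic line for Poisson offspring of mean in
`[4, 12]`. -/
theorem tendsto_gwTV_crit :
    ∀ d : ℝ, 4 ≤ d → d ≤ 12 → Tendsto (gwTV (poissonLaw d) (-(1 / √d))) atTop (nhds 0) :=
  tendsto_gwTV_of_bands cover fun _ h4 h12 h => tendsto_gwTV_of_small h4 h12 h

end Vale.Agent.P154.Ly
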