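import Vale.Agent.P154.LyEndInt
import Vale.Agent.P154.DeBoxCert

/-!
Chains of boxes for the bands 2 to 5 of mean offspring numbers, checked by the kernel.
-/

namespace Vale.Agent.P154.Ly.End

open DeBox (Bx)

/-- Band 2. -/
def band2 : Band := ⟨(83 / 20 : ℚ), (17 / 4 : ℚ), (117647 / 500000 : ℚ), (60241 / 250000 : ℚ), (490881 / 1000000 : ℚ), 18⟩

/-- Box 0 of band 2. -/
def box2_0 : Bx := ⟨(7 / 100 : ℚ), (1 : ℚ), (1 : ℚ), (1 : ℚ)⟩

/-- Its image. -/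
def out2_0 : Out := ⟨(-128569 / 100000 : ℚ), (13669 / 20000 : ℚ), (14003 / 25000 : ℚ), (55041 / 100000 : ℚ)⟩

theorem lev2_0 : okOut DeBox.bds band2 box2_0 out2_0 = true :=
  okOut_of_zokOut (by decide +kernel)

/-- Box 1 of band 2. -/
def box2_1 : Bx := ⟨(763 / 10000 : ℚ), (63 / 100 : ℚ), (129 / 250 : ℚ), (507 / 1000 : ℚ)⟩

/-- Its image. -/
def out2_1 : Out := ⟨(-39567 / 100000 : ℚ), (27967 / 100000 : ℚ), (41177 / 100000 : ℚ), (30347 / 100000 : ℚ)⟩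

theorem lev2_1 : okOut DeBox.bds band2 box2_1 out2_1 = true :=
  okOut_of_zokOut (by decide +kernel)

/-- Box 2 of band 2. -/
def box2_2 : Bx := ⟨(19651 / 250000 : ℚ), (273 / 1000 : ℚ), (201 / 500 : ℚ), (37 / 125 : ℚ)⟩

/-- Its image. -/
def out2_2 : Out := ⟨(-16711 / 100000 : ℚ), (20551 / 100000 : ℚ), (3751 / 12500 : ℚ), (11929 / 50000 : ℚ)⟩

theorem lev2_2 : okOut DeBox.bds band2 box2_2 out2_2 = true :=
  okOut_of_zokOut (by decide +kernel)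

/-- Box 3 of band 2. -/
def box2_3 : Bx := ⟨(79637 / 1000000 : ℚ), (51 / 250 : ℚ), (149 / 500 : ℚ), (237 / 1000 : ℚ)⟩

/-- Its image. -/
def out2_3 : Out := ⟨(-633 / 20000 : ℚ), (15229 / 100000 : ℚ), (27983 / 100000 : ℚ), (22367 / 100000 : ℚ)⟩

theorem lev2_3 : okOut DeBox.bds band2 box2_3 out2_3 = true :=
  okOut_of_zokOut (by decide +kernel)

/-- Box 4 of band 2. -/
def box2_4 : Bx := ⟨(39919 / 500000 : ℚ), (153 / 1000 : ℚ), (281 / 1000 : ℚ), (28 / 125 : ℚ)⟩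

/-- Its image. -/
def out2_4 : Out := ⟨(-33 / 4000 : ℚ), (7171 / 50000 : ℚ), (26507 / 100000 : ℚ), (22057 / 100000 : ℚ)⟩

theorem lev2_4 : okOut DeBox.bds band2 box2_4 out2_4 = true :=
  okOut_of_zokOut (by decide +kernel)

/-- Box 5 of band 2. -/
def box2_5 : Bx := ⟨(79891 / 1000000 : ℚ), (18 / 125 : ℚ), (133 / 500 : ℚ), (111 / 500 : ℚ)⟩

/-- Its image. -/
def out2_5 : Out := ⟨(767 / 100000 : ℚ), (6793 / 50000 : ℚ), (21 / 80 : ℚ), (2201 / 10000 : ℚ)⟩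

theorem lev2_5 : okOut DeBox.bds band2 box2_5 out2_5 = true :=
  okOut_of_zokOut (by decide +kernel)

/-- The chain of band 2. -/
def chain2 : List (Bx × Out) :=
  [(box2_0, out2_0),
    (box2_1, out2_1),
    (box2_2, out2_2),
    (box2_3, out2_3),
    (box2_4, out2_4),
    (box2_5, out2_5)]

theorem check2 : (okBand band2 && okHead (7 / 100) chain2 && okChain chain2) = true := by
  decide +kernel

theorem all2 : ∀ p ∈ chain2, okOut DeBox.bds band2 p.1 p.2 = true := by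
  simp only [chain2, List.forall_mem_cons]
  exact ⟨lev2_0, lev2_1, lev2_2, lev2_3, lev2_4, lev2_5, by simp⟩

/-- Band 3. -/
def band3 : Band := ⟨(17 / 4 : ℚ), (87 / 20 : ℚ), (45977 / 200000 : ℚ), (47059 / 200000 : ℚ), (30317 / 62500 : ℚ), 18⟩

/-- Box 0 of band 3. -/
def box3_0 : Bx := ⟨(7 / 100 : ℚ), (1 : ℚ), (1 : ℚ), (1 : ℚ)⟩

/-- Its image. -/
def out3_0 : Out := ⟨(-62383 / 50000 : ℚ), (32983 / 50000 : ℚ), (55227 / 100000 : ℚ), (26691 / 50000 : ℚ)⟩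

theorem lev3_0 : okOut DeBox.bds band3 box3_0 out3_0 = true :=
  okOut_of_zokOut (by decide +kernel)

/-- Box 1 of band 3. -/
def box3_1 : Bx := ⟨(38057 / 500000 : ℚ), (61 / 100 : ℚ), (51 / 100 : ℚ), (493 / 1000 : ℚ)⟩

/-- Its image. -/
def out3_1 : Out := ⟨(-36767 / 100000 : ℚ), (2699 / 10000 : ℚ), (40197 / 100000 : ℚ), (917 / 3125 : ℚ)⟩

theorem lev3_1 : okOut DeBox.bds band3 box3_1 out3_1 = true :=
  okOut_of_zokOut (by decide +kernel)

/-- Box 2 of band 3. -/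
def box3_2 : Bx := ⟨(15649 / 200000 : ℚ), (33 / 125 : ℚ), (393 / 1000 : ℚ), (287 / 1000 : ℚ)⟩

/-- Its image. -/
def out3_2 : Out := ⟨(-7219 / 50000 : ℚ), (19819 / 100000 : ℚ), (7379 / 25000 : ℚ), (11657 / 50000 : ℚ)⟩

theorem lev3_2 : okOut DeBox.bds band3 box3_2 out3_2 = true :=
  okOut_of_zokOut (by decide +kernel)

/-- Box 3 of band 3. -/
def box3_3 : Bx := ⟨(79129 / 1000000 : ℚ), (197 / 1000 : ℚ), (147 / 500 : ℚ), (29 / 125 : ℚ)⟩

/-- Its image. -/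
def out3_3 : Out := ⟨(-911 / 50000 : ℚ), (1853 / 12500 : ℚ), (1723 / 6250 : ℚ), (11003 / 50000 : ℚ)⟩

theorem lev3_3 : okOut DeBox.bds band3 box3_3 out3_3 = true :=
  okOut_of_zokOut (by decide +kernel)

/-- Box 4 of band 3. -/
def box3_4 : Bx := ⟨(19811 / 250000 : ℚ), (149 / 1000 : ℚ), (277 / 1000 : ℚ), (221 / 1000 : ℚ)⟩

/-- Its image. -/
def out3_4 : Out := ⟨(191 / 50000 : ℚ), (13953 / 100000 : ℚ), (26181 / 100000 : ℚ), (1087 / 5000 : ℚ)⟩

theorem lev3_4 : okOut DeBox.bds band3 box3_4 out3_4 = true :=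
  okOut_of_zokOut (by decide +kernel)

/-- The chain of band 3. -/
def chain3 : List (Bx × Out) :=
  [(box3_0, out3_0),
    (box3_1, out3_1),
    (box3_2, out3_2),
    (box3_3, out3_3),
    (box3_4, out3_4)]

theorem check3 : (okBand band3 && okHead (7 / 100) chain3 && okChain chain3) = true := by
  decide +kernel

theorem all3 : ∀ p ∈ chain3, okOut DeBox.bds band3 p.1 p.2 = true := by
  simp only [chain3, List.forall_mem_cons]
  exact ⟨lev3_0, lev3_1, lev3_2, lev3_3, lev3_4, by simp⟩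

/-- Band 4. -/
def band4 : Band := ⟨(87 / 20 : ℚ), (89 / 20 : ℚ), (224719 / 1000000 : ℚ), (114943 / 500000 : ℚ), (59933 / 125000 : ℚ), 19⟩

/-- Box 0 of band 4. -/
def box4_0 : Bx := ⟨(7 / 100 : ℚ), (1 : ℚ), (1 : ℚ), (1 : ℚ)⟩

/-- Its image. -/
def out4_0 : Out := ⟨(-60557 / 50000 : ℚ), (31837 / 50000 : ℚ), (6809 / 12500 : ℚ), (51867 / 100000 : ℚ)⟩

theorem lev4_0 : okOut DeBox.bds band4 box4_0 out4_0 = true :=
  okOut_of_zokOut (by decide +kernel)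

/-- Box 1 of band 4. -/
def box4_1 : Bx := ⟨(15187 / 200000 : ℚ), (59 / 100 : ℚ), (101 / 200 : ℚ), (481 / 1000 : ℚ)⟩

/-- Its image. -/
def out4_1 : Out := ⟨(-17143 / 50000 : ℚ), (26101 / 100000 : ℚ), (39249 / 100000 : ℚ), (28473 / 100000 : ℚ)⟩

theorem lev4_1 : okOut DeBox.bds band4 box4_1 out4_1 = true :=
  okOut_of_zokOut (by decide +kernel)

/-- Box 2 of band 4. -/
def box4_2 : Bx := ⟨(9739 / 125000 : ℚ), (32 / 125 : ℚ), (77 / 200 : ℚ), (279 / 1000 : ℚ)⟩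

/-- Its image. -/
def out4_2 : Out := ⟨(-1549 / 12500 : ℚ), (3831 / 20000 : ℚ), (2907 / 10000 : ℚ), (5707 / 25000 : ℚ)⟩

theorem lev4_2 : okOut DeBox.bds band4 box4_2 out4_2 = true :=
  okOut_of_zokOut (by decide +kernel)

/-- Box 3 of band 4. -/
def box4_3 : Bx := ⟨(15733 / 200000 : ℚ), (191 / 1000 : ℚ), (29 / 100 : ℚ), (227 / 1000 : ℚ)⟩

/-- Its image. -/
def out4_3 : Out := ⟨(-547 / 100000 : ℚ), (14429 / 100000 : ℚ), (27197 / 100000 : ℚ), (10837 / 50000 : ℚ)⟩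

theorem lev4_3 : okOut DeBox.bds band4 box4_3 out4_3 = true :=
  okOut_of_zokOut (by decide +kernel)

/-- Box 4 of band 4. -/
def box4_4 : Bx := ⟨(78699 / 1000000 : ℚ), (29 / 200 : ℚ), (273 / 1000 : ℚ), (109 / 500 : ℚ)⟩

/-- Its image. -/
def out4_4 : Out := ⟨(309 / 20000 : ℚ), (13573 / 100000 : ℚ), (25869 / 100000 : ℚ), (134 / 625 : ℚ)⟩

theorem lev4_4 : okOut DeBox.bds band4 box4_4 out4_4 = true :=
  okOut_of_zokOut (by decide +kernel)

/-- The chain of band 4. -/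
def chain4 : List (Bx × Out) :=
  [(box4_0, out4_0),
    (box4_1, out4_1),
    (box4_2, out4_2),
    (box4_3, out4_3),
    (box4_4, out4_4)]

theorem check4 : (okBand band4 && okHead (7 / 100) chain4 && okChain chain4) = true := by
  decide +kernel

theorem all4 : ∀ p ∈ chain4, okOut DeBox.bds band4 p.1 p.2 = true := by
  simp only [chain4, List.forall_mem_cons]
  exact ⟨lev4_0, lev4_1, lev4_2, lev4_3, lev4_4, by simp⟩

/-- Band 5. -/
def band5 : Band := ⟨(89 / 20 : ℚ), (91 / 20 : ℚ), (10989 / 50000 : ℚ), (2809 / 12500 : ℚ), (237023 / 500000 : ℚ), 19⟩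

/-- Box 0 of band 5. -/
def box5_0 : Bx := ⟨(7 / 100 : ℚ), (1 : ℚ), (1 : ℚ), (1 : ℚ)⟩

/-- Its image. -/
def out5_0 : Out := ⟨(-23561 / 20000 : ℚ), (2471 / 4000 : ℚ), (10749 / 20000 : ℚ), (25251 / 50000 : ℚ)⟩

theorem lev5_0 : okOut DeBox.bds band5 box5_0 out5_0 = true :=
  okOut_of_zokOut (by decide +kernel)

/-- Box 1 of band 5. -/
def box5_1 : Bx := ⟨(75773 / 1000000 : ℚ), (573 / 1000 : ℚ), (499 / 1000 : ℚ), (469 / 1000 : ℚ)⟩

/-- Its image. -/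
def out5_1 : Out := ⟨(-7957 / 25000 : ℚ), (6317 / 25000 : ℚ), (19211 / 50000 : ℚ), (3457 / 12500 : ℚ)⟩

theorem lev5_1 : okOut DeBox.bds band5 box5_1 out5_1 = true :=
  okOut_of_zokOut (by decide +kernel)

/-- Box 2 of band 5. -/
def box5_2 : Bx := ⟨(77601 / 1000000 : ℚ), (31 / 125 : ℚ), (377 / 1000 : ℚ), (34 / 125 : ℚ)⟩

/-- Its image. -/
def out5_2 : Out := ⟨(-1047 / 10000 : ℚ), (18517 / 100000 : ℚ), (14319 / 50000 : ℚ), (22411 / 100000 : ℚ)⟩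

theorem lev5_2 : okOut DeBox.bds band5 box5_2 out5_2 = true :=
  okOut_of_zokOut (by decide +kernel)

/-- Box 3 of band 5. -/
def box5_3 : Bx := ⟨(9779 / 125000 : ℚ), (37 / 200 : ℚ), (143 / 500 : ℚ), (28 / 125 : ℚ)⟩

/-- Its image. -/
def out5_3 : Out := ⟨(299 / 50000 : ℚ), (14051 / 100000 : ℚ), (26841 / 100000 : ℚ), (10699 / 50000 : ℚ)⟩

theorem lev5_3 : okOut DeBox.bds band5 box5_3 out5_3 = true :=
  okOut_of_zokOut (by decide +kernel)

/-- The chain of band 5. -/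
def chain5 : List (Bx × Out) :=
  [(box5_0, out5_0),
    (box5_1, out5_1),
    (box5_2, out5_2),
    (box5_3, out5_3)]

theorem check5 : (okBand band5 && okHead (7 / 100) chain5 && okChain chain5) = true := by
  decide +kernel

theorem all5 : ∀ p ∈ chain5, okOut DeBox.bds band5 p.1 p.2 = true := by
  simp only [chain5, List.forall_mem_cons]
  exact ⟨lev5_0, lev5_1, lev5_2, lev5_3, by simp⟩

end Vale.Agent.P154.Ly.End
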