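import Vale.Agent.P154.LyEndInt
import Vale.Agent.P154.DeBoxCert

/-!
Chains of boxes for the bands 6 to 9 of mean offspring numbers, checked by the kernel.
-/

namespace Vale.Agent.P154.Ly.End

open DeBox (Bx)

/-- Band 6. -/
def band6 : Band := ⟨(91 / 20 : ℚ), (19 / 4 : ℚ), (105263 / 500000 : ℚ), (219781 / 1000000 : ℚ), (58601 / 125000 : ℚ), 19⟩

/-- Box 0 of band 6. -/
def box6_0 : Bx := ⟨(7 / 100 : ℚ), (1 : ℚ), (1 : ℚ), (1 : ℚ)⟩

/-- Its image. -/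
def out6_0 : Out := ⟨(-123663 / 100000 : ℚ), (63651 / 100000 : ℚ), (54861 / 100000 : ℚ), (25977 / 50000 : ℚ)⟩

theorem lev6_0 : okOut DeBox.bds band6 box6_0 out6_0 = true :=
  okOut_of_zokOut (by decide +kernel)

/-- Box 1 of band 6. -/
def box6_1 : Bx := ⟨(3803 / 50000 : ℚ), (589 / 1000 : ℚ), (507 / 1000 : ℚ), (481 / 1000 : ℚ)⟩

/-- Its image. -/
def out6_1 : Out := ⟨(-17561 / 50000 : ℚ), (26313 / 100000 : ℚ), (8049 / 20000 : ℚ), (29231 / 100000 : ℚ)⟩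

theorem lev6_1 : okOut DeBox.bds band6 box6_1 out6_1 = true :=
  okOut_of_zokOut (by decide +kernel)

/-- Box 2 of band 6. -/
def box6_2 : Bx := ⟨(19523 / 250000 : ℚ), (129 / 500 : ℚ), (197 / 500 : ℚ), (143 / 500 : ℚ)⟩

/-- Its image. -/
def out6_2 : Out := ⟨(-14091 / 100000 : ℚ), (9867 / 50000 : ℚ), (15173 / 50000 : ℚ), (2993 / 12500 : ℚ)⟩

theorem lev6_2 : okOut DeBox.bds band6 box6_2 out6_2 = true :=
  okOut_of_zokOut (by decide +kernel)

/-- Box 3 of band 6. -/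
def box6_3 : Bx := ⟨(9869 / 125000 : ℚ), (49 / 250 : ℚ), (151 / 500 : ℚ), (119 / 500 : ℚ)⟩

/-- Its image. -/
def out6_3 : Out := ⟨(-1283 / 50000 : ℚ), (1513 / 10000 : ℚ), (28609 / 100000 : ℚ), (4581 / 20000 : ℚ)⟩

theorem lev6_3 : okOut DeBox.bds band6 box6_3 out6_3 = true :=
  okOut_of_zokOut (by decide +kernel)

/-- Box 4 of band 6. -/
def box6_4 : Bx := ⟨(9889 / 125000 : ℚ), (19 / 125 : ℚ), (287 / 1000 : ℚ), (23 / 100 : ℚ)⟩

/-- Its image. -/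
def out6_4 : Out := ⟨(-139 / 20000 : ℚ), (14371 / 100000 : ℚ), (27383 / 100000 : ℚ), (22719 / 100000 : ℚ)⟩

theorem lev6_4 : okOut DeBox.bds band6 box6_4 out6_4 = true :=
  okOut_of_zokOut (by decide +kernel)

/-- Box 5 of band 6. -/
def box6_5 : Bx := ⟨(19789 / 250000 : ℚ), (29 / 200 : ℚ), (11 / 40 : ℚ), (57 / 250 : ℚ)⟩

/-- Its image. -/
def out6_5 : Out := ⟨(589 / 100000 : ℚ), (551 / 4000 : ℚ), (2719 / 10000 : ℚ), (5669 / 25000 : ℚ)⟩

theorem lev6_5 : okOut DeBox.bds band6 box6_5 out6_5 = true :=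
  okOut_of_zokOut (by decide +kernel)

/-- The chain of band 6. -/
def chain6 : List (Bx × Out) :=
  [(box6_0, out6_0),
    (box6_1, out6_1),
    (box6_2, out6_2),
    (box6_3, out6_3),
    (box6_4, out6_4),
    (box6_5, out6_5)]

theorem check6 : (okBand band6 && okHead (7 / 100) chain6 && okChain chain6) = true := by
  decide +kernel

theorem all6 : ∀ p ∈ chain6, okOut DeBox.bds band6 p.1 p.2 = true := by
  simp only [chain6, List.forall_mem_cons]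
  exact ⟨lev6_0, lev6_1, lev6_2, lev6_3, lev6_4, lev6_5, by simp⟩

/-- Band 7. -/
def band7 : Band := ⟨(19 / 4 : ℚ), (99 / 20 : ℚ), (10101 / 50000 : ℚ), (210527 / 1000000 : ℚ), (28677 / 62500 : ℚ), 20⟩

/-- Box 0 of band 7. -/
def box7_0 : Bx := ⟨(7 / 100 : ℚ), (1 : ℚ), (1 : ℚ), (1 : ℚ)⟩

/-- Its image. -/
def out7_0 : Out := ⟨(-469 / 400 : ℚ), (6039 / 10000 : ℚ), (53513 / 100000 : ℚ), (12361 / 25000 : ℚ)⟩

theorem lev7_0 : okOut DeBox.bds band7 box7_0 out7_0 = true :=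
  okOut_of_zokOut (by decide +kernel)

/-- Box 1 of band 7. -/
def box7_1 : Bx := ⟨(37873 / 500000 : ℚ), (561 / 1000 : ℚ), (497 / 1000 : ℚ), (459 / 1000 : ℚ)⟩

/-- Its image. -/
def out7_1 : Out := ⟨(-30579 / 100000 : ℚ), (4977 / 20000 : ℚ), (38827 / 100000 : ℚ), (13883 / 50000 : ℚ)⟩

theorem lev7_1 : okOut DeBox.bds band7 box7_1 out7_1 = true :=
  okOut_of_zokOut (by decide +kernel)

/-- Box 2 of band 7. -/
def box7_2 : Bx := ⟨(77501 / 1000000 : ℚ), (49 / 200 : ℚ), (381 / 1000 : ℚ), (273 / 1000 : ℚ)⟩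

/-- Its image. -/
def out7_2 : Out := ⟨(-5289 / 50000 : ℚ), (18611 / 100000 : ℚ), (29581 / 100000 : ℚ), (23151 / 100000 : ℚ)⟩

theorem lev7_2 : okOut DeBox.bds band7 box7_2 out7_2 = true :=
  okOut_of_zokOut (by decide +kernel)

/-- Box 3 of band 7. -/
def box7_3 : Bx := ⟨(78137 / 1000000 : ℚ), (93 / 500 : ℚ), (59 / 200 : ℚ), (231 / 1000 : ℚ)⟩

/-- Its image. -/
def out7_3 : Out := ⟨(-281 / 100000 : ℚ), (7209 / 50000 : ℚ), (27951 / 100000 : ℚ), (11167 / 50000 : ℚ)⟩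

theorem lev7_3 : okOut DeBox.bds band7 box7_3 out7_3 = true :=
  okOut_of_zokOut (by decide +kernel)

/-- Box 4 of band 7. -/
def box7_4 : Bx := ⟨(15631 / 200000 : ℚ), (29 / 200 : ℚ), (281 / 1000 : ℚ), (9 / 40 : ℚ)⟩

/-- Its image. -/
def out7_4 : Out := ⟨(67 / 5000 : ℚ), (429 / 3125 : ℚ), (13403 / 50000 : ℚ), (22169 / 100000 : ℚ)⟩

theorem lev7_4 : okOut DeBox.bds band7 box7_4 out7_4 = true :=
  okOut_of_zokOut (by decide +kernel)

/-- The chain of band 7. -/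
def chain7 : List (Bx × Out) :=
  [(box7_0, out7_0),
    (box7_1, out7_1),
    (box7_2, out7_2),
    (box7_3, out7_3),
    (box7_4, out7_4)]

theorem check7 : (okBand band7 && okHead (7 / 100) chain7 && okChain chain7) = true := by
  decide +kernel

theorem all7 : ∀ p ∈ chain7, okOut DeBox.bds band7 p.1 p.2 = true := by
  simp only [chain7, List.forall_mem_cons]
  exact ⟨lev7_0, lev7_1, lev7_2, lev7_3, lev7_4, by simp⟩

/-- Band 8. -/
def band8 : Band := ⟨(99 / 20 : ℚ), (103 / 20 : ℚ), (97087 / 500000 : ℚ), (202021 / 1000000 : ℚ), (449467 / 1000000 : ℚ), 20⟩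

/-- Box 0 of band 8. -/
def box8_0 : Bx := ⟨(7 / 100 : ℚ), (1 : ℚ), (1 : ℚ), (1 : ℚ)⟩

/-- Its image. -/
def out8_0 : Out := ⟨(-111243 / 100000 : ℚ), (14331 / 25000 : ℚ), (13153 / 25000 : ℚ), (47203 / 100000 : ℚ)⟩

theorem lev8_0 : okOut DeBox.bds band8 box8_0 out8_0 = true :=
  okOut_of_zokOut (by decide +kernel)

/-- Box 1 of band 8. -/
def box8_1 : Bx := ⟨(75451 / 1000000 : ℚ), (267 / 500 : ℚ), (491 / 1000 : ℚ), (11 / 25 : ℚ)⟩

/-- Its image. -/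
def out8_1 : Out := ⟨(-5397 / 20000 : ℚ), (23837 / 100000 : ℚ), (37509 / 100000 : ℚ), (13281 / 50000 : ℚ)⟩

theorem lev8_1 : okOut DeBox.bds band8 box8_1 out8_1 = true :=
  okOut_of_zokOut (by decide +kernel)

/-- Box 2 of band 8. -/
def box8_2 : Bx := ⟨(19247 / 250000 : ℚ), (47 / 200 : ℚ), (37 / 100 : ℚ), (131 / 500 : ℚ)⟩

/-- Its image. -/
def out8_2 : Out := ⟨(-953 / 12500 : ℚ), (4417 / 25000 : ℚ), (1447 / 5000 : ℚ), (22501 / 100000 : ℚ)⟩

theorem lev8_2 : okOut DeBox.bds band8 box8_2 out8_2 = true :=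
  okOut_of_zokOut (by decide +kernel)

/-- Box 3 of band 8. -/
def box8_3 : Bx := ⟨(242 / 3125 : ℚ), (177 / 1000 : ℚ), (289 / 1000 : ℚ), (9 / 40 : ℚ)⟩

/-- Its image. -/
def out8_3 : Out := ⟨(1659 / 100000 : ℚ), (13807 / 100000 : ℚ), (171 / 625 : ℚ), (2183 / 10000 : ℚ)⟩

theorem lev8_3 : okOut DeBox.bds band8 box8_3 out8_3 = true :=
  okOut_of_zokOut (by decide +kernel)

/-- The chain of band 8. -/
def chain8 : List (Bx × Out) :=
  [(box8_0, out8_0),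
    (box8_1, out8_1),
    (box8_2, out8_2),
    (box8_3, out8_3)]

theorem check8 : (okBand band8 && okHead (7 / 100) chain8 && okChain chain8) = true := by
  decide +kernel

theorem all8 : ∀ p ∈ chain8, okOut DeBox.bds band8 p.1 p.2 = true := by
  simp only [chain8, List.forall_mem_cons]
  exact ⟨lev8_0, lev8_1, lev8_2, lev8_3, by simp⟩

/-- Band 9. -/
def band9 : Band := ⟨(103 / 20 : ℚ), (107 / 20 : ℚ), (37383 / 200000 : ℚ), (7767 / 40000 : ℚ), (440653 / 1000000 : ℚ), 20⟩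

/-- Box 0 of band 9. -/
def box9_0 : Bx := ⟨(7 / 100 : ℚ), (1 : ℚ), (1 : ℚ), (1 : ℚ)⟩

/-- Its image. -/
def out9_0 : Out := ⟨(-106031 / 100000 : ℚ), (27349 / 50000 : ℚ), (5179 / 10000 : ℚ), (1413 / 3125 : ℚ)⟩

theorem lev9_0 : okOut DeBox.bds band9 box9_0 out9_0 = true :=
  okOut_of_zokOut (by decide +kernel)

/-- Box 1 of band 9. -/
def box9_1 : Bx := ⟨(18799 / 250000 : ℚ), (64 / 125 : ℚ), (97 / 200 : ℚ), (423 / 1000 : ℚ)⟩

/-- Its image. -/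
def out9_1 : Out := ⟨(-1191 / 5000 : ℚ), (5723 / 25000 : ℚ), (7279 / 20000 : ℚ), (25541 / 100000 : ℚ)⟩

theorem lev9_1 : okOut DeBox.bds band9 box9_1 out9_1 = true :=
  okOut_of_zokOut (by decide +kernel)

/-- Box 2 of band 9. -/
def box9_2 : Bx := ⟨(76543 / 1000000 : ℚ), (113 / 500 : ℚ), (359 / 1000 : ℚ), (63 / 250 : ℚ)⟩

/-- Its image. -/
def out9_2 : Out := ⟨(-4897 / 100000 : ℚ), (16771 / 100000 : ℚ), (709 / 2500 : ℚ), (5489 / 25000 : ℚ)⟩

theorem lev9_2 : okOut DeBox.bds band9 box9_2 out9_2 = true :=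
  okOut_of_zokOut (by decide +kernel)

/-- Box 3 of band 9. -/
def box9_3 : Bx := ⟨(7683 / 100000 : ℚ), (21 / 125 : ℚ), (71 / 250 : ℚ), (11 / 50 : ℚ)⟩

/-- Its image. -/
def out9_3 : Out := ⟨(1657 / 50000 : ℚ), (531 / 4000 : ℚ), (67 / 250 : ℚ), (21383 / 100000 : ℚ)⟩

theorem lev9_3 : okOut DeBox.bds band9 box9_3 out9_3 = true :=
  okOut_of_zokOut (by decide +kernel)

/-- The chain of band 9. -/
def chain9 : List (Bx × Out) :=
  [(box9_0, out9_0),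
    (box9_1, out9_1),
    (box9_2, out9_2),
    (box9_3, out9_3)]

theorem check9 : (okBand band9 && okHead (7 / 100) chain9 && okChain chain9) = true := by
  decide +kernel

theorem all9 : ∀ p ∈ chain9, okOut DeBox.bds band9 p.1 p.2 = true := by
  simp only [chain9, List.forall_mem_cons]
  exact ⟨lev9_0, lev9_1, lev9_2, lev9_3, by simp⟩

end Vale.Agent.P154.Ly.End
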