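import Vale.Agent.P154.LyEndInt
import Vale.Agent.P154.DeBoxCert

/-!
Chains of boxes for the bands 10 to 14 of mean offspring numbers, checked by the kernel.
-/

namespace Vale.Agent.P154.Ly.End

open DeBox (Bx)

/-- Band 10. -/
def band10 : Band := ⟨(107 / 20 : ℚ), (111 / 20 : ℚ), (9009 / 50000 : ℚ), (46729 / 250000 : ℚ), (216169 / 500000 : ℚ), 21⟩

/-- Box 0 of band 10. -/
def box10_0 : Bx := ⟨(7 / 100 : ℚ), (1 : ℚ), (1 : ℚ), (1 : ℚ)⟩

/-- Its image. -/
def out10_0 : Out := ⟨(-101453 / 100000 : ℚ), (52673 / 100000 : ℚ), (5101 / 10000 : ℚ), (43501 / 100000 : ℚ)⟩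

theorem lev10_0 : okOut DeBox.bds band10 box10_0 out10_0 = true :=
  okOut_of_zokOut (by decide +kernel)

/-- Box 1 of band 10. -/
def box10_1 : Bx := ⟨(18743 / 250000 : ℚ), (247 / 500 : ℚ), (479 / 1000 : ℚ), (51 / 125 : ℚ)⟩

/-- Its image. -/
def out10_1 : Out := ⟨(-20979 / 100000 : ℚ), (22077 / 100000 : ℚ), (8861 / 25000 : ℚ), (24697 / 100000 : ℚ)⟩

theorem lev10_1 : okOut DeBox.bds band10 box10_1 out10_1 = true :=
  okOut_of_zokOut (by decide +kernel)

/-- Box 2 of band 10. -/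
def box10_2 : Bx := ⟨(9519 / 125000 : ℚ), (219 / 1000 : ℚ), (351 / 1000 : ℚ), (49 / 200 : ℚ)⟩

/-- Its image. -/
def out10_2 : Out := ⟨(-1373 / 50000 : ℚ), (8029 / 50000 : ℚ), (6967 / 25000 : ℚ), (10761 / 50000 : ℚ)⟩

theorem lev10_2 : okOut DeBox.bds band10 box10_2 out10_2 = true :=
  okOut_of_zokOut (by decide +kernel)

/-- Box 3 of band 10. -/
def box10_3 : Bx := ⟨(9539 / 125000 : ℚ), (161 / 1000 : ℚ), (7 / 25 : ℚ), (27 / 125 : ℚ)⟩

/-- Its image. -/
def out10_3 : Out := ⟨(471 / 10000 : ℚ), (2563 / 20000 : ℚ), (6581 / 25000 : ℚ), (10501 / 50000 : ℚ)⟩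

theorem lev10_3 : okOut DeBox.bds band10 box10_3 out10_3 = true :=
  okOut_of_zokOut (by decide +kernel)

/-- The chain of band 10. -/
def chain10 : List (Bx × Out) :=
  [(box10_0, out10_0),
    (box10_1, out10_1),
    (box10_2, out10_2),
    (box10_3, out10_3)]

theorem check10 : (okBand band10 && okHead (7 / 100) chain10 && okChain chain10) = true := by
  decide +kernel

theorem all10 : ∀ p ∈ chain10, okOut DeBox.bds band10 p.1 p.2 = true := by
  simp only [chain10, List.forall_mem_cons]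
  exact ⟨lev10_0, lev10_1, lev10_2, lev10_3, by simp⟩

/-- Band 11. -/
def band11 : Band := ⟨(111 / 20 : ℚ), (119 / 20 : ℚ), (168067 / 1000000 : ℚ), (180181 / 1000000 : ℚ), (424477 / 1000000 : ℚ), 22⟩

/-- Box 0 of band 11. -/
def box11_0 : Bx := ⟨(7 / 100 : ℚ), (1 : ℚ), (1 : ℚ), (1 : ℚ)⟩

/-- Its image. -/
def out11_0 : Out := ⟨(-21931 / 20000 : ℚ), (54877 / 100000 : ℚ), (13353 / 25000 : ℚ), (11473 / 25000 : ℚ)⟩

theorem lev11_0 : okOut DeBox.bds band11 box11_0 out11_0 = true :=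
  okOut_of_zokOut (by decide +kernel)

/-- Box 1 of band 11. -/
def box11_1 : Bx := ⟨(37687 / 500000 : ℚ), (64 / 125 : ℚ), (499 / 1000 : ℚ), (107 / 250 : ℚ)⟩

/-- Its image. -/
def out11_1 : Out := ⟨(-26349 / 100000 : ℚ), (11917 / 50000 : ℚ), (307 / 800 : ℚ), (3403 / 12500 : ℚ)⟩

theorem lev11_1 : okOut DeBox.bds band11 box11_1 out11_1 = true :=
  okOut_of_zokOut (by decide +kernel)

/-- Box 2 of band 11. -/
def box11_2 : Bx := ⟨(76871 / 1000000 : ℚ), (47 / 200 : ℚ), (189 / 500 : ℚ), (269 / 1000 : ℚ)⟩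

/-- Its image. -/
def out11_2 : Out := ⟨(-2013 / 25000 : ℚ), (8939 / 50000 : ℚ), (7703 / 25000 : ℚ), (24021 / 100000 : ℚ)⟩

theorem lev11_2 : okOut DeBox.bds band11 box11_2 out11_2 = true :=
  okOut_of_zokOut (by decide +kernel)

/-- Box 3 of band 11. -/
def box11_3 : Bx := ⟨(77347 / 1000000 : ℚ), (179 / 1000 : ℚ), (77 / 250 : ℚ), (6 / 25 : ℚ)⟩

/-- Its image. -/
def out11_3 : Out := ⟨(-117 / 100000 : ℚ), (583 / 4000 : ℚ), (29369 / 100000 : ℚ), (23543 / 100000 : ℚ)⟩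

theorem lev11_3 : okOut DeBox.bds band11 box11_3 out11_3 = true :=
  okOut_of_zokOut (by decide +kernel)

/-- Box 4 of band 11. -/
def box11_4 : Bx := ⟨(38677 / 500000 : ℚ), (147 / 1000 : ℚ), (59 / 200 : ℚ), (237 / 1000 : ℚ)⟩

/-- Its image. -/
def out11_4 : Out := ⟨(249 / 20000 : ℚ), (6979 / 50000 : ℚ), (28523 / 100000 : ℚ), (23447 / 100000 : ℚ)⟩

theorem lev11_4 : okOut DeBox.bds band11 box11_4 out11_4 = true :=
  okOut_of_zokOut (by decide +kernel)

/-- The chain of band 11. -/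
def chain11 : List (Bx × Out) :=
  [(box11_0, out11_0),
    (box11_1, out11_1),
    (box11_2, out11_2),
    (box11_3, out11_3),
    (box11_4, out11_4)]

theorem check11 : (okBand band11 && okHead (7 / 100) chain11 && okChain chain11) = true := by
  decide +kernel

theorem all11 : ∀ p ∈ chain11, okOut DeBox.bds band11 p.1 p.2 = true := by
  simp only [chain11, List.forall_mem_cons]
  exact ⟨lev11_0, lev11_1, lev11_2, lev11_3, lev11_4, by simp⟩

/-- Band 12. -/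
def band12 : Band := ⟨(119 / 20 : ℚ), (127 / 20 : ℚ), (3937 / 25000 : ℚ), (42017 / 250000 : ℚ), (409961 / 1000000 : ℚ), 22⟩

/-- Box 0 of band 12. -/
def box12_0 : Bx := ⟨(7 / 100 : ℚ), (1 : ℚ), (1 : ℚ), (1 : ℚ)⟩

/-- Its image. -/
def out12_0 : Out := ⟨(-20093 / 20000 : ℚ), (25483 / 50000 : ℚ), (25947 / 50000 : ℚ), (5339 / 12500 : ℚ)⟩

theorem lev12_0 : okOut DeBox.bds band12 box12_0 out12_0 = true :=
  okOut_of_zokOut (by decide +kernel)

/-- Box 1 of band 12. -/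
def box12_1 : Bx := ⟨(74923 / 1000000 : ℚ), (479 / 1000 : ℚ), (487 / 1000 : ℚ), (401 / 1000 : ℚ)⟩

/-- Its image. -/
def out12_1 : Out := ⟨(-1303 / 6250 : ℚ), (22223 / 100000 : ℚ), (1142 / 3125 : ℚ), (5123 / 20000 : ℚ)⟩

theorem lev12_1 : okOut DeBox.bds band12 box12_1 out12_1 = true :=
  okOut_of_zokOut (by decide +kernel)

/-- Box 2 of band 12. -/
def box12_2 : Bx := ⟨(38047 / 500000 : ℚ), (11 / 50 : ℚ), (181 / 500 : ℚ), (127 / 500 : ℚ)⟩

/-- Its image. -/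
def out12_2 : Out := ⟨(-179 / 5000 : ℚ), (329 / 2000 : ℚ), (29701 / 100000 : ℚ), (5757 / 25000 : ℚ)⟩

theorem lev12_2 : okOut DeBox.bds band12 box12_2 out12_2 = true :=
  okOut_of_zokOut (by decide +kernel)

/-- Box 3 of band 12. -/
def box12_3 : Bx := ⟨(38151 / 500000 : ℚ), (33 / 200 : ℚ), (149 / 500 : ℚ), (231 / 1000 : ℚ)⟩

/-- Its image. -/
def out12_3 : Out := ⟨(383 / 12500 : ℚ), (13547 / 100000 : ℚ), (14151 / 50000 : ℚ), (22639 / 100000 : ℚ)⟩

theorem lev12_3 : okOut DeBox.bds band12 box12_3 out12_3 = true :=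
  okOut_of_zokOut (by decide +kernel)

/-- The chain of band 12. -/
def chain12 : List (Bx × Out) :=
  [(box12_0, out12_0),
    (box12_1, out12_1),
    (box12_2, out12_2),
    (box12_3, out12_3)]

theorem check12 : (okBand band12 && okHead (7 / 100) chain12 && okChain chain12) = true := by
  decide +kernel

theorem all12 : ∀ p ∈ chain12, okOut DeBox.bds band12 p.1 p.2 = true := by
  simp only [chain12, List.forall_mem_cons]
  exact ⟨lev12_0, lev12_1, lev12_2, lev12_3, by simp⟩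

/-- Band 13. -/
def band13 : Band := ⟨(127 / 20 : ℚ), (27 / 4 : ℚ), (37037 / 250000 : ℚ), (157481 / 1000000 : ℚ), (198419 / 500000 : ℚ), 23⟩

/-- Box 0 of band 13. -/
def box13_0 : Bx := ⟨(7 / 100 : ℚ), (1 : ℚ), (1 : ℚ), (1 : ℚ)⟩

/-- Its image. -/
def out13_0 : Out := ⟨(-578 / 625 : ℚ), (47679 / 100000 : ℚ), (50533 / 100000 : ℚ), (201 / 500 : ℚ)⟩

theorem lev13_0 : okOut DeBox.bds band13 box13_0 out13_0 = true :=
  okOut_of_zokOut (by decide +kernel)

/-- Box 1 of band 13. -/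
def box13_1 : Bx := ⟨(18633 / 250000 : ℚ), (9 / 20 : ℚ), (477 / 1000 : ℚ), (19 / 50 : ℚ)⟩

/-- Its image. -/
def out13_1 : Out := ⟨(-16327 / 100000 : ℚ), (4181 / 20000 : ℚ), (7007 / 20000 : ℚ), (4901 / 20000 : ℚ)⟩

theorem lev13_1 : okOut DeBox.bds band13 box13_1 out13_1 = true :=
  okOut_of_zokOut (by decide +kernel)

/-- Box 2 of band 13. -/
def box13_2 : Bx := ⟨(75439 / 1000000 : ℚ), (26 / 125 : ℚ), (87 / 250 : ℚ), (61 / 250 : ℚ)⟩

/-- Its image. -/
def out13_2 : Out := ⟨(9 / 100000 : ℚ), (761 / 5000 : ℚ), (28869 / 100000 : ℚ), (1117 / 5000 : ℚ)⟩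

theorem lev13_2 : okOut DeBox.bds band13 box13_2 out13_2 = true :=
  okOut_of_zokOut (by decide +kernel)

/-- The chain of band 13. -/
def chain13 : List (Bx × Out) :=
  [(box13_0, out13_0),
    (box13_1, out13_1),
    (box13_2, out13_2)]

theorem check13 : (okBand band13 && okHead (7 / 100) chain13 && okChain chain13) = true := by
  decide +kernel

theorem all13 : ∀ p ∈ chain13, okOut DeBox.bds band13 p.1 p.2 = true := by
  simp only [chain13, List.forall_mem_cons]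
  exact ⟨lev13_0, lev13_1, lev13_2, by simp⟩

/-- Band 14. -/
def band14 : Band := ⟨(27 / 4 : ℚ), (143 / 20 : ℚ), (6993 / 50000 : ℚ), (148149 / 1000000 : ℚ), (384901 / 1000000 : ℚ), 24⟩

/-- Box 0 of band 14. -/
def box14_0 : Bx := ⟨(7 / 100 : ℚ), (1 : ℚ), (1 : ℚ), (1 : ℚ)⟩

/-- Its image. -/
def out14_0 : Out := ⟨(-85627 / 100000 : ℚ), (11293 / 25000 : ℚ), (49367 / 100000 : ℚ), (38013 / 100000 : ℚ)⟩

theorem lev14_0 : okOut DeBox.bds band14 box14_0 out14_0 = true :=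
  okOut_of_zokOut (by decide +kernel)

/-- Box 1 of band 14. -/
def box14_1 : Bx := ⟨(18549 / 250000 : ℚ), (107 / 250 : ℚ), (117 / 250 : ℚ), (361 / 1000 : ℚ)⟩

/-- Its image. -/
def out14_1 : Out := ⟨(-3133 / 25000 : ℚ), (19811 / 100000 : ℚ), (16911 / 50000 : ℚ), (11787 / 50000 : ℚ)⟩

theorem lev14_1 : okOut DeBox.bds band14 box14_1 out14_1 = true :=
  okOut_of_zokOut (by decide +kernel)

/-- Box 2 of band 14. -/
def box14_2 : Bx := ⟨(37443 / 500000 : ℚ), (99 / 500 : ℚ), (337 / 1000 : ℚ), (47 / 200 : ℚ)⟩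

/-- Its image. -/
def out14_2 : Out := ⟨(711 / 25000 : ℚ), (14251 / 100000 : ℚ), (5627 / 20000 : ℚ), (21709 / 100000 : ℚ)⟩

theorem lev14_2 : okOut DeBox.bds band14 box14_2 out14_2 = true :=
  okOut_of_zokOut (by decide +kernel)

/-- The chain of band 14. -/
def chain14 : List (Bx × Out) :=
  [(box14_0, out14_0),
    (box14_1, out14_1),
    (box14_2, out14_2)]

theorem check14 : (okBand band14 && okHead (7 / 100) chain14 && okChain chain14) = true := by
  decide +kernel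

theorem all14 : ∀ p ∈ chain14, okOut DeBox.bds band14 p.1 p.2 = true := by
  simp only [chain14, List.forall_mem_cons]
  exact ⟨lev14_0, lev14_1, lev14_2, by simp⟩

end Vale.Agent.P154.Ly.End
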