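import Vale.Agent.P154.LyEndInt
import Vale.Agent.P154.DeBoxCert

/-!
Chains of boxes for the bands 15 to 21 of mean offspring numbers, checked by the kernel.
-/

namespace Vale.Agent.P154.Ly.End

open DeBox (Bx)

/-- Band 15. -/
def band15 : Band := ⟨(143 / 20 : ℚ), (159 / 20 : ℚ), (62893 / 500000 : ℚ), (139861 / 1000000 : ℚ), (373979 / 1000000 : ℚ), 26⟩

/-- Box 0 of band 15. -/
def box15_0 : Bx := ⟨(7 / 100 : ℚ), (1 : ℚ), (1 : ℚ), (1 : ℚ)⟩

/-- Its image. -/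
def out15_0 : Out := ⟨(-97533 / 100000 : ℚ), (4833 / 10000 : ℚ), (10707 / 20000 : ℚ), (8373 / 20000 : ℚ)⟩

theorem lev15_0 : okOut DeBox.bds band15 box15_0 out15_0 = true :=
  okOut_of_zokOut (by decide +kernel)

/-- Box 1 of band 15. -/
def box15_1 : Bx := ⟨(3739 / 50000 : ℚ), (91 / 200 : ℚ), (63 / 125 : ℚ), (197 / 500 : ℚ)⟩

/-- Its image. -/
def out15_1 : Out := ⟨(-20907 / 100000 : ℚ), (22579 / 100000 : ℚ), (19357 / 50000 : ℚ), (27607 / 100000 : ℚ)⟩

theorem lev15_1 : okOut DeBox.bds band15 box15_1 out15_1 = true :=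
  okOut_of_zokOut (by decide +kernel)

/-- Box 2 of band 15. -/
def box15_2 : Bx := ⟨(1519 / 20000 : ℚ), (28 / 125 : ℚ), (383 / 1000 : ℚ), (273 / 1000 : ℚ)⟩

/-- Its image. -/
def out15_2 : Out := ⟨(-5001 / 100000 : ℚ), (1713 / 10000 : ℚ), (33073 / 100000 : ℚ), (1033 / 4000 : ℚ)⟩

theorem lev15_2 : okOut DeBox.bds band15 box15_2 out15_2 = true :=
  okOut_of_zokOut (by decide +kernel)

/-- Box 3 of band 15. -/
def box15_3 : Bx := ⟨(76239 / 1000000 : ℚ), (43 / 250 : ℚ), (331 / 1000 : ℚ), (259 / 1000 : ℚ)⟩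

/-- Its image. -/
def out15_3 : Out := ⟨(347 / 100000 : ℚ), (14807 / 100000 : ℚ), (6373 / 20000 : ℚ), (25617 / 100000 : ℚ)⟩

theorem lev15_3 : okOut DeBox.bds band15 box15_3 out15_3 = true :=
  okOut_of_zokOut (by decide +kernel)

/-- The chain of band 15. -/
def chain15 : List (Bx × Out) :=
  [(box15_0, out15_0),
    (box15_1, out15_1),
    (box15_2, out15_2),
    (box15_3, out15_3)]

theorem check15 : (okBand band15 && okHead (7 / 100) chain15 && okChain chain15) = true := by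
  decide +kernel

theorem all15 : ∀ p ∈ chain15, okOut DeBox.bds band15 p.1 p.2 = true := by
  simp only [chain15, List.forall_mem_cons]
  exact ⟨lev15_0, lev15_1, lev15_2, lev15_3, by simp⟩

/-- Band 16. -/
def band16 : Band := ⟨(159 / 20 : ℚ), (35 / 4 : ℚ), (22857 / 200000 : ℚ), (125787 / 1000000 : ℚ), (44333 / 125000 : ℚ), 27⟩

/-- Box 0 of band 16. -/
def box16_0 : Bx := ⟨(7 / 100 : ℚ), (1 : ℚ), (1 : ℚ), (1 : ℚ)⟩

/-- Its image. -/
def out16_0 : Out := ⟨(-84267 / 100000 : ℚ), (8759 / 20000 : ℚ), (2559 / 5000 : ℚ), (38101 / 100000 : ℚ)⟩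

theorem lev16_0 : okOut DeBox.bds band16 box16_0 out16_0 = true :=
  okOut_of_zokOut (by decide +kernel)

/-- Box 1 of band 16. -/
def box16_1 : Bx := ⟨(7413 / 100000 : ℚ), (52 / 125 : ℚ), (243 / 500 : ℚ), (181 / 500 : ℚ)⟩

/-- Its image. -/
def out16_1 : Out := ⟨(-133 / 1000 : ℚ), (20371 / 100000 : ℚ), (18159 / 50000 : ℚ), (808 / 3125 : ℚ)⟩

theorem lev16_1 : okOut DeBox.bds band16 box16_1 out16_1 = true :=
  okOut_of_zokOut (by decide +kernel)

/-- Box 2 of band 16. -/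
def box16_2 : Bx := ⟨(74861 / 1000000 : ℚ), (203 / 1000 : ℚ), (181 / 500 : ℚ), (129 / 500 : ℚ)⟩

/-- Its image. -/
def out16_2 : Out := ⟨(193 / 20000 : ℚ), (15167 / 100000 : ℚ), (31381 / 100000 : ℚ), (6113 / 25000 : ℚ)⟩

theorem lev16_2 : okOut DeBox.bds band16 box16_2 out16_2 = true :=
  okOut_of_zokOut (by decide +kernel)

/-- The chain of band 16. -/
def chain16 : List (Bx × Out) :=
  [(box16_0, out16_0),
    (box16_1, out16_1),
    (box16_2, out16_2)]

theorem check16 : (okBand band16 && okHead (7 / 100) chain16 && okChain chain16) = true := by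
  decide +kernel

theorem all16 : ∀ p ∈ chain16, okOut DeBox.bds band16 p.1 p.2 = true := by
  simp only [chain16, List.forall_mem_cons]
  exact ⟨lev16_0, lev16_1, lev16_2, by simp⟩

/-- Band 17. -/
def band17 : Band := ⟨(35 / 4 : ℚ), (191 / 20 : ℚ), (13089 / 125000 : ℚ), (57143 / 500000 : ℚ), (169031 / 500000 : ℚ), 29⟩

/-- Box 0 of band 17. -/
def box17_0 : Bx := ⟨(7 / 100 : ℚ), (1 : ℚ), (1 : ℚ), (1 : ℚ)⟩

/-- Its image. -/
def out17_0 : Out := ⟨(-37127 / 50000 : ℚ), (8123 / 20000 : ℚ), (24603 / 50000 : ℚ), (35217 / 100000 : ℚ)⟩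

theorem lev17_0 : okOut DeBox.bds band17 box17_0 out17_0 = true :=
  okOut_of_zokOut (by decide +kernel)

/-- Box 1 of band 17. -/
def box17_1 : Bx := ⟨(73639 / 1000000 : ℚ), (97 / 250 : ℚ), (47 / 100 : ℚ), (337 / 1000 : ℚ)⟩

/-- Its image. -/
def out17_1 : Out := ⟨(-7387 / 100000 : ℚ), (743 / 4000 : ℚ), (34513 / 100000 : ℚ), (12281 / 50000 : ℚ)⟩

theorem lev17_1 : okOut DeBox.bds band17 box17_1 out17_1 = true :=
  okOut_of_zokOut (by decide +kernel)

/-- Box 2 of band 17. -/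
def box17_2 : Bx := ⟨(1851 / 25000 : ℚ), (93 / 500 : ℚ), (69 / 200 : ℚ), (123 / 500 : ℚ)⟩

/-- Its image. -/
def out17_2 : Out := ⟨(1267 / 25000 : ℚ), (6817 / 50000 : ℚ), (15027 / 50000 : ℚ), (4679 / 20000 : ℚ)⟩

theorem lev17_2 : okOut DeBox.bds band17 box17_2 out17_2 = true :=
  okOut_of_zokOut (by decide +kernel)

/-- The chain of band 17. -/
def chain17 : List (Bx × Out) :=
  [(box17_0, out17_0),
    (box17_1, out17_1),
    (box17_2, out17_2)]

theorem check17 : (okBand band17 && okHead (7 / 100) chain17 && okChain chain17) = true := by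
  decide +kernel

theorem all17 : ∀ p ∈ chain17, okOut DeBox.bds band17 p.1 p.2 = true := by
  simp only [chain17, List.forall_mem_cons]
  exact ⟨lev17_0, lev17_1, lev17_2, by simp⟩

/-- Band 18. -/
def band18 : Band := ⟨(191 / 20 : ℚ), (207 / 20 : ℚ), (48309 / 500000 : ℚ), (104713 / 1000000 : ℚ), (323593 / 1000000 : ℚ), 30⟩

/-- Box 0 of band 18. -/
def box18_0 : Bx := ⟨(7 / 100 : ℚ), (1 : ℚ), (1 : ℚ), (1 : ℚ)⟩

/-- Its image. -/
def out18_0 : Out := ⟨(-16541 / 25000 : ℚ), (19041 / 50000 : ℚ), (297 / 625 : ℚ), (32931 / 100000 : ℚ)⟩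

theorem lev18_0 : okOut DeBox.bds band18 box18_0 out18_0 = true :=
  okOut_of_zokOut (by decide +kernel)

/-- Box 1 of band 18. -/
def box18_1 : Bx := ⟨(73243 / 1000000 : ℚ), (183 / 500 : ℚ), (57 / 125 : ℚ), (79 / 250 : ℚ)⟩

/-- Its image. -/
def out18_1 : Out := ⟨(-1339 / 50000 : ℚ), (17093 / 100000 : ℚ), (16541 / 50000 : ℚ), (1177 / 5000 : ℚ)⟩

theorem lev18_1 : okOut DeBox.bds band18 box18_1 out18_1 = true :=
  okOut_of_zokOut (by decide +kernel)

/-- Box 2 of band 18. -/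
def box18_2 : Bx := ⟨(73387 / 1000000 : ℚ), (43 / 250 : ℚ), (83 / 250 : ℚ), (59 / 250 : ℚ)⟩

/-- Its image. -/
def out18_2 : Out := ⟨(767 / 10000 : ℚ), (2489 / 20000 : ℚ), (1159 / 4000 : ℚ), (22543 / 100000 : ℚ)⟩

theorem lev18_2 : okOut DeBox.bds band18 box18_2 out18_2 = true :=
  okOut_of_zokOut (by decide +kernel)

/-- The chain of band 18. -/
def chain18 : List (Bx × Out) :=
  [(box18_0, out18_0),
    (box18_1, out18_1),
    (box18_2, out18_2)]

theorem check18 : (okBand band18 && okHead (7 / 100) chain18 && okChain chain18) = true := by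
  decide +kernel

theorem all18 : ∀ p ∈ chain18, okOut DeBox.bds band18 p.1 p.2 = true := by
  simp only [chain18, List.forall_mem_cons]
  exact ⟨lev18_0, lev18_1, lev18_2, by simp⟩

/-- Band 19. -/
def band19 : Band := ⟨(207 / 20 : ℚ), (223 / 20 : ℚ), (44843 / 500000 : ℚ), (96619 / 1000000 : ℚ), (62167 / 200000 : ℚ), 31⟩

/-- Box 0 of band 19. -/
def box19_0 : Bx := ⟨(7 / 100 : ℚ), (1 : ℚ), (1 : ℚ), (1 : ℚ)⟩

/-- Its image. -/
def out19_0 : Out := ⟨(-11879 / 20000 : ℚ), (7213 / 20000 : ℚ), (46057 / 100000 : ℚ), (31077 / 100000 : ℚ)⟩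

theorem lev19_0 : okOut DeBox.bds band19 box19_0 out19_0 = true :=
  okOut_of_zokOut (by decide +kernel)

/-- Box 1 of band 19. -/
def box19_1 : Bx := ⟨(72911 / 1000000 : ℚ), (87 / 250 : ℚ), (111 / 250 : ℚ), (3 / 10 : ℚ)⟩

/-- Its image. -/
def out19_1 : Out := ⟨(131 / 12500 : ℚ), (15871 / 100000 : ℚ), (7979 / 25000 : ℚ), (5683 / 25000 : ℚ)⟩

theorem lev19_1 : okOut DeBox.bds band19 box19_1 out19_1 = true :=
  okOut_of_zokOut (by decide +kernel)

/-- The chain of band 19. -/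
def chain19 : List (Bx × Out) :=
  [(box19_0, out19_0),
    (box19_1, out19_1)]

theorem check19 : (okBand band19 && okHead (7 / 100) chain19 && okChain chain19) = true := by
  decide +kernel

theorem all19 : ∀ p ∈ chain19, okOut DeBox.bds band19 p.1 p.2 = true := by
  simp only [chain19, List.forall_mem_cons]
  exact ⟨lev19_0, lev19_1, by simp⟩

/-- Band 20. -/
def band20 : Band := ⟨(223 / 20 : ℚ), (239 / 20 : ℚ), (41841 / 500000 : ℚ), (89687 / 1000000 : ℚ), (299477 / 1000000 : ℚ), 33⟩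

/-- Box 0 of band 20. -/
def box20_0 : Bx := ⟨(7 / 100 : ℚ), (1 : ℚ), (1 : ℚ), (1 : ℚ)⟩

/-- Its image. -/
def out20_0 : Out := ⟨(-26819 / 50000 : ℚ), (17203 / 50000 : ℚ), (11201 / 25000 : ℚ), (5911 / 20000 : ℚ)⟩

theorem lev20_0 : okOut DeBox.bds band20 box20_0 out20_0 = true :=
  okOut_of_zokOut (by decide +kernel)

/-- Box 1 of band 20. -/
def box20_1 : Bx := ⟨(72629 / 1000000 : ℚ), (333 / 1000 : ℚ), (217 / 500 : ℚ), (143 / 500 : ℚ)⟩

/-- Its image. -/
def out20_1 : Out := ⟨(1961 / 50000 : ℚ), (2971 / 20000 : ℚ), (30941 / 100000 : ℚ), (22061 / 100000 : ℚ)⟩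

theorem lev20_1 : okOut DeBox.bds band20 box20_1 out20_1 = true :=
  okOut_of_zokOut (by decide +kernel)

/-- The chain of band 20. -/
def chain20 : List (Bx × Out) :=
  [(box20_0, out20_0),
    (box20_1, out20_1)]

theorem check20 : (okBand band20 && okHead (7 / 100) chain20 && okChain chain20) = true := by
  decide +kernel

theorem all20 : ∀ p ∈ chain20, okOut DeBox.bds band20 p.1 p.2 = true := by
  simp only [chain20, List.forall_mem_cons]
  exact ⟨lev20_0, lev20_1, by simp⟩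

/-- Band 21. -/
def band21 : Band := ⟨(239 / 20 : ℚ), (12 : ℚ), (83333 / 1000000 : ℚ), (83683 / 1000000 : ℚ), (289279 / 1000000 : ℚ), 33⟩

/-- Box 0 of band 21. -/
def box21_0 : Bx := ⟨(7 / 100 : ℚ), (1 : ℚ), (1 : ℚ), (1 : ℚ)⟩

/-- Its image. -/
def out21_0 : Out := ⟨(-36283 / 100000 : ℚ), (29201 / 100000 : ℚ), (943 / 2500 : ℚ), (2897 / 12500 : ℚ)⟩

theorem lev21_0 : okOut DeBox.bds band21 box21_0 out21_0 = true :=
  okOut_of_zokOut (by decide +kernel)

/-- Box 1 of band 21. -/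
def box21_1 : Bx := ⟨(35889 / 500000 : ℚ), (143 / 500 : ℚ), (37 / 100 : ℚ), (227 / 1000 : ℚ)⟩

/-- Its image. -/
def out21_1 : Out := ⟨(422 / 3125 : ℚ), (1349 / 12500 : ℚ), (12119 / 50000 : ℚ), (16867 / 100000 : ℚ)⟩

theorem lev21_1 : okOut DeBox.bds band21 box21_1 out21_1 = true :=
  okOut_of_zokOut (by decide +kernel)

/-- The chain of band 21. -/
def chain21 : List (Bx × Out) :=
  [(box21_0, out21_0),
    (box21_1, out21_1)]

theorem check21 : (okBand band21 && okHead (7 / 100) chain21 && okChain chain21) = true := by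
  decide +kernel

theorem all21 : ∀ p ∈ chain21, okOut DeBox.bds band21 p.1 p.2 = true := by
  simp only [chain21, List.forall_mem_cons]
  exact ⟨lev21_0, lev21_1, by simp⟩

end Vale.Agent.P154.Ly.End
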