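import Vale.Agent.P154.LyEndData0
import Vale.Agent.P154.LyEndData1
import Vale.Agent.P154.LyEndData2
import Vale.Agent.P154.LyEndData3
import Vale.Agent.P154.LyEndData4

/-!
Nonreconstruction on Poisson trees of mean between four and twelve at the critical
antiferromagnetic parameter, once the second moment of the root posterior is at most `7 / 100`.
-/

open Filter

namespace Vale.Agent.P154.Ly

open End

/-- The uniform bound of the bilinear part. -/
lemma capS_le : DeBox.top ⟨0, 0, 0, DeBox.bds.fS.q⟩ 1 1 ⟨1, 1, -1, 1, 0, 1⟩
    ⟨1, 1, -(1 / 2), 1 / 2, 0, 1 / 4⟩ ≤ cap := by decide +kernel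

lemma use_band {g : Band} {L : List (DeBox.Bx × Out)} {d : ℝ}
    (hck : (okBand g && okHead (7 / 100) L && okChain L) = true)
    (hall : ∀ p ∈ L, okOut DeBox.bds g p.1 p.2 = true)
    (hd0 : (g.d0 : ℝ) ≤ d) (hd1 : d ≤ g.d1)
    (h : ∃ n, mean (-(1 / Real.sqrt d)) d n sq ≤ 7 / 100) :
    Tendsto (gwTV (poissonLaw d) (-(1 / Real.sqrt d))) atTop (nhds 0) := by
  simp only [Bool.and_eq_true] at hck
  exact gwTV_of_band (fun m hm hm0 => DeBox.certs hm hm0) hck.1.1 hck.1.2 hck.2 hall capS_le hd0 hd1
    (by simpa using h)

/-- From a small second moment at one level to nonreconstruction, on the critical curve. -/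
theorem tendsto_gwTV_of_small {d : ℝ} (h4 : 4 ≤ d) (h12 : d ≤ 12)
    (h : ∃ n, mean (-(1 / Real.sqrt d)) d n sq ≤ 7 / 100) :
    Tendsto (gwTV (poissonLaw d) (-(1 / Real.sqrt d))) atTop (nhds 0) := by
  rcases le_total d (81 / 20) with u0 | g0
  · exact use_band check0 all0 (by norm_num [band0]; linarith) (by norm_num [band0]; linarith) h
  rcases le_total d (83 / 20) with u1 | g1
  · exact use_band check1 all1 (by norm_num [band1]; linarith) (by norm_num [band1]; linarith) h
  rcases le_total d (17 / 4) with u2 | g2
  · exact use_band check2 all2 (by norm_num [band2]; linarith) (by norm_num [band2]; linarith) h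
  rcases le_total d (87 / 20) with u3 | g3
  · exact use_band check3 all3 (by norm_num [band3]; linarith) (by norm_num [band3]; linarith) h
  rcases le_total d (89 / 20) with u4 | g4
  · exact use_band check4 all4 (by norm_num [band4]; linarith) (by norm_num [band4]; linarith) h
  rcases le_total d (91 / 20) with u5 | g5
  · exact use_band check5 all5 (by norm_num [band5]; linarith) (by norm_num [band5]; linarith) h
  rcases le_total d (19 / 4) with u6 | g6
  · exact use_band check6 all6 (by norm_num [band6]; linarith) (by norm_num [band6]; linarith) h
  rcases le_total d (99 / 20) with u7 | g7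
  · exact use_band check7 all7 (by norm_num [band7]; linarith) (by norm_num [band7]; linarith) h
  rcases le_total d (103 / 20) with u8 | g8
  · exact use_band check8 all8 (by norm_num [band8]; linarith) (by norm_num [band8]; linarith) h
  rcases le_total d (107 / 20) with u9 | g9
  · exact use_band check9 all9 (by norm_num [band9]; linarith) (by norm_num [band9]; linarith) h
  rcases le_total d (111 / 20) with u10 | g10
  · exact use_band check10 all10 (by norm_num [band10]; linarith) (by norm_num [band10]; linarith) h
  rcases le_total d (119 / 20) with u11 | g11
  · exact use_band check11 all11 (by norm_num [band11]; linarith) (by norm_num [band11]; linarith) h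
  rcases le_total d (127 / 20) with u12 | g12
  · exact use_band check12 all12 (by norm_num [band12]; linarith) (by norm_num [band12]; linarith) h
  rcases le_total d (27 / 4) with u13 | g13
  · exact use_band check13 all13 (by norm_num [band13]; linarith) (by norm_num [band13]; linarith) h
  rcases le_total d (143 / 20) with u14 | g14
  · exact use_band check14 all14 (by norm_num [band14]; linarith) (by norm_num [band14]; linarith) h
  rcases le_total d (159 / 20) with u15 | g15
  · exact use_band check15 all15 (by norm_num [band15]; linarith) (by norm_num [band15]; linarith) h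
  rcases le_total d (35 / 4) with u16 | g16
  · exact use_band check16 all16 (by norm_num [band16]; linarith) (by norm_num [band16]; linarith) h
  rcases le_total d (191 / 20) with u17 | g17
  · exact use_band check17 all17 (by norm_num [band17]; linarith) (by norm_num [band17]; linarith) h
  rcases le_total d (207 / 20) with u18 | g18
  · exact use_band check18 all18 (by norm_num [band18]; linarith) (by norm_num [band18]; linarith) h
  rcases le_total d (223 / 20) with u19 | g19
  · exact use_band check19 all19 (by norm_num [band19]; linarith) (by norm_num [band19]; linarith) h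
  rcases le_total d (239 / 20) with u20 | g20
  · exact use_band check20 all20 (by norm_num [band20]; linarith) (by norm_num [band20]; linarith) h
  exact use_band check21 all21 (by norm_num [band21]; linarith) (by norm_num [band21]; linarith) h

end Vale.Agent.P154.Ly
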