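import Vale.Agent.P154.LyBand
import Vale.Agent.P154.LyEnd

/-!
Poisson offspring, mean `4 ≤ d ≤ 12`, at `-1 / √d`: from consecutive bands to the threshold.
-/

open Filter

namespace Vale.Agent.P154.Ly

/-- Consecutive bands covering `[28867 / 100000, 1 / 2]` give non-reconstruction on the critical
line. -/
theorem tendsto_gwTV_of_four {a b b' c c' e e' : ℝ} (hA : BandReach a b) (hB : BandReach b' c)
    (hC : BandReach c' e) (hD : BandReach e' (1 / 2)) (ha : a ≤ 28867 / 100000)
    (hb : b' ≤ b) (hc : c' ≤ c) (he : e' ≤ e) :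
    ∀ d : ℝ, 4 ≤ d → d ≤ 12 → Tendsto (gwTV (poissonLaw d) (-(1 / √d))) atTop (nhds 0) :=
  tendsto_gwTV_of_bands ((((hA.glue hB hb).glue hC hc).glue hD he).mono ha le_rfl)
    fun _ h4 h12 h => tendsto_gwTV_of_small h4 h12 h

end Vale.Agent.P154.Ly
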