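import Vale.Agent.P154.Basic

/-!
Definitions for the product-affinity Lyapunov route on Poisson trees:
symmetrised products of powers, abstract symmetric laws of posterior ratios, and
the one-level inequality from which decay follows.
-/

open scoped BigOperators

namespace Vale.Agent.P154.Ly

/-- Symmetrised product of powers, with exponents `k i / N`. -/
noncomputable def sHel (N : ℕ) (k : Spin → ℕ) (w : Spin → ℝ) : ℝ :=
  (1 / 6 : ℝ) * ∑ σ : Equiv.Perm Spin, ∏ i, (w (σ i)) ^ ((k i : ℝ) / (N : ℝ))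

/-- Bounded on the simplex of posterior ratios. -/
def Bdd (φ : (Spin → ℝ) → ℝ) : Prop := ∃ C : ℝ, ∀ a, InS a → |φ a| ≤ C

/-- The expectation functional of a permutation-symmetric law on the simplex with mean one. -/
structure IsLaw (E : ((Spin → ℝ) → ℝ) → ℝ) : Prop where
  one : E (fun _ => 1) = 1
  add : ∀ φ ψ, Bdd φ → Bdd ψ → E (fun a => φ a + ψ a) = E φ + E ψ
  smul : ∀ (c : ℝ) φ, Bdd φ → E (fun a => c * φ a) = c * E φ
  mono : ∀ φ ψ, Bdd φ → Bdd ψ → (∀ a, InS a → φ a ≤ ψ a) → E φ ≤ E ψ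
  symm : ∀ (σ : Equiv.Perm Spin) φ, Bdd φ → E (fun a => φ (fun i => a (σ i))) = E φ

/-- One level of the Poisson recursion gains `η (E sq)²` for the combination `c` of affinities. -/
def Gain {m : ℕ} (N : ℕ) (k : Fin m → Spin → ℕ) (c : Fin m → ℝ) (l d η : ℝ) : Prop :=
  ∀ E : ((Spin → ℝ) → ℝ) → ℝ, IsLaw E →
    η * E sq ^ 2 ≤ ∑ j, c j *
      (Real.exp (-(d * (1 - E (fun a => sHel N (k j) (img l a))))) - E (sHel N (k j)))

end Vale.Agent.P154.Ly
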