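import Vale.Agent.P154.LyEndStep

/-!
Averaging the bounds for each number of children against the Poisson weights, and the
contraction of a chain of boxes to zero.
-/

open scoped BigOperators
open Filter

namespace Vale.Agent.P154.Ly.End

open DeBox (Certs Bds Bx Iv Fn top)

variable {d : ℝ}

/-- The unnormalised weight of `k` children. -/
noncomputable def v (d : ℝ) (k : ℕ) : ℝ := d ^ k / (k.factorial : ℝ)

lemma pw_eq (d : ℝ) (k : ℕ) : pw d k = Real.exp (-d) * v d k := by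
  rw [pw, v, mul_div_assoc]

lemma v_nonneg (hd : 0 ≤ d) (k : ℕ) : 0 ≤ v d k := by unfold v; positivity

lemma v_succ (d : ℝ) (k : ℕ) : v d (k + 1) = v d k * d / ((k + 1 : ℕ) : ℝ) := by
  unfold v
  rw [Nat.factorial_succ, Nat.cast_mul, pow_succ]
  field_simp

lemma v_succ_mul (d : ℝ) (k : ℕ) : v d (k + 1) * ((k + 1 : ℕ) : ℝ) = d * v d k := by
  rw [v_succ, div_mul_cancel₀ _ (by positivity), mul_comm]

/-- The weights beyond `m`. -/
lemma tail_le {d1 : ℚ} {m : ℕ} (hd : 0 ≤ d) (h1 : d ≤ d1) (hm : (d1 : ℝ) < ((m + 2 : ℕ) : ℝ)) :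
    Summable (fun j => v d (j + (m + 1))) ∧ ∑' j, v d (j + (m + 1)) ≤ (tailB d1 m : ℚ) := by
  set q : ℝ := (d1 : ℝ) / ((m + 2 : ℕ) : ℝ) with hq
  have hm2 : (0 : ℝ) < ((m + 2 : ℕ) : ℝ) := by positivity
  have hd1 : (0 : ℝ) ≤ d1 := hd.trans h1
  have q0 : 0 ≤ q := div_nonneg hd1 hm2.le
  have q1 : q < 1 := (div_lt_one hm2).2 hm
  have hb : ∀ j, v d (j + (m + 1)) ≤ v d (m + 1) * q ^ j := by
    intro j
    induction j with
    | zero => simp
    | succ j ih =>
      rw [show j + 1 + (m + 1) = j + (m + 1) + 1 by omega, v_succ, pow_succ, ← mul_assoc,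
        mul_div_assoc]
      refine mul_le_mul ih ?_ (div_nonneg hd (Nat.cast_nonneg _))
        (mul_nonneg (v_nonneg hd _) (pow_nonneg q0 j))
      rw [hq]
      exact div_le_div₀ hd1 h1 hm2 (by exact_mod_cast (by omega : m + 2 ≤ j + (m + 1) + 1))
  have hs : Summable fun j => v d (m + 1) * q ^ j :=
    (summable_geometric_of_lt_one q0 q1).mul_left _
  have hsum := Summable.of_nonneg_of_le (fun j => v_nonneg hd _) hb hs
  refine ⟨hsum, (hsum.tsum_le_tsum hb hs).trans ?_⟩
  rw [tsum_mul_left, tsum_geometric_of_lt_one q0 q1, tailB]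
  push_cast
  refine mul_le_mul ?_ (le_of_eq ?_) (inv_nonneg.2 (by linarith)) (by positivity)
  · exact div_le_div_of_nonneg_right (pow_le_pow_left₀ hd h1 _) (by positivity)
  · rw [hq]; push_cast
    rw [one_sub_div (by positivity), inv_div]

/-- The weights have mean `d`. -/
lemma hasSum_pw_mul (d : ℝ) : HasSum (fun k : ℕ => pw d k * k) d := by
  refine ((hasSum_nat_add_iff' (f := fun k : ℕ => pw d k * k) 1).1 ?_)
  simp only [Finset.sum_range_one, Nat.cast_zero, mul_zero, sub_zero]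
  have h := (pw_hasSum (d := d)).mul_left d
  rw [mul_one] at h
  refine h.congr_fun fun k => ?_
  rw [pw_eq, pw_eq, mul_assoc, v_succ_mul]
  ring

/-- A weighted mean is nonnegative when its first terms outweigh a bound of the rest. -/
lemma avg_nonneg {s T : ℕ → ℝ} {D A : ℝ} (h : HasSum (fun k => pw d k * s k) D) (K : ℕ)
    (hfin : A ≤ ∑ j ∈ Finset.range (K + 1), v d j * s j)
    (htail : ∀ j, -T j ≤ v d (j + (K + 1)) * s (j + (K + 1))) (hT : Summable T)
    (hA : ∑' j, T j ≤ A) : 0 ≤ D := by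
  have h' : HasSum (fun k => v d k * s k) (Real.exp d * D) := by
    refine (h.mul_left (Real.exp d)).congr_fun fun k => ?_
    rw [pw_eq, ← mul_assoc, ← mul_assoc, ← Real.exp_add, add_neg_cancel, Real.exp_zero, one_mul]
  have h2 := (hasSum_nat_add_iff' (K + 1)).2 h'
  have h3 := hasSum_le htail hT.hasSum.neg h2
  have h4 : 0 ≤ Real.exp d * D := by linarith
  exact nonneg_of_mul_nonneg_right (by linarith) (Real.exp_pos d)

section level

variable {C : Bds} {g : Band} {b : Bx} {o : Out} {l X : ℝ} {n : ℕ}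

lemma lo_le {v0 v1 a : ℚ} {w : ℝ} (h0 : (v0 : ℝ) ≤ w) (h1 : w ≤ v1) :
    ((lo v0 v1 a : ℚ) : ℝ) ≤ w * a := by
  rw [lo]
  split_ifs with ha
  · push_cast
    exact mul_le_mul_of_nonneg_right h0 (by exact_mod_cast ha)
  · push_cast
    exact mul_le_mul_of_nonpos_right h1 (by exact_mod_cast (le_of_not_ge ha))

/-- The slack of the second moment with `k` children. -/
noncomputable def slS (l d : ℝ) (n : ℕ) (X : ℝ) (o : Out) (k : ℕ) : ℝ :=
  k * l ^ 2 * X - o.be * X ^ 2 - wk l d n k sq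

/-- The slack of the cubic moment from below. -/
noncomputable def slP (l d : ℝ) (n : ℕ) (X : ℝ) (o : Out) (k : ℕ) : ℝ :=
  o.p * X + wk l d n k cub

/-- The slack of the cubic moment from above. -/
noncomputable def slT (l d : ℝ) (n : ℕ) (X : ℝ) (o : Out) (k : ℕ) : ℝ :=
  o.t * X - wk l d n k cub

/-- The slack of the fourth moment. -/
noncomputable def slQ (l d : ℝ) (n : ℕ) (X : ℝ) (o : Out) (k : ℕ) : ℝ :=
  o.s * X - wk l d n k fun a => sq a ^ 2

variable (hC : Certs l C) (hl : -(1 / 2) ≤ l) (hl0 : l ≤ 0) (hdl : d * l ^ 2 = 1)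
  (hg : okBand g = true) (hd0 : (g.d0 : ℝ) ≤ d) (hd1 : d ≤ g.d1)
  (htm : 0 ≤ b.tm) (htp : 0 ≤ b.tp) (hX0 : 0 < X) (hX : X ≤ b.X) (hin : InBx l d n b X)

include hC hl hl0 hdl hg hd0 hd1 htm htp hX0 hX hin in
lemma sums_le : ∀ (m k : ℕ) (σ : St) (v0 v1 : ℚ), InSt l d n k σ X →
    0 ≤ v0 → (v0 : ℝ) ≤ v d k → v d k ≤ v1 →
    ((sums C g b o m k σ v0 v1).be : ℝ) * X ^ 2 ≤
        ∑ j ∈ Finset.range (m + 1), v d (k + j) * slS l d n X o (k + j) ∧
      ((sums C g b o m k σ v0 v1).p : ℝ) * X ≤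
        ∑ j ∈ Finset.range (m + 1), v d (k + j) * slP l d n X o (k + j) ∧
      ((sums C g b o m k σ v0 v1).t : ℝ) * X ≤
        ∑ j ∈ Finset.range (m + 1), v d (k + j) * slT l d n X o (k + j) ∧
      ((sums C g b o m k σ v0 v1).s : ℝ) * X ≤
        ∑ j ∈ Finset.range (m + 1), v d (k + j) * slQ l d n X o (k + j) := by
  have hd : 0 < d := (band_facts hdl hg hd0 hd1).1
  have h4 : (0 : ℚ) ≤ g.d0 := by
    simp only [okBand, Bool.and_eq_true, decide_eq_true_eq] at hg
    linarith [hg.1.1.1.1.1.1]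
  have one : ∀ (k : ℕ) (σ : St) (v0 v1 : ℚ), InSt l d n k σ X → (v0 : ℝ) ≤ v d k → v d k ≤ v1 →
      ((term o σ v0 v1).be : ℝ) * X ^ 2 ≤ v d k * slS l d n X o k ∧
        ((term o σ v0 v1).p : ℝ) * X ≤ v d k * slP l d n X o k ∧
        ((term o σ v0 v1).t : ℝ) * X ≤ v d k * slT l d n X o k ∧
        ((term o σ v0 v1).s : ℝ) * X ≤ v d k * slQ l d n X o k := by
    intro k σ v0 v1 h h0 h1
    obtain ⟨i1, i2, i3, i4⟩ := h
    have hv := v_nonneg hd.le k
    simp only [term, slS, slP, slT, slQ]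
    refine ⟨?_, ?_, ?_, ?_⟩
    · have e := mul_le_mul_of_nonneg_right (lo_le (a := σ.be - o.be) h0 h1) (sq_nonneg X)
      refine e.trans ?_
      rw [mul_assoc]
      refine mul_le_mul_of_nonneg_left ?_ hv
      push_cast; linarith
    all_goals
      first
        | (refine (mul_le_mul_of_nonneg_right (lo_le (a := o.p - σ.p) h0 h1) hX0.le).trans ?_
           rw [mul_assoc]; refine mul_le_mul_of_nonneg_left ?_ hv; push_cast; linarith)
        | (refine (mul_le_mul_of_nonneg_right (lo_le (a := o.t - σ.t) h0 h1) hX0.le).trans ?_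
           rw [mul_assoc]; refine mul_le_mul_of_nonneg_left ?_ hv; push_cast; linarith)
        | (refine (mul_le_mul_of_nonneg_right (lo_le (a := o.s - σ.s) h0 h1) hX0.le).trans ?_
           rw [mul_assoc]; refine mul_le_mul_of_nonneg_left ?_ hv; push_cast; linarith)
  intro m
  induction m with
  | zero =>
    intro k σ v0 v1 h _ h0 h1
    simpa [sums] using one k σ v0 v1 h h0 h1
  | succ m ih =>
    intro k σ v0 v1 h hv0 h0 h1
    have hk : (0 : ℝ) < ((k + 1 : ℕ) : ℝ) := by positivity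
    have n0 : ((v0 * g.d0 / (k + 1 : ℕ) : ℚ) : ℝ) ≤ v d (k + 1) := by
      rw [v_succ]; push_cast
      exact div_le_div_of_nonneg_right (mul_le_mul h0 hd0 (by exact_mod_cast h4) (v_nonneg hd.le k))
        (by positivity)
    have n1 : v d (k + 1) ≤ ((v1 * g.d1 / (k + 1 : ℕ) : ℚ) : ℝ) := by
      rw [v_succ]; push_cast
      exact div_le_div_of_nonneg_right
        (mul_le_mul h1 hd1 hd.le ((v_nonneg hd.le k).trans h1)) (by positivity)
    obtain ⟨a1, a2, a3, a4⟩ := ih (k + 1) (next C g b k σ) _ _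
      (step hC hl hl0 hdl hg hd0 hd1 htm htp hX0 hX hin h)
      (div_nonneg (mul_nonneg hv0 h4) (Nat.cast_nonneg _)) n0 n1
    obtain ⟨b1, b2, b3, b4⟩ := one k σ v0 v1 h h0 h1
    have split : ∀ F : ℕ → ℝ, ∑ j ∈ Finset.range (m + 1 + 1), F (k + j) =
        F k + ∑ j ∈ Finset.range (m + 1), F (k + 1 + j) := fun F => by
      rw [Finset.sum_range_succ']
      simp only [add_zero]
      rw [add_comm]
      exact congrArg _ (Finset.sum_congr rfl fun j _ => congrArg F (by omega))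
    simp only [sums, St.add, Rat.cast_add, add_mul]
    rw [split fun i => v d i * slS l d n X o i, split fun i => v d i * slP l d n X o i,
      split fun i => v d i * slT l d n X o i, split fun i => v d i * slQ l d n X o i]
    exact ⟨add_le_add b1 a1, add_le_add b2 a2, add_le_add b3 a3, add_le_add b4 a4⟩

include hC hl hl0 hdl hg hd0 hd1 htm htp hX0 hX hin in
/-- One level of the Poisson tree. -/
theorem level (hcap : top ⟨0, 0, 0, C.fS.q⟩ 1 1 ⟨1, 1, -1, 1, 0, 1⟩
      ⟨1, 1, -(1 / 2), 1 / 2, 0, 1 / 4⟩ ≤ cap) (hok : okOut C g b o = true) :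
    mean l d (n + 1) sq ≤ X - o.be * X ^ 2 ∧ -((o.p : ℝ) * X) ≤ mean l d (n + 1) cub ∧
      mean l d (n + 1) cub ≤ o.t * X ∧ mean l d (n + 1) (fun a => sq a ^ 2) ≤ o.s * X := by
  obtain ⟨hd, -, -, hq2, -, -⟩ := band_facts hdl hg hd0 hd1
  have hu : l ≤ 1 := by linarith
  have hdq : (g.d1 : ℝ) < ((g.q + 2 : ℕ) : ℝ) := by
    simp only [okBand, Bool.and_eq_true, decide_eq_true_eq] at hg
    exact_mod_cast hg.1.1.1.1.1.2
  simp only [okOut, Bool.and_eq_true, decide_eq_true_eq] at hok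
  obtain ⟨⟨⟨⟨⟨⟨cS, op⟩, cP⟩, ot⟩, cT⟩, os⟩, cQ⟩ := hok
  have hinit : InSt l d n 0 ⟨0, 0, 0, 0⟩ X := by
    simp [InSt, wk_zero, P154.sq, cub]
  obtain ⟨f1, f2, f3, f4⟩ := sums_le (o := o) hC hl hl0 hdl hg hd0 hd1 htm htp hX0 hX hin
    (g.q + 2) 0 ⟨0, 0, 0, 0⟩ 1 1 hinit zero_le_one (by simp [v]) (by simp [v])
  simp only [Nat.zero_add] at f1 f2 f3 f4
  have M0 : (0 : ℝ) ≤ (cap : ℚ) := by simp only [cap]; norm_num
  set M : ℝ := ((cap : ℚ) : ℝ) with hM
  have cr := crude hC hl hl0 hdl hg hd0 hd1 hX0 hin hcap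
  have mass := hasSum_pw_mul d
  have hone := pw_hasSum (d := d)
  have low : ∀ {φ : (Spin → ℝ) → ℝ}, Bdd φ →
      HasSum (fun k => pw d k * wk l d n k φ) (mean l d (n + 1) φ) := fun hφ => by
    obtain ⟨hs, he⟩ := mean_succ hl hu hd.le n hφ
    rw [he]; exact hs.hasSum
  obtain ⟨t0s, t0⟩ := tail_le (m := g.q) hd.le hd1 (by exact_mod_cast hdq)
  obtain ⟨t1s, t1⟩ := tail_le (m := g.q + 1) hd.le hd1
    (hdq.trans_le (by exact_mod_cast (by omega : g.q + 2 ≤ g.q + 1 + 2)))
  obtain ⟨t2s, t2⟩ := tail_le (m := g.q + 2) hd.le hd1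
    (hdq.trans_le (by exact_mod_cast (by omega : g.q + 2 ≤ g.q + 2 + 2)))
  have sideTail : ∀ {s : ℕ → ℝ}, (∀ k, -((1 + M) * k * l ^ 2 * X) ≤ s k) → ∀ j,
      -((1 + M) * X * v d (j + (g.q + 1 + 1))) ≤
        v d (j + (g.q + 2 + 1)) * s (j + (g.q + 2 + 1)) := by
    intro s h j
    refine le_trans (le_of_eq ?_) (mul_le_mul_of_nonneg_left (h _) (v_nonneg hd.le _))
    rw [show j + (g.q + 2 + 1) = j + (g.q + 1 + 1) + 1 by omega]
    have e := v_succ_mul d (j + (g.q + 1 + 1))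
    linear_combination (1 + M) * X * l ^ 2 * e + (1 + M) * X * v d (j + (g.q + 1 + 1)) * hdl
  have absT : ∀ k, |wk l d n k cub| ≤ wk l d n k sq := fun k => abs_le.2 ⟨by
      have := wk_mono hl hu hd.le n k bdd_cub.neg bdd_sq fun a ha =>
        (neg_le_abs _).trans (pointwise_le ha).1
      rw [wk_neg] at this
      linarith,
    wk_mono hl hu hd.le n k bdd_cub bdd_sq fun a ha => (le_abs_self _).trans (pointwise_le ha).1⟩
  have side : ∀ {s : ℕ → ℝ} {D : ℝ} {A : ℚ}, HasSum (fun k => pw d k * s k) D →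
      (A : ℝ) * X ≤ ∑ j ∈ Finset.range (g.q + 2 + 1), v d j * s j →
      (1 + cap) * tailB g.d1 (g.q + 1) ≤ A →
      (∀ k, -((1 + M) * k * l ^ 2 * X) ≤ s k) → 0 ≤ D := by
    intro s D A h hf hA hlow
    refine avg_nonneg h _ hf (sideTail hlow) (t1s.mul_left _) ?_
    rw [tsum_mul_left]
    refine (mul_le_mul_of_nonneg_left t1 (mul_nonneg (by linarith) hX0.le)).trans ?_
    have : ((1 + M) * (tailB g.d1 (g.q + 1) : ℚ)) ≤ (A : ℝ) := by
      rw [hM]; exact_mod_cast hA
    have := mul_le_mul_of_nonneg_right this hX0.le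
    linarith
  refine ⟨?_, ?_, ?_, ?_⟩
  · have hD : HasSum (fun k => pw d k * slS l d n X o k)
        (d * (l ^ 2 * X) - o.be * X ^ 2 - mean l d (n + 1) sq) := by
      have := ((mass.mul_right (l ^ 2 * X)).sub (hone.mul_right ((o.be : ℝ) * X ^ 2))).sub
        (low bdd_sq)
      rw [one_mul] at this
      refine this.congr_fun fun k => ?_
      simp only [slS]; ring
    have h := avg_nonneg hD (g.q + 2) f1 (T := fun j => X ^ 2 * (max 0 (o.be : ℝ) *
      v d (j + (g.q + 2 + 1)) + M * (1 + M) / 2 * v d (j + (g.q + 1)))) (fun j => ?_)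
      (((t2s.mul_left _).add (t0s.mul_left _)).mul_left _) ?_
    · rw [← mul_assoc, hdl, one_mul] at h
      linarith
    · set k := j + (g.q + 2 + 1) with hk
      have hv := v_nonneg hd.le k
      have e2 : v d k * ((k : ℝ) * ((k : ℝ) - 1)) * (l ^ 2) ^ 2 = v d (j + (g.q + 1)) := by
        rw [hk, show j + (g.q + 2 + 1) = j + (g.q + 1) + 1 + 1 by omega]
        have e := v_succ_mul d (j + (g.q + 1) + 1)
        have e' := v_succ_mul d (j + (g.q + 1))
        push_cast at e e' ⊢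
        linear_combination (((j : ℝ) + ((g.q : ℝ) + 1) + 1) * (l ^ 2) ^ 2) * e +
          (d * (l ^ 2) ^ 2) * e' + (v d (j + (g.q + 1)) * (d * l ^ 2 + 1)) * hdl
      have := mul_le_mul_of_nonneg_left (cr k).2 hv
      have := mul_le_mul_of_nonneg_left
        (mul_le_mul_of_nonneg_right (le_max_right (0 : ℝ) (o.be : ℝ)) (sq_nonneg X)) hv
      simp only [slS]
      rw [← e2]
      linarith
    · rw [tsum_mul_left, (t2s.mul_left _).tsum_add (t0s.mul_left _), tsum_mul_left, tsum_mul_left]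
      have h1 : max 0 (o.be : ℝ) * ∑' j, v d (j + (g.q + 2 + 1)) +
          M * (1 + M) / 2 * ∑' j, v d (j + (g.q + 1)) ≤
          max 0 (o.be : ℝ) * (tailB g.d1 (g.q + 2) : ℚ) + M * (1 + M) / 2 * (tailB g.d1 g.q : ℚ) :=
        add_le_add (mul_le_mul_of_nonneg_left t2 (le_max_left _ _))
          (mul_le_mul_of_nonneg_left t0 (by positivity))
      have h2 : max 0 (o.be : ℝ) * (tailB g.d1 (g.q + 2) : ℚ) +
          M * (1 + M) / 2 * (tailB g.d1 g.q : ℚ) ≤
          ((sums C g b o (g.q + 2) 0 ⟨0, 0, 0, 0⟩ 1 1).be : ℝ) := by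
        rw [hM]; exact_mod_cast cS
      have := mul_le_mul_of_nonneg_left (h1.trans h2) (sq_nonneg X)
      linarith
  · have hD : HasSum (fun k => pw d k * slP l d n X o k) (o.p * X + mean l d (n + 1) cub) := by
      have := (hone.mul_right ((o.p : ℝ) * X)).add (low bdd_cub)
      rw [one_mul] at this
      refine this.congr_fun fun k => ?_
      simp only [slP]; ring
    have := side hD f2 cP fun k => by
      have := mul_nonneg (show (0 : ℝ) ≤ o.p by exact_mod_cast op) hX0.le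
      simp only [slP]
      linarith [neg_abs_le (wk l d n k cub), absT k, (cr k).1]
    linarith
  · have hD : HasSum (fun k => pw d k * slT l d n X o k) (o.t * X - mean l d (n + 1) cub) := by
      have := (hone.mul_right ((o.t : ℝ) * X)).sub (low bdd_cub)
      rw [one_mul] at this
      refine this.congr_fun fun k => ?_
      simp only [slT]; ring
    have := side hD f3 cT fun k => by
      have := mul_nonneg (show (0 : ℝ) ≤ o.t by exact_mod_cast ot) hX0.le
      simp only [slT]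
      linarith [le_abs_self (wk l d n k cub), absT k, (cr k).1]
    linarith
  · have hD : HasSum (fun k => pw d k * slQ l d n X o k)
        (o.s * X - mean l d (n + 1) fun a => sq a ^ 2) := by
      have := (hone.mul_right ((o.s : ℝ) * X)).sub (low (bdd_sq.pow 2))
      rw [one_mul] at this
      refine this.congr_fun fun k => ?_
      simp only [slQ]; ring
    have := side hD f4 cQ fun k => by
      have := mul_nonneg (show (0 : ℝ) ≤ o.s by exact_mod_cast os) hX0.le
      have := wk_mono hl hu hd.le n k (bdd_sq.pow 2) bdd_sq fun a ha => (pointwise_le ha).2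
      simp only [slQ]
      linarith [(cr k).1]
    linarith

end level

/-! ### Chains of boxes -/

/-- A chain of boxes, the last of which shrinks into itself. -/
def okChain : List (Bx × Out) → Bool
  | [] => false
  | [(b, o)] => decide (0 < b.X) && decide (0 ≤ b.tm) && decide (0 ≤ b.tp) && decide (0 ≤ b.eta) &&
      decide (0 < o.be) && decide (o.be * b.X < 1) &&
      decide (o.p ≤ b.tm * (1 - o.be * b.X)) && decide (o.t ≤ b.tp * (1 - o.be * b.X)) &&
      decide (o.s ≤ b.eta * (1 - o.be * b.X))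
  | (b, o) :: (b', o') :: L => decide (0 < b.X) && decide (0 ≤ b.tm) && decide (0 ≤ b.tp) &&
      decide (b.X - o.be * b.X ^ 2 ≤ b'.X) &&
      decide (o.p * b.X ≤ b'.tm * b'.X) && decide (o.t * b.X ≤ b'.tp * b'.X) &&
      decide (o.s * b.X ≤ b'.eta * b'.X) && okChain ((b', o') :: L)

/-- The first box takes every law with a small second moment. -/
def okHead (X0 : ℚ) : List (Bx × Out) → Bool
  | [] => false
  | (b, _) :: _ => decide (b.X = X0) && decide (1 ≤ b.tm) && decide (1 ≤ b.tp) && decide (1 ≤ b.eta)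

variable {l : ℝ} {C : Bds} {g : Band}

lemma decay_of_chain (hC : Certs l C) (hl : -(1 / 2) ≤ l) (hl0 : l ≤ 0) (hdl : d * l ^ 2 = 1)
    (hg : okBand g = true) (hd0 : (g.d0 : ℝ) ≤ d) (hd1 : d ≤ g.d1)
    (hcap : top ⟨0, 0, 0, C.fS.q⟩ 1 1 ⟨1, 1, -1, 1, 0, 1⟩
      ⟨1, 1, -(1 / 2), 1 / 2, 0, 1 / 4⟩ ≤ cap) :
    ∀ (L : List (Bx × Out)) (b : Bx) (o : Out) (n : ℕ), okChain ((b, o) :: L) = true →
      (∀ p ∈ (b, o) :: L, okOut C g p.1 p.2 = true) → InBx l d n b b.X → Tendsto (fun k => mean l d k sq) atTop (nhds 0) := by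
  have hd : 0 < d := (band_facts hdl hg hd0 hd1).1
  have hu : l ≤ 1 := by linarith
  intro L
  induction L with
  | nil =>
    intro b o n hok hall hin
    have hout := hall (b, o) (List.mem_cons_self ..)
    simp only [okChain, Bool.and_eq_true, decide_eq_true_eq] at hok
    obtain ⟨⟨⟨⟨⟨⟨⟨⟨hX, htm⟩, htp⟩, heta⟩, hb⟩, hb1⟩, hp⟩, ht⟩, hs⟩ := hok
    have hX' : (0 : ℝ) < b.X := by exact_mod_cast hX
    have hβ : (0 : ℝ) < o.be := by exact_mod_cast hb
    have hβ1 : (o.be : ℝ) * b.X < 1 := by exact_mod_cast hb1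
    have hp' : (o.p : ℝ) ≤ b.tm * (1 - o.be * b.X) := by exact_mod_cast hp
    have ht' : (o.t : ℝ) ≤ b.tp * (1 - o.be * b.X) := by exact_mod_cast ht
    have hs' : (o.s : ℝ) ≤ b.eta * (1 - o.be * b.X) := by exact_mod_cast hs
    let X : ℕ → ℝ := fun j => Nat.rec (b.X : ℝ) (fun _ x => x - o.be * x ^ 2) j
    have hXs : ∀ j, X (j + 1) = X j - o.be * X j ^ 2 := fun j => rfl
    have inv : ∀ j, (0 < X j ∧ X j ≤ b.X) ∧ InBx l d (n + j) b (X j) := by
      intro j
      induction j with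
      | zero => exact ⟨⟨hX', le_rfl⟩, hin⟩
      | succ j ih =>
        obtain ⟨⟨x0, x1⟩, hj⟩ := ih
        obtain ⟨c1, c2, c3, c4⟩ :=
          level hC hl hl0 hdl hg hd0 hd1 htm htp x0 x1 hj hcap hout
        have hg' : 1 - o.be * b.X ≤ 1 - o.be * X j := by
          linarith [mul_le_mul_of_nonneg_left x1 hβ.le]
        have e : X (j + 1) = (1 - o.be * X j) * X j := by rw [hXs]; ring
        have sc : ∀ {v w : ℝ}, v ≤ w * (1 - o.be * b.X) → 0 ≤ w → v * X j ≤ w * X (j + 1) := by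
          intro v w hv hw
          rw [e, ← mul_assoc]
          exact mul_le_mul_of_nonneg_right (hv.trans (mul_le_mul_of_nonneg_left hg' hw)) x0.le
        refine ⟨⟨?_, ?_⟩, c1.trans (le_of_eq (hXs j).symm), ?_, ?_, ?_⟩
        · rw [e]; exact mul_pos (by linarith) x0
        · rw [hXs]; linarith [mul_nonneg hβ.le (sq_nonneg (X j))]
        · exact le_trans (neg_le_neg (sc hp' (by exact_mod_cast htm))) c2
        · exact c3.trans (sc ht' (by exact_mod_cast htp))
        · exact c4.trans (sc hs' (by exact_mod_cast heta))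
    have hlim := seq_decay hβ (fun j => (inv j).1.1.le) fun j => by rw [hXs]; linarith
    refine (Filter.tendsto_add_atTop_iff_nat n).1 ?_
    refine squeeze_zero (fun j => mean_nonneg hl hu _ fun a ha => (sq_mem ha).1) (fun j => ?_) hlim
    rw [Nat.add_comm]
    exact (inv j).2.1
  | cons head L ih =>
    intro b o n hok hall hin
    obtain ⟨b', o'⟩ := head
    have hout := hall (b, o) (List.mem_cons_self ..)
    simp only [okChain, Bool.and_eq_true, decide_eq_true_eq] at hok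
    obtain ⟨⟨⟨⟨⟨⟨⟨hX, htm⟩, htp⟩, h1⟩, h2⟩, h3⟩, h4⟩, hrest⟩ := hok
    have hX' : (0 : ℝ) < b.X := by exact_mod_cast hX
    have h1' : (b.X : ℝ) - o.be * b.X ^ 2 ≤ b'.X := by exact_mod_cast h1
    have h2' : (o.p : ℝ) * b.X ≤ b'.tm * b'.X := by exact_mod_cast h2
    have h3' : (o.t : ℝ) * b.X ≤ b'.tp * b'.X := by exact_mod_cast h3
    have h4' : (o.s : ℝ) * b.X ≤ b'.eta * b'.X := by exact_mod_cast h4
    obtain ⟨c1, c2, c3, c4⟩ := level hC hl hl0 hdl hg hd0 hd1 htm htp hX' le_rfl hin hcap hout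
    exact ih b' o' (n + 1) hrest (fun p hp => hall p (List.mem_cons_of_mem _ hp)) ⟨c1.trans h1', le_trans (neg_le_neg h2') c2, c3.trans h3',
      c4.trans h4'⟩

/-- Nonreconstruction in one band from a small second moment at one level. -/
theorem gwTV_of_band (hC : ∀ m, -(1 / 2) ≤ m → m ≤ 0 → Certs m C) {X0 : ℚ}
    {L : List (Bx × Out)} (hg : okBand g = true) (hH : okHead X0 L = true)
    (hL : okChain L = true) (hall : ∀ p ∈ L, okOut C g p.1 p.2 = true)
    (hcap : top ⟨0, 0, 0, C.fS.q⟩ 1 1 ⟨1, 1, -1, 1, 0, 1⟩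
      ⟨1, 1, -(1 / 2), 1 / 2, 0, 1 / 4⟩ ≤ cap)
    (hd0 : (g.d0 : ℝ) ≤ d) (hd1 : d ≤ g.d1)
    (h : ∃ n, mean (-(1 / Real.sqrt d)) d n sq ≤ X0) :
    Tendsto (gwTV (poissonLaw d) (-(1 / Real.sqrt d))) atTop (nhds 0) := by
  have h4 : (4 : ℝ) ≤ d := by
    have hg' := hg
    simp only [okBand, Bool.and_eq_true, decide_eq_true_eq] at hg'
    exact (show (4 : ℝ) ≤ g.d0 by exact_mod_cast hg'.1.1.1.1.1.1).trans hd0
  set l := -(1 / Real.sqrt d) with hldef
  have hd : 0 < d := by linarith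
  have hl0 : l ≤ 0 := by simp only [hldef, neg_nonpos]; positivity
  have hdl : d * l ^ 2 = 1 := by
    rw [hldef, neg_sq, div_pow, one_pow, Real.sq_sqrt hd.le]; field_simp
  have hl : -(1 / 2) ≤ l := by
    have hs : 2 ≤ Real.sqrt d := Real.le_sqrt_of_sq_le (by linarith)
    rw [hldef, neg_le_neg_iff]
    exact one_div_le_one_div_of_le two_pos hs
  have hu : l ≤ 1 := by linarith
  obtain ⟨n, hn⟩ := h
  match L, hH, hL, hall with
  | [], hH, _, _ => simp [okHead] at hH
  | (b, o) :: L, hH, hL, hall =>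
    simp only [okHead, Bool.and_eq_true, decide_eq_true_eq] at hH
    obtain ⟨⟨⟨hb, htm⟩, htp⟩, heta⟩ := hH
    have hn' : mean l d n sq ≤ (b.X : ℝ) := by rw [hb]; exact hn
    have hlaw := isLaw_mean (d := d) hl hu hd.le n
    have hx0 : (0 : ℝ) ≤ b.X := (mean_nonneg hl hu n fun a ha => (sq_mem ha).1).trans hn'
    have m1 : (b.X : ℝ) ≤ b.tm * b.X := le_mul_of_one_le_left hx0 (by exact_mod_cast htm)
    have m2 : (b.X : ℝ) ≤ b.tp * b.X := le_mul_of_one_le_left hx0 (by exact_mod_cast htp)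
    have m3 : (b.X : ℝ) ≤ b.eta * b.X := le_mul_of_one_le_left hx0 (by exact_mod_cast heta)
    have c1 := hlaw.mono _ _ bdd_cub bdd_sq fun a ha => (le_abs_self _).trans (pointwise_le ha).1
    have c2 := hlaw.mono _ _ bdd_cub.neg bdd_sq fun a ha =>
      (neg_le_abs _).trans (pointwise_le ha).1
    rw [hlaw.neg bdd_cub] at c2
    have c3 := hlaw.mono _ _ (bdd_sq.pow 2) bdd_sq fun a ha => (pointwise_le ha).2
    have hS := decay_of_chain (hC l hl hl0) hl hl0 hdl hg hd0 hd1 hcap L b o n hL hall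
      ⟨hn', by linarith, by linarith, by linarith⟩
    rw [ENNReal.tendsto_nhds_zero]
    intro ε hε
    rcases eq_or_ne ε ⊤ with rfl | hε'
    · exact Eventually.of_forall fun _ => le_top
    have he : 0 < ε.toReal / 2 := by linarith [ENNReal.toReal_pos hε.ne' hε']
    filter_upwards [hS.eventually_lt_const (show (0 : ℝ) < ε.toReal / 2 * (ε.toReal / 2) by
      positivity)] with k hk
    refine (gwTV_le_mean hl hu hd.le k he).trans ?_
    rw [← ENNReal.ofReal_toReal hε']
    refine ENNReal.ofReal_le_ofReal ?_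
    have : mean l d k sq / (ε.toReal / 2) ≤ ε.toReal / 2 := by rw [div_le_iff₀ he]; exact hk.le
    rw [ENNReal.toReal_ofReal (by positivity)]
    linarith

end Vale.Agent.P154.Ly.End
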