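import Vale.Agent.P154.LyEndInt
import Vale.Agent.P154.DeBoxCert

/-!
Chains of boxes for the bands 0 to 1 of mean offspring numbers, checked by the kernel.
-/

namespace Vale.Agent.P154.Ly.End

open DeBox (Bx)

/-- Band 0. -/
def band0 : Band := ⟨(4 : ℚ), (81 / 20 : ℚ), (246913 / 1000000 : ℚ), (1 / 4 : ℚ), (1 / 2 : ℚ), 18⟩

/-- Box 0 of band 0. -/
def box0_0 : Bx := ⟨(7 / 100 : ℚ), (1 : ℚ), (1 : ℚ), (1 : ℚ)⟩

/-- Its image. -/
def out0_0 : Out := ⟨(-16147 / 12500 : ℚ), (69709 / 100000 : ℚ), (56167 / 100000 : ℚ), (55979 / 100000 : ℚ)⟩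

theorem lev0_0 : okOut DeBox.bds band0 box0_0 out0_0 = true :=
  okOut_of_zokOut (by decide +kernel)

/-- Box 1 of band 0. -/
def box0_1 : Bx := ⟨(7633 / 100000 : ℚ), (321 / 500 : ℚ), (259 / 500 : ℚ), (129 / 250 : ℚ)⟩

/-- Its image. -/
def out0_1 : Out := ⟨(-40667 / 100000 : ℚ), (28353 / 100000 : ℚ), (41191 / 100000 : ℚ), (1223 / 4000 : ℚ)⟩

theorem lev0_1 : okOut DeBox.bds band0 box0_1 out0_1 = true :=
  okOut_of_zokOut (by decide +kernel)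

/-- Box 2 of band 0. -/
def box0_2 : Bx := ⟨(787 / 10000 : ℚ), (277 / 1000 : ℚ), (201 / 500 : ℚ), (149 / 500 : ℚ)⟩

/-- Its image. -/
def out0_2 : Out := ⟨(-17013 / 100000 : ℚ), (1289 / 6250 : ℚ), (14797 / 50000 : ℚ), (23603 / 100000 : ℚ)⟩

theorem lev0_2 : okOut DeBox.bds band0 box0_2 out0_2 = true :=
  okOut_of_zokOut (by decide +kernel)

/-- Box 3 of band 0. -/
def box0_3 : Bx := ⟨(39877 / 500000 : ℚ), (41 / 200 : ℚ), (147 / 500 : ℚ), (117 / 500 : ℚ)⟩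

/-- Its image. -/
def out0_3 : Out := ⟨(-2781 / 100000 : ℚ), (7529 / 50000 : ℚ), (27441 / 100000 : ℚ), (10953 / 50000 : ℚ)⟩

theorem lev0_3 : okOut DeBox.bds band0 box0_3 out0_3 = true :=
  okOut_of_zokOut (by decide +kernel)

/-- Box 4 of band 0. -/
def box0_4 : Bx := ⟨(79931 / 1000000 : ℚ), (151 / 1000 : ℚ), (11 / 40 : ℚ), (11 / 50 : ℚ)⟩

/-- Its image. -/
def out0_4 : Out := ⟨(-11 / 6250 : ℚ), (3517 / 25000 : ℚ), (6463 / 25000 : ℚ), (1347 / 6250 : ℚ)⟩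

theorem lev0_4 : okOut DeBox.bds band0 box0_4 out0_4 = true :=
  okOut_of_zokOut (by decide +kernel)

/-- Box 5 of band 0. -/
def box0_5 : Bx := ⟨(79943 / 1000000 : ℚ), (71 / 500 : ℚ), (13 / 50 : ℚ), (217 / 1000 : ℚ)⟩

/-- Its image. -/
def out0_5 : Out := ⟨(733 / 50000 : ℚ), (3327 / 25000 : ℚ), (25583 / 100000 : ℚ), (5369 / 25000 : ℚ)⟩

theorem lev0_5 : okOut DeBox.bds band0 box0_5 out0_5 = true :=
  okOut_of_zokOut (by decide +kernel)

/-- The chain of band 0. -/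
def chain0 : List (Bx × Out) :=
  [(box0_0, out0_0),
    (box0_1, out0_1),
    (box0_2, out0_2),
    (box0_3, out0_3),
    (box0_4, out0_4),
    (box0_5, out0_5)]

theorem check0 : (okBand band0 && okHead (7 / 100) chain0 && okChain chain0) = true := by
  decide +kernel

theorem all0 : ∀ p ∈ chain0, okOut DeBox.bds band0 p.1 p.2 = true := by
  simp only [chain0, List.forall_mem_cons]
  exact ⟨lev0_0, lev0_1, lev0_2, lev0_3, lev0_4, lev0_5, by simp⟩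

/-- Band 1. -/
def band1 : Band := ⟨(81 / 20 : ℚ), (83 / 20 : ℚ), (240963 / 1000000 : ℚ), (123457 / 500000 : ℚ), (62113 / 125000 : ℚ), 18⟩

/-- Box 0 of band 1. -/
def box1_0 : Bx := ⟨(7 / 100 : ℚ), (1 : ℚ), (1 : ℚ), (1 : ℚ)⟩

/-- Its image. -/
def out1_0 : Out := ⟨(-132553 / 100000 : ℚ), (35401 / 50000 : ℚ), (14207 / 25000 : ℚ), (56801 / 100000 : ℚ)⟩

theorem lev1_0 : okOut DeBox.bds band1 box1_0 out1_0 = true :=
  okOut_of_zokOut (by decide +kernel)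

/-- Box 1 of band 1. -/
def box1_1 : Bx := ⟨(4781 / 62500 : ℚ), (651 / 1000 : ℚ), (523 / 1000 : ℚ), (261 / 500 : ℚ)⟩

/-- Its image. -/
def out1_1 : Out := ⟨(-8537 / 20000 : ℚ), (29051 / 100000 : ℚ), (42223 / 100000 : ℚ), (15733 / 50000 : ℚ)⟩

theorem lev1_1 : okOut DeBox.bds band1 box1_1 out1_1 = true :=
  okOut_of_zokOut (by decide +kernel)

/-- Box 2 of band 1. -/
def box1_2 : Bx := ⟨(39497 / 500000 : ℚ), (283 / 1000 : ℚ), (411 / 1000 : ℚ), (153 / 500 : ℚ)⟩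

/-- Its image. -/
def out1_2 : Out := ⟨(-3829 / 20000 : ℚ), (21331 / 100000 : ℚ), (7637 / 25000 : ℚ), (24493 / 100000 : ℚ)⟩

theorem lev1_2 : okOut DeBox.bds band1 box1_2 out1_2 = true :=
  okOut_of_zokOut (by decide +kernel)

/-- Box 3 of band 1. -/
def box1_3 : Bx := ⟨(80189 / 1000000 : ℚ), (211 / 1000 : ℚ), (303 / 1000 : ℚ), (243 / 1000 : ℚ)⟩

/-- Its image. -/
def out1_3 : Out := ⟨(-189 / 4000 : ℚ), (15697 / 100000 : ℚ), (28417 / 100000 : ℚ), (2279 / 10000 : ℚ)⟩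

theorem lev1_3 : okOut DeBox.bds band1 box1_3 out1_3 = true :=
  okOut_of_zokOut (by decide +kernel)

/-- Box 4 of band 1. -/
def box1_4 : Bx := ⟨(80493 / 1000000 : ℚ), (79 / 500 : ℚ), (57 / 200 : ℚ), (57 / 250 : ℚ)⟩

/-- Its image. -/
def out1_4 : Out := ⟨(-2141 / 100000 : ℚ), (1843 / 12500 : ℚ), (13441 / 50000 : ℚ), (11209 / 50000 : ℚ)⟩

theorem lev1_4 : okOut DeBox.bds band1 box1_4 out1_4 = true :=
  okOut_of_zokOut (by decide +kernel)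

/-- Box 5 of band 1. -/
def box1_5 : Bx := ⟨(10079 / 125000 : ℚ), (37 / 250 : ℚ), (27 / 100 : ℚ), (9 / 40 : ℚ)⟩

/-- Its image. -/
def out1_5 : Out := ⟨(-237 / 50000 : ℚ), (1747 / 12500 : ℚ), (13303 / 50000 : ℚ), (22361 / 100000 : ℚ)⟩

theorem lev1_5 : okOut DeBox.bds band1 box1_5 out1_5 = true :=
  okOut_of_zokOut (by decide +kernel)

/-- Box 6 of band 1. -/
def box1_6 : Bx := ⟨(80663 / 1000000 : ℚ), (141 / 1000 : ℚ), (67 / 250 : ℚ), (9 / 40 : ℚ)⟩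

/-- Its image. -/
def out1_6 : Out := ⟨(-67 / 25000 : ℚ), (13871 / 100000 : ℚ), (26407 / 100000 : ℚ), (11179 / 50000 : ℚ)⟩

theorem lev1_6 : okOut DeBox.bds band1 box1_6 out1_6 = true :=
  okOut_of_zokOut (by decide +kernel)

/-- Box 7 of band 1. -/
def box1_7 : Bx := ⟨(80681 / 1000000 : ℚ), (7 / 50 : ℚ), (133 / 500 : ℚ), (9 / 40 : ℚ)⟩

/-- Its image. -/
def out1_7 : Out := ⟨(-17 / 25000 : ℚ), (1377 / 10000 : ℚ), (1319 / 5000 : ℚ), (22359 / 100000 : ℚ)⟩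

theorem lev1_7 : okOut DeBox.bds band1 box1_7 out1_7 = true :=
  okOut_of_zokOut (by decide +kernel)

/-- Box 8 of band 1. -/
def box1_8 : Bx := ⟨(40343 / 500000 : ℚ), (139 / 1000 : ℚ), (53 / 200 : ℚ), (9 / 40 : ℚ)⟩

/-- Its image. -/
def out1_8 : Out := ⟨(33 / 100000 : ℚ), (6859 / 50000 : ℚ), (1647 / 6250 : ℚ), (22359 / 100000 : ℚ)⟩

theorem lev1_8 : okOut DeBox.bds band1 box1_8 out1_8 = true :=
  okOut_of_zokOut (by decide +kernel)

/-- The chain of band 1. -/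
def chain1 : List (Bx × Out) :=
  [(box1_0, out1_0),
    (box1_1, out1_1),
    (box1_2, out1_2),
    (box1_3, out1_3),
    (box1_4, out1_4),
    (box1_5, out1_5),
    (box1_6, out1_6),
    (box1_7, out1_7),
    (box1_8, out1_8)]

theorem check1 : (okBand band1 && okHead (7 / 100) chain1 && okChain chain1) = true := by
  decide +kernel

theorem all1 : ∀ p ∈ chain1, okOut DeBox.bds band1 p.1 p.2 = true := by
  simp only [chain1, List.forall_mem_cons]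
  exact ⟨lev1_0, lev1_1, lev1_2, lev1_3, lev1_4, lev1_5, lev1_6, lev1_7, lev1_8, by simp⟩

end Vale.Agent.P154.Ly.End
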