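import Vale.Agent.P154.LyEndAvg

/-!
The propagation through a number of children evaluated on scaled integers, which the kernel
does quickly, and proved equal to the rational version.
-/

namespace Vale.Agent.P154.Ly.End

open DeBox (Bds Bx Iv Fn Mat top low child)

/-- The scale of the data. -/
def U : ℤ := 1000000

/-- The scale of the coefficients. -/
def W : ℤ := 1000

/-- The scaled numerator. -/
def zq (s : ℤ) (x : ℚ) : ℤ := x.num * s / (x.den : ℤ)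

/-- A rational is a multiple of the reciprocal of the scale. -/
def onGrid (s : ℤ) (x : ℚ) : Bool := decide ((zq s x : ℚ) = x * (s : ℚ))

/-- Twelve scaled coefficients. -/
structure ZFn where
  /-- first weight -/
  g1 : ℤ
  /-- second weight -/
  g2 : ℤ
  /-- third weight -/
  g3 : ℤ
  /-- entry -/
  a11 : ℤ
  /-- entry -/
  a12 : ℤ
  /-- entry -/
  a13 : ℤ
  /-- entry -/
  a21 : ℤ
  /-- entry -/
  a22 : ℤ
  /-- entry -/
  a23 : ℤ
  /-- entry -/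
  a31 : ℤ
  /-- entry -/
  a32 : ℤ
  /-- entry -/
  a33 : ℤ

/-- Three scaled intervals. -/
structure ZIv where
  /-- lower end -/
  l1 : ℤ
  /-- upper end -/
  h1 : ℤ
  /-- lower end -/
  l2 : ℤ
  /-- upper end -/
  h2 : ℤ
  /-- lower end -/
  l3 : ℤ
  /-- upper end -/
  h3 : ℤ

/-- A scaled state. -/
structure ZSt where
  /-- decrease -/
  be : ℤ
  /-- lower ratio -/
  p : ℤ
  /-- upper ratio -/
  t : ℤ
  /-- fourth ratio -/
  s : ℤ

/-- Scaled coefficients of a bound. -/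
def zfn (f : Fn) : ZFn :=
  ⟨zq W f.g1, zq W f.g2, zq W f.g3, zq W f.q.a11, zq W f.q.a12, zq W f.q.a13, zq W f.q.a21,
    zq W f.q.a22, zq W f.q.a23, zq W f.q.a31, zq W f.q.a32, zq W f.q.a33⟩

/-- The twelve coefficients are on the grid. -/
def fnGrid (f : Fn) : Bool :=
  onGrid W f.g1 && onGrid W f.g2 && onGrid W f.g3 && onGrid W f.q.a11 && onGrid W f.q.a12 &&
    onGrid W f.q.a13 && onGrid W f.q.a21 && onGrid W f.q.a22 && onGrid W f.q.a23 &&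
    onGrid W f.q.a31 && onGrid W f.q.a32 && onGrid W f.q.a33

/-- The bilinear part alone. -/
def ZFn.quad (f : ZFn) : ZFn := { f with g1 := 0, g2 := 0, g3 := 0 }

/-- The value at a corner, maximised over the child. -/
def zhb (f : ZFn) (B : ZIv) (x a1 a2 a3 : ℤ) : ℤ :=
  (f.g1 * a1 + f.g2 * a2 + f.g3 * a3) * (U * U ^ 3)
    + max (B.l1 * (f.g1 * (U * U ^ 2) + x * (a1 * f.a11 + a2 * f.a21 + a3 * f.a31)))
        (B.h1 * (f.g1 * (U * U ^ 2) + x * (a1 * f.a11 + a2 * f.a21 + a3 * f.a31)))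
    + max (B.l2 * (f.g2 * (U * U ^ 2) + x * (a1 * f.a12 + a2 * f.a22 + a3 * f.a32)))
        (B.h2 * (f.g2 * (U * U ^ 2) + x * (a1 * f.a12 + a2 * f.a22 + a3 * f.a32)))
    + max (B.l3 * (f.g3 * (U * U ^ 2) + x * (a1 * f.a13 + a2 * f.a23 + a3 * f.a33)))
        (B.h3 * (f.g3 * (U * U ^ 2) + x * (a1 * f.a13 + a2 * f.a23 + a3 * f.a33)))

/-- The maximum over all corners, times `W * U ^ 6`. -/
def ztop (f : ZFn) (x0 x1 : ℤ) (A B : ZIv) : ℤ :=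
  max (max (max (max (zhb f B x0 A.l1 A.l2 A.l3) (zhb f B x0 A.l1 A.l2 A.h3))
      (max (zhb f B x0 A.l1 A.h2 A.l3) (zhb f B x0 A.l1 A.h2 A.h3)))
      (max (max (zhb f B x0 A.h1 A.l2 A.l3) (zhb f B x0 A.h1 A.l2 A.h3))
      (max (zhb f B x0 A.h1 A.h2 A.l3) (zhb f B x0 A.h1 A.h2 A.h3))))
    (max (max (max (zhb f B x1 A.l1 A.l2 A.l3) (zhb f B x1 A.l1 A.l2 A.h3))
      (max (zhb f B x1 A.l1 A.h2 A.l3) (zhb f B x1 A.l1 A.h2 A.h3)))
      (max (max (zhb f B x1 A.h1 A.l2 A.l3) (zhb f B x1 A.h1 A.l2 A.h3))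
      (max (zhb f B x1 A.h1 A.h2 A.l3) (zhb f B x1 A.h1 A.h2 A.h3))))

/-- The least value of a scaled linear form. -/
def zlow (B : ZIv) (c1 c2 c3 : ℤ) : ℤ :=
  min (B.l1 * c1) (B.h1 * c1) + min (B.l2 * c2) (B.h2 * c2) + min (B.l3 * c3) (B.h3 * c3)

/-- Scaled data of a band and a box. -/
structure ZDat where
  /-- least reciprocal -/
  r0 : ℤ
  /-- largest reciprocal -/
  r1 : ℤ
  /-- scale of the moments -/
  X : ℤ
  /-- intervals of the child, scale `U ^ 3` -/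
  B : ZIv

/-- The scaled data. -/
def zdat (g : Band) (b : Bx) : ZDat :=
  ⟨zq U g.r0, zq U g.r1, zq U b.X,
    ⟨0, zq U g.r1 * U ^ 2, -(zq U g.c * zq U g.r1 * zq U b.tp), zq U g.c * zq U g.r1 * zq U b.tm,
      0, zq U b.eta * zq U g.r1 ^ 2⟩⟩

/-- The data are on the grid. -/
def datGrid (g : Band) (b : Bx) : Bool :=
  onGrid U g.r0 && onGrid U g.r1 && onGrid U g.c && onGrid U b.X && onGrid U b.tm &&
    onGrid U b.tp && onGrid U b.eta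

/-- The scaled intervals of a state, scale `U ^ 2`. -/
def zbox (D : ZDat) (k : ℕ) (z : ZSt) : ZIv :=
  ⟨0, (k : ℤ) * D.r1 * U + max 0 (-z.be) * D.X, -(z.p * U), z.t * U, 0, z.s * U⟩

/-- Division rounded up. -/
def cdiv (n m : ℤ) : ℤ := -((-n) / m)

/-- One more child on integers. -/
def znext (fS fT fN fQ : ZFn) (D : ZDat) (k : ℕ) (z : ZSt) : ZSt :=
  let A := zbox D k z
  let R := W * U ^ 5
  let bil :=
    bif decide (0 ≤ W * U * U ^ 3 + D.X * zlow D.B fS.a11 fS.a12 fS.a13) &&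
        decide (0 ≤ W * U * U ^ 2 + D.X * zlow A fS.a11 fS.a21 fS.a31) then
      ztop fS.quad U U { A with l1 := (k : ℤ) * D.r0 * U - max 0 z.be * D.X }
        { D.B with l1 := D.r0 * U ^ 2 }
    else ztop fS.quad U U A D.B
  ⟨z.be - cdiv bil R, cdiv (max 0 (ztop fN 0 D.X A D.B)) R, cdiv (max 0 (ztop fT 0 D.X A D.B)) R,
    cdiv (max 0 (ztop fQ 0 D.X A D.B)) R⟩

/-- The rational state of a scaled one. -/
def ZSt.toSt (z : ZSt) : St :=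
  ⟨(z.be : ℚ) / U, (z.p : ℚ) / U, (z.t : ℚ) / U, (z.s : ℚ) / U⟩

/-- The slacks, propagated on integers. -/
def zsums (fS fT fN fQ : ZFn) (D : ZDat) (g : Band) (o : Out) : ℕ → ℕ → ZSt → ℚ → ℚ → St
  | 0, _, z, v0, v1 => term o z.toSt v0 v1
  | m + 1, k, z, v0, v1 => (term o z.toSt v0 v1).add
      (zsums fS fT fN fQ D g o m (k + 1) (znext fS fT fN fQ D k z)
        (v0 * g.d0 / (k + 1 : ℕ)) (v1 * g.d1 / (k + 1 : ℕ)))

/-- The test of one level on integers. -/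
def zokOut (C : Bds) (g : Band) (b : Bx) (o : Out) : Bool :=
  let S := zsums (zfn C.fS) (zfn C.fT) (zfn C.fN) (zfn C.fQ) (zdat g b) g o (g.q + 2) 0
    ⟨0, 0, 0, 0⟩ 1 1
  fnGrid C.fS && fnGrid C.fT && fnGrid C.fN && fnGrid C.fQ && datGrid g b &&
    decide (max 0 o.be * tailB g.d1 (g.q + 2) + cap * (1 + cap) / 2 * tailB g.d1 g.q ≤ S.be) &&
    decide (0 ≤ o.p) && decide ((1 + cap) * tailB g.d1 (g.q + 1) ≤ S.p) &&
    decide (0 ≤ o.t) && decide ((1 + cap) * tailB g.d1 (g.q + 1) ≤ S.t) &&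
    decide (0 ≤ o.s) && decide ((1 + cap) * tailB g.d1 (g.q + 1) ≤ S.s)

lemma onGrid_eq {s : ℤ} {x : ℚ} (h : onGrid s x = true) (hs : (s : ℚ) ≠ 0) :
    x = (zq s x : ℚ) / (s : ℚ) := by
  rw [eq_div_iff hs]; exact (of_decide_eq_true h).symm

/-- The rational intervals of scaled ones. -/
def ZIv.toIv (A : ZIv) (s : ℤ) : Iv :=
  ⟨(A.l1 : ℚ) / s, (A.h1 : ℚ) / s, (A.l2 : ℚ) / s, (A.h2 : ℚ) / s, (A.l3 : ℚ) / s, (A.h3 : ℚ) / s⟩

/-- The rational bound of scaled coefficients. -/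
def ZFn.toFn (f : ZFn) : Fn :=
  ⟨(f.g1 : ℚ) / W, (f.g2 : ℚ) / W, (f.g3 : ℚ) / W,
    ⟨(f.a11 : ℚ) / W, (f.a12 : ℚ) / W, (f.a13 : ℚ) / W, (f.a21 : ℚ) / W, (f.a22 : ℚ) / W,
      (f.a23 : ℚ) / W, (f.a31 : ℚ) / W, (f.a32 : ℚ) / W, (f.a33 : ℚ) / W⟩⟩

lemma zfn_toFn {f : Fn} (h : fnGrid f = true) : (zfn f).toFn = f := by
  simp only [fnGrid, Bool.and_eq_true] at h
  have hW : (W : ℚ) ≠ 0 := by norm_num [W]
  obtain ⟨⟨⟨⟨⟨⟨⟨⟨⟨⟨⟨h1, h2⟩, h3⟩, q1⟩, q2⟩, q3⟩, q4⟩, q5⟩, q6⟩, q7⟩, q8⟩, q9⟩ := h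
  obtain ⟨g1, g2, g3, q⟩ := f
  obtain ⟨a11, a12, a13, a21, a22, a23, a31, a32, a33⟩ := q
  simp only [ZFn.toFn, zfn, ← onGrid_eq h1 hW, ← onGrid_eq h2 hW, ← onGrid_eq h3 hW,
    ← onGrid_eq q1 hW, ← onGrid_eq q2 hW, ← onGrid_eq q3 hW, ← onGrid_eq q4 hW, ← onGrid_eq q5 hW,
    ← onGrid_eq q6 hW, ← onGrid_eq q7 hW, ← onGrid_eq q8 hW, ← onGrid_eq q9 hW]

/-- The total scale. -/
def scaleR : ℚ := (W : ℚ) * (U : ℚ) ^ 6

lemma hb_eq (f : ZFn) (B : ZIv) (x a1 a2 a3 : ℤ) :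
    DeBox.hb f.toFn (B.toIv (U ^ 3)) ((x : ℚ) / U) ((a1 : ℚ) / (U : ℚ) ^ 2)
      ((a2 : ℚ) / (U : ℚ) ^ 2) ((a3 : ℚ) / (U : ℚ) ^ 2) = (zhb f B x a1 a2 a3 : ℚ) / scaleR := by
  have hR : (0 : ℚ) < scaleR := by norm_num [scaleR, W, U]
  have m : ∀ (u w : ℚ) (N1 N2 : ℤ), u = (N1 : ℚ) / scaleR → w = (N2 : ℚ) / scaleR →
      max u w = ((max N1 N2 : ℤ) : ℚ) / scaleR := fun u w N1 N2 h1 h2 => by
    rw [h1, h2, max_div_div_right hR.le, Int.cast_max]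
  simp only [DeBox.hb, DeBox.m2, ZFn.toFn, ZIv.toIv]
  rw [m _ _ (B.l1 * (f.g1 * (U * U ^ 2) + x * (a1 * f.a11 + a2 * f.a21 + a3 * f.a31))) (B.h1 * (f.g1 * (U * U ^ 2) + x * (a1 * f.a11 + a2 * f.a21 + a3 * f.a31))) ?_ ?_,
    m _ _ (B.l2 * (f.g2 * (U * U ^ 2) + x * (a1 * f.a12 + a2 * f.a22 + a3 * f.a32))) (B.h2 * (f.g2 * (U * U ^ 2) + x * (a1 * f.a12 + a2 * f.a22 + a3 * f.a32))) ?_ ?_,
    m _ _ (B.l3 * (f.g3 * (U * U ^ 2) + x * (a1 * f.a13 + a2 * f.a23 + a3 * f.a33))) (B.h3 * (f.g3 * (U * U ^ 2) + x * (a1 * f.a13 + a2 * f.a23 + a3 * f.a33))) ?_ ?_]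
  · rw [zhb]; push_cast; simp only [scaleR]; field_simp
  all_goals (simp only [scaleR]; push_cast; simp only [W, U]; push_cast; ring)

lemma top_eq (f : ZFn) (x0 x1 : ℤ) (A B : ZIv) :
    top f.toFn ((x0 : ℚ) / U) ((x1 : ℚ) / U) (A.toIv (U ^ 2)) (B.toIv (U ^ 3)) =
      (ztop f x0 x1 A B : ℚ) / scaleR := by
  have hR : (0 : ℚ) ≤ scaleR := by norm_num [scaleR, W, U]
  simp only [top, DeBox.mx, ztop, Int.cast_max, ← max_div_div_right hR]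
  simp only [← hb_eq]
  simp only [show (A.toIv (U ^ 2)) = ⟨(A.l1 : ℚ) / (U : ℚ) ^ 2, (A.h1 : ℚ) / (U : ℚ) ^ 2,
      (A.l2 : ℚ) / (U : ℚ) ^ 2, (A.h2 : ℚ) / (U : ℚ) ^ 2, (A.l3 : ℚ) / (U : ℚ) ^ 2,
      (A.h3 : ℚ) / (U : ℚ) ^ 2⟩ by simp only [ZIv.toIv]; push_cast; rfl]

lemma low_eq (B : ZIv) (c1 c2 c3 : ℤ) {s : ℤ} (hs : 0 < s) :
    low (B.toIv s) ((c1 : ℚ) / W) ((c2 : ℚ) / W) ((c3 : ℚ) / W) =
      (zlow B c1 c2 c3 : ℚ) / ((s : ℚ) * W) := by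
  have hR : (0 : ℚ) ≤ (s : ℚ) * W := by
    have : (0 : ℚ) < s := by exact_mod_cast hs
    norm_num [W]; linarith
  simp only [low, zlow, ZIv.toIv, Int.cast_add, Int.cast_min, Int.cast_mul, add_div,
    ← min_div_div_right hR, div_mul_div_comm]

lemma rd_eq (n : ℤ) : rd ((n : ℚ) / scaleR) = (cdiv n (W * U ^ 5) : ℚ) / U := by
  have e : (n : ℚ) / scaleR * 1000000 = (n : ℚ) / ((W * U ^ 5 : ℤ) : ℚ) := by
    rw [scaleR]; push_cast; norm_num [W, U]; ring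
  have eN : W * U ^ 5 = (((W * U ^ 5).toNat : ℕ) : ℤ) := by norm_num [W, U]
  rw [rd, e, eN, cdiv, Int.cast_natCast, Rat.ceil_intCast_div_natCast, ← eN]
  norm_num [U]

lemma quad_toFn (f : ZFn) : f.quad.toFn = ⟨0, 0, 0, f.toFn.q⟩ := by
  simp [ZFn.quad, ZFn.toFn]

lemma zdat_child {g : Band} {b : Bx} (h : datGrid g b = true) :
    ((zdat g b).r0 : ℚ) / U = g.r0 ∧ ((zdat g b).r1 : ℚ) / U = g.r1 ∧
      ((zdat g b).X : ℚ) / U = b.X ∧ (zdat g b).B.toIv (U ^ 3) = child g.r1 g.c b := by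
  simp only [datGrid, Bool.and_eq_true] at h
  have hU : (U : ℚ) ≠ 0 := by norm_num [U]
  obtain ⟨⟨⟨⟨⟨⟨h0, h1⟩, h2⟩, h3⟩, h4⟩, h5⟩, h6⟩ := h
  refine ⟨(onGrid_eq h0 hU).symm, (onGrid_eq h1 hU).symm, (onGrid_eq h3 hU).symm, ?_⟩
  simp only [child, zdat, ZIv.toIv]
  conv_rhs => rw [onGrid_eq h1 hU, onGrid_eq h2 hU, onGrid_eq h4 hU, onGrid_eq h5 hU, onGrid_eq h6 hU]
  push_cast
  congr 1 <;> first | simp | field_simp

lemma znext_eq {C : Bds} {g : Band} {b : Bx} (hS : fnGrid C.fS = true) (hT : fnGrid C.fT = true)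
    (hN : fnGrid C.fN = true) (hQ : fnGrid C.fQ = true) (hD : datGrid g b = true) (k : ℕ) (z : ZSt) :
    (znext (zfn C.fS) (zfn C.fT) (zfn C.fN) (zfn C.fQ) (zdat g b) k z).toSt =
      next C g b k z.toSt := by
  obtain ⟨e0, e1, eX, eB⟩ := zdat_child hD
  have hU : (0 : ℚ) < U := by norm_num [U]
  have hW : (0 : ℚ) < W := by norm_num [W]
  set D := zdat g b
  have mx0 : ∀ a : ℤ, ((max 0 a : ℤ) : ℚ) / U = max 0 ((a : ℚ) / U) := fun a => by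
    rw [Int.cast_max, ← max_div_div_right hU.le, Int.cast_zero, zero_div]
  have eA : (zbox D k z).toIv (U ^ 2) = box g b.X k z.toSt := by
    have en : -((z.be : ℚ) / U) = ((-z.be : ℤ) : ℚ) / U := by push_cast; ring
    simp only [box, zbox, ZIv.toIv, ZSt.toSt]
    rw [← e1, ← eX, en, ← mx0]
    push_cast
    congr 1 <;> first | simp | field_simp
  have el : (((k : ℤ) * D.r0 * U - max 0 z.be * D.X : ℤ) : ℚ) / ((U ^ 2 : ℤ) : ℚ) =
      k * g.r0 - max 0 z.toSt.be * b.X := by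
    simp only [ZSt.toSt]
    rw [← e0, ← eX, ← mx0]
    push_cast
    field_simp
  have eA' : ({ zbox D k z with l1 := (k : ℤ) * D.r0 * U - max 0 z.be * D.X } : ZIv).toIv (U ^ 2) =
      { box g b.X k z.toSt with l1 := k * g.r0 - max 0 z.toSt.be * b.X } := by
    rw [← eA, ← el]; rfl
  have eB' : ({ D.B with l1 := D.r0 * U ^ 2 } : ZIv).toIv (U ^ 3) =
      { child g.r1 g.c b with l1 := g.r0 } := by
    rw [← eB, ← e0]
    simp only [ZIv.toIv]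
    push_cast
    congr 1 ; first | simp | field_simp
  have fS := zfn_toFn hS
  have q1 : C.fS.q.a11 = ((zfn C.fS).a11 : ℚ) / W := (congrArg (fun F : Fn => F.q.a11) fS).symm
  have q2 : C.fS.q.a12 = ((zfn C.fS).a12 : ℚ) / W := (congrArg (fun F : Fn => F.q.a12) fS).symm
  have q3 : C.fS.q.a13 = ((zfn C.fS).a13 : ℚ) / W := (congrArg (fun F : Fn => F.q.a13) fS).symm
  have q4 : C.fS.q.a21 = ((zfn C.fS).a21 : ℚ) / W := (congrArg (fun F : Fn => F.q.a21) fS).symm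
  have q7 : C.fS.q.a31 = ((zfn C.fS).a31 : ℚ) / W := (congrArg (fun F : Fn => F.q.a31) fS).symm
  have cond : okMono C b.X (box g b.X k z.toSt) (child g.r1 g.c b) =
      (decide (0 ≤ W * U * U ^ 3 + D.X * zlow D.B (zfn C.fS).a11 (zfn C.fS).a12 (zfn C.fS).a13) &&
        decide (0 ≤ W * U * U ^ 2 +
          D.X * zlow (zbox D k z) (zfn C.fS).a11 (zfn C.fS).a21 (zfn C.fS).a31)) := by
    rw [okMono, ← eA, ← eB, ← eX, q1, q2, q3, q4, q7, low_eq _ _ _ _ (by norm_num [U]),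
      low_eq _ _ _ _ (by norm_num [U])]
    congr 1 <;>
    · refine decide_eq_decide.2 ?_
      rw [← @Int.cast_nonneg_iff ℚ]
      push_cast
      rw [div_mul_div_comm, one_add_div (by positivity)]
      constructor
      · intro h; have := (div_nonneg_iff.1 h).resolve_right fun h' => absurd h'.2 (not_le.2 (by positivity)); linarith [this.1]
      · intro h; refine div_nonneg ?_ (by positivity); linarith
  have tops : ∀ f : ZFn, top f.toFn 0 b.X (box g b.X k z.toSt) (child g.r1 g.c b) =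
      (ztop f 0 D.X (zbox D k z) D.B : ℚ) / scaleR := fun f => by
    rw [← top_eq, eA, eB, eX, Int.cast_zero, zero_div]
  have one : ((U : ℤ) : ℚ) / (U : ℚ) = 1 := div_self hU.ne'
  have hR : (0 : ℚ) ≤ scaleR := by norm_num [scaleR, W, U]
  have rdm : ∀ f : ZFn, rd (max 0 ((ztop f 0 D.X (zbox D k z) D.B : ℚ) / scaleR)) =
      (cdiv (max 0 (ztop f 0 D.X (zbox D k z) D.B)) (W * U ^ 5) : ℚ) / U := fun f => by
    rw [← rd_eq, Int.cast_max, ← max_div_div_right hR, Int.cast_zero, zero_div]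
  have hbil : rd (bilTop C g b k z.toSt) = (cdiv (bif decide (0 ≤ W * U * U ^ 3 +
        D.X * zlow D.B (zfn C.fS).a11 (zfn C.fS).a12 (zfn C.fS).a13) &&
        decide (0 ≤ W * U * U ^ 2 +
          D.X * zlow (zbox D k z) (zfn C.fS).a11 (zfn C.fS).a21 (zfn C.fS).a31) then
      ztop (zfn C.fS).quad U U { zbox D k z with l1 := (k : ℤ) * D.r0 * U - max 0 z.be * D.X }
        { D.B with l1 := D.r0 * U ^ 2 }
    else ztop (zfn C.fS).quad U U (zbox D k z) D.B) (W * U ^ 5) : ℚ) / U := by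
    have hq : (zfn C.fS).quad.toFn = ⟨0, 0, 0, C.fS.q⟩ := by rw [quad_toFn, fS]
    rw [← rd_eq, bilTop, cond]
    refine congrArg rd ?_
    rw [Bool.cond_eq_ite]
    split_ifs
    · rw [← top_eq, hq, eA', eB', one]
    · rw [← top_eq, hq, eA, eB, one]
  simp only [next, znext, hbil]
  rw [← zfn_toFn hN, ← zfn_toFn hT, ← zfn_toFn hQ, tops, tops, tops, rdm, rdm, rdm,
    zfn_toFn hN, zfn_toFn hT, zfn_toFn hQ]
  simp only [ZSt.toSt]
  push_cast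
  congr 1
  ring

lemma zsums_eq {C : Bds} {g : Band} {b : Bx} (hS : fnGrid C.fS = true) (hT : fnGrid C.fT = true)
    (hN : fnGrid C.fN = true) (hQ : fnGrid C.fQ = true) (hD : datGrid g b = true) (o : Out) :
    ∀ (m k : ℕ) (z : ZSt) (v0 v1 : ℚ),
      zsums (zfn C.fS) (zfn C.fT) (zfn C.fN) (zfn C.fQ) (zdat g b) g o m k z v0 v1 =
        sums C g b o m k z.toSt v0 v1
  | 0, _, _, _, _ => rfl
  | m + 1, k, z, v0, v1 => by
    simp only [zsums, sums, zsums_eq hS hT hN hQ hD o m, znext_eq hS hT hN hQ hD]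

/-- The integer test implies the rational one. -/
theorem okOut_of_zokOut {C : Bds} {g : Band} {b : Bx} {o : Out} (h : zokOut C g b o = true) :
    okOut C g b o = true := by
  simp only [zokOut, Bool.and_eq_true, decide_eq_true_eq] at h
  obtain ⟨⟨⟨⟨⟨⟨⟨⟨⟨⟨⟨hS, hT⟩, hN⟩, hQ⟩, hD⟩, c1⟩, c2⟩, c3⟩, c4⟩, c5⟩, c6⟩, c7⟩ := h
  rw [zsums_eq hS hT hN hQ hD] at c1 c3 c5 c7
  have e : ZSt.toSt ⟨0, 0, 0, 0⟩ = ⟨0, 0, 0, 0⟩ := by simp [ZSt.toSt]
  rw [e] at c1 c3 c5 c7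
  simp only [okOut, Bool.and_eq_true, decide_eq_true_eq]
  exact ⟨⟨⟨⟨⟨⟨c1, c2⟩, c3⟩, c4⟩, c5⟩, c6⟩, c7⟩

end Vale.Agent.P154.Ly.End
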