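import Vale.Agent.P154.Decay
import Vale.Agent.P154.Monotone

/-!
The averaged total variation on Poisson trees is monotone in the mean offspring number.
Every subadditive functional of the leaf likelihood vectors grows with one more child and
with each child subtree, so no coupling of trees is needed.
-/

open scoped BigOperators ENNReal
open Filter

namespace Vale.Agent.P154.Ly

/-- A nonnegative subadditive functional of likelihood vectors. -/
structure Sub (φ : (Spin → ℝ) → ℝ) : Prop where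
  nonneg : ∀ v, 0 ≤ φ v
  zero : φ (fun _ => 0) = 0
  add : ∀ u v : Spin → ℝ, φ (fun i => u i + v i) ≤ φ u + φ v

variable {l : ℝ}

lemma Sub.le_sum {φ : (Spin → ℝ) → ℝ} (h : Sub φ) {α : Type} [Fintype α] (v : α → Spin → ℝ) :
    φ (fun i => ∑ a, v a i) ≤ ∑ a, φ (v a) := by
  have e : (fun i => ∑ a, v a i) = ∑ a, v a := by funext i; simp
  rw [e]
  exact Finset.le_sum_of_subadditive φ h.zero.le (fun u v => h.add u v) _ v

/-- Averaged functional of the leaf experiment. -/
noncomputable def vSum (l : ℝ) (p : ℕ → ℝ≥0∞) (n : ℕ) (φ : (Spin → ℝ) → ℝ) : ℝ≥0∞ :=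
  ∑' T : Tr n, treeWeight p n T * ENNReal.ofReal (∑ c, φ (lik l n T c))

/-- The same for `k` independent child subtrees seen through their edges. -/
noncomputable def gSum (l : ℝ) (p : ℕ → ℝ≥0∞) (n k : ℕ) (φ : (Spin → ℝ) → ℝ) : ℝ≥0∞ :=
  ∑' ch : Fin k → Tr n, (∏ j, treeWeight p n (ch j)) *
    ENNReal.ofReal (∑ c, φ (kids l (fun j => lik l n (ch j)) c))

lemma vSum_succ (p : ℕ → ℝ≥0∞) (n : ℕ) (φ : (Spin → ℝ) → ℝ) :
    vSum l p (n + 1) φ = ∑' k, p k * gSum l p n k φ := by
  refine (ENNReal.tsum_sigma fun k (ch : Fin k → Tr n) =>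
    (p k * ∏ j, treeWeight p n (ch j)) *
      ENNReal.ofReal (∑ c, φ (lik l (n + 1) (node n k ch) c))).trans (tsum_congr fun k => ?_)
  rw [gSum, ← ENNReal.tsum_mul_left]
  exact tsum_congr fun ch => mul_assoc _ _ _

/-- Functional of the first child, the other children being fixed. -/
noncomputable def subFirst (l : ℝ) (φ : (Spin → ℝ) → ℝ) (n k : ℕ) (ch : Fin k → Tr n)
    (v : Spin → ℝ) : ℝ :=
  ∑ a, φ (fun i => kids l (fun j => lik l n (ch j)) a i * push l v i)

/-- Functional of the other children, the first child being fixed. -/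
noncomputable def subRest (l : ℝ) (φ : (Spin → ℝ) → ℝ) (n : ℕ) (T : Tr n)
    (A : Spin → ℝ) : ℝ :=
  ∑ b, φ (fun i => A i * push l (lik l n T b) i)

lemma Sub.first {φ : (Spin → ℝ) → ℝ} (h : Sub φ) (n k : ℕ) (ch : Fin k → Tr n) :
    Sub (subFirst l φ n k ch) := by
  refine ⟨fun v => Finset.sum_nonneg fun a _ => h.nonneg _, ?_, fun u v => ?_⟩
  · refine Finset.sum_eq_zero fun a _ => ?_
    simp [push_eq, h.zero]
  · rw [subFirst, subFirst, subFirst, ← Finset.sum_add_distrib]
    refine Finset.sum_le_sum fun a _ => le_of_eq_of_le (congrArg φ ?_) (h.add _ _)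
    funext i
    simp only [push, mul_add, Finset.sum_add_distrib]

lemma Sub.rest {φ : (Spin → ℝ) → ℝ} (h : Sub φ) (n : ℕ) (T : Tr n) :
    Sub (subRest l φ n T) := by
  refine ⟨fun v => Finset.sum_nonneg fun a _ => h.nonneg _, ?_, fun u v => ?_⟩
  · refine Finset.sum_eq_zero fun a _ => ?_
    simp [h.zero]
  · rw [subRest, subRest, subRest, ← Finset.sum_add_distrib]
    refine Finset.sum_le_sum fun a _ => le_of_eq_of_le (congrArg φ ?_) (h.add _ _)
    funext i; ring

/-- One child with law `p`, the others with law `q`, summed in both orders. -/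
lemma mixed_eq {φ : (Spin → ℝ) → ℝ} (p q : ℕ → ℝ≥0∞) (n k : ℕ) :
    ∑' T : Tr n, treeWeight p n T * gSum l q n k (subRest l φ n T) =
      ∑' ch : Fin k → Tr n, (∏ j, treeWeight q n (ch j)) *
        vSum l p n (subFirst l φ n k ch) := by
  simp only [gSum, vSum, ← ENNReal.tsum_mul_left]
  rw [ENNReal.tsum_comm]
  refine tsum_congr fun ch => tsum_congr fun T => ?_
  rw [mul_left_comm]
  congr 3
  simp only [subRest, subFirst]
  exact Finset.sum_comm

lemma gSum_succ {φ : (Spin → ℝ) → ℝ} (p : ℕ → ℝ≥0∞) (n k : ℕ) :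
    gSum l p n (k + 1) φ = ∑' T : Tr n, treeWeight p n T * gSum l p n k (subRest l φ n T) := by
  rw [gSum, ← (Fin.consEquiv fun _ : Fin (k + 1) => Tr n).tsum_eq, ENNReal.tsum_prod']
  refine tsum_congr fun T => ?_
  rw [gSum, ← ENNReal.tsum_mul_left]
  refine tsum_congr fun ch => ?_
  rw [Fin.prod_univ_succ, ← mul_assoc]
  congr 2
  simp only [subRest]
  rw [← (splitFirst fun j : Fin (k + 1) =>
    Cfg n ((Fin.consEquiv fun _ : Fin (k + 1) => Tr n) (T, ch) j)).sum_comp, Fintype.sum_prod_type]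
  refine Finset.sum_congr rfl fun a _ => Finset.sum_congr rfl fun b _ => congrArg φ ?_
  exact congrFun (kids_split (l := l) fun j : Fin (k + 1) =>
    lik l n ((Fin.consEquiv fun _ : Fin (k + 1) => Tr n) (T, ch) j)) (a, b)

lemma gSum_le_succ {φ : (Spin → ℝ) → ℝ} (h : Sub φ) (hl : -(1 / 2) ≤ l) (hu : l ≤ 1)
    (p : ℕ → ℝ≥0∞) (hp : ∑' k, p k = 1) (n k : ℕ) :
    gSum l p n k φ ≤ gSum l p n (k + 1) φ := by
  rw [gSum_succ, mixed_eq, gSum]
  refine ENNReal.tsum_le_tsum fun ch => mul_le_mul' le_rfl ?_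
  calc ENNReal.ofReal (∑ c, φ (kids l (fun j => lik l n (ch j)) c))
      = ∑' T : Tr n, treeWeight p n T *
          ENNReal.ofReal (∑ c, φ (kids l (fun j => lik l n (ch j)) c)) := by
        rw [ENNReal.tsum_mul_right, tsum_treeWeight p hp, one_mul]
    _ ≤ _ := by
        refine ENNReal.tsum_le_tsum fun T => mul_le_mul' le_rfl (ENNReal.ofReal_le_ofReal ?_)
        refine le_of_eq_of_le ?_ ((h.first n k ch).le_sum (lik l n T))
        simp only [subFirst]
        refine Finset.sum_congr rfl fun a _ => congrArg φ ?_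
        funext i
        have := (fam_lik hl hu n T).mass
        simp [push_eq, this]

/-- A law `p` below `q` in stochastic order gives smaller averaged functionals. -/
theorem vSum_mono (hl : -(1 / 2) ≤ l) (hu : l ≤ 1) (p q : ℕ → ℝ≥0∞) (hq : ∑' k, q k = 1)
    (hpq : ∀ G : ℕ → ℝ≥0∞, Monotone G → ∑' k, p k * G k ≤ ∑' k, q k * G k) :
    ∀ (n : ℕ) (φ : (Spin → ℝ) → ℝ), Sub φ → vSum l p n φ ≤ vSum l q n φ := by
  intro n
  induction n with
  | zero => exact fun φ _ => le_rfl
  | succ n ih =>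
    have hg : ∀ (k : ℕ) (φ : (Spin → ℝ) → ℝ), Sub φ → gSum l p n k φ ≤ gSum l q n k φ := by
      intro k
      induction k with
      | zero => intro φ _; simp [gSum, tsum_fintype]
      | succ k ihk =>
        intro φ hφ
        rw [gSum_succ, gSum_succ]
        calc ∑' T : Tr n, treeWeight p n T * gSum l p n k (subRest l φ n T)
            = ∑' ch : Fin k → Tr n, (∏ j, treeWeight p n (ch j)) *
                vSum l p n (subFirst l φ n k ch) := mixed_eq p p n k
          _ ≤ ∑' ch : Fin k → Tr n, (∏ j, treeWeight p n (ch j)) *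
                vSum l q n (subFirst l φ n k ch) :=
              ENNReal.tsum_le_tsum fun ch => mul_le_mul' le_rfl (ih _ (hφ.first n k ch))
          _ = ∑' T : Tr n, treeWeight q n T * gSum l p n k (subRest l φ n T) :=
              (mixed_eq q p n k).symm
          _ ≤ _ := ENNReal.tsum_le_tsum fun T => mul_le_mul' le_rfl (ihk _ (hφ.rest n T))
    intro φ hφ
    rw [vSum_succ, vSum_succ]
    exact le_trans (ENNReal.tsum_le_tsum fun k => mul_le_mul' le_rfl (hg k φ hφ))
      (hpq _ (monotone_nat_of_le_succ (gSum_le_succ hφ hl hu q hq n)))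

lemma poissonLaw_add {a b : ℝ} (ha : 0 ≤ a) (hb : 0 ≤ b) (k : ℕ) :
    poissonLaw (a + b) k = ∑ x ∈ Finset.HasAntidiagonal.antidiagonal k,
      poissonLaw a x.1 * poissonLaw b x.2 := by
  simp only [poissonLaw]
  rw [Finset.sum_congr rfl fun x _ => (ENNReal.ofReal_mul (by positivity)).symm,
    ← ENNReal.ofReal_sum_of_nonneg fun x _ => by positivity]
  congr 1
  rw [(Commute.all a b).add_pow', Finset.mul_sum, Finset.sum_div]
  refine Finset.sum_congr rfl fun x hx => ?_
  have hk : x.1 + x.2 = k := Finset.HasAntidiagonal.mem_antidiagonal.mp hx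
  subst hk
  rw [neg_add, Real.exp_add, nsmul_eq_mul, Nat.cast_choose ℝ (Nat.le_add_right _ _),
    Nat.add_sub_cancel_left]
  field_simp

lemma poissonLaw_le {a b : ℝ} (ha : 0 ≤ a) (hab : a ≤ b) (G : ℕ → ℝ≥0∞) (hG : Monotone G) :
    ∑' k, poissonLaw a k * G k ≤ ∑' k, poissonLaw b k * G k := by
  obtain ⟨e, he, rfl⟩ : ∃ e, 0 ≤ e ∧ b = a + e := ⟨b - a, by linarith, by ring⟩
  calc ∑' i, poissonLaw a i * G i
      = ∑' i, ∑' j, poissonLaw a i * poissonLaw e j * G i := tsum_congr fun i => by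
        rw [ENNReal.tsum_mul_right, ENNReal.tsum_mul_left, poissonLaw_sum he, mul_one]
    _ ≤ ∑' i, ∑' j, poissonLaw a i * poissonLaw e j * G (i + j) :=
        ENNReal.tsum_le_tsum fun i => ENNReal.tsum_le_tsum fun j =>
          mul_le_mul' le_rfl (hG (Nat.le_add_right i j))
    _ = ∑' x : ℕ × ℕ, poissonLaw a x.1 * poissonLaw e x.2 * G (x.1 + x.2) :=
        (ENNReal.tsum_prod (f := fun i j => poissonLaw a i * poissonLaw e j * G (i + j))).symm
    _ = ∑' k, ∑ x ∈ Finset.HasAntidiagonal.antidiagonal k, poissonLaw a x.1 * poissonLaw e x.2 * G (x.1 + x.2) := by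
        rw [← Finset.HasAntidiagonal.sigmaAntidiagonalEquivProd.tsum_eq, ENNReal.tsum_sigma']
        exact tsum_congr fun k => Finset.tsum_subtype _
          (fun x : ℕ × ℕ => poissonLaw a x.1 * poissonLaw e x.2 * G (x.1 + x.2))
    _ = _ := tsum_congr fun k => by
        rw [poissonLaw_add ha he, Finset.sum_mul]
        exact Finset.sum_congr rfl fun x hx => by
          rw [Finset.HasAntidiagonal.mem_antidiagonal.mp hx]

/-- On Poisson trees the averaged total variation is monotone in the mean. -/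
theorem gwTV_poisson_mono (hl : -(1 / 2) ≤ l) (hu : l ≤ 1) {a b : ℝ} (ha : 0 ≤ a) (hab : a ≤ b)
    (n : ℕ) : gwTV (poissonLaw a) l n ≤ gwTV (poissonLaw b) l n := by
  let φ : (Spin → ℝ) → ℝ := fun v => (1 / 6 : ℝ) * ∑ i, |v i - wt v|
  have hφ : Sub φ := by
    refine ⟨fun v => by positivity, by simp [φ, wt], fun u v => ?_⟩
    simp only [φ, ← mul_add, ← Finset.sum_add_distrib]
    refine mul_le_mul_of_nonneg_left (Finset.sum_le_sum fun i _ => ?_) (by norm_num)
    refine le_of_eq_of_le (congrArg abs ?_) (abs_add_le _ _)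
    simp only [wt, Finset.sum_add_distrib]; ring
  have e : ∀ p, gwTV p l n = vSum l p n φ := fun p =>
    tsum_congr fun T => by rw [tv_eq hl hu n T]
  rw [e, e]
  exact vSum_mono hl hu _ _ (poissonLaw_sum (ha.trans hab)) (poissonLaw_le ha hab) n φ hφ

/-- Shrinking the edge parameter towards zero cannot increase the averaged total variation. -/
theorem gwTV_mono_l {m : ℝ} (hl : -(1 / 2) ≤ l) (hu : l ≤ 1) (h0 : 0 ≤ m) (h1 : m ≤ 1)
    (p : ℕ → ℝ≥0∞) (n : ℕ) : gwTV p (l * m) n ≤ gwTV p l n :=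
  ENNReal.tsum_le_tsum fun T =>
    mul_le_mul' le_rfl (ENNReal.ofReal_le_ofReal (tv_mono hl hu h0 h1 n T))

/-- Nonreconstruction at criticality for every mean at least four covers the whole
antiferromagnetic subcritical region of Poisson trees. -/
theorem poisson_antiferro_of_critical
    (h : ∀ d : ℝ, 4 ≤ d → Tendsto (gwTV (poissonLaw d) (-(1 / √d))) atTop (nhds 0))
    {d l : ℝ} (hd : 0 < d) (hl : -(1 / 2) ≤ l) (hl0 : l ≤ 0) (hdl : d * l ^ 2 ≤ 1) :
    Tendsto (gwTV (poissonLaw d) l) atTop (nhds 0) := by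
  obtain ⟨d', hd', hle, hm⟩ : ∃ d', 4 ≤ d' ∧ d ≤ d' ∧ -l * √d' ≤ 1 := by
    rcases le_total 4 d with h4 | h4
    · refine ⟨d, h4, le_rfl, ?_⟩
      rw [← pow_le_one_iff_of_nonneg (mul_nonneg (by linarith) (Real.sqrt_nonneg _)) two_ne_zero,
        mul_pow, Real.sq_sqrt hd.le, neg_sq]
      linarith
    · refine ⟨4, le_rfl, h4, ?_⟩
      rw [show (4 : ℝ) = 2 ^ 2 by norm_num, Real.sqrt_sq two_pos.le]
      linarith
  have hs : 2 ≤ √d' := by
    rw [show (2 : ℝ) = √4 by rw [show (4 : ℝ) = 2 ^ 2 by norm_num, Real.sqrt_sq two_pos.le]]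
    exact Real.sqrt_le_sqrt hd'
  have hinv : 1 / √d' ≤ 1 / 2 := one_div_le_one_div_of_le two_pos hs
  have hpos : 0 ≤ 1 / √d' := by positivity
  have hle' : ∀ n, gwTV (poissonLaw d) l n ≤ gwTV (poissonLaw d') (-(1 / √d')) n := fun n => by
    refine (gwTV_poisson_mono hl (by linarith) hd.le hle n).trans ?_
    have := gwTV_mono_l (l := -(1 / √d')) (by linarith) (by linarith)
      (m := -l * √d') (mul_nonneg (by linarith) (Real.sqrt_nonneg _)) hm (poissonLaw d') n
    have e : -(1 / √d') * (-l * √d') = l := by field_simp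
    rwa [e] at this
  exact tendsto_of_tendsto_of_tendsto_of_le_of_le tendsto_const_nhds (h d' hd') (fun _ => bot_le)
    hle'

end Vale.Agent.P154.Ly
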