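import Vale.Agent.P154.LyDefs
import Vale.Agent.P154.LyMono

/-!
From a one-level gain of a combination of product affinities to nonreconstruction on
Poisson Galton-Watson trees: the affinities obey an exact recursion in the depth.
-/

open scoped BigOperators ENNReal
open Filter

namespace Vale.Agent.P154.Ly

variable {l d : ℝ} {N : ℕ} {k : Spin → ℕ}

/-- One ordering of the product of powers. -/
noncomputable def mon (N : ℕ) (k : Spin → ℕ) (w : Spin → ℝ) : ℝ :=
  ∏ i, (w i) ^ ((k i : ℝ) / (N : ℝ))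

lemma sHel_eq (w : Spin → ℝ) :
    sHel N k w = (1 / 6 : ℝ) * ∑ σ : Equiv.Perm Spin, mon N k fun i => w (σ i) := rfl

lemma mon_nonneg {w : Spin → ℝ} (hw : ∀ i, 0 ≤ w i) : 0 ≤ mon N k w :=
  Finset.prod_nonneg fun i _ => Real.rpow_nonneg (hw i) _

lemma expo_sum (hN : 0 < N) (hk : ∑ i, k i = N) : ∑ i, (k i : ℝ) / (N : ℝ) = 1 := by
  rw [← Finset.sum_div, div_eq_one_iff_eq (by positivity)]
  exact_mod_cast hk

lemma mon_smul (hN : 0 < N) (hk : ∑ i, k i = N) {t : ℝ} (ht : 0 ≤ t) {w : Spin → ℝ}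
    (hw : ∀ i, 0 ≤ w i) : mon N k (fun i => t * w i) = t * mon N k w := by
  simp only [mon]
  rw [Finset.prod_congr rfl fun i _ => Real.mul_rpow ht (hw i), Finset.prod_mul_distrib,
    ← Real.rpow_sum_of_nonneg ht fun i _ => by positivity, expo_sum hN hk, Real.rpow_one]

lemma inS_le {a : Spin → ℝ} (ha : InS a) (i : Spin) : a i ≤ 3 := by
  have := ha.1 0; have := ha.1 1; have := ha.1 2; have := ha.2
  fin_cases i <;> simp <;> linarith

lemma inS_img (hl : -(1 / 2) ≤ l) (hu : l ≤ 1) {a : Spin → ℝ} (ha : InS a) :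
    InS (img l a) := by
  refine ⟨fun i => ?_, by simp only [img]; linear_combination l * ha.2⟩
  have h0 := ha.1 i
  have h3 := inS_le ha i
  simp only [img]
  rcases le_total l 0 with h | h
  · nlinarith
  · nlinarith

lemma inS_perm {a : Spin → ℝ} (ha : InS a) (σ : Equiv.Perm Spin) : InS fun i => a (σ i) := by
  refine ⟨fun i => ha.1 _, ?_⟩
  have h := Equiv.sum_comp σ a
  simp only [Fin.sum_univ_three] at h
  linarith [ha.2]

lemma mon_le (hN : 0 < N) (hk : ∑ i, k i = N) {a : Spin → ℝ} (ha : InS a) : mon N k a ≤ 3 := by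
  refine le_trans (Finset.prod_le_prod (fun i _ => Real.rpow_nonneg (ha.1 i) _) fun i _ =>
    Real.rpow_le_rpow (ha.1 i) (inS_le ha i) (by positivity)) (le_of_eq ?_)
  rw [← Real.rpow_sum_of_nonneg (by norm_num) fun i _ => by positivity, expo_sum hN hk,
    Real.rpow_one]

lemma sHel_mem (hN : 0 < N) (hk : ∑ i, k i = N) {a : Spin → ℝ} (ha : InS a) :
    0 ≤ sHel N k a ∧ sHel N k a ≤ 3 := by
  rw [sHel_eq]
  refine ⟨mul_nonneg (by norm_num) (Finset.sum_nonneg fun σ _ =>
    mon_nonneg (inS_perm ha σ).1), ?_⟩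
  calc _ ≤ (1 / 6 : ℝ) * ∑ _σ : Equiv.Perm Spin, 3 :=
        mul_le_mul_of_nonneg_left (Finset.sum_le_sum fun σ _ => mon_le hN hk (inS_perm ha σ))
          (by norm_num)
    _ = 3 := by
        rw [Finset.sum_const, Finset.card_univ, Fintype.card_perm, Fintype.card_fin]
        norm_num [Nat.factorial]

lemma bdd_sHel (hN : 0 < N) (hk : ∑ i, k i = N) : Bdd (sHel N k) :=
  ⟨3, fun _ ha => abs_le.mpr ⟨by linarith [(sHel_mem hN hk ha).1], (sHel_mem hN hk ha).2⟩⟩

lemma bdd_sHel_img (hN : 0 < N) (hk : ∑ i, k i = N) (hl : -(1 / 2) ≤ l) (hu : l ≤ 1) :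
    Bdd fun a => sHel N k (img l a) :=
  ⟨3, fun _ ha => abs_le.mpr ⟨by linarith [(sHel_mem hN hk (inS_img hl hu ha)).1],
    (sHel_mem hN hk (inS_img hl hu ha)).2⟩⟩

lemma sq_mem {a : Spin → ℝ} (ha : InS a) : 0 ≤ sq a ∧ sq a ≤ 1 := by
  refine ⟨by unfold sq; positivity, ?_⟩
  have h := ha.2
  unfold sq
  nlinarith [mul_nonneg (ha.1 0) (ha.1 1), mul_nonneg (ha.1 0) (ha.1 2),
    mul_nonneg (ha.1 1) (ha.1 2)]

lemma bdd_sq : Bdd sq :=
  ⟨1, fun _ ha => abs_le.mpr ⟨by linarith [(sq_mem ha).1], (sq_mem ha).2⟩⟩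

section fam

variable {ι : Type} [Fintype ι] {f : ι → Spin → ℝ}

lemma sum_wt (hf : Fam f) : ∑ c, wt (f c) = 1 := by
  simp only [wt, ← Finset.sum_div]
  rw [Finset.sum_comm, Fin.sum_univ_three, hf.mass, hf.mass, hf.mass]
  norm_num

lemma abs_expect_le (hf : Fam f) {φ : (Spin → ℝ) → ℝ} {C : ℝ}
    (h : ∀ a, InS a → |φ a| ≤ C) : |expect φ f| ≤ C := by
  refine (Finset.abs_sum_le_sum_abs _ _).trans ?_
  calc ∑ c, |wt (f c) * φ (post (f c))| ≤ ∑ c, wt (f c) * C :=
        Finset.sum_le_sum fun c _ => by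
          rw [abs_mul, abs_of_nonneg (wt_nonneg (hf.nonneg c))]
          exact mul_le_mul_of_nonneg_left (h _ (post_inS (hf.nonneg c))) (wt_nonneg (hf.nonneg c))
    _ = C := by rw [← Finset.sum_mul, sum_wt hf, one_mul]

lemma expect_nonneg (hf : Fam f) {φ : (Spin → ℝ) → ℝ} (h : ∀ a, InS a → 0 ≤ φ a) :
    0 ≤ expect φ f :=
  Finset.sum_nonneg fun c _ => mul_nonneg (wt_nonneg (hf.nonneg c))
    (h _ (post_inS (hf.nonneg c)))

lemma expect_perm (hf : Fam f) (σ : Equiv.Perm Spin) (φ : (Spin → ℝ) → ℝ) :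
    expect (fun a => φ fun i => a (σ i)) f = expect φ f := by
  obtain ⟨e, he⟩ := hf.equiv σ
  rw [expect, expect, ← Equiv.sum_comp e fun c => wt (f c) * φ (post (f c))]
  refine Finset.sum_congr rfl fun c _ => ?_
  obtain ⟨hw, hp⟩ := post_perm σ (he c)
  rw [hw]
  exact congrArg _ (congrArg φ (funext fun i => (hp i).symm))

lemma expect_perm_avg (hf : Fam f) (φ : (Spin → ℝ) → ℝ) :
    expect (fun a => (1 / 6 : ℝ) * ∑ σ : Equiv.Perm Spin, φ fun i => a (σ i)) f = expect φ f := by
  have h6 : (Fintype.card (Equiv.Perm Spin) : ℝ) = 6 := by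
    rw [Fintype.card_perm, Fintype.card_fin]; norm_num [Nat.factorial]
  calc _ = (1 / 6 : ℝ) * ∑ σ : Equiv.Perm Spin, expect (fun a => φ fun i => a (σ i)) f := by
        simp only [expect, Finset.mul_sum]
        rw [Finset.sum_comm]
        exact Finset.sum_congr rfl fun c _ => Finset.sum_congr rfl fun σ _ => by ring
    _ = _ := by
        simp only [expect_perm hf, Finset.sum_const, Finset.card_univ, nsmul_eq_mul, h6]
        ring

/-- The affinity of a symmetric family is the sum of the products of powers. -/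
lemma expect_sHel (hN : 0 < N) (hk : ∑ i, k i = N) (hf : Fam f) :
    expect (sHel N k) f = ∑ c, mon N k (f c) := by
  have : sHel N k = fun a => (1 / 6 : ℝ) * ∑ σ : Equiv.Perm Spin, mon N k fun i => a (σ i) :=
    funext sHel_eq
  rw [this, expect_perm_avg hf]
  refine Finset.sum_congr rfl fun c _ => ?_
  rw [← mon_smul hN hk (wt_nonneg (hf.nonneg c)) (post_inS (hf.nonneg c)).1]
  exact congrArg _ (funext fun i => wt_mul_post (hf.nonneg c) i)

/-- The affinity seen through one edge. -/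
lemma expect_sHel_img (hN : 0 < N) (hk : ∑ i, k i = N) (hl : -(1 / 2) ≤ l) (hu : l ≤ 1)
    (hf : Fam f) :
    expect (fun a => sHel N k (img l a)) f = ∑ c, mon N k (push l (f c)) := by
  have : (fun a => sHel N k (img l a)) =
      fun a => (1 / 6 : ℝ) * ∑ σ : Equiv.Perm Spin, mon N k (img l fun i => a (σ i)) :=
    funext fun a => sHel_eq (img l a)
  rw [this, expect_perm_avg hf fun a => mon N k (img l a)]
  refine Finset.sum_congr rfl fun c _ => ?_
  rw [← mon_smul hN hk (wt_nonneg (hf.nonneg c)) (inS_img hl hu (post_inS (hf.nonneg c))).1]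
  exact congrArg _ (funext fun i => (img_post (hf.nonneg c) i).symm)

end fam

lemma fam_kids (hl : -(1 / 2) ≤ l) (hu : l ≤ 1) (n : ℕ) {r : ℕ} (ch : Fin r → Tr n) :
    Fam (lik l (n + 1) (node n r ch)) := fam_lik hl hu (n + 1) (node n r ch)

/-- The affinity at the root is the product over the children. -/
lemma expect_sHel_node (hN : 0 < N) (hk : ∑ i, k i = N) (hl : -(1 / 2) ≤ l) (hu : l ≤ 1) (n : ℕ)
    {r : ℕ} (ch : Fin r → Tr n) :
    expect (sHel N k) (lik l (n + 1) (node n r ch)) =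
      ∏ j, expect (fun a => sHel N k (img l a)) (lik l n (ch j)) := by
  rw [expect_sHel hN hk (fam_kids hl hu n ch),
    Finset.prod_congr rfl fun j _ => expect_sHel_img hN hk hl hu (fam_lik hl hu n (ch j))]
  show ∑ c : (j : Fin r) → Cfg n (ch j), mon N k (kids l (fun j => lik l n (ch j)) c) = _
  rw [Fintype.prod_sum]
  refine Finset.sum_congr rfl fun c _ => ?_
  simp only [mon, kids]
  rw [Finset.prod_comm]
  refine Finset.prod_congr rfl fun i _ => (Real.finsetProd_rpow _ _ (fun j _ => ?_) _).symm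
  exact Finset.sum_nonneg fun s _ => mul_nonneg (chan_nonneg hl hu i s)
    ((fam_lik hl hu n (ch j)).nonneg _ _)

/-- The expectation of a function of the root posterior on the Poisson tree of height `n`. -/
noncomputable def mean (l d : ℝ) (n : ℕ) (φ : (Spin → ℝ) → ℝ) : ℝ :=
  ∑' T : Tr n, (treeWeight (poissonLaw d) n T).toReal * expect φ (lik l n T)

lemma tw_ne_top (hd : 0 ≤ d) (n : ℕ) (T : Tr n) : treeWeight (poissonLaw d) n T ≠ ⊤ := by
  refine ne_top_of_le_ne_top ENNReal.one_ne_top ?_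
  rw [← tsum_treeWeight (poissonLaw d) (poissonLaw_sum hd) n]
  exact ENNReal.le_tsum T

lemma summable_tw (hd : 0 ≤ d) (n : ℕ) :
    Summable fun T : Tr n => (treeWeight (poissonLaw d) n T).toReal := by
  refine ENNReal.summable_toReal ?_
  rw [tsum_treeWeight (poissonLaw d) (poissonLaw_sum hd) n]
  exact ENNReal.one_ne_top

lemma tsum_tw (hd : 0 ≤ d) (n : ℕ) :
    ∑' T : Tr n, (treeWeight (poissonLaw d) n T).toReal = 1 := by
  rw [← ENNReal.tsum_toReal_eq (tw_ne_top hd n),
    tsum_treeWeight (poissonLaw d) (poissonLaw_sum hd) n, ENNReal.toReal_one]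

section law

variable (hl : -(1 / 2) ≤ l) (hu : l ≤ 1) (hd : 0 ≤ d) (n : ℕ)
include hl hu hd

lemma mean_summable {φ : (Spin → ℝ) → ℝ} (hφ : Bdd φ) :
    Summable fun T : Tr n => (treeWeight (poissonLaw d) n T).toReal * expect φ (lik l n T) := by
  obtain ⟨C, hC⟩ := hφ
  refine Summable.of_norm_bounded ((summable_tw hd n).mul_right C) fun T => ?_
  rw [Real.norm_eq_abs, abs_mul, abs_of_nonneg ENNReal.toReal_nonneg]
  exact mul_le_mul_of_nonneg_left (abs_expect_le (fam_lik hl hu n T) hC) ENNReal.toReal_nonneg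

lemma mean_abs_le {φ : (Spin → ℝ) → ℝ} {C : ℝ} (hC : ∀ a, InS a → |φ a| ≤ C) :
    |mean l d n φ| ≤ C := by
  have hb : ∀ T : Tr n, |(treeWeight (poissonLaw d) n T).toReal * expect φ (lik l n T)| ≤
      (treeWeight (poissonLaw d) n T).toReal * C := fun T => by
    rw [abs_mul, abs_of_nonneg ENNReal.toReal_nonneg]
    exact mul_le_mul_of_nonneg_left (abs_expect_le (fam_lik hl hu n T) hC) ENNReal.toReal_nonneg
  refine (tsum_of_norm_bounded (f := fun T : Tr n =>
    (treeWeight (poissonLaw d) n T).toReal * expect φ (lik l n T))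
    ((summable_tw hd n).mul_right C).hasSum fun T => by
      rw [Real.norm_eq_abs]; exact hb T).trans (le_of_eq ?_)
  rw [tsum_mul_right, tsum_tw hd n, one_mul]

omit hd in
lemma mean_nonneg {φ : (Spin → ℝ) → ℝ} (h : ∀ a, InS a → 0 ≤ φ a) : 0 ≤ mean l d n φ :=
  tsum_nonneg fun T => mul_nonneg ENNReal.toReal_nonneg (expect_nonneg (fam_lik hl hu n T) h)

lemma ofReal_mean {φ : (Spin → ℝ) → ℝ} (hφ : Bdd φ) (h : ∀ a, InS a → 0 ≤ φ a) :
    ENNReal.ofReal (mean l d n φ) = ∑' T : Tr n, treeWeight (poissonLaw d) n T *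
      ENNReal.ofReal (expect φ (lik l n T)) := by
  rw [mean, ENNReal.ofReal_tsum_of_nonneg (fun T => mul_nonneg ENNReal.toReal_nonneg
    (expect_nonneg (fam_lik hl hu n T) h)) (mean_summable hl hu hd n hφ)]
  exact tsum_congr fun T => by
    rw [ENNReal.ofReal_mul ENNReal.toReal_nonneg, ENNReal.ofReal_toReal (tw_ne_top hd n T)]

lemma isLaw_mean : IsLaw (mean l d n) where
  one := by
    simp only [mean]
    refine (tsum_congr fun T => ?_).trans (tsum_tw hd n)
    simp only [expect, mul_one, sum_wt (fam_lik hl hu n T)]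
  add φ ψ hφ hψ := by
    simp only [mean]
    rw [← (mean_summable hl hu hd n hφ).tsum_add (mean_summable hl hu hd n hψ)]
    refine tsum_congr fun T => ?_
    simp only [expect, mul_add, Finset.sum_add_distrib]
  smul c φ hφ := by
    simp only [mean]
    rw [← tsum_mul_left]
    refine tsum_congr fun T => ?_
    simp only [expect, Finset.mul_sum]
    exact Finset.sum_congr rfl fun x _ => by ring
  mono φ ψ hφ hψ h := by
    refine Summable.tsum_le_tsum (fun T => mul_le_mul_of_nonneg_left ?_ ENNReal.toReal_nonneg)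
      (mean_summable hl hu hd n hφ) (mean_summable hl hu hd n hψ)
    exact Finset.sum_le_sum fun c _ => mul_le_mul_of_nonneg_left
      (h _ (post_inS ((fam_lik hl hu n T).nonneg c))) (wt_nonneg ((fam_lik hl hu n T).nonneg c))
  symm σ φ _ := tsum_congr fun T => by rw [expect_perm (fam_lik hl hu n T)]

/-- The exact recursion of the affinities. -/
lemma mean_sHel_succ (hN : 0 < N) (hk : ∑ i, k i = N) :
    mean l d (n + 1) (sHel N k) =
      Real.exp (-(d * (1 - mean l d n fun a => sHel N k (img l a)))) := by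
  have h1 : ∀ a, InS a → 0 ≤ sHel N k a := fun a ha => (sHel_mem hN hk ha).1
  have h2 : ∀ a, InS a → 0 ≤ sHel N k (img l a) := fun a ha =>
    (sHel_mem hN hk (inS_img hl hu ha)).1
  set x := mean l d n fun a => sHel N k (img l a) with hx
  have hx0 : 0 ≤ x := mean_nonneg hl hu n h2
  refine (ENNReal.ofReal_eq_ofReal_iff (mean_nonneg hl hu (n + 1) h1) (Real.exp_pos _).le).mp ?_
  have hX := ofReal_mean hl hu hd n (bdd_sHel_img hN hk hl hu) h2
  rw [ofReal_mean hl hu hd (n + 1) (bdd_sHel hN hk) h1]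
  refine (ENNReal.tsum_sigma fun r (ch : Fin r → Tr n) =>
    (poissonLaw d r * ∏ j, treeWeight (poissonLaw d) n (ch j)) *
      ENNReal.ofReal (expect (sHel N k) (lik l (n + 1) (node n r ch)))).trans ?_
  have e : ∀ r, ∑' ch : Fin r → Tr n, (poissonLaw d r * ∏ j, treeWeight (poissonLaw d) n (ch j)) *
      ENNReal.ofReal (expect (sHel N k) (lik l (n + 1) (node n r ch))) =
      ENNReal.ofReal (Real.exp (-d) * (d * x) ^ r / (r.factorial : ℝ)) := fun r => by
    have e1 : ∀ ch : Fin r → Tr n, (poissonLaw d r * ∏ j, treeWeight (poissonLaw d) n (ch j)) *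
        ENNReal.ofReal (expect (sHel N k) (lik l (n + 1) (node n r ch))) =
        poissonLaw d r * ∏ j, treeWeight (poissonLaw d) n (ch j) *
          ENNReal.ofReal (expect (fun a => sHel N k (img l a)) (lik l n (ch j))) := fun ch => by
      rw [expect_sHel_node hN hk hl hu n ch, ENNReal.ofReal_prod_of_nonneg
        fun j _ => expect_nonneg (fam_lik hl hu n (ch j)) h2, mul_assoc, ← Finset.prod_mul_distrib]
    rw [tsum_congr e1, ENNReal.tsum_mul_left, tsum_pi_prod fun (_ : Fin r) T =>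
      treeWeight (poissonLaw d) n T *
        ENNReal.ofReal (expect (fun a => sHel N k (img l a)) (lik l n T)),
      Finset.prod_const, Finset.card_univ, Fintype.card_fin, ← hX, ← hx,
      ← ENNReal.ofReal_pow hx0, poissonLaw, ← ENNReal.ofReal_mul (by positivity)]
    congr 1
    rw [mul_pow]; ring
  rw [tsum_congr e]
  have h : HasSum (fun r => Real.exp (-d) * ((d * x) ^ r / (r.factorial : ℝ)))
      (Real.exp (-d) * Real.exp (d * x)) := by
    refine HasSum.mul_left _ ?_
    rw [Real.exp_eq_exp_ℝ]; exact NormedSpace.expSeries_div_hasSum_exp (d * x)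
  simp only [mul_div_assoc]
  rw [← ENNReal.ofReal_tsum_of_nonneg (fun r => by positivity) h.summable, h.tsum_eq,
    ← Real.exp_add]
  congr 2
  ring

/-- The averaged total variation is controlled by the second moment of the posterior. -/
lemma gwTV_le_mean {e : ℝ} (he : 0 < e) :
    gwTV (poissonLaw d) l n ≤ ENNReal.ofReal (e + mean l d n sq / e) := by
  calc gwTV (poissonLaw d) l n
      ≤ ∑' T : Tr n, (treeWeight (poissonLaw d) n T * ENNReal.ofReal e +
          treeWeight (poissonLaw d) n T * ENNReal.ofReal (expect sq (lik l n T)) *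
            ENNReal.ofReal (1 / e)) := by
        refine ENNReal.tsum_le_tsum fun T => ?_
        rw [mul_assoc, ← mul_add, ← ENNReal.ofReal_mul (expect_sq_nonneg (fam_lik hl hu n T)),
          mul_one_div, ← ENNReal.ofReal_add he.le
            (div_nonneg (expect_sq_nonneg (fam_lik hl hu n T)) he.le)]
        exact mul_le_mul' le_rfl (ENNReal.ofReal_le_ofReal (tv_le hl hu n T he))
    _ = _ := by
        rw [ENNReal.tsum_add, ENNReal.tsum_mul_right, ENNReal.tsum_mul_right,
          tsum_treeWeight _ (poissonLaw_sum hd), one_mul,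
          ← ofReal_mean hl hu hd n bdd_sq fun a ha => (sq_mem ha).1,
          ← ENNReal.ofReal_mul (mean_nonneg hl hu n fun a ha => (sq_mem ha).1), mul_one_div,
          ← ENNReal.ofReal_add he.le
            (div_nonneg (mean_nonneg hl hu n fun a ha => (sq_mem ha).1) he.le)]

end law

/-- A gain of a combination of affinities gives nonreconstruction on the Poisson tree. -/
theorem tendsto_gwTV_of_gain {m N : ℕ} {k : Fin m → Spin → ℕ} {c : Fin m → ℝ} {η l d : ℝ}
    (hN : 0 < N) (hk : ∀ j, ∑ i, k j i = N) (hη : 0 < η) (hl : -(1 / 2) ≤ l) (hu : l ≤ 1)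
    (hd : 0 ≤ d) (h : Gain N k c l d η) :
    Tendsto (gwTV (poissonLaw d) l) atTop (nhds 0) := by
  set x : ℕ → ℝ := fun n => mean l d n sq with hx
  set S : ℕ → ℝ := fun n => ∑ j, c j * mean l d n (sHel N (k j)) with hS
  have hx0 : ∀ n, 0 ≤ x n := fun n => mean_nonneg hl hu n fun a ha => (sq_mem ha).1
  have hstep : ∀ n, η * x n ^ 2 ≤ S (n + 1) - S n := fun n => by
    simp only [hS]
    rw [← Finset.sum_sub_distrib]
    refine (h _ (isLaw_mean hl hu hd n)).trans (le_of_eq (Finset.sum_congr rfl fun j _ => ?_))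
    rw [mean_sHel_succ hl hu hd n hN (hk j), mul_sub]
  have hSb : ∀ n, |S n| ≤ ∑ j, |c j| * 3 := fun n => by
    refine (Finset.abs_sum_le_sum_abs _ _).trans (Finset.sum_le_sum fun j _ => ?_)
    rw [abs_mul]
    exact mul_le_mul_of_nonneg_left (mean_abs_le hl hu hd n fun a ha => abs_le.mpr
      ⟨by linarith [(sHel_mem hN (hk j) ha).1], (sHel_mem hN (hk j) ha).2⟩) (abs_nonneg _)
  have hsum : ∀ n, ∑ i ∈ Finset.range n, η * x i ^ 2 ≤ 2 * ∑ j, |c j| * 3 := fun n => by
    refine (Finset.sum_le_sum fun i _ => hstep i).trans ?_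
    rw [Finset.sum_range_sub S]
    linarith [(abs_le.mp (hSb n)).2, (abs_le.mp (hSb 0)).1]
  have hsm : Tendsto (fun n => η * x n ^ 2) atTop (nhds 0) :=
    (summable_of_sum_range_le (fun n => by positivity) hsum).tendsto_atTop_zero
  rw [ENNReal.tendsto_nhds_zero]
  intro ε hε
  rcases eq_or_ne ε ⊤ with rfl | hε'
  · exact Eventually.of_forall fun _ => le_top
  have he : 0 < ε.toReal / 2 := by linarith [ENNReal.toReal_pos hε.ne' hε']
  set e := ε.toReal / 2 with hedef
  filter_upwards [hsm.eventually_lt_const (show 0 < η * (e * e) ^ 2 by positivity)] with n hn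
  have hxe : x n ≤ e * e :=
    (lt_of_pow_lt_pow_left₀ 2 (by positivity) (lt_of_mul_lt_mul_left hn hη.le)).le
  refine (gwTV_le_mean hl hu hd n he).trans ?_
  rw [← ENNReal.ofReal_toReal hε']
  refine ENNReal.ofReal_le_ofReal ?_
  have : mean l d n sq / e ≤ e := by rw [div_le_iff₀ he]; exact hxe
  linarith

end Vale.Agent.P154.Ly
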