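import Vale.Agent.P154.DeBoxLevel
import Vale.Agent.P154.LyBridge
import Vale.Agent.P154.LyTree

/-!
The moments of one level of the Poisson tree: a mixture over the number of children of the
moments of independent children subtrees, which are joined one at a time.
-/

open scoped BigOperators ENNReal
open Filter

namespace Vale.Agent.P154.Ly.End

open DeBox (Cert Fn)

variable {l d : ℝ}

/-- The probability of `k` children. -/
noncomputable def pw (d : ℝ) (k : ℕ) : ℝ := Real.exp (-d) * d ^ k / (k.factorial : ℝ)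

/-- The probability of `k` given subtrees. -/
noncomputable def tws (d : ℝ) (n k : ℕ) (ch : Fin k → Tr n) : ℝ :=
  ∏ j, (treeWeight (poissonLaw d) n (ch j)).toReal

/-- The mean of a function of the posterior, given that the root has `k` children. -/
noncomputable def wk (l d : ℝ) (n k : ℕ) (φ : (Spin → ℝ) → ℝ) : ℝ :=
  ∑' ch : Fin k → Tr n, tws d n k ch * expect φ (kids l fun j => lik l n (ch j))

lemma tws_nonneg (n k : ℕ) (ch : Fin k → Tr n) : 0 ≤ tws d n k ch :=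
  Finset.prod_nonneg fun _ _ => ENNReal.toReal_nonneg

lemma tws_eq (n k : ℕ) (ch : Fin k → Tr n) :
    tws d n k ch = (∏ j, treeWeight (poissonLaw d) n (ch j)).toReal :=
  (ENNReal.toReal_prod _ _).symm

lemma tsum_prod_eq_one (hd : 0 ≤ d) (n k : ℕ) :
    ∑' ch : Fin k → Tr n, ∏ j, treeWeight (poissonLaw d) n (ch j) = 1 := by
  rw [tsum_pi_prod fun (_ : Fin k) => treeWeight (poissonLaw d) n]
  simp only [tsum_treeWeight (poissonLaw d) (poissonLaw_sum hd) n, Finset.prod_const_one]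

lemma summable_tws (hd : 0 ≤ d) (n k : ℕ) : Summable (tws d n k) := by
  rw [show tws d n k = fun ch => (∏ j, treeWeight (poissonLaw d) n (ch j)).toReal from
    funext fun ch => tws_eq n k ch]
  refine ENNReal.summable_toReal ?_
  rw [tsum_prod_eq_one hd]
  exact ENNReal.one_ne_top

lemma tsum_tws (hd : 0 ≤ d) (n k : ℕ) : ∑' ch, tws d n k ch = 1 := by
  simp only [tws_eq]
  rw [← ENNReal.tsum_toReal_eq fun ch => ENNReal.prod_ne_top fun j _ => tw_ne_top hd n (ch j),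
    tsum_prod_eq_one hd, ENNReal.toReal_one]

/-- An affine function of bounded quantities under weights of total mass one. -/
lemma affine_tsum {α : Type} {w : α → ℝ} (hs : Summable w) (h1 : ∑' a, w a = 1)
    (hw : ∀ a, 0 ≤ w a) {X₁ X₂ X₃ : α → ℝ} {C : ℝ}
    (hX : ∀ a, |X₁ a| ≤ C ∧ |X₂ a| ≤ C ∧ |X₃ a| ≤ C) (c₀ c₁ c₂ c₃ : ℝ) :
    Summable (fun a => w a * (c₀ + c₁ * X₁ a + c₂ * X₂ a + c₃ * X₃ a)) ∧
      ∑' a, w a * (c₀ + c₁ * X₁ a + c₂ * X₂ a + c₃ * X₃ a) =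
        c₀ + c₁ * ∑' a, w a * X₁ a + c₂ * ∑' a, w a * X₂ a + c₃ * ∑' a, w a * X₃ a := by
  have sm : ∀ {X : α → ℝ}, (∀ a, |X a| ≤ C) → Summable fun a => w a * X a := fun h => by
    refine Summable.of_norm_bounded (hs.mul_right C) fun a => ?_
    rw [Real.norm_eq_abs, abs_mul, abs_of_nonneg (hw a)]
    exact mul_le_mul_of_nonneg_left (h a) (hw a)
  have s1 := (sm fun a => (hX a).1).mul_left c₁
  have s2 := (sm fun a => (hX a).2.1).mul_left c₂
  have s3 := (sm fun a => (hX a).2.2).mul_left c₃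
  have s0 := hs.mul_left c₀
  have e : (fun a => w a * (c₀ + c₁ * X₁ a + c₂ * X₂ a + c₃ * X₃ a)) = fun a =>
      c₀ * w a + c₁ * (w a * X₁ a) + c₂ * (w a * X₂ a) + c₃ * (w a * X₃ a) := by
    funext a; ring
  rw [e]
  refine ⟨((s0.add s1).add s2).add s3, ?_⟩
  rw [((s0.add s1).add s2).tsum_add s3, (s0.add s1).tsum_add s2, s0.tsum_add s1]
  simp only [tsum_mul_left, h1, mul_one]

/-- The three invariants are bounded. -/
lemma abs_mom_le {α : Type} [Fintype α] {f : α → Spin → ℝ} (hf : Fam f) :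
    |expect sq f| ≤ 4 ∧ |expect cub f| ≤ 4 ∧ |expect (fun a => sq a ^ 2) f| ≤ 4 := by
  refine ⟨abs_expect_le hf fun a ha => ?_, abs_expect_le hf fun a ha => cub_mem ha,
    abs_expect_le hf fun a ha => ?_⟩ <;> obtain ⟨h0, h1⟩ := sq_mem ha <;> rw [abs_le] <;>
    constructor <;> nlinarith

lemma abs_val_le (f : Fn) {a1 a2 a3 b1 b2 b3 : ℝ} (ha : |a1| ≤ 4 ∧ |a2| ≤ 4 ∧ |a3| ≤ 4)
    (hb : |b1| ≤ 4 ∧ |b2| ≤ 4 ∧ |b3| ≤ 4) (hl : -(1 / 2) ≤ l) (hu : l ≤ 1) :
    |f.val 1 a1 a2 a3 (l ^ 2 * b1) (l ^ 3 * b2) (l ^ 4 * b3)| ≤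
      (|(f.g1 : ℝ)| + |(f.g2 : ℝ)| + |(f.g3 : ℝ)|) * 8 + (|(f.q.a11 : ℝ)| + |(f.q.a12 : ℝ)| +
        |(f.q.a13 : ℝ)| + |(f.q.a21 : ℝ)| + |(f.q.a22 : ℝ)| + |(f.q.a23 : ℝ)| + |(f.q.a31 : ℝ)| +
        |(f.q.a32 : ℝ)| + |(f.q.a33 : ℝ)|) * 16 := by
  have h1 : |l| ≤ 1 := abs_le.2 ⟨by linarith, hu⟩
  have hp : ∀ (n : ℕ) (b : ℝ), |b| ≤ 4 → |l ^ n * b| ≤ 4 := fun n b hb => by
    rw [abs_mul, abs_pow]
    exact le_trans (mul_le_of_le_one_left (abs_nonneg b) (pow_le_one₀ (abs_nonneg l) h1)) hb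
  obtain ⟨x1, x2, x3⟩ := ha
  have y1 := hp 2 _ hb.1
  have y2 := hp 3 _ hb.2.1
  have y3 := hp 4 _ hb.2.2
  have lin : ∀ (g u v : ℝ), |u| ≤ 4 → |v| ≤ 4 → |g * (u + v)| ≤ |g| * 8 := fun g u v hu hv => by
    rw [abs_mul]; exact mul_le_mul_of_nonneg_left (by linarith [abs_add_le u v]) (abs_nonneg g)
  have bl : ∀ (g u v : ℝ), |u| ≤ 4 → |v| ≤ 4 → |u * g * v| ≤ |g| * 16 := fun g u v hu hv => by
    rw [abs_mul, abs_mul, mul_comm |u|, mul_assoc]
    exact mul_le_mul_of_nonneg_left ((mul_le_mul hu hv (abs_nonneg v) (by norm_num)).trans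
      (by norm_num)) (abs_nonneg g)
  simp only [DeBox.Fn.val, DeBox.Mat.bil, one_mul, add_mul]
  rw [abs_le]
  constructor <;>
  linarith [abs_le.1 (lin f.g1 _ _ x1 y1), abs_le.1 (lin f.g2 _ _ x2 y2),
    abs_le.1 (lin f.g3 _ _ x3 y3),
    abs_le.1 (bl f.q.a11 _ _ x1 y1), abs_le.1 (bl f.q.a12 _ _ x1 y2), abs_le.1 (bl f.q.a13 _ _ x1 y3),
    abs_le.1 (bl f.q.a21 _ _ x2 y1), abs_le.1 (bl f.q.a22 _ _ x2 y2), abs_le.1 (bl f.q.a23 _ _ x2 y3),
    abs_le.1 (bl f.q.a31 _ _ x3 y1), abs_le.1 (bl f.q.a32 _ _ x3 y2), abs_le.1 (bl f.q.a33 _ _ x3 y3)]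

lemma wk_summable (hl : -(1 / 2) ≤ l) (hu : l ≤ 1) (hd : 0 ≤ d) (n k : ℕ) {φ : (Spin → ℝ) → ℝ}
    (hφ : Bdd φ) :
    Summable fun ch : Fin k → Tr n => tws d n k ch * expect φ (kids l fun j => lik l n (ch j)) := by
  obtain ⟨C, hC⟩ := hφ
  refine Summable.of_norm_bounded ((summable_tws hd n k).mul_right C) fun ch => ?_
  rw [Real.norm_eq_abs, abs_mul, abs_of_nonneg (tws_nonneg n k ch)]
  exact mul_le_mul_of_nonneg_left (abs_expect_le (Fam.kids hl hu fun j => fam_lik hl hu n (ch j)) hC)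
    (tws_nonneg n k ch)

lemma wk_zero (n : ℕ) (φ : (Spin → ℝ) → ℝ) : wk l d n 0 φ = φ fun _ => 1 := by
  rw [wk, tsum_eq_single default fun ch h => absurd (Subsingleton.elim ch default) h]
  simp only [tws, Finset.univ_eq_empty, Finset.prod_empty, one_mul, expect]
  rw [Fintype.sum_subsingleton _ default]
  simp only [kids_nil, post_one]
  simp [wt]

lemma wk_nonneg (hl : -(1 / 2) ≤ l) (hu : l ≤ 1) (n k : ℕ) {φ : (Spin → ℝ) → ℝ}
    (h : ∀ a, InS a → 0 ≤ φ a) : 0 ≤ wk l d n k φ :=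
  tsum_nonneg fun ch => mul_nonneg (tws_nonneg n k ch)
    (expect_nonneg (Fam.kids hl hu fun j => fam_lik hl hu n (ch j)) h)

lemma wk_mono (hl : -(1 / 2) ≤ l) (hu : l ≤ 1) (hd : 0 ≤ d) (n k : ℕ) {φ ψ : (Spin → ℝ) → ℝ}
    (hφ : Bdd φ) (hψ : Bdd ψ) (h : ∀ a, InS a → φ a ≤ ψ a) : wk l d n k φ ≤ wk l d n k ψ := by
  refine Summable.tsum_le_tsum (fun ch => mul_le_mul_of_nonneg_left ?_ (tws_nonneg n k ch))
    (wk_summable hl hu hd n k hφ) (wk_summable hl hu hd n k hψ)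
  exact Finset.sum_le_sum fun c _ => mul_le_mul_of_nonneg_left
    (h _ (post_inS ((Fam.kids hl hu fun j => fam_lik hl hu n (ch j)).nonneg c)))
    (wt_nonneg ((Fam.kids hl hu fun j => fam_lik hl hu n (ch j)).nonneg c))

lemma wk_neg (n k : ℕ) (φ : (Spin → ℝ) → ℝ) :
    wk l d n k (fun a => -φ a) = -wk l d n k φ := by
  simp only [wk, expect, mul_neg, Finset.sum_neg_distrib, tsum_neg]

/-- The bound of one join, for one choice of subtrees. -/
lemma join_tree (hl : -(1 / 2) ≤ l) (hu : l ≤ 1) (n k : ℕ) {F : (Spin → ℝ) → ℝ} {f : Fn}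
    (hF : Cert l F f) (c : Fin (k + 1) → Tr n) :
    expect F (kids l fun j => lik l n (c j)) ≤
      f.val 1 (expect sq (kids l fun j => lik l n (c (Fin.succ j))))
        (expect cub (kids l fun j => lik l n (c (Fin.succ j))))
        (expect (fun a => sq a ^ 2) (kids l fun j => lik l n (c (Fin.succ j))))
        (l ^ 2 * expect sq (lik l n (c 0))) (l ^ 3 * expect cub (lik l n (c 0)))
        (l ^ 4 * expect (fun a => sq a ^ 2) (lik l n (c 0))) := by
  refine le_trans (le_of_eq ?_) (DeBox.join_val hF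
    (Fam.kids hl hu fun j => fam_lik hl hu n (c (Fin.succ j))) (fam_lik hl hu n (c 0)))
  rw [← expect_reindex (splitFirst fun j => Cfg n (c j))]
  exact congrArg (expect F) (kids_split (ι := fun j => Cfg n (c j)) fun j => lik l n (c j))

lemma tws_succ (n k : ℕ) (c : Fin (k + 1) → Tr n) :
    tws d n (k + 1) c =
      (treeWeight (poissonLaw d) n (c 0)).toReal * tws d n k (fun j => c (Fin.succ j)) :=
  Fin.prod_univ_succ _

/-- One more child: a pointwise bilinear bound passes to the means. -/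
theorem wk_succ_le (hl : -(1 / 2) ≤ l) (hu : l ≤ 1) (hd : 0 ≤ d) (n k : ℕ) {F : (Spin → ℝ) → ℝ}
    {f : Fn} (hF : Cert l F f) (hB : Bdd F) :
    wk l d n (k + 1) F ≤ f.val 1 (wk l d n k sq) (wk l d n k cub) (wk l d n k fun a => sq a ^ 2)
      (l ^ 2 * mean l d n sq) (l ^ 3 * mean l d n cub) (l ^ 4 * mean l d n fun a => sq a ^ 2) := by
  set A : ((Spin → ℝ) → ℝ) → (Fin k → Tr n) → ℝ := fun φ ch =>
    expect φ (kids l fun j => lik l n (ch j)) with hA
  set B : ((Spin → ℝ) → ℝ) → Tr n → ℝ := fun φ T => expect φ (lik l n T) with hBdef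
  set w : Tr n → ℝ := fun T => (treeWeight (poissonLaw d) n T).toReal with hw
  set V : Tr n → (Fin k → Tr n) → ℝ := fun T ch =>
    f.val 1 (A sq ch) (A cub ch) (A (fun a => sq a ^ 2) ch)
      (l ^ 2 * B sq T) (l ^ 3 * B cub T) (l ^ 4 * B (fun a => sq a ^ 2) T) with hV
  set J : (Fin (k + 1) → Tr n) → ℝ := fun c =>
    w (c 0) * (tws d n k (fun j => c (Fin.succ j)) * V (c 0) fun j => c (Fin.succ j)) with hJ
  have hwsum := summable_tw (d := d) hd n
  have inner : ∀ T, Summable (fun ch => tws d n k ch * V T ch) ∧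
      ∑' ch, tws d n k ch * V T ch = f.val 1 (wk l d n k sq) (wk l d n k cub)
        (wk l d n k fun a => sq a ^ 2)
        (l ^ 2 * B sq T) (l ^ 3 * B cub T) (l ^ 4 * B (fun a => sq a ^ 2) T) := fun T => by
    set b1 := l ^ 2 * B sq T
    set b2 := l ^ 3 * B cub T
    set b3 := l ^ 4 * B (fun a => sq a ^ 2) T
    obtain ⟨hs, he⟩ := affine_tsum (summable_tws hd n k) (tsum_tws hd n k) (tws_nonneg n k)
      (X₁ := A sq) (X₂ := A cub) (X₃ := A fun a => sq a ^ 2) (C := 4)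
      (fun ch => abs_mom_le (Fam.kids hl hu fun j => fam_lik hl hu n (ch j)))
      ((f.g1 : ℝ) * b1 + f.g2 * b2 + f.g3 * b3)
      (f.g1 + f.q.a11 * b1 + f.q.a12 * b2 + f.q.a13 * b3)
      (f.g2 + f.q.a21 * b1 + f.q.a22 * b2 + f.q.a23 * b3)
      (f.g3 + f.q.a31 * b1 + f.q.a32 * b2 + f.q.a33 * b3)
    have e : ∀ ch, tws d n k ch * V T ch = tws d n k ch * ((f.g1 : ℝ) * b1 + f.g2 * b2 + f.g3 * b3 +
      (f.g1 + f.q.a11 * b1 + f.q.a12 * b2 + f.q.a13 * b3) * A sq ch +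
      (f.g2 + f.q.a21 * b1 + f.q.a22 * b2 + f.q.a23 * b3) * A cub ch +
      (f.g3 + f.q.a31 * b1 + f.q.a32 * b2 + f.q.a33 * b3) * A (fun a => sq a ^ 2) ch) := fun ch => by
      simp only [hV, DeBox.Fn.val, DeBox.Mat.bil, b1, b2, b3]; ring
    refine ⟨hs.congr fun ch => (e ch).symm, ?_⟩
    rw [tsum_congr e, he]
    simp only [wk, hA, DeBox.Fn.val, DeBox.Mat.bil]
    ring
  obtain ⟨hs, he⟩ := affine_tsum hwsum (tsum_tw hd n) (fun _ => ENNReal.toReal_nonneg)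
    (X₁ := B sq) (X₂ := B cub) (X₃ := B fun a => sq a ^ 2) (C := 4)
    (fun T => abs_mom_le (fam_lik hl hu n T))
    ((f.g1 : ℝ) * wk l d n k sq + f.g2 * wk l d n k cub + f.g3 * wk l d n k fun a => sq a ^ 2)
    (l ^ 2 * (f.g1 + wk l d n k sq * f.q.a11 + wk l d n k cub * f.q.a21 +
      (wk l d n k fun a => sq a ^ 2) * f.q.a31))
    (l ^ 3 * (f.g2 + wk l d n k sq * f.q.a12 + wk l d n k cub * f.q.a22 +
      (wk l d n k fun a => sq a ^ 2) * f.q.a32))
    (l ^ 4 * (f.g3 + wk l d n k sq * f.q.a13 + wk l d n k cub * f.q.a23 +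
      (wk l d n k fun a => sq a ^ 2) * f.q.a33))
  have habs : ∀ c, ‖J c‖ ≤ tws d n (k + 1) c *
      ((|(f.g1 : ℝ)| + |(f.g2 : ℝ)| + |(f.g3 : ℝ)|) * 8 + (|(f.q.a11 : ℝ)| + |(f.q.a12 : ℝ)| +
        |(f.q.a13 : ℝ)| + |(f.q.a21 : ℝ)| + |(f.q.a22 : ℝ)| + |(f.q.a23 : ℝ)| + |(f.q.a31 : ℝ)| +
        |(f.q.a32 : ℝ)| + |(f.q.a33 : ℝ)|) * 16) := fun c => by
    rw [tws_succ, hJ, mul_assoc, Real.norm_eq_abs, abs_mul, abs_mul,
      abs_of_nonneg (show 0 ≤ w (c 0) from ENNReal.toReal_nonneg),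
      abs_of_nonneg (tws_nonneg n k _)]
    refine mul_le_mul_of_nonneg_left (mul_le_mul_of_nonneg_left ?_ (tws_nonneg n k _))
      ENNReal.toReal_nonneg
    exact abs_val_le f (abs_mom_le (Fam.kids hl hu fun j => fam_lik hl hu n _))
      (abs_mom_le (fam_lik hl hu n _)) hl hu
  have hJs : Summable J :=
    Summable.of_norm_bounded ((summable_tws hd n (k + 1)).mul_right _) habs
  calc wk l d n (k + 1) F
      ≤ ∑' c, J c := Summable.tsum_le_tsum (fun c => ?_) (wk_summable hl hu hd n (k + 1) hB) hJs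
    _ = ∑' p : Tr n × (Fin k → Tr n), w p.1 * (tws d n k p.2 * V p.1 p.2) := by
        rw [← (Fin.consEquiv fun _ : Fin (k + 1) => Tr n).tsum_eq]
        refine tsum_congr fun p => ?_
        simp [hJ, Fin.consEquiv]
    _ = ∑' T, w T * ∑' ch, tws d n k ch * V T ch := by
        rw [Summable.tsum_prod]
        · simp only [tsum_mul_left]
        · refine ((Equiv.summable_iff (Fin.consEquiv fun _ : Fin (k + 1) => Tr n)).2 hJs).congr
            fun p => ?_
          simp [hJ, Fin.consEquiv]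
    _ = _ := by
        simp only [fun T => (inner T).2]
        refine (tsum_congr fun T => ?_).trans (he.trans ?_)
        · simp only [DeBox.Fn.val, DeBox.Mat.bil, hw]; ring
        · simp only [mean, hBdef, DeBox.Fn.val, DeBox.Mat.bil]; ring
  rw [hJ, tws_succ, mul_assoc]
  exact mul_le_mul_of_nonneg_left (mul_le_mul_of_nonneg_left (join_tree hl hu n k hF c)
    (tws_nonneg n k _)) ENNReal.toReal_nonneg

lemma pw_nonneg (hd : 0 ≤ d) (k : ℕ) : 0 ≤ pw d k := by unfold pw; positivity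

lemma pw_hasSum : HasSum (pw d) 1 := by
  have h : HasSum (fun k => Real.exp (-d) * (d ^ k / (k.factorial : ℝ)))
      (Real.exp (-d) * Real.exp d) := by
    refine HasSum.mul_left _ ?_
    rw [Real.exp_eq_exp_ℝ]; exact NormedSpace.expSeries_div_hasSum_exp d
  rw [← Real.exp_add, neg_add_cancel, Real.exp_zero] at h
  exact h.congr_fun fun k => mul_div_assoc _ _ _

/-- One level of the Poisson tree. -/
theorem mean_succ (hl : -(1 / 2) ≤ l) (hu : l ≤ 1) (hd : 0 ≤ d) (n : ℕ) {φ : (Spin → ℝ) → ℝ}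
    (hφ : Bdd φ) :
    (Summable fun k => pw d k * wk l d n k φ) ∧
      mean l d (n + 1) φ = ∑' k, pw d k * wk l d n k φ := by
  have hs : Summable fun T : Tr (n + 1) =>
      (treeWeight (poissonLaw d) (n + 1) T).toReal * expect φ (lik l (n + 1) T) :=
    mean_summable hl hu hd (n + 1) hφ
  have e : ∀ (k : ℕ) (ch : Fin k → Tr n),
      (treeWeight (poissonLaw d) (n + 1) (node n k ch)).toReal * expect φ (lik l (n + 1) (node n k ch))
        = pw d k * (tws d n k ch * expect φ (kids l fun j => lik l n (ch j))) := fun k ch => by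
    rw [show treeWeight (poissonLaw d) (n + 1) (node n k ch) =
        poissonLaw d k * ∏ j, treeWeight (poissonLaw d) n (ch j) from rfl,
      ENNReal.toReal_mul, ← tws_eq, poissonLaw,
      show Real.exp (-d) * d ^ k / (k.factorial : ℝ) = pw d k from rfl,
      ENNReal.toReal_ofReal (pw_nonneg hd k), mul_assoc]
    rfl
  let g : (Σ k : ℕ, Fin k → Tr n) → ℝ := fun T =>
    pw d T.1 * (tws d n T.1 T.2 * expect φ (kids l fun j => lik l n (T.2 j)))
  have hg : Summable g := hs.congr fun T => e T.1 T.2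
  have hm : mean l d (n + 1) φ = ∑' T, g T := tsum_congr fun T => e T.1 T.2
  constructor
  · refine hg.sigma.congr fun k => ?_
    rw [wk, ← tsum_mul_left]
  · rw [hm, Summable.tsum_sigma hg]
    refine tsum_congr fun k => ?_
    rw [wk, ← tsum_mul_left]

end Vale.Agent.P154.Ly.End
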