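import Vale.Agent.P154.LyEndLaw

/-!
A box of three moments through one level of a Poisson tree whose mean offspring number runs
through a band: bounds for each number of children, averaged with rational weights and a
geometric tail.
-/

open scoped BigOperators
open Filter

namespace Vale.Agent.P154.Ly.End

open DeBox (Cert Certs Bds Bx Iv Fn top low child)

/-- A band of mean offspring numbers, with bounds for the reciprocal and its root. -/
structure Band where
  /-- least mean -/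
  d0 : ℚ
  /-- largest mean -/
  d1 : ℚ
  /-- least reciprocal -/
  r0 : ℚ
  /-- largest reciprocal -/
  r1 : ℚ
  /-- bound for the edge parameter -/
  c : ℚ
  /-- two less than the number of exact children numbers -/
  q : ℕ

/-- Bounds for a given number of children. -/
structure St where
  /-- decrease of the second moment -/
  be : ℚ
  /-- lower ratio of the cubic moment -/
  p : ℚ
  /-- upper ratio of the cubic moment -/
  t : ℚ
  /-- ratio of the fourth moment -/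
  s : ℚ

/-- Rounding up. -/
def rd (x : ℚ) : ℚ := (⌈x * 1000000⌉ : ℤ) / 1000000

/-- A uniform bound of the bilinear part for the second moment. -/
def cap : ℚ := 429025 / 100000

/-- The intervals of a state. -/
def box (g : Band) (X1 : ℚ) (k : ℕ) (σ : St) : Iv :=
  ⟨0, k * g.r1 + max 0 (-σ.be) * X1, -σ.p, σ.t, 0, σ.s⟩

/-- Both monotonicity conditions. -/
def okMono (C : Bds) (X1 : ℚ) (A B : Iv) : Bool :=
  decide (0 ≤ 1 + X1 * low B C.fS.q.a11 C.fS.q.a12 C.fS.q.a13) &&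
    decide (0 ≤ 1 + X1 * low A C.fS.q.a11 C.fS.q.a21 C.fS.q.a31)

/-- The bound for the bilinear part of the second moment. -/
def bilTop (C : Bds) (g : Band) (b : Bx) (k : ℕ) (σ : St) : ℚ :=
  if okMono C b.X (box g b.X k σ) (child g.r1 g.c b) then
    top ⟨0, 0, 0, C.fS.q⟩ 1 1 { box g b.X k σ with l1 := k * g.r0 - max 0 σ.be * b.X }
      { child g.r1 g.c b with l1 := g.r0 }
  else top ⟨0, 0, 0, C.fS.q⟩ 1 1 (box g b.X k σ) (child g.r1 g.c b)

/-- One more child. -/
def next (C : Bds) (g : Band) (b : Bx) (k : ℕ) (σ : St) : St :=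
  ⟨σ.be - rd (bilTop C g b k σ),
    rd (max 0 (top C.fN 0 b.X (box g b.X k σ) (child g.r1 g.c b))),
    rd (max 0 (top C.fT 0 b.X (box g b.X k σ) (child g.r1 g.c b))),
    rd (max 0 (top C.fQ 0 b.X (box g b.X k σ) (child g.r1 g.c b)))⟩

/-- A lower bound of `v * a` for `v` between `v0` and `v1`. -/
def lo (v0 v1 a : ℚ) : ℚ := if 0 ≤ a then v0 * a else v1 * a

/-- What one level is claimed to give. -/
structure Out where
  /-- decrease -/
  be : ℚ
  /-- lower ratio -/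
  p : ℚ
  /-- upper ratio -/
  t : ℚ
  /-- fourth ratio -/
  s : ℚ

/-- The slack of the four claims at one number of children. -/
def term (o : Out) (σ : St) (v0 v1 : ℚ) : St :=
  ⟨lo v0 v1 (σ.be - o.be), lo v0 v1 (o.p - σ.p), lo v0 v1 (o.t - σ.t), lo v0 v1 (o.s - σ.s)⟩

/-- Sum of two quadruples. -/
def St.add (a b : St) : St := ⟨a.be + b.be, a.p + b.p, a.t + b.t, a.s + b.s⟩

/-- The slacks summed from `k` to `k + m`. -/
def sums (C : Bds) (g : Band) (b : Bx) (o : Out) : ℕ → ℕ → St → ℚ → ℚ → St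
  | 0, _, σ, v0, v1 => term o σ v0 v1
  | m + 1, k, σ, v0, v1 => (term o σ v0 v1).add
      (sums C g b o m (k + 1) (next C g b k σ) (v0 * g.d0 / (k + 1 : ℕ)) (v1 * g.d1 / (k + 1 : ℕ)))

/-- Bound for the sum of `d ^ k / k!` over `k > m`. -/
def tailB (d1 : ℚ) (m : ℕ) : ℚ :=
  d1 ^ (m + 1) / ((m + 1).factorial : ℕ) * ((m + 2 : ℕ) / ((m + 2 : ℕ) - d1))

/-- The band is admissible. -/
def okBand (g : Band) : Bool :=
  decide (4 ≤ g.d0) && decide (g.d1 < (g.q + 2 : ℕ)) && decide (0 ≤ g.r0) &&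
    decide (g.r0 * g.d1 ≤ 1) && decide (1 ≤ g.r1 * g.d0) && decide (0 ≤ g.c) &&
    decide (1 ≤ g.d0 * g.c ^ 2)

/-- The box maps to the claimed bounds. -/
def okOut (C : Bds) (g : Band) (b : Bx) (o : Out) : Bool :=
  let S := sums C g b o (g.q + 2) 0 ⟨0, 0, 0, 0⟩ 1 1
  decide (max 0 o.be * tailB g.d1 (g.q + 2) + cap * (1 + cap) / 2 * tailB g.d1 g.q ≤ S.be) &&
    decide (0 ≤ o.p) && decide ((1 + cap) * tailB g.d1 (g.q + 1) ≤ S.p) &&
    decide (0 ≤ o.t) && decide ((1 + cap) * tailB g.d1 (g.q + 1) ≤ S.t) &&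
    decide (0 ≤ o.s) && decide ((1 + cap) * tailB g.d1 (g.q + 1) ≤ S.s)

lemma le_rd (x : ℚ) : (x : ℝ) ≤ (rd x : ℚ) := by
  have : x ≤ rd x := by
    rw [rd, le_div_iff₀ (by norm_num)]
    exact Int.le_ceil _
  exact_mod_cast this

/-- The three moments with `k` children lie in the state `σ` at scale `X`. -/
def InSt (l d : ℝ) (n k : ℕ) (σ : St) (X : ℝ) : Prop :=
  wk l d n k sq ≤ k * l ^ 2 * X - σ.be * X ^ 2 ∧ -((σ.p : ℝ) * X) ≤ wk l d n k cub ∧
    wk l d n k cub ≤ σ.t * X ∧ wk l d n k (fun a => sq a ^ 2) ≤ σ.s * X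

/-- The three moments of one level lie in a box at scale `X`. -/
def InBx (l d : ℝ) (n : ℕ) (b : Bx) (X : ℝ) : Prop :=
  mean l d n sq ≤ X ∧ -((b.tm : ℝ) * X) ≤ mean l d n cub ∧ mean l d n cub ≤ b.tp * X ∧
    mean l d n (fun a => sq a ^ 2) ≤ b.eta * X

lemma pointwise_le {a : Spin → ℝ} (ha : InS a) :
    |cub a| ≤ sq a ∧ sq a ^ 2 ≤ sq a := by
  obtain ⟨h0, h1⟩ := sq_mem ha
  have h2 : sq a ^ 2 ≤ sq a := by nlinarith
  refine ⟨abs_le_of_sq_le_sq ?_ h0, h2⟩
  have e2 : a 2 - 1 = -(a 0 - 1) - (a 1 - 1) := by linarith [ha.2]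
  have e1 : sq a = sI (a 0 - 1) (a 1 - 1) := by rw [P154.sq, sI, e2]; ring
  have e3 : cub a = tI (a 0 - 1) (a 1 - 1) := by rw [cub, tI, e2]; ring
  have := tI_sq_le (a 0 - 1) (a 1 - 1)
  rw [← e1, ← e3] at this
  calc cub a ^ 2 ≤ sq a ^ 3 := this
    _ = sq a * sq a ^ 2 := by ring
    _ ≤ 1 * sq a ^ 2 := mul_le_mul_of_nonneg_right h1 (sq_nonneg _)
    _ = _ := one_mul _

section level

variable {C : Bds} {g : Band} {b : Bx} {l d X : ℝ} {n : ℕ}
  (hC : Certs l C) (hl : -(1 / 2) ≤ l) (hl0 : l ≤ 0) (hdl : d * l ^ 2 = 1)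
  (hg : okBand g = true) (hd0 : (g.d0 : ℝ) ≤ d) (hd1 : d ≤ g.d1)
  (htm : 0 ≤ b.tm) (htp : 0 ≤ b.tp) (hX0 : 0 < X) (hX : X ≤ b.X) (hin : InBx l d n b X)

include hdl hg hd0 hd1 in
lemma band_facts : 0 < d ∧ (g.r0 : ℝ) ≤ l ^ 2 ∧ l ^ 2 ≤ g.r1 ∧ d < ((g.q + 2 : ℕ) : ℝ) ∧
    l ^ 2 ≤ 1 / 4 ∧ (0 : ℝ) ≤ g.c := by
  simp only [okBand, Bool.and_eq_true, decide_eq_true_eq] at hg
  obtain ⟨⟨⟨⟨⟨⟨h4, hq⟩, h0⟩, hr0⟩, hr1⟩, hc⟩, -⟩ := hg
  have h4' : (4 : ℝ) ≤ g.d0 := by exact_mod_cast h4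
  have h0' : (0 : ℝ) ≤ g.r0 := by exact_mod_cast h0
  have hr0' : (g.r0 : ℝ) * g.d1 ≤ 1 := by exact_mod_cast hr0
  have hr1' : (1 : ℝ) ≤ g.r1 * g.d0 := by exact_mod_cast hr1
  have hq' : (g.d1 : ℝ) < ((g.q + 2 : ℕ) : ℝ) := by exact_mod_cast hq
  have hd : 0 < d := by linarith
  have hpos : (0 : ℝ) < g.r1 := pos_of_mul_pos_left (lt_of_lt_of_le one_pos hr1') (by linarith : (0 : ℝ) ≤ g.d0)
  refine ⟨hd, ?_, ?_, by linarith, ?_, by exact_mod_cast hc⟩
  · refine le_of_mul_le_mul_left ?_ hd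
    rw [hdl, mul_comm]
    exact (mul_le_mul_of_nonneg_left hd1 h0').trans hr0'
  · refine le_of_mul_le_mul_left ?_ hd
    rw [hdl, mul_comm]
    exact hr1'.trans (mul_le_mul_of_nonneg_left hd0 hpos.le)
  · nlinarith [mul_le_mul_of_nonneg_right (h4'.trans hd0) (sq_nonneg l)]

include hdl hg hd0 hd1 in
lemma edge_le : -l ≤ (g.c : ℝ) := by
  have hc : (0 : ℝ) ≤ g.c := (band_facts hdl hg hd0 hd1).2.2.2.2.2
  have hd : 0 < d := (band_facts hdl hg hd0 hd1).1
  simp only [okBand, Bool.and_eq_true, decide_eq_true_eq] at hg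
  have h1 : (1 : ℝ) ≤ g.d0 * (g.c : ℝ) ^ 2 := by exact_mod_cast hg.2
  have h2 : d * (-l) ^ 2 ≤ d * (g.c : ℝ) ^ 2 := by
    rw [neg_sq, hdl]
    exact h1.trans (mul_le_mul_of_nonneg_right hd0 (sq_nonneg _))
  exact (abs_le_of_sq_le_sq' (le_of_mul_le_mul_left h2 hd) hc).2

include hl hl0 hdl hg hd0 hd1 htm htp hX0 hin in
lemma child_mem : (child g.r1 g.c b).Mem (l ^ 2 * mean l d n sq / X) (l ^ 3 * mean l d n cub / X)
    (l ^ 4 * mean l d n (fun a => sq a ^ 2) / X) ∧ l ^ 2 * mean l d n sq / X ≤ l ^ 2 := by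
  obtain ⟨hd, -, hr1, -, -, hc⟩ := band_facts hdl hg hd0 hd1
  have hedge := edge_le hdl hg hd0 hd1
  have hu : l ≤ 1 := by linarith
  obtain ⟨i1, i2, i3, i4⟩ := hin
  have x0 : 0 ≤ mean l d n sq := mean_nonneg hl hu n fun a ha => (sq_mem ha).1
  have q0 : 0 ≤ mean l d n fun a => sq a ^ 2 := mean_nonneg hl hu n fun a _ => sq_nonneg _
  have htm' : (0 : ℝ) ≤ b.tm := by exact_mod_cast htm
  have htp' : (0 : ℝ) ≤ b.tp := by exact_mod_cast htp
  have hr : (0 : ℝ) ≤ g.r1 := (sq_nonneg l).trans hr1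
  have e : l ^ 3 * mean l d n cub / X = l ^ 2 * (l * (mean l d n cub / X)) := by ring
  have j : -(b.tm : ℝ) ≤ mean l d n cub / X ∧ mean l d n cub / X ≤ b.tp := by
    constructor
    · rw [le_div_iff₀ hX0]; linarith
    · rw [div_le_iff₀ hX0]; linarith
  have k1 : -((g.c : ℝ) * b.tp) ≤ l * (mean l d n cub / X) ∧
      l * (mean l d n cub / X) ≤ (g.c : ℝ) * b.tm := by
    constructor
    · rcases le_total 0 (mean l d n cub / X) with h0 | h0
      · have := mul_le_mul_of_nonneg_right hedge h0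
        have := mul_le_mul_of_nonneg_left j.2 hc
        linarith
      · have := mul_nonneg hc htp'
        have := mul_nonneg_of_nonpos_of_nonpos hl0 h0
        linarith
    · rcases le_total 0 (mean l d n cub / X) with h0 | h0
      · have := mul_nonneg hc htm'
        have := mul_nonpos_of_nonpos_of_nonneg hl0 h0
        linarith
      · have := mul_le_mul_of_nonneg_right hedge (neg_nonneg.2 h0)
        have := mul_le_mul_of_nonneg_left (neg_le.1 j.1) hc
        linarith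
  have b1 : l ^ 2 * mean l d n sq / X ≤ l ^ 2 := by
    rw [div_le_iff₀ hX0]; exact mul_le_mul_of_nonneg_left i1 (sq_nonneg l)
  refine ⟨⟨⟨?_, ?_⟩, ⟨?_, ?_⟩, ?_, ?_⟩, b1⟩ <;> simp only [child] <;> push_cast
  · positivity
  · exact b1.trans hr1
  · rw [e]
    rcases le_total 0 (l * (mean l d n cub / X)) with h | h
    · linarith [mul_nonneg (sq_nonneg l) h, mul_nonneg (mul_nonneg hc hr) htp']
    · have := mul_le_mul_of_nonneg_right hr1 (neg_nonneg.2 h)
      have := mul_le_mul_of_nonneg_left (neg_le.1 k1.1) hr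
      linarith
  · rw [e]
    rcases le_total 0 (l * (mean l d n cub / X)) with h | h
    · have := mul_le_mul_of_nonneg_right hr1 h
      have := mul_le_mul_of_nonneg_left k1.2 hr
      linarith
    · linarith [mul_nonpos_of_nonneg_of_nonpos (sq_nonneg l) h,
        mul_nonneg (mul_nonneg hc hr) htm']
  · positivity
  · rw [div_le_iff₀ hX0, show l ^ 4 = (l ^ 2) ^ 2 by ring]
    have := mul_le_mul (pow_le_pow_left₀ (sq_nonneg l) hr1 2) i4 q0 (sq_nonneg _)
    linarith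

include hC hl hl0 hdl hg hd0 hd1 htm htp hX0 hX hin in
/-- One more child. -/
lemma step {k : ℕ} {σ : St} (h : InSt l d n k σ X) : InSt l d n (k + 1) (next C g b k σ) X := by
  obtain ⟨hd, hr0, hr1, -, -, -⟩ := band_facts hdl hg hd0 hd1
  obtain ⟨hb, hb1⟩ := child_mem hl hl0 hdl hg hd0 hd1 htm htp hX0 hin
  have hu : l ≤ 1 := by linarith
  obtain ⟨x1, t0, t1, s1⟩ := h
  set A := box g b.X k σ with hAdef
  set B := child g.r1 g.c b with hBdef
  set a1 := wk l d n k sq / X with ha1def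
  set a2 := wk l d n k cub / X
  set a3 := wk l d n k (fun a => sq a ^ 2) / X
  set b1 := l ^ 2 * mean l d n sq / X
  set b2 := l ^ 3 * mean l d n cub / X
  set b3 := l ^ 4 * mean l d n (fun a => sq a ^ 2) / X
  have bX : (0 : ℝ) ≤ b.X := hX0.le.trans hX
  have ha1 : a1 ≤ k * l ^ 2 - σ.be * X := by
    rw [ha1def, div_le_iff₀ hX0]; linarith
  have hneg : -(σ.be : ℝ) * X ≤ max 0 (-(σ.be : ℝ)) * b.X :=
    (mul_le_mul_of_nonneg_right (le_max_right 0 _) hX0.le).trans
      (mul_le_mul_of_nonneg_left hX (le_max_left 0 _))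
  have hpos : (σ.be : ℝ) * X ≤ max 0 (σ.be : ℝ) * b.X :=
    (mul_le_mul_of_nonneg_right (le_max_right 0 _) hX0.le).trans
      (mul_le_mul_of_nonneg_left hX (le_max_left 0 _))
  have hk0 : (k : ℝ) * g.r0 ≤ k * l ^ 2 := mul_le_mul_of_nonneg_left hr0 (Nat.cast_nonneg k)
  have hk1 : (k : ℝ) * l ^ 2 ≤ k * g.r1 := mul_le_mul_of_nonneg_left hr1 (Nat.cast_nonneg k)
  have x0 : 0 ≤ a1 := div_nonneg (wk_nonneg hl hu n k fun a ha => (sq_mem ha).1) hX0.le
  have hA : A.Mem a1 a2 a3 := by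
    refine ⟨⟨?_, ?_⟩, ⟨?_, ?_⟩, ?_, ?_⟩ <;> simp only [hAdef, box] <;> push_cast
    · exact x0
    · linarith
    · rw [le_div_iff₀ hX0]; linarith
    · rw [div_le_iff₀ hX0]; linarith
    · exact div_nonneg (wk_nonneg hl hu n k fun a _ => sq_nonneg _) hX0.le
    · rw [div_le_iff₀ hX0]; linarith
  have scale : ∀ {F : (Spin → ℝ) → ℝ} {fn : Fn}, Cert l F fn → Bdd F →
      wk l d n (k + 1) F ≤ X * fn.val X a1 a2 a3 b1 b2 b3 := by
    intro F fn hF hFb
    refine (wk_succ_le hl hu hd.le n k hF hFb).trans (le_of_eq ?_)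
    simp only [DeBox.Fn.val, DeBox.Mat.bil, a1, a2, a3, b1, b2, b3]
    field_simp
  have hXX : ((0 : ℚ) : ℝ) ≤ X ∧ X ≤ (b.X : ℝ) := ⟨by simpa using hX0.le, hX⟩
  have side : ∀ {F : (Spin → ℝ) → ℝ} {fn : Fn}, Cert l F fn → Bdd F →
      wk l d n (k + 1) F ≤ ((rd (max 0 (top fn 0 b.X A B)) : ℚ) : ℝ) * X := by
    intro F fn hF hFb
    rw [mul_comm]
    refine (scale hF hFb).trans (mul_le_mul_of_nonneg_left ?_ hX0.le)
    refine (DeBox.val_le_top fn hXX hA hb).trans (le_trans ?_ (le_rd _))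
    push_cast
    exact le_max_right _ _
  refine ⟨?_, ?_, side hC.cT bdd_cub, side hC.cQ (bdd_sq.pow 2)⟩
  · have hsum : C.fS.val X a1 a2 a3 b1 b2 b3 ≤
        ((k : ℝ) + 1) * l ^ 2 - σ.be * X + X * (bilTop C g b k σ : ℚ) := by
      rw [bilTop]
      split_ifs with hok
      · simp only [okMono, Bool.and_eq_true, decide_eq_true_eq] at hok
        obtain ⟨q1, q2⟩ := hok
        have q1' : (0 : ℝ) ≤ 1 + (b.X : ℝ) * (low B C.fS.q.a11 C.fS.q.a12 C.fS.q.a13 : ℚ) := by
          exact_mod_cast q1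
        have q2' : (0 : ℝ) ≤ 1 + (b.X : ℝ) * (low A C.fS.q.a11 C.fS.q.a21 C.fS.q.a31 : ℚ) := by
          exact_mod_cast q2
        have mono : ∀ {L y : ℝ}, 0 ≤ 1 + (b.X : ℝ) * L → L ≤ y → 0 ≤ 1 + X * y := by
          intro L y h hy
          have := mul_le_mul_of_nonneg_left hy hX0.le
          rcases le_total L 0 with hn | hn
          · linarith [mul_le_mul_of_nonpos_right hX hn]
          · linarith [mul_nonneg hX0.le hn]
        have m1 := mono q2' (DeBox.low_le hA C.fS.q.a11 C.fS.q.a21 C.fS.q.a31)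
        have hr' : B.Mem (l ^ 2) b2 b3 := by
          refine ⟨⟨?_, ?_⟩, hb.2⟩ <;> simp only [hBdef, child] <;> push_cast
          · exact sq_nonneg l
          · exact hr1
        have m3 := mono q1' (DeBox.low_le hr' C.fS.q.a11 C.fS.q.a12 C.fS.q.a13)
        have st1 := mul_nonneg (sub_nonneg.2 hb1) m1
        have st2 := mul_nonneg (sub_nonneg.2 ha1) m3
        have hT := DeBox.val_le_top ⟨0, 0, 0, C.fS.q⟩ (x0 := 1) (x1 := 1)
          (A := { A with l1 := k * g.r0 - max 0 σ.be * b.X }) (B := { B with l1 := g.r0 })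
          (X := 1) (a1 := k * l ^ 2 - σ.be * X) (a2 := a2) (a3 := a3) (b1 := l ^ 2) (b2 := b2)
          (b3 := b3) ⟨by simp, by simp⟩
          ⟨⟨by push_cast; linarith, by simp only [hAdef, box]; push_cast; linarith⟩, hA.2⟩
          ⟨⟨hr0, by simp only [hBdef, child]; exact hr1⟩, hb.2⟩
        have := mul_le_mul_of_nonneg_left hT hX0.le
        simp only [DeBox.Fn.val, DeBox.Mat.bil, hC.g1, hC.g2, hC.g3] at this ⊢
        push_cast at this ⊢
        linarith
      · have hT := DeBox.val_le_top ⟨0, 0, 0, C.fS.q⟩ (x0 := 1) (x1 := 1) (A := A) (B := B)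
          (X := 1) ⟨by simp, by simp⟩ hA hb
        have := mul_le_mul_of_nonneg_left hT hX0.le
        simp only [DeBox.Fn.val, DeBox.Mat.bil, hC.g1, hC.g2, hC.g3] at this ⊢
        push_cast at this ⊢
        linarith
    refine (scale hC.cS bdd_sq).trans ?_
    have h1 := mul_le_mul_of_nonneg_left hsum hX0.le
    have h2 := mul_le_mul_of_nonneg_left (le_rd (bilTop C g b k σ)) (sq_nonneg X)
    simp only [next]
    push_cast
    linarith
  · have h := side hC.cN bdd_cub.neg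
    rw [wk_neg] at h
    simp only [next]
    linarith

include hC hl hl0 hdl hg hd0 hd1 hX0 hin in
/-- The crude bounds, valid for every number of children. -/
lemma crude (hcap : top ⟨0, 0, 0, C.fS.q⟩ 1 1 ⟨1, 1, -1, 1, 0, 1⟩
      ⟨1, 1, -(1 / 2), 1 / 2, 0, 1 / 4⟩ ≤ cap) (k : ℕ) :
    wk l d n k sq ≤ (1 + cap) * k * l ^ 2 * X ∧
      wk l d n k sq ≤ k * l ^ 2 * X + cap * (1 + cap) / 2 * (k * (k - 1)) * (l ^ 2) ^ 2 * X ^ 2 := by
  obtain ⟨hd, -, -, -, hq4, -⟩ := band_facts hdl hg hd0 hd1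
  have hu : l ≤ 1 := by linarith
  have hcap' : ((top ⟨0, 0, 0, C.fS.q⟩ 1 1 ⟨1, 1, -1, 1, 0, 1⟩
      ⟨1, 1, -(1 / 2), 1 / 2, 0, 1 / 4⟩ : ℚ) : ℝ) ≤ (cap : ℚ) := by exact_mod_cast hcap
  have cap0 : (0 : ℝ) ≤ (cap : ℚ) := by simp only [cap]; norm_num
  induction k with
  | zero => rw [wk_zero]; simp [P154.sq]
  | succ k ih =>
    obtain ⟨ih1, ih2⟩ := ih
    set M : ℝ := ((cap : ℚ) : ℝ)
    set x := wk l d n k sq with hxdef
    set y := mean l d n sq with hydef
    have x0 : 0 ≤ x := wk_nonneg hl hu n k fun a ha => (sq_mem ha).1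
    have y0 : 0 ≤ y := mean_nonneg hl hu n fun a ha => (sq_mem ha).1
    have x1 : x ≤ 1 := by
      refine (wk_mono hl hu hd.le n k bdd_sq (bdd_const 1) fun a ha => (sq_mem ha).2).trans
        (le_of_eq ?_)
      refine (tsum_congr fun ch => ?_).trans (tsum_tws hd.le n k)
      simp only [expect, mul_one, sum_wt (Fam.kids hl hu fun j => fam_lik hl hu n (ch j))]
    have a2 : |wk l d n k cub| ≤ x := abs_le.2 ⟨by
        have := wk_mono hl hu hd.le n k bdd_cub.neg bdd_sq fun a ha =>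
          (neg_le_abs _).trans (pointwise_le ha).1
        rw [wk_neg] at this
        linarith,
      wk_mono hl hu hd.le n k bdd_cub bdd_sq fun a ha => (le_abs_self _).trans (pointwise_le ha).1⟩
    have a3 : wk l d n k (fun a => sq a ^ 2) ≤ x :=
      wk_mono hl hu hd.le n k (bdd_sq.pow 2) bdd_sq fun a ha => (pointwise_le ha).2
    have a30 : 0 ≤ wk l d n k fun a => sq a ^ 2 := wk_nonneg hl hu n k fun a _ => sq_nonneg _
    have hlaw := isLaw_mean (d := d) hl hu hd.le n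
    have b2 : |mean l d n cub| ≤ y := abs_le.2 ⟨by
        have := hlaw.mono _ _ bdd_cub.neg bdd_sq fun a ha => (neg_le_abs _).trans (pointwise_le ha).1
        rw [hlaw.neg bdd_cub] at this
        linarith,
      hlaw.mono _ _ bdd_cub bdd_sq fun a ha => (le_abs_self _).trans (pointwise_le ha).1⟩
    have b3 : mean l d n (fun a => sq a ^ 2) ≤ y :=
      hlaw.mono _ _ (bdd_sq.pow 2) bdd_sq fun a ha => (pointwise_le ha).2
    have b30 : 0 ≤ mean l d n fun a => sq a ^ 2 := mean_nonneg hl hu n fun a _ => sq_nonneg _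
    have key : C.fS.q.bil x (wk l d n k cub) (wk l d n k fun a => sq a ^ 2) (l ^ 2 * y)
        (l ^ 3 * mean l d n cub) (l ^ 4 * mean l d n fun a => sq a ^ 2) ≤ M * x * (l ^ 2 * y) := by
      rcases eq_or_lt_of_le x0 with hx | hx
      · rw [← hx] at a2 a3
        rw [abs_nonpos_iff] at a2
        rw [← hx, a2, le_antisymm a3 a30]
        simp [DeBox.Mat.bil]
      rcases eq_or_lt_of_le (mul_nonneg (sq_nonneg l) y0) with hz | hz
      · rw [← hz]
        rcases mul_eq_zero.1 hz.symm with hl2 | hy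
        · simp [DeBox.Mat.bil, pow_eq_zero_iff two_ne_zero |>.1 hl2]
        · rw [hy] at b2 b3
          rw [abs_nonpos_iff] at b2
          rw [b2, le_antisymm b3 b30]
          simp [DeBox.Mat.bil]
      have hT := (DeBox.val_le_top ⟨0, 0, 0, C.fS.q⟩ (x0 := 1) (x1 := 1) (X := 1)
        (A := ⟨1, 1, -1, 1, 0, 1⟩) (B := ⟨1, 1, -(1 / 2), 1 / 2, 0, 1 / 4⟩)
        (a1 := 1) (a2 := wk l d n k cub / x) (a3 := (wk l d n k fun a => sq a ^ 2) / x)
        (b1 := 1) (b2 := l ^ 3 * mean l d n cub / (l ^ 2 * y))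
        (b3 := l ^ 4 * (mean l d n fun a => sq a ^ 2) / (l ^ 2 * y))
        ⟨by simp, by simp⟩
        ⟨⟨by simp, by simp⟩, ⟨by push_cast; rw [le_div_iff₀ hx]; linarith [neg_abs_le (wk l d n k cub)],
          by push_cast; rw [div_le_iff₀ hx]; linarith [le_abs_self (wk l d n k cub)]⟩,
          by push_cast; positivity, by push_cast; rw [div_le_iff₀ hx]; linarith⟩
        ⟨⟨by simp, by simp⟩, ⟨?_, ?_⟩, by push_cast; positivity, ?_⟩).trans hcap'
      · simp only [DeBox.Fn.val, Rat.cast_zero, zero_mul, zero_add, one_mul] at hT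
        have := mul_le_mul_of_nonneg_right hT (mul_nonneg hx.le hz.le)
        refine le_trans (le_of_eq ?_) (this.trans (le_of_eq (by ring)))
        have hy : y ≠ 0 := fun h0 => by rw [h0, mul_zero] at hz; exact lt_irrefl _ hz
        have hl2 : l ≠ 0 := fun h0 => by simp [h0] at hz
        simp only [DeBox.Mat.bil]
        field_simp
      all_goals push_cast
      · rw [le_div_iff₀ hz]
        have := mul_le_mul (show |l| ≤ 1 / 2 from abs_le.2 ⟨hl, by linarith⟩)
          (mul_le_mul_of_nonneg_left b2 (sq_nonneg l)) (by positivity) (by norm_num)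
        have e : |l ^ 3 * mean l d n cub| = |l| * (l ^ 2 * |mean l d n cub|) := by
          rw [abs_mul, abs_pow, ← sq_abs l]; ring
        linarith [neg_abs_le (l ^ 3 * mean l d n cub)]
      · rw [div_le_iff₀ hz]
        have := mul_le_mul (show |l| ≤ 1 / 2 from abs_le.2 ⟨hl, by linarith⟩)
          (mul_le_mul_of_nonneg_left b2 (sq_nonneg l)) (by positivity) (by norm_num)
        have e : |l ^ 3 * mean l d n cub| = |l| * (l ^ 2 * |mean l d n cub|) := by
          rw [abs_mul, abs_pow, ← sq_abs l]; ring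
        linarith [le_abs_self (l ^ 3 * mean l d n cub)]
      · rw [div_le_iff₀ hz, show l ^ 4 = l ^ 2 * l ^ 2 by ring, mul_assoc]
        exact mul_le_mul hq4 (mul_le_mul_of_nonneg_left b3 (sq_nonneg l)) (by positivity)
          (by norm_num)
    have hs := wk_succ_le hl hu hd.le n k hC.cS bdd_sq
    simp only [DeBox.Fn.val, hC.g1, hC.g2, hC.g3] at hs
    push_cast at hs
    have hzX : l ^ 2 * y ≤ l ^ 2 * X := mul_le_mul_of_nonneg_left hin.1 (sq_nonneg l)
    have z0 : 0 ≤ l ^ 2 * y := mul_nonneg (sq_nonneg l) y0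
    have hs' : wk l d n (k + 1) sq ≤ x + l ^ 2 * X + M * x * (l ^ 2 * X) := by
      have := mul_le_mul_of_nonneg_left hzX (mul_nonneg cap0 x0)
      linarith
    push_cast
    constructor
    · have := mul_le_mul_of_nonneg_left (mul_le_of_le_one_left (mul_nonneg (sq_nonneg l) hX0.le) x1)
        cap0
      linarith
    · have := mul_le_mul_of_nonneg_left (mul_le_mul_of_nonneg_right ih1
        (mul_nonneg (sq_nonneg l) hX0.le)) cap0
      linarith

end level

end Vale.Agent.P154.Ly.End
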