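import Vale.Agent.P154.LyTree
import Vale.Agent.P154.LyBridge
import Vale.Agent.P154.LyChain
import Vale.Agent.P154.DeBoxStep
import Vale.Agent.P154.BinMain

/-!
One level of the entropy of the root posterior on a Poisson tree: joining one more child loses
at least the product of the second moments less a third of the product of the cubic invariants,
so the entropy of the next level is below `d` times that of a channelled child less an explicit
function of the affinities.
-/

open scoped BigOperators ENNReal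
open Real

namespace Vale.Agent.P154.Ly

open Vale.Agent.P154.Bin (ent vlog iS iT zf avg6)

/-! ### One join -/

lemma mul_ent_comb {a b : Spin → ℝ} (ha : ∀ i, 0 ≤ a i) (hb : ∀ i, 0 ≤ b i) :
    zw a b * ent (comb a b) =
      (a 0 * b 0 * log (a 0) + a 1 * b 1 * log (a 1) + a 2 * b 2 * log (a 2)) / 3 +
      (a 0 * b 0 * log (b 0) + a 1 * b 1 * log (b 1) + a 2 * b 2 * log (b 2)) / 3 -
      zw a b * log (zw a b) := by
  have hp : ∀ i, 0 ≤ a i * b i := fun i => mul_nonneg (ha i) (hb i)
  set Z := zw a b with hZ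
  have hZe : Z = (a 0 * b 0 + a 1 * b 1 + a 2 * b 2) / 3 := by
    rw [hZ, zw, Fin.sum_univ_three]
  have hz : ∀ i, Z = 0 → a i * b i = 0 := fun i h => by
    have h' : ∑ t, a t * b t = 0 := by
      rw [Fin.sum_univ_three]; linarith
    exact (Finset.sum_eq_zero_iff_of_nonneg fun t _ => hp t).1 h' i (Finset.mem_univ i)
  have key : ∀ i, Z * vlog (comb a b i) =
      a i * b i * log (a i) + a i * b i * log (b i) - a i * b i * log Z := by
    intro i
    simp only [vlog, comb, ← hZ]
    rcases eq_or_ne (a i * b i) 0 with h | h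
    · rw [h]; simp
    · have hZ0 : Z ≠ 0 := fun h0 => h (hz i h0)
      rw [log_div h hZ0, log_mul (left_ne_zero_of_mul h) (right_ne_zero_of_mul h)]
      field_simp
  simp only [ent]
  linear_combination (1 / 3 : ℝ) * key 0 + (1 / 3 : ℝ) * key 1 + (1 / 3 : ℝ) * key 2
    + log Z * hZe

lemma neg_zlog_le {z : ℝ} (h : -1 ≤ z) :
    -((1 + z) * log (1 + z)) ≤ -z - z ^ 2 / 2 + z ^ 3 / 6 := by
  rcases eq_or_lt_of_le h with rfl | h
  · norm_num
  · exact Bin.pot_term.zlog_bound h

/-- The loss of entropy in one join. -/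
theorem ent_gap {a b : Spin → ℝ} (ha : InS a) (hb : InS b) :
    (1 / 6 : ℝ) * ∑ σ : Equiv.Perm Spin,
        zw a (fun i => b (σ i)) * ent (comb a fun i => b (σ i))
      ≤ ent a + ent b - sq a * sq b + cub a * cub b / 3 := by
  have hfun : ∀ σ : Equiv.Perm Spin, (fun i => b (σ i)) = ![b (σ 0), b (σ 1), b (σ 2)] :=
    fun σ => by funext i; fin_cases i <;> rfl
  simp only [hfun]
  rw [Bin.sum_perm_spin (fun i j k => zw a ![b i, b j, b k] * ent (comb a ![b i, b j, b k]))]
  have t : ∀ i j k : Spin, b i + b j + b k = 3 →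
      zw a ![b i, b j, b k] * ent (comb a ![b i, b j, b k]) ≤
        (a 0 * b i * log (a 0) + a 1 * b j * log (a 1) + a 2 * b k * log (a 2)) / 3 +
        (a 0 * b i * log (b i) + a 1 * b j * log (b j) + a 2 * b k * log (b k)) / 3 +
        (-zf (a 0 - 1) (a 1 - 1) (b i - 1) (b j - 1) (b k - 1)
          - zf (a 0 - 1) (a 1 - 1) (b i - 1) (b j - 1) (b k - 1) ^ 2 / 2
          + zf (a 0 - 1) (a 1 - 1) (b i - 1) (b j - 1) (b k - 1) ^ 3 / 6) := by
    intro i j k h
    have hb' : ∀ t, 0 ≤ ![b i, b j, b k] t := fun t => by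
      fin_cases t <;> simp <;> exact hb.1 _
    have e := mul_ent_comb ha.1 hb'
    have ea2 : a 2 = 3 - a 0 - a 1 := by linarith [ha.2]
    have ek : b k = 3 - b i - b j := by linarith
    have ez : zw a ![b i, b j, b k] =
        1 + zf (a 0 - 1) (a 1 - 1) (b i - 1) (b j - 1) (b k - 1) := by
      simp only [zw, Fin.sum_univ_three, Bin.zf]
      simp
      rw [ea2, ek]; ring
    have h0 : 0 ≤ zw a ![b i, b j, b k] := by
      rw [zw]
      exact div_nonneg (Finset.sum_nonneg fun t _ => mul_nonneg (ha.1 t) (hb' t)) (by norm_num)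
    rw [ez] at h0
    have hl := neg_zlog_le (z := zf (a 0 - 1) (a 1 - 1) (b i - 1) (b j - 1) (b k - 1)) (by linarith)
    rw [← ez] at hl
    simp only [Matrix.cons_val_zero, Matrix.cons_val_one, Matrix.cons_val] at e
    linarith
  have hb3 := hb.2
  have s1 := t 0 1 2 (by linarith); have s2 := t 0 2 1 (by linarith)
  have s3 := t 1 0 2 (by linarith); have s4 := t 1 2 0 (by linarith)
  have s5 := t 2 0 1 (by linarith); have s6 := t 2 1 0 (by linarith)
  have hterm := Bin.avg_zlog (a 0 - 1) (a 1 - 1) (b 0 - 1) (b 1 - 1)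
  obtain ⟨-, -, -, -, ea, ea'⟩ := Bin.inS_facts ha
  obtain ⟨-, -, -, -, eb, eb'⟩ := Bin.inS_facts hb
  rw [← ea, ← ea', ← eb, ← eb'] at hterm
  simp only [avg6] at hterm
  rw [show -(b 0 - 1) - (b 1 - 1) = b 2 - 1 by linarith] at hterm
  have hA : (2 * (b 0 + b 1 + b 2)) *
      (a 0 * log (a 0) + a 1 * log (a 1) + a 2 * log (a 2)) / 18 = ent a := by
    rw [hb.2]; simp only [ent, vlog]; ring
  have hB : (2 * (a 0 + a 1 + a 2)) *
      (b 0 * log (b 0) + b 1 * log (b 1) + b 2 * log (b 2)) / 18 = ent b := by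
    rw [ha.2]; simp only [ent, vlog]; ring
  linarith

lemma schur_sorted {x y z : ℝ} (hz : 0 ≤ z) (hyz : z ≤ y) (hxy : y ≤ x) :
    0 ≤ x * (x - y) * (x - z) + y * (y - x) * (y - z) + z * (z - x) * (z - y) := by
  have e1 : 0 ≤ (x - y) ^ 2 * (x + y - z) := mul_nonneg (sq_nonneg _) (by linarith)
  have e2 : 0 ≤ z * ((x - z) * (y - z)) :=
    mul_nonneg hz (mul_nonneg (by linarith) (by linarith))
  linear_combination e1 + e2

lemma cub_ge {a : Spin → ℝ} (ha : InS a) : -(sq a / 2) ≤ cub a := by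
  obtain ⟨h, hs⟩ := ha
  have hS : 0 ≤ a 0 * (a 0 - a 1) * (a 0 - a 2) + a 1 * (a 1 - a 0) * (a 1 - a 2)
      + a 2 * (a 2 - a 0) * (a 2 - a 1) := by
    rcases le_total (a 0) (a 1) with p | p <;> rcases le_total (a 1) (a 2) with q | q <;>
      rcases le_total (a 0) (a 2) with r | r
    all_goals first
      | linarith [schur_sorted (h 0) p q]
      | linarith [schur_sorted (h 0) r q]
      | linarith [schur_sorted (h 1) p r]
      | linarith [schur_sorted (h 1) q r]
      | linarith [schur_sorted (h 2) q p]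
      | linarith [schur_sorted (h 2) r p]
  have e2 : a 2 = 3 - a 0 - a 1 := by linarith
  simp only [P154.cub, P154.sq]
  rw [e2] at hS ⊢
  linear_combination (1 / 18 : ℝ) * hS

/-- The loss of entropy when one channelled child joins, linear in a function below both
`sq + cub / 6` and `sq - cub / 12`. -/
theorem ent_join_le {l : ℝ} (hl : -(1 / 2) ≤ l) (hl0 : l ≤ 0) {U : (Spin → ℝ) → ℝ}
    (hU : ∀ a, InS a → U a ≤ sq a + cub a / 6 ∧ U a ≤ sq a - cub a / 12)
    {a y : Spin → ℝ} (ha : InS a) (hy : InS y) :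
    (1 / 6 : ℝ) * ∑ σ : Equiv.Perm Spin,
        zw a (fun i => img l y (σ i)) * ent (comb a fun i => img l y (σ i))
      ≤ ent a + ent (img l y) - U a * (l ^ 2 * sq y) := by
  have h := ent_gap ha (inS_img hl (by linarith) hy)
  rw [sq_img, cub_img] at h
  obtain ⟨u1, u2⟩ := hU a ha
  have hS := (sq_mem hy).1
  obtain ⟨-, -, -, hc, -⟩ := Bin.inS_facts hy
  have c1 : cub y ≤ sq y := (abs_le.1 hc).2
  have c2 := cub_ge hy
  have hl2 := sq_nonneg l
  -- `cub` of the child seen through the edge lies in `[-1/2, 1/4]` times its second moment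
  have r1 : -(l ^ 2 * sq y) / 2 ≤ l ^ 3 * cub y := by
    have i1 := mul_le_mul_of_nonpos_left c1 hl0
    have i2 := mul_le_mul_of_nonneg_right hl hS
    have := mul_le_mul_of_nonneg_left (le_trans i2 i1) hl2
    nlinarith
  have r2 : l ^ 3 * cub y ≤ l ^ 2 * sq y / 4 := by
    have i1 := mul_le_mul_of_nonpos_left c2 hl0
    have i2 := mul_le_mul_of_nonneg_right hl hS
    have i3 : l * cub y ≤ sq y / 4 := by nlinarith
    have := mul_le_mul_of_nonneg_left i3 hl2
    nlinarith
  have key : U a * (l ^ 2 * sq y) ≤ sq a * (l ^ 2 * sq y) - cub a * (l ^ 3 * cub y) / 3 := by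
    rcases le_total 0 (cub a) with hc0 | hc0
    · nlinarith [mul_le_mul_of_nonneg_right u2 (mul_nonneg hl2 hS),
        mul_le_mul_of_nonneg_left r2 hc0]
    · nlinarith [mul_le_mul_of_nonneg_right u1 (mul_nonneg hl2 hS),
        mul_le_mul_of_nonpos_left r1 hc0]
  linarith

lemma ent_mem {a : Spin → ℝ} (ha : InS a) : |ent a| ≤ 6 := by
  have h : ∀ i, -1 ≤ vlog (a i) ∧ vlog (a i) ≤ 6 := fun i => by
    have h0 := ha.1 i
    have h3 := inS_le ha i
    rcases eq_or_lt_of_le h0 with h | h
    · rw [← h]; simp [Bin.vlog]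
    · constructor
      · have := Real.one_sub_inv_le_log_of_pos h
        have := mul_le_mul_of_nonneg_left this h0
        rw [mul_sub, mul_one, mul_inv_cancel₀ h.ne'] at this
        simp only [Bin.vlog]; linarith
      · have := Real.log_le_sub_one_of_pos h
        have := mul_le_mul_of_nonneg_left this h0
        simp only [Bin.vlog]; nlinarith
  obtain ⟨a1, a2⟩ := h 0; obtain ⟨b1, b2⟩ := h 1; obtain ⟨c1, c2⟩ := h 2
  rw [abs_le]; simp only [ent]; constructor <;> linarith

lemma bdd_ent : Bdd ent := ⟨6, fun _ ha => ent_mem ha⟩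

lemma bdd_ent_img {l : ℝ} (hl : -(1 / 2) ≤ l) (hu : l ≤ 1) : Bdd fun a => ent (img l a) :=
  ⟨6, fun _ ha => ent_mem (inS_img hl hu ha)⟩

/-! ### A level with a given number of children -/

variable {l d : ℝ}

/-- The mean of a function of the root posterior when the root has `r` children, each carrying an
independent Poisson tree of height `n`. -/
noncomputable def kidMean (l d : ℝ) (n r : ℕ) (φ : (Spin → ℝ) → ℝ) : ℝ :=
  ∑' ch : Fin r → Tr n, (∏ j, (treeWeight (poissonLaw d) n (ch j)).toReal) *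
    expect φ (lik l (n + 1) (node n r ch))

lemma expect_cons_le {U : (Spin → ℝ) → ℝ} (hl : -(1 / 2) ≤ l) (hl0 : l ≤ 0)
    (hU : ∀ a, InS a → U a ≤ sq a + cub a / 6 ∧ U a ≤ sq a - cub a / 12)
    (n r : ℕ) (T : Tr n) (ch : Fin r → Tr n) :
    expect ent (lik l (n + 1) (node n (r + 1) (Fin.cons T ch))) ≤
      expect ent (lik l (n + 1) (node n r ch)) + expect (fun a => ent (img l a)) (lik l n T)
        - expect (fun a => sq (img l a)) (lik l n T) * expect U (lik l (n + 1) (node n r ch)) := by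
  have hu : l ≤ 1 := by linarith
  have hf := fam_kids hl hu n ch
  have hg := fam_lik hl hu n T
  have h : expect ent (lik l (n + 1) (node n (r + 1) (Fin.cons T ch))) =
      expect ent (join l (lik l (n + 1) (node n r ch)) (lik l n T)) := by
    show expect ent (kids l fun j => lik l n ((Fin.cons T ch : Fin (r + 1) → Tr n) j)) = _
    rw [← expect_reindex (splitFirst fun j => Cfg n ((Fin.cons T ch : Fin (r + 1) → Tr n) j))]
    exact congrArg (expect ent) (kids_split (l := l) fun j => lik l n ((Fin.cons T ch : Fin (r + 1) → Tr n) j))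
  rw [h]
  refine (DeBox.expect_join_le_two hf hg (G := fun a y => ent a + ent (img l y)
    - U a * (l ^ 2 * sq y)) fun a y ha hy => ent_join_le hl hl0 hU ha hy).trans (le_of_eq ?_)
  simp only [expect, sq_img]
  simp only [mul_sub, mul_add, Finset.sum_sub_distrib, Finset.sum_add_distrib]
  congr 1
  · congr 1
    · refine Finset.sum_congr rfl fun j _ => ?_
      rw [← Finset.sum_mul, ← Finset.mul_sum, sum_wt hg, mul_one]
    · rw [Finset.sum_comm]
      refine Finset.sum_congr rfl fun k _ => ?_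
      rw [← Finset.sum_mul, ← Finset.sum_mul, sum_wt hf, one_mul]
  · rw [Finset.sum_mul_sum, Finset.sum_comm]
    exact Finset.sum_congr rfl fun j _ => Finset.sum_congr rfl fun k _ => by ring

section law

variable (hl : -(1 / 2) ≤ l) (hu : l ≤ 1) (hd : 0 ≤ d)
include hl hu hd

omit hl hu in
lemma summable_prod_tw (n : ℕ) : ∀ r : ℕ,
    Summable fun ch : Fin r → Tr n => ∏ j, (treeWeight (poissonLaw d) n (ch j)).toReal := by
  intro r
  have e : (fun ch : Fin r → Tr n => ∏ j, (treeWeight (poissonLaw d) n (ch j)).toReal) =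
      fun ch => (∏ j, treeWeight (poissonLaw d) n (ch j)).toReal :=
    funext fun ch => (ENNReal.toReal_prod (s := Finset.univ)
      (f := fun j => treeWeight (poissonLaw d) n (ch j))).symm
  rw [e]
  refine ENNReal.summable_toReal ?_
  rw [tsum_pi_prod fun (_ : Fin r) => treeWeight (poissonLaw d) n]
  simp [tsum_treeWeight (poissonLaw d) (poissonLaw_sum hd) n]

lemma kid_summable (n r : ℕ) {φ : (Spin → ℝ) → ℝ} (hφ : Bdd φ) :
    Summable fun ch : Fin r → Tr n => (∏ j, (treeWeight (poissonLaw d) n (ch j)).toReal) *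
      expect φ (lik l (n + 1) (node n r ch)) := by
  obtain ⟨C, hC⟩ := hφ
  refine Summable.of_norm_bounded ((summable_prod_tw hd n r).mul_right C) fun ch => ?_
  rw [Real.norm_eq_abs, abs_mul,
    abs_of_nonneg (Finset.prod_nonneg fun j _ => ENNReal.toReal_nonneg)]
  exact mul_le_mul_of_nonneg_left (abs_expect_le (fam_kids hl hu n ch) hC)
    (Finset.prod_nonneg fun j _ => ENNReal.toReal_nonneg)

omit hl hu in
lemma tsum_prod_tw (n r : ℕ) :
    ∑' ch : Fin r → Tr n, ∏ j, (treeWeight (poissonLaw d) n (ch j)).toReal = 1 := by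
  simp only [← ENNReal.toReal_prod]
  rw [← ENNReal.tsum_toReal_eq fun ch => ENNReal.prod_ne_top fun j _ => tw_ne_top hd n (ch j),
    tsum_pi_prod fun (_ : Fin r) => treeWeight (poissonLaw d) n]
  simp [tsum_treeWeight (poissonLaw d) (poissonLaw_sum hd) n]

lemma kidMean_lin (n r : ℕ) {m : ℕ} (β : Fin m → ℝ) {φ : Fin m → (Spin → ℝ) → ℝ}
    (hφ : ∀ j, Bdd (φ j)) :
    kidMean l d n r (fun a => ∑ j, β j * (1 - φ j a)) =
      ∑ j, β j * (1 - kidMean l d n r (φ j)) := by
  have hw := summable_prod_tw hd n r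
  have e : ∀ ch : Fin r → Tr n, (∏ j, (treeWeight (poissonLaw d) n (ch j)).toReal) *
      expect (fun a => ∑ j, β j * (1 - φ j a)) (lik l (n + 1) (node n r ch)) =
      ∑ j, (β j * ∏ i, (treeWeight (poissonLaw d) n (ch i)).toReal -
        β j * ((∏ i, (treeWeight (poissonLaw d) n (ch i)).toReal) *
          expect (φ j) (lik l (n + 1) (node n r ch)))) := fun ch => by
    simp only [expect, Finset.mul_sum]
    rw [Finset.sum_comm]
    refine Finset.sum_congr rfl fun j _ => ?_
    rw [eq_sub_iff_add_eq, ← Finset.sum_add_distrib]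
    conv_rhs => rw [← mul_one (β j * _), ← sum_wt (fam_kids hl hu n ch), Finset.mul_sum]
    exact Finset.sum_congr rfl fun c _ => by ring
  simp only [kidMean]
  rw [tsum_congr e, Summable.tsum_finsetSum fun j _ =>
    (hw.mul_left (β j)).sub ((kid_summable hl hu hd n r (hφ j)).mul_left (β j))]
  refine Finset.sum_congr rfl fun j _ => ?_
  rw [(hw.mul_left (β j)).tsum_sub ((kid_summable hl hu hd n r (hφ j)).mul_left (β j)),
    tsum_mul_left, tsum_mul_left, tsum_prod_tw hd n r]
  ring

lemma kidMean_sHel (n r : ℕ) {N : ℕ} {k : Spin → ℕ} (hN : 0 < N) (hk : ∑ i, k i = N) :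
    kidMean l d n r (sHel N k) = (mean l d n fun a => sHel N k (img l a)) ^ r := by
  have h2 : ∀ a, InS a → 0 ≤ sHel N k (img l a) := fun a ha =>
    (sHel_mem hN hk (inS_img hl hu ha)).1
  have h1 : ∀ a, InS a → 0 ≤ sHel N k a := fun a ha => (sHel_mem hN hk ha).1
  have hP : ∀ ch : Fin r → Tr n, 0 ≤ (∏ j, (treeWeight (poissonLaw d) n (ch j)).toReal) *
      expect (sHel N k) (lik l (n + 1) (node n r ch)) := fun ch =>
    mul_nonneg (Finset.prod_nonneg fun j _ => ENNReal.toReal_nonneg)
      (expect_nonneg (fam_kids hl hu n ch) h1)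
  refine (ENNReal.ofReal_eq_ofReal_iff (tsum_nonneg hP) (pow_nonneg (mean_nonneg hl hu n h2) r)).mp ?_
  rw [ENNReal.ofReal_tsum_of_nonneg hP (kid_summable hl hu hd n r (bdd_sHel hN hk)),
    ENNReal.ofReal_pow (mean_nonneg hl hu n h2), ofReal_mean hl hu hd n
      (bdd_sHel_img hN hk hl hu) h2]
  rw [← Fin.prod_const r, ← tsum_pi_prod]
  refine tsum_congr fun ch => ?_
  rw [ENNReal.ofReal_mul (Finset.prod_nonneg fun j _ => ENNReal.toReal_nonneg),
    expect_sHel_node hN hk hl hu n ch, ENNReal.ofReal_prod_of_nonneg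
      fun j _ => expect_nonneg (fam_lik hl hu n (ch j)) h2,
    ENNReal.ofReal_prod_of_nonneg fun j _ => ENNReal.toReal_nonneg, ← Finset.prod_mul_distrib]
  exact Finset.prod_congr rfl fun j _ => by rw [ENNReal.ofReal_toReal (tw_ne_top hd n (ch j))]

omit hu in
lemma kidMean_ent_succ (hl0 : l ≤ 0) {U : (Spin → ℝ) → ℝ} (hUb : Bdd U)
    (hU : ∀ a, InS a → U a ≤ sq a + cub a / 6 ∧ U a ≤ sq a - cub a / 12) (n r : ℕ) :
    kidMean l d n (r + 1) ent ≤ kidMean l d n r ent + mean l d n (fun a => ent (img l a))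
      - mean l d n (fun a => sq (img l a)) * kidMean l d n r U := by
  have hu : l ≤ 1 := by linarith
  let W : Tr n → ℝ := fun T => (treeWeight (poissonLaw d) n T).toReal
  let P : (Fin r → Tr n) → ℝ := fun ch => ∏ j, W (ch j)
  let A : (Fin r → Tr n) → ℝ := fun ch => P ch * expect ent (lik l (n + 1) (node n r ch))
  let B : (Fin r → Tr n) → ℝ := fun ch => P ch * expect U (lik l (n + 1) (node n r ch))
  let e : Tr n → ℝ := fun T => W T * expect (fun a => ent (img l a)) (lik l n T)
  let s : Tr n → ℝ := fun T => W T * expect (fun a => sq (img l a)) (lik l n T)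
  have hW : Summable W := summable_tw hd n
  have hP : Summable P := summable_prod_tw hd n r
  have hA : Summable A := kid_summable hl hu hd n r bdd_ent
  have hB : Summable B := kid_summable hl hu hd n r hUb
  have he : Summable e := mean_summable hl hu hd n (bdd_ent_img hl hu)
  have hs : Summable s := mean_summable hl hu hd n (bdd_sq_img l)
  have S1 := summable_mul_of_summable_norm (f := W) (g := A) hW.norm hA.norm
  have S2 := summable_mul_of_summable_norm (f := e) (g := P) he.norm hP.norm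
  have S3 := summable_mul_of_summable_norm (f := s) (g := B) hs.norm hB.norm
  have S0 := (Fin.consEquiv fun _ : Fin (r + 1) => Tr n).summable_iff.2
    (kid_summable hl hu hd n (r + 1) bdd_ent)
  have hle : ∀ p : Tr n × (Fin r → Tr n),
      (∏ j, W ((Fin.cons p.1 p.2 : Fin (r + 1) → Tr n) j)) *
        expect ent (lik l (n + 1) (node n (r + 1) (Fin.cons p.1 p.2))) ≤
        W p.1 * A p.2 + e p.1 * P p.2 - s p.1 * B p.2 := fun p => by
    rw [Fin.prod_univ_succ]
    simp only [Fin.cons_zero, Fin.cons_succ]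
    have := mul_le_mul_of_nonneg_left (expect_cons_le hl hl0 hU n r p.1 p.2)
      (mul_nonneg (ENNReal.toReal_nonneg (a := treeWeight (poissonLaw d) n p.1))
        (Finset.prod_nonneg fun j (_ : j ∈ Finset.univ) =>
          ENNReal.toReal_nonneg (a := treeWeight (poissonLaw d) n (p.2 j))))
    refine this.trans (le_of_eq ?_)
    simp only [A, B, P, W, e, s]
    ring
  calc kidMean l d n (r + 1) ent
      = ∑' p : Tr n × (Fin r → Tr n), (∏ j, W ((Fin.cons p.1 p.2 : Fin (r + 1) → Tr n) j)) *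
          expect ent (lik l (n + 1) (node n (r + 1) (Fin.cons p.1 p.2))) :=
        ((Fin.consEquiv fun _ : Fin (r + 1) => Tr n).tsum_eq _).symm
    _ ≤ ∑' p : Tr n × (Fin r → Tr n), (W p.1 * A p.2 + e p.1 * P p.2 - s p.1 * B p.2) :=
        Summable.tsum_le_tsum hle S0 ((S1.add S2).sub S3)
    _ = (∑' T, W T) * (∑' c, A c) + (∑' T, e T) * (∑' c, P c) - (∑' T, s T) * (∑' c, B c) := by
        rw [(S1.add S2).tsum_sub S3, S1.tsum_add S2, ← hW.tsum_mul_tsum hA S1,
          ← he.tsum_mul_tsum hP S2, ← hs.tsum_mul_tsum hB S3]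
    _ = _ := by
        rw [show ∑' T, W T = 1 from tsum_tw hd n, show ∑' c, P c = 1 from tsum_prod_tw hd n r,
          one_mul, mul_one]
        rfl

omit hu in
/-- The entropy with `r` children. -/
lemma kidMean_ent_le (hl0 : l ≤ 0) {m N : ℕ} {k : Fin m → Spin → ℕ} (β : Fin m → ℝ) (hN : 0 < N)
    (hk : ∀ j, ∑ i, k j i = N)
    (hU : ∀ a, InS a → ∑ j, β j * (1 - sHel N (k j) a) ≤ sq a + cub a / 6 ∧
      ∑ j, β j * (1 - sHel N (k j) a) ≤ sq a - cub a / 12) (n : ℕ) : ∀ r : ℕ,
    kidMean l d n r ent ≤ r * mean l d n (fun a => ent (img l a))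
      - mean l d n (fun a => sq (img l a)) * ∑ j, β j *
          ∑ i ∈ Finset.range r, (1 - (mean l d n fun a => sHel N (k j) (img l a)) ^ i) := by
  have hu : l ≤ 1 := by linarith
  intro r
  induction r with
  | zero =>
    simp only [Nat.cast_zero, zero_mul, Finset.range_zero, Finset.sum_empty, mul_zero,
      Finset.sum_const_zero, sub_zero]
    refine tsum_nonpos fun ch => ?_
    refine mul_nonpos_of_nonneg_of_nonpos (Finset.prod_nonneg fun j _ => ENNReal.toReal_nonneg)
      (Finset.sum_nonpos fun c _ => ?_)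
    have h1 : lik l (n + 1) (node n 0 ch) c = fun _ => 1 := kids_nil (fun j => lik l n (ch j)) c
    rw [h1, post_one]
    simp [Bin.ent, Bin.vlog]
  | succ r ih =>
    have hb : ∀ j, Bdd (sHel N (k j)) := fun j => bdd_sHel hN (hk j)
    have hUb : Bdd fun a => ∑ j, β j * (1 - sHel N (k j) a) :=
      bdd_sum _ fun j _ => ((bdd_const 1).sub (hb j)).smul (β j)
    have := kidMean_ent_succ hl hd hl0 hUb hU n r
    rw [kidMean_lin hl hu hd n r β hb] at this
    simp only [kidMean_sHel hl hu hd n r hN (hk _)] at this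
    simp only [Finset.sum_range_succ, mul_add, Finset.sum_add_distrib]
    push_cast
    linarith

end law

/-! ### Poisson many children -/

/-- `1 - (1 - exp (-z)) / z`, and `0` at zero. -/
noncomputable def gainF (z : ℝ) : ℝ := if z = 0 then 0 else 1 - (1 - Real.exp (-z)) / z

lemma poisson_hasSum (d y : ℝ) :
    HasSum (fun r : ℕ => Real.exp (-d) * d ^ r / (r.factorial : ℝ) * y ^ r)
      (Real.exp (-(d * (1 - y)))) := by
  have h : HasSum (fun r : ℕ => (d * y) ^ r / (r.factorial : ℝ)) (Real.exp (d * y)) := by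
    rw [Real.exp_eq_exp_ℝ]; exact NormedSpace.expSeries_div_hasSum_exp (d * y)
  have h' := h.mul_left (Real.exp (-d))
  rw [← Real.exp_add, show -d + d * y = -(d * (1 - y)) by ring] at h'
  refine h'.congr_fun fun r => ?_
  rw [mul_pow]; ring

lemma poisson_hasSum_id (d : ℝ) :
    HasSum (fun r : ℕ => Real.exp (-d) * d ^ r / (r.factorial : ℝ) * r) d := by
  refine ((hasSum_nat_add_iff' 1).1 ?_)
  simp only [Finset.range_one, Finset.sum_singleton, Nat.cast_zero, mul_zero, sub_zero]
  have h := (poisson_hasSum d 1).mul_left d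
  simp only [one_pow, mul_one, sub_self, mul_zero, neg_zero, Real.exp_zero] at h
  refine h.congr_fun fun r => ?_
  rw [pow_succ, Nat.factorial_succ]
  push_cast
  field_simp

lemma poisson_geom (d y : ℝ) :
    HasSum (fun r : ℕ => Real.exp (-d) * d ^ r / (r.factorial : ℝ) *
      ∑ i ∈ Finset.range r, (1 - y ^ i)) (d * gainF (d * (1 - y))) := by
  rcases eq_or_ne y 1 with rfl | hy
  · simp [gainF]
  have hy' : (1 - y) ≠ 0 := sub_ne_zero.2 hy.symm
  have h0 : HasSum (fun r : ℕ => Real.exp (-d) * d ^ r / (r.factorial : ℝ)) 1 := by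
    simpa using poisson_hasSum d 1
  have h := (poisson_hasSum_id d).sub ((h0.sub (poisson_hasSum d y)).div_const (1 - y))
  have e : ∀ r : ℕ, ∑ i ∈ Finset.range r, (1 - y ^ i) = (r : ℝ) - (1 - y ^ r) / (1 - y) := by
    intro r
    rw [Finset.sum_sub_distrib, Finset.sum_const, Finset.card_range, nsmul_eq_mul, mul_one,
      geom_sum_eq hy, ← neg_div_neg_eq, neg_sub, neg_sub]
  have ev : d * gainF (d * (1 - y)) = d - (1 - Real.exp (-(d * (1 - y)))) / (1 - y) := by
    rcases eq_or_ne d 0 with rfl | hd0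
    · simp
    rw [gainF, if_neg (mul_ne_zero hd0 hy')]
    field_simp
  rw [ev]
  refine h.congr_fun fun r => ?_
  rw [e]
  field_simp

/-- The entropy of the root posterior one level further down a Poisson tree. -/
theorem mean_ent_step (hl : -(1 / 2) ≤ l) (hl0 : l ≤ 0) (hd : 0 ≤ d) {m N : ℕ}
    {k : Fin m → Spin → ℕ} (β : Fin m → ℝ) (hN : 0 < N) (hk : ∀ j, ∑ i, k j i = N)
    (hU : ∀ a, InS a → ∑ j, β j * (1 - sHel N (k j) a) ≤ sq a + cub a / 6 ∧
      ∑ j, β j * (1 - sHel N (k j) a) ≤ sq a - cub a / 12) (n : ℕ) :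
    mean l d (n + 1) ent ≤ d * mean l d n (fun a => ent (img l a))
      - d * (l ^ 2 * mean l d n sq) *
          ∑ j, β j * gainF (d * (1 - mean l d n fun a => sHel N (k j) (img l a))) := by
  have hu : l ≤ 1 := by linarith
  set e := mean l d n fun a => ent (img l a)
  set s := mean l d n fun a => sq (img l a) with hs
  set y := fun j => mean l d n fun a => sHel N (k j) (img l a)
  have hsx : s = l ^ 2 * mean l d n sq := by
    simp only [hs, sq_img]; exact (isLaw_mean hl hu hd n).smul _ _ bdd_sq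
  have hw : ∀ r : ℕ, (poissonLaw d r).toReal = Real.exp (-d) * d ^ r / (r.factorial : ℝ) :=
    fun r => by rw [poissonLaw, ENNReal.toReal_ofReal (by positivity)]
  let G : (Σ r : ℕ, Fin r → Tr n) → ℝ := fun p =>
    let T : Tr (n + 1) := p
    (treeWeight (poissonLaw d) (n + 1) T).toReal * expect ent (lik l (n + 1) T)
  have hS : Summable G := mean_summable hl hu hd (n + 1) bdd_ent
  have hdec : mean l d (n + 1) ent = ∑' r : ℕ,
      Real.exp (-d) * d ^ r / (r.factorial : ℝ) * kidMean l d n r ent := by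
    refine (hS.tsum_sigma).trans (tsum_congr fun r => ?_)
    unfold kidMean
    rw [← hw, ← tsum_mul_left]
    refine tsum_congr fun ch => ?_
    simp only [G, treeWeight, ENNReal.toReal_mul, ENNReal.toReal_prod, node, mul_assoc]
    rfl
  have hR : HasSum (fun r : ℕ => Real.exp (-d) * d ^ r / (r.factorial : ℝ) *
      ((r : ℝ) * e - s * ∑ j, β j * ∑ i ∈ Finset.range r, (1 - y j ^ i)))
      (d * e - s * ∑ j, β j * (d * gainF (d * (1 - y j)))) := by
    have h1 := (poisson_hasSum_id d).mul_right e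
    have h2 := (hasSum_sum fun j (_ : j ∈ (Finset.univ : Finset (Fin m))) =>
      (poisson_geom d (y j)).mul_left (β j)).mul_left s
    refine (h1.sub h2).congr_fun fun r => ?_
    simp only [Finset.mul_sum, mul_sub]
    congr 1
    · ring
    · exact Finset.sum_congr rfl fun j _ => Finset.sum_congr rfl fun i _ => by ring
  have hle : ∀ r : ℕ, Real.exp (-d) * d ^ r / (r.factorial : ℝ) * kidMean l d n r ent ≤
      Real.exp (-d) * d ^ r / (r.factorial : ℝ) *
        ((r : ℝ) * e - s * ∑ j, β j * ∑ i ∈ Finset.range r, (1 - y j ^ i)) := fun r =>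
    mul_le_mul_of_nonneg_left (kidMean_ent_le hl hd hl0 β hN hk hU n r) (by positivity)
  have hsm : Summable fun r : ℕ =>
      Real.exp (-d) * d ^ r / (r.factorial : ℝ) * kidMean l d n r ent := by
    refine hS.sigma.congr fun r => ?_
    unfold kidMean
    rw [← hw, ← tsum_mul_left]
    refine tsum_congr fun ch => ?_
    simp only [G, treeWeight, ENNReal.toReal_mul, ENNReal.toReal_prod, node, mul_assoc]
    rfl
  calc mean l d (n + 1) ent ≤ d * e - s * ∑ j, β j * (d * gainF (d * (1 - y j))) := by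
        rw [hdec, ← hR.tsum_eq]; exact Summable.tsum_le_tsum hle hsm hR.summable
    _ = _ := by
        rw [hsx, Finset.mul_sum, Finset.mul_sum]
        exact congrArg (fun t => d * e - t) (Finset.sum_congr rfl fun j _ => by ring)

/-! ### Drops that use the entropy -/

/-- Where every coordinate is below `H` and the coordinate `a` is at least `L`, a combination of
the affinity equalities and the entropy inequality gains a positive amount in one level. -/
def DropGainEnt {ι : Type} (l d : ℝ) (F : ι → (Spin → ℝ) → ℝ) (H : ι → ℝ) (a : ι) (L : ℝ) :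
    Prop :=
  ∃ (m N : ℕ) (k : Fin m → Spin → ℕ) (c β : Fin m → ℝ) (w g : ℝ),
    0 < N ∧ (∀ j, ∑ i, k j i = N) ∧ 0 < g ∧ 0 ≤ w ∧
    (∀ u, InS u → ∑ j, β j * (1 - sHel N (k j) u) ≤ sq u + cub u / 6 ∧
      ∑ j, β j * (1 - sHel N (k j) u) ≤ sq u - cub u / 12) ∧
    ∀ E : ((Spin → ℝ) → ℝ) → ℝ, IsLaw E → (∀ b, E (F b) ≤ H b) → L ≤ E (F a) →
      g ≤ (∑ j, c j *
          (Real.exp (-(d * (1 - E (fun u => sHel N (k j) (img l u))))) - E (sHel N (k j))))
        + w * (E ent - d * E (fun u => ent (img l u)) + d * (l ^ 2 * E sq) *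
            ∑ j, β j * gainF (d * (1 - E (fun u => sHel N (k j) (img l u)))))

/-- A drop that uses the entropy inequality. -/
theorem Reach.drop_ent {ι : Type} [DecidableEq ι] (hl : -(1 / 2) ≤ l) (hl0 : l ≤ 0) (hd : 0 ≤ d)
    {F : ι → (Spin → ℝ) → ℝ} (hF : ∀ b, Antitone fun n => mean l d n (F b)) {H : ι → ℝ} {a : ι}
    {L : ℝ} (hR : Reach l d F H) (hS : DropGainEnt l d F H a L) :
    Reach l d F (Function.update H a L) := by
  have hu : l ≤ 1 := by linarith
  obtain ⟨n0, h0⟩ := hR
  obtain ⟨m, N, k, c, β, w, g, hN, hk, hg, hw, hU, h⟩ := hS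
  by_contra hc
  have hkeep : ∀ n, n0 ≤ n → ∀ b, mean l d n (F b) ≤ H b := fun n hn b => (hF b hn).trans (h0 b)
  have hc' : ∀ n, n0 ≤ n → L < mean l d n (F a) := fun n hn => by
    refine lt_of_not_ge fun hle => hc ⟨n, fun b => ?_⟩
    rcases eq_or_ne b a with rfl | hne
    · rw [Function.update_self]; exact hle
    · rw [Function.update_of_ne hne]; exact hkeep n hn b
  set S : ℕ → ℝ := fun n => (∑ j, c j * mean l d n (sHel N (k j))) - w * mean l d n ent with hSdef
  have hstep : ∀ i, g ≤ S (n0 + i + 1) - S (n0 + i) := fun i => by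
    refine (h _ (isLaw_mean hl hu hd (n0 + i)) (hkeep _ (Nat.le_add_right n0 i))
      (hc' _ (Nat.le_add_right n0 i)).le).trans ?_
    have he := mul_le_mul_of_nonneg_left (mean_ent_step hl hl0 hd β hN hk hU (n0 + i)) hw
    simp only [hSdef]
    simp only [mean_sHel_succ hl hu hd _ hN (hk _)]
    rw [Finset.sum_congr rfl fun j _ => mul_sub (c j) _ _, Finset.sum_sub_distrib]
    linarith
  have hsum : ∀ i : ℕ, (i : ℝ) * g ≤ S (n0 + i) - S n0 := fun i => by
    induction i with
    | zero => simp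
    | succ i ih =>
      have h' := hstep i
      rw [show n0 + (i + 1) = n0 + i + 1 from rfl]
      push_cast
      linarith
  have hb : ∀ n, |S n| ≤ (∑ j, |c j| * 3) + w * 6 := fun n => by
    refine (abs_sub _ _).trans (add_le_add (abs_comb_le hl hu hd c hN hk n) ?_)
    rw [abs_mul, abs_of_nonneg hw]
    exact mul_le_mul_of_nonneg_left (mean_abs_le hl hu hd n fun u hu' => ent_mem hu') hw
  obtain ⟨i, hi⟩ := exists_nat_gt ((2 * ((∑ j, |c j| * 3) + w * 6)) / g)
  rw [div_lt_iff₀ hg] at hi
  have := hsum i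
  linarith [(abs_le.mp (hb (n0 + i))).2, (abs_le.mp (hb n0)).1]

end Vale.Agent.P154.Ly
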