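import Vale.Agent.P154.LyBoxMult
import Vale.Agent.P154.LyBridge

/-!
Polynomial forms in roots for the one-level certificates on Poisson trees, and what their
checks give on the simplex: a form for functions of the posterior and a form, polynomial in
the edge parameter, for functions of its image under the channel.
-/

open scoped BigOperators

namespace Vale.Agent.P154.Ly

open Box (Ex Bx)

/-- An exponent triple. -/
abbrev Tri := ℕ × ℕ × ℕ

/-- The exponents of a triple. -/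
def tri (k : Tri) : Spin → ℕ := ![k.1, k.2.1, k.2.2]

/-- Four coefficients of `1, sq, cub, sq ^ 2`. -/
structure P4 where
  /-- constant -/
  c0 : ℤ
  /-- squared distance -/
  c1 : ℤ
  /-- cubic invariant -/
  c2 : ℤ
  /-- squared squared distance -/
  c3 : ℤ

/-- The value of four coefficients. -/
noncomputable def P4.val (p : P4) (a : Spin → ℝ) : ℝ :=
  (p.c0 : ℝ) + (p.c1 : ℝ) * sq a + (p.c2 : ℝ) * cub a + (p.c3 : ℝ) * sq a ^ 2

/-- A linear combination of affinities. -/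
noncomputable def hsum (N : ℕ) : List (Tri × ℤ) → (Spin → ℝ) → ℝ
  | [], _ => 0
  | (k, c) :: r, a => (c : ℝ) * sHel N (tri k) a + hsum N r a

/-- The sum of the coefficients. -/
def csum : List (Tri × ℤ) → ℤ
  | [] => 0
  | (_, c) :: r => c + csum r

/-- A power. -/
def epow (p : Ex) : ℕ → Ex
  | 0 => .con 1
  | n + 1 => .mul p (epow p n)

lemma epow_eval (y : ℕ → ℝ) (p : Ex) : ∀ n, (epow p n).eval y = p.eval y ^ n
  | 0 => by simp [epow, Ex.eval]
  | n + 1 => by simp [epow, Ex.eval, epow_eval y p n, pow_succ']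

/-- The first root is a constant, the other two are variables. -/
def tvar (R : ℤ) : Spin → Ex := ![.con R, .var 1, .var 2]

/-- The root vector of a point. -/
noncomputable def tpt (R : ℤ) (y : ℕ → ℝ) : Spin → ℝ := ![(R : ℝ), y 1, y 2]

lemma tvar_eval (R : ℤ) (y : ℕ → ℝ) (i : Spin) : (tvar R i).eval y = tpt R y i := by
  fin_cases i <;> simp [tvar, tpt, Ex.eval]

/-- Three times the mean of the powers. -/
def h3e (N : ℕ) (R : ℤ) : Ex :=
  .add (epow (tvar R 0) N) (.add (epow (tvar R 1) N) (epow (tvar R 2) N))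

/-- Three times a centred power. -/
def de (N : ℕ) (R : ℤ) (i : Spin) : Ex :=
  .add (.smul 3 (epow (tvar R i) N)) (.smul (-1) (h3e N R))

/-- Fifty-four times the second moment form. -/
def sqe (N : ℕ) (R : ℤ) : Ex :=
  .add (epow (de N R 0) 2) (.add (epow (de N R 1) 2) (epow (de N R 2) 2))

/-- Fifty-four times the cubic form. -/
def cue (N : ℕ) (R : ℤ) : Ex := .mul (de N R 0) (.mul (de N R 1) (de N R 2))

/-- One monomial. -/
def mone (k : Spin → ℕ) (R : ℤ) (a b c : Spin) : Ex :=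
  .mul (epow (tvar R a) (k 0)) (.mul (epow (tvar R b) (k 1)) (epow (tvar R c) (k 2)))

/-- Six times a symmetrised monomial. -/
def m6e (k : Spin → ℕ) (R : ℤ) : Ex :=
  .add (mone k R 0 1 2) (.add (mone k R 0 2 1) (.add (mone k R 1 0 2)
    (.add (mone k R 1 2 0) (.add (mone k R 2 0 1) (mone k R 2 1 0)))))

/-- Six times a combination of symmetrised monomials. -/
def hsume (R : ℤ) : List (Tri × ℤ) → Ex
  | [] => .con 0
  | (k, c) :: r => .add (.smul c (m6e (tri k) R)) (hsume R r)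

/-- A combination of symmetrised monomials. -/
noncomputable def msum : List (Tri × ℤ) → (Spin → ℝ) → ℝ
  | [], _ => 0
  | (k, c) :: r, t => (c : ℝ) * symMon (tri k) t + msum r t

lemma h3e_eval (N : ℕ) (R : ℤ) (y : ℕ → ℝ) :
    (h3e N R).eval y = 3 * hpow N (tpt R y) := by
  simp only [h3e, Ex.eval, epow_eval, tvar_eval, hpow]; ring

lemma de_eval (N : ℕ) (R : ℤ) (y : ℕ → ℝ) (i : Spin) :
    (de N R i).eval y = 3 * (tpt R y i ^ N - hpow N (tpt R y)) := by
  simp only [de, Ex.eval, epow_eval, tvar_eval, h3e_eval]; push_cast; ring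

lemma sqe_eval (N : ℕ) (R : ℤ) (y : ℕ → ℝ) :
    (sqe N R).eval y = 54 * sqForm N (tpt R y) := by
  simp only [sqe, Ex.eval, epow_eval, de_eval, sqForm]; ring

lemma cue_eval (N : ℕ) (R : ℤ) (y : ℕ → ℝ) :
    (cue N R).eval y = 54 * cubForm N (tpt R y) := by
  simp only [cue, Ex.eval, de_eval, cubForm]; ring

lemma m6e_eval (k : Spin → ℕ) (R : ℤ) (y : ℕ → ℝ) :
    (m6e k R).eval y = 6 * symMon k (tpt R y) := by
  simp only [m6e, mone, Ex.eval, epow_eval, tvar_eval, symMon]; ring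

lemma hsume_eval (R : ℤ) (y : ℕ → ℝ) :
    ∀ L : List (Tri × ℤ), (hsume R L).eval y = 6 * msum L (tpt R y)
  | [] => by simp [hsume, msum, Ex.eval]
  | (k, c) :: r => by
    simp only [hsume, msum, Ex.eval, m6e_eval, hsume_eval R y r]; ring

/-- The posterior form: `2916` times `sum c sHel + P4`, homogenised. -/
def uExp (N : ℕ) (R : ℤ) (L : List (Tri × ℤ)) (p : P4) : Ex :=
  .add (.mul (h3e N R) (.add
      (.mul (h3e N R) (.add
        (.mul (h3e N R) (.add (.smul (36 * p.c0) (h3e N R)) (.smul 18 (hsume R L))))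
        (.smul (6 * p.c1) (sqe N R))))
      (.smul (18 * p.c2) (cue N R))))
    (.smul p.c3 (epow (sqe N R) 2))

/-- The homogenised posterior form. -/
noncomputable def uFun (N : ℕ) (L : List (Tri × ℤ)) (p : P4) (t : Spin → ℝ) : ℝ :=
  hpow N t ^ 3 * msum L t + (p.c0 : ℝ) * hpow N t ^ 4 + (p.c1 : ℝ) * (sqForm N t * hpow N t ^ 2)
    + (p.c2 : ℝ) * (cubForm N t * hpow N t) + (p.c3 : ℝ) * sqForm N t ^ 2

lemma uExp_eval (N : ℕ) (R : ℤ) (L : List (Tri × ℤ)) (p : P4) (y : ℕ → ℝ) :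
    (uExp N R L p).eval y = 2916 * uFun N L p (tpt R y) := by
  simp only [uExp, Ex.eval, h3e_eval, hsume_eval, sqe_eval, cue_eval, epow_eval, uFun]
  push_cast; ring

/-- The image form at parameter `y 0 / Q`. -/
def wExp (N : ℕ) (R Q : ℤ) (L : List (Tri × ℤ)) (p : P4) : Ex :=
  .add (.mul (h3e N R) (.add
      (.mul (h3e N R) (.add
        (.mul (h3e N R) (.add (.mul (epow (.var 0) 4) (.smul (36 * p.c0) (h3e N R)))
          (.mul (epow (.var 0) 2) (.smul (18 * Q ^ 2)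
            (.add (.smul (2 * csum L) (h3e N R)) (.smul (-1) (hsume R L)))))))
        (.mul (epow (.var 0) 2) (.smul (6 * p.c1 * Q ^ 2) (sqe N R)))))
      (.mul (.var 0) (.smul (-18 * p.c2 * Q ^ 3) (cue N R)))))
    (.smul (p.c3 * Q ^ 4) (epow (sqe N R) 2))

/-- The homogenised image form at parameter `s`. -/
noncomputable def wFun (N : ℕ) (s : ℝ) (L : List (Tri × ℤ)) (p : P4) (t : Spin → ℝ) : ℝ :=
  s ^ 2 * ((csum L : ℝ) * hpow N t - msum L t) * hpow N t ^ 3 + (p.c0 : ℝ) * s ^ 4 * hpow N t ^ 4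
    + (p.c1 : ℝ) * s ^ 2 * (sqForm N t * hpow N t ^ 2)
    - (p.c2 : ℝ) * s * (cubForm N t * hpow N t) + (p.c3 : ℝ) * sqForm N t ^ 2

lemma wExp_eval (N : ℕ) (R Q : ℤ) (hQ : Q ≠ 0) (L : List (Tri × ℤ)) (p : P4) (y : ℕ → ℝ) :
    (wExp N R Q L p).eval y = (Q : ℝ) ^ 4 * (2916 * wFun N (y 0 / Q) L p (tpt R y)) := by
  have hQ' : (Q : ℝ) ≠ 0 := by exact_mod_cast hQ
  simp only [wExp, Ex.eval, h3e_eval, hsume_eval, sqe_eval, cue_eval, epow_eval, wFun]
  push_cast
  field_simp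
  ring

lemma msum_smul {N : ℕ} : ∀ (L : List (Tri × ℤ)), (∀ q ∈ L, q.1.1 + q.1.2.1 + q.1.2.2 = N) →
    ∀ (s : ℝ) (t : Spin → ℝ), msum L (fun i => s * t i) = s ^ N * msum L t
  | [], _, s, t => by simp [msum]
  | (k, c) :: r, h, s, t => by
    simp only [msum, msum_smul r (fun q hq => h q (List.mem_cons_of_mem _ hq)) s t]
    rw [symMon_smul (k := tri k) (N := N)
      (by simpa [tri, Fin.sum_univ_three] using h (k, c) List.mem_cons_self)]
    ring

lemma forms_smul (N : ℕ) (c : ℝ) (t : Spin → ℝ) :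
    hpow N (fun i => c * t i) = c ^ N * hpow N t ∧
      sqForm N (fun i => c * t i) = (c ^ N) ^ 2 * sqForm N t ∧
      cubForm N (fun i => c * t i) = (c ^ N) ^ 3 * cubForm N t := by
  have hh : hpow N (fun i => c * t i) = c ^ N * hpow N t := by simp only [hpow, mul_pow]; ring
  refine ⟨hh, ?_, ?_⟩ <;> simp only [sqForm, cubForm, hh] <;> simp only [mul_pow] <;> ring

lemma symMon_perm (k : Spin → ℕ) (t : Spin → ℝ) (i j : Spin) :
    symMon k (fun x => t (Equiv.swap i j x)) = symMon k t := by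
  fin_cases i <;> fin_cases j <;>
    simp [symMon, Equiv.swap_apply_of_ne_of_ne] <;> ring

lemma forms_perm (N : ℕ) (t : Spin → ℝ) (i j : Spin) :
    hpow N (fun x => t (Equiv.swap i j x)) = hpow N t ∧
      sqForm N (fun x => t (Equiv.swap i j x)) = sqForm N t ∧
      cubForm N (fun x => t (Equiv.swap i j x)) = cubForm N t := by
  have hh : hpow N (fun x => t (Equiv.swap i j x)) = hpow N t := by
    fin_cases i <;> fin_cases j <;> simp [hpow, Equiv.swap_apply_of_ne_of_ne] <;> ring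
  refine ⟨hh, ?_, ?_⟩ <;> simp only [sqForm, cubForm, hh]
  · congr 1
    have := Equiv.sum_comp (Equiv.swap i j) fun x => (t x ^ N - hpow N t) ^ 2
    simpa [Fin.sum_univ_three] using this
  · congr 1
    have := Equiv.prod_comp (Equiv.swap i j) fun x => t x ^ N - hpow N t
    simpa [Fin.prod_univ_three] using this

lemma msum_perm (i j : Spin) : ∀ (L : List (Tri × ℤ)) (t : Spin → ℝ),
    msum L (fun x => t (Equiv.swap i j x)) = msum L t
  | [], _ => rfl
  | (k, c) :: r, t => by simp only [msum, symMon_perm, msum_perm i j r t]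

/-- A nonnegative vector with positive mean is a multiple of a permuted point of the square with
first coordinate `R`, sorted. -/
lemma exists_chart {R : ℤ} (hR : 0 < R) {t : Spin → ℝ} (ht : ∀ i, 0 ≤ t i) (h0 : ∃ i, t i ≠ 0) :
    ∃ (i j : Spin) (c y1 y2 : ℝ), 0 < c ∧ 0 ≤ y2 ∧ y2 ≤ y1 ∧ y1 ≤ R ∧
      (fun x => t (Equiv.swap 0 i (Equiv.swap 1 j x))) = fun x => c * ![(R : ℝ), y1, y2] x := by
  obtain ⟨i, hi⟩ := Finite.exists_max t
  have hR' : (0 : ℝ) < R := by exact_mod_cast hR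
  have hpos : 0 < t i := by
    obtain ⟨q, hq⟩ := h0
    exact lt_of_lt_of_le (lt_of_le_of_ne (ht q) (Ne.symm hq)) (hi q)
  set v : Spin → ℝ := fun x => t (Equiv.swap 0 i x) with hv
  have hv0 : v 0 = t i := by simp [hv]
  obtain ⟨j, hj1, hj⟩ : ∃ j : Spin, (j = 1 ∨ j = 2) ∧
      v (Equiv.swap 1 j 2) ≤ v (Equiv.swap 1 j 1) := by
    rcases le_total (v 2) (v 1) with h | h
    · exact ⟨1, Or.inl rfl, by simpa using h⟩
    · exact ⟨2, Or.inr rfl, by simpa [Equiv.swap_apply_of_ne_of_ne] using h⟩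
  set c := t i / R with hc
  have hc0 : 0 < c := div_pos hpos hR'
  refine ⟨i, j, c, v (Equiv.swap 1 j 1) / c, v (Equiv.swap 1 j 2) / c, hc0,
    div_nonneg (ht _) hc0.le, (div_le_div_iff_of_pos_right hc0).2 hj, ?_, ?_⟩
  · rw [div_le_iff₀ hc0, hc, mul_div_cancel₀ _ hR'.ne']; exact hi _
  · have hcne : c ≠ 0 := hc0.ne'
    funext x
    have e0 : Equiv.swap (1 : Spin) j 0 = 0 := by
      rcases hj1 with rfl | rfl <;> simp [Equiv.swap_apply_of_ne_of_ne]
    have eR : c * (R : ℝ) = t i := by rw [hc, div_mul_cancel₀ _ hR'.ne']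
    fin_cases x
    · simp [e0, eR]
    · simpa [hv] using (mul_div_cancel₀ (v (Equiv.swap 1 j 1)) hcne).symm
    · simpa [hv] using (mul_div_cancel₀ (v (Equiv.swap 1 j 2)) hcne).symm

/-- The order of the two variables. -/
def ordExp : Ex := .add (.var 1) (.smul (-1) (.var 2))

/-- The cap `1 + y 0 / Q` on a coordinate of an image. -/
def capExp (N : ℕ) (R Q : ℤ) (i : Spin) : Ex :=
  .add (.mul (.add (.con Q) (.var 0)) (h3e N R)) (.smul (-3 * Q) (epow (tvar R i) N))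

/-- The region of the image form: two caps, their sum (the floor on the last coordinate), order. -/
def wGuard (N : ℕ) (R Q : ℤ) : List Ex :=
  [capExp N R Q 0, capExp N R Q 1, .add (capExp N R Q 0) (capExp N R Q 1), ordExp]

/-- The box of the posterior form. -/
def uBox (R : ℤ) : Bx := ⟨0, 0, 0, 1, R + 1, R + 1⟩

/-- The box of the image form on the band `[P0 / Q, P1 / Q]`. -/
def wBox (R P0 P1 : ℤ) : Bx := ⟨P0, 0, 0, P1 + 1, R + 1, R + 1⟩

/-- The exponents are admissible. -/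
def okTri (N : ℕ) (L : List (Tri × ℤ)) : Bool :=
  decide (0 < N) && L.all fun q => Nat.beq (q.1.1 + q.1.2.1 + q.1.2.2) N

lemma okTri_sum {N : ℕ} {L : List (Tri × ℤ)} (h : okTri N L = true) :
    0 < N ∧ ∀ q ∈ L, q.1.1 + q.1.2.1 + q.1.2.2 = N := by
  simp only [okTri, Bool.and_eq_true, decide_eq_true_eq, List.all_eq_true] at h
  exact ⟨h.1, fun q hq => Nat.eq_of_beq_eq_true (h.2 q hq)⟩

lemma hsum_root {N : ℕ} {t a : Spin → ℝ} (hs : ∀ k : Spin → ℕ, symMon k t = sHel N k a) :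
    ∀ L : List (Tri × ℤ), msum L t = hsum N L a
  | [] => rfl
  | (k, c) :: r => by simp only [msum, hsum, hs, hsum_root hs r]

lemma chart_of_inS {N : ℕ} (hN : 0 < N) {R : ℤ} (hR : 0 < R) {a : Spin → ℝ} (ha : InS a)
    (L : List (Tri × ℤ)) (hL : ∀ q ∈ L, q.1.1 + q.1.2.1 + q.1.2.2 = N) :
    ∃ (c y1 y2 : ℝ) (σ : Equiv.Perm Spin), 0 < c ∧ 0 ≤ y2 ∧ y2 ≤ y1 ∧ y1 ≤ R ∧
      (∀ x, a (σ x) = c ^ N * ![(R : ℝ), y1, y2] x ^ N) ∧
      1 = c ^ N * hpow N ![(R : ℝ), y1, y2] ∧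
      sq a = (c ^ N) ^ 2 * sqForm N ![(R : ℝ), y1, y2] ∧
      cub a = (c ^ N) ^ 3 * cubForm N ![(R : ℝ), y1, y2] ∧
      hsum N L a = c ^ N * msum L ![(R : ℝ), y1, y2] := by
  obtain ⟨t, ht, htN, hh, hs, hc, hm⟩ := exists_root hN ha
  have h0 : ∃ i, t i ≠ 0 := by
    by_contra h
    simp only [not_exists, not_not] at h
    simp [hpow, h, hN.ne'] at hh
  obtain ⟨i, j, c, y1, y2, c0, b0, b1, b2, e⟩ := exists_chart hR ht h0
  have f1 := forms_perm N (fun x => t (Equiv.swap 0 i x)) 1 j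
  have f2 := forms_perm N t 0 i
  have f3 := forms_smul N c ![(R : ℝ), y1, y2]
  have m1 := msum_perm 1 j L (fun x => t (Equiv.swap 0 i x))
  have m2 := msum_perm 0 i L t
  have m3 := msum_smul L hL c ![(R : ℝ), y1, y2]
  rw [← e] at f3 m3
  refine ⟨c, y1, y2, (Equiv.swap 1 j).trans (Equiv.swap 0 i), c0, b0, b1, b2, fun x => ?_,
    ?_, ?_, ?_, ?_⟩
  · rw [Equiv.trans_apply, ← htN, congrFun e x, mul_pow]
  · rw [← f3.1, f1.1, f2.1, hh]
  · rw [← f3.2.1, f1.2.1, f2.2.1, hs]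
  · rw [← f3.2.2, f1.2.2, f2.2.2, hc]
  · rw [← m3, m1, m2, hsum_root hm]

lemma ord_eval (y : ℕ → ℝ) : ordExp.eval y = y 1 - y 2 := by
  simp [ordExp, Ex.eval, sub_eq_add_neg]

/-- The roots `(R, y 1, y 2)` are those of a sorted permutation of `a`, up to a factor. -/
def Charted (a : Spin → ℝ) (N : ℕ) (R : ℤ) (y : ℕ → ℝ) : Prop :=
  ∃ (C : ℝ) (σ : Equiv.Perm Spin), 0 < C ∧ 0 ≤ y 2 ∧ y 2 ≤ y 1 ∧ y 1 ≤ R ∧
    (∀ x, a (σ x) = C * tpt R y x ^ N) ∧ 1 = C * hpow N (tpt R y)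

/-- A checked posterior form on the part cut out by `G'`. -/
theorem uChk_gen {N : ℕ} {R : ℤ} {K D : ℕ} {L : List (Tri × ℤ)} {p : P4} {T : Box.TrM}
    {G' : List Ex} (hR : 0 < R) (hok : okTri N L = true)
    (h : T.chkM K D (ordExp :: G') (uExp N R L p) (uBox R) = true) {a : Spin → ℝ} (ha : InS a)
    (hG' : ∀ y : ℕ → ℝ, Charted a N R y → ∀ e ∈ G', 0 ≤ e.eval y) :
    0 ≤ hsum N L a + p.val a := by
  obtain ⟨hN, hL⟩ := okTri_sum hok
  obtain ⟨c, y1, y2, σ, c0, b0, b1, b2, eσ, eh, es, ec, em⟩ := chart_of_inS hN hR ha L hL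
  set y : ℕ → ℝ := fun i => if i = 1 then y1 else if i = 2 then y2 else 0 with hy
  have hmem : (uBox R).Mem y := by
    simp only [uBox, Bx.Mem, hy]; norm_num
    exact ⟨⟨b0.trans b1, b2.trans_lt (by linarith)⟩, b0, (b1.trans b2).trans_lt (by linarith)⟩
  have htp : tpt R y = ![(R : ℝ), y1, y2] := by simp [tpt, hy]
  have hch : Charted a N R y := ⟨c ^ N, σ, pow_pos c0 N, by simpa [hy] using b0,
    by simpa [hy] using b1, by simpa [hy] using b2, by rw [htp]; exact eσ, by rw [htp]; exact eh⟩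
  have hord : ∀ q ∈ ordExp :: G', 0 ≤ q.eval y := fun q hq => by
    rcases List.mem_cons.1 hq with rfl | hq
    · rw [ord_eval]; simp [hy, b1]
    · exact hG' y hch q hq
  have hpos := Box.nonneg_of_chkM K D T (uBox R) h hmem hord
  rw [uExp_eval, htp] at hpos
  set q := ![(R : ℝ), y1, y2]
  have key : hsum N L a + p.val a = (c ^ N) ^ 4 * uFun N L p q := by
    rw [em, P4.val, es, ec, uFun]
    linear_combination ((c ^ N) * msum L q * ((c ^ N * hpow N q) ^ 2 + c ^ N * hpow N q + 1)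
      + (p.c0 : ℝ) * ((c ^ N * hpow N q) ^ 3 + (c ^ N * hpow N q) ^ 2 + c ^ N * hpow N q + 1)
      + (p.c1 : ℝ) * (c ^ N) ^ 2 * sqForm N q * (c ^ N * hpow N q + 1)
      + (p.c2 : ℝ) * (c ^ N) ^ 3 * cubForm N q) * eh
  rw [key]
  exact mul_nonneg (by positivity) (by linarith)

/-- An image form which is nonnegative on the region in roots. -/
theorem wForm_of_nonneg {N : ℕ} {R Q P0 P1 : ℤ} {L : List (Tri × ℤ)} {p : P4}
    {G' : List Ex} (hR : 0 < R) (hQ : 0 < Q) (hP : 0 < P0)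
    (hok : okTri N L = true)
    (hE : ∀ y : ℕ → ℝ, (wBox R P0 P1).Mem y → (∀ e ∈ wGuard N R Q ++ G', 0 ≤ e.eval y) →
      0 ≤ (wExp N R Q L p).eval y)
    {s : ℝ} (h0 : (P0 : ℝ) ≤ s * Q) (h1 : s * Q ≤ P1)
    {u : Spin → ℝ} (hu : InS u) (hs : s ≤ 1 / 2)
    (hG' : ∀ y : ℕ → ℝ, y 0 = s * Q → Charted (img (-s) u) N R y → ∀ e ∈ G', 0 ≤ e.eval y) :
    0 ≤ ((csum L : ℝ) - hsum N L (img (-s) u)) / s ^ 2 + p.val u := by
  obtain ⟨hN, hL⟩ := okTri_sum hok
  have hQ' : (0 : ℝ) < Q := by exact_mod_cast hQ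
  have hs0 : 0 < s := by
    have : (0 : ℝ) < P0 := by exact_mod_cast hP
    exact pos_of_mul_pos_left (this.trans_le h0) hQ'.le
  have ha : InS (img (-s) u) := inS_img (by linarith) (by linarith) hu
  obtain ⟨c, y1, y2, σ, c0, b0, b1, b2, eσ, eh, es, ec, em⟩ := chart_of_inS hN hR ha L hL
  set y : ℕ → ℝ := fun i => if i = 1 then y1 else if i = 2 then y2 else s * Q with hy
  have hmem : (wBox R P0 P1).Mem y := by
    simp only [wBox, Bx.Mem, hy]; norm_num
    exact ⟨⟨h0, h1.trans_lt (by linarith)⟩, ⟨b0.trans b1, b2.trans_lt (by linarith)⟩,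
      b0, (b1.trans b2).trans_lt (by linarith)⟩
  have htp : tpt R y = ![(R : ℝ), y1, y2] := by simp [tpt, hy]
  set q := ![(R : ℝ), y1, y2]
  have hcn : 0 < c ^ N := pow_pos c0 N
  -- the caps hold on images
  have hcap : ∀ (k : Spin) (r : ℝ), img (-s) u k = c ^ N * r ^ N →
      0 ≤ (Q : ℝ) * (1 + s) * (3 * hpow N q) - 3 * Q * r ^ N := fun k r hr => by
    have h' : 0 ≤ (1 + s) * hpow N q - r ^ N := by
      refine nonneg_of_mul_nonneg_right (a := c ^ N) ?_ hcn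
      have := mul_nonneg hs0.le (hu.1 k)
      have e : c ^ N * r ^ N ≤ 1 + s := by rw [← hr]; simp only [img]; linarith
      linear_combination e + (1 + s) * eh
    linarith [mul_nonneg (mul_nonneg (by norm_num : (0 : ℝ) ≤ 3) hQ'.le) h']
  have hc0 : 0 ≤ (capExp N R Q 0).eval y := by
    have := hcap (σ 0) R (eσ 0)
    simp only [capExp, Ex.eval, h3e_eval, epow_eval, tvar_eval, htp]
    rw [show q 0 = (R : ℝ) from rfl, show y 0 = s * Q by simp [hy]]
    push_cast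
    linarith
  have hc1 : 0 ≤ (capExp N R Q 1).eval y := by
    have := hcap (σ 1) y1 (eσ 1)
    simp only [capExp, Ex.eval, h3e_eval, epow_eval, tvar_eval, htp]
    rw [show q 1 = y1 from rfl, show y 0 = s * Q by simp [hy]]
    push_cast
    linarith
  have hch : Charted (img (-s) u) N R y := ⟨c ^ N, σ, hcn, by simpa [hy] using b0,
    by simpa [hy] using b1, by simpa [hy] using b2, by rw [htp]; exact eσ, by rw [htp]; exact eh⟩
  have hG : ∀ e ∈ wGuard N R Q ++ G', 0 ≤ e.eval y := fun e he => by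
    rcases List.mem_append.1 he with he | he
    · simp only [wGuard, List.mem_cons, List.not_mem_nil, or_false] at he
      rcases he with rfl | rfl | rfl | rfl
      · exact hc0
      · exact hc1
      · exact add_nonneg hc0 hc1
      · rw [ord_eval]; simp [hy, b1]
    · exact hG' y (by simp [hy]) hch e he
  have hpos := hE y hmem hG
  rw [wExp_eval N R Q hQ.ne', show y 0 / (Q : ℝ) = s by simp [hy, mul_div_cancel_right₀ _ hQ'.ne'],
    htp] at hpos
  have hW : 0 ≤ wFun N s L p q := by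
    linarith [nonneg_of_mul_nonneg_right hpos (by positivity : (0 : ℝ) < (Q : ℝ) ^ 4)]
  have key : s ^ 4 * (((csum L : ℝ) - hsum N L (img (-s) u)) / s ^ 2 + p.val u)
      = (c ^ N) ^ 4 * wFun N s L p q := by
    have eu : s ^ 2 * sq u = (c ^ N) ^ 2 * sqForm N q := by rw [← es, sq_img]; ring
    have eT : -(s ^ 3) * cub u = (c ^ N) ^ 3 * cubForm N q := by rw [← ec, cub_img]; ring
    rw [em, P4.val, wFun]
    field_simp
    linear_combination (s ^ 2 * (csum L : ℝ) * ((c ^ N * hpow N q) ^ 3 + (c ^ N * hpow N q) ^ 2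
          + c ^ N * hpow N q + 1)
        - s ^ 2 * (c ^ N) * msum L q * ((c ^ N * hpow N q) ^ 2 + c ^ N * hpow N q + 1)
        + s ^ 4 * (p.c0 : ℝ) * ((c ^ N * hpow N q) ^ 3 + (c ^ N * hpow N q) ^ 2
          + c ^ N * hpow N q + 1)
        + (p.c1 : ℝ) * s ^ 2 * (c ^ N) ^ 2 * sqForm N q * (c ^ N * hpow N q + 1)
        - (p.c2 : ℝ) * s * (c ^ N) ^ 3 * cubForm N q) * eh
      + (p.c1 : ℝ) * s ^ 2 * eu - (p.c2 : ℝ) * s * eT
      + (p.c3 : ℝ) * (s ^ 2 * sq u + (c ^ N) ^ 2 * sqForm N q) * eu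
  refine nonneg_of_mul_nonneg_right (a := s ^ 4) ?_ (by positivity)
  rw [key]
  exact mul_nonneg (by positivity) hW

/-- A checked image form on the part cut out by `G'`. -/
theorem wChk_gen {N : ℕ} {R Q P0 P1 : ℤ} {K D : ℕ} {L : List (Tri × ℤ)} {p : P4}
    {T : Box.TrM} {G' : List Ex} (hR : 0 < R) (hQ : 0 < Q) (hP : 0 < P0)
    (hok : okTri N L = true)
    (h : T.chkM K D (wGuard N R Q ++ G') (wExp N R Q L p) (wBox R P0 P1) = true)
    {s : ℝ} (h0 : (P0 : ℝ) ≤ s * Q) (h1 : s * Q ≤ P1)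
    {u : Spin → ℝ} (hu : InS u) (hs : s ≤ 1 / 2)
    (hG' : ∀ y : ℕ → ℝ, y 0 = s * Q → Charted (img (-s) u) N R y → ∀ e ∈ G', 0 ≤ e.eval y) :
    0 ≤ ((csum L : ℝ) - hsum N L (img (-s) u)) / s ^ 2 + p.val u :=
  wForm_of_nonneg hR hQ hP hok (fun _ hy hG => Box.nonneg_of_chkM K D T _ h hy hG) h0 h1 hu hs hG'

/-- An image form without cubic and quartic parts, divided by the square of `h3e`. -/
def fExp (N : ℕ) (R Q : ℤ) (L : List (Tri × ℤ)) (c0 c1 : ℤ) : Ex :=
  .add (.mul (h3e N R) (.add (.mul (epow (.var 0) 4) (.smul (36 * c0) (h3e N R)))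
      (.mul (epow (.var 0) 2) (.smul (18 * Q ^ 2)
        (.add (.smul (2 * csum L) (h3e N R)) (.smul (-1) (hsume R L)))))))
    (.mul (epow (.var 0) 2) (.smul (6 * c1 * Q ^ 2) (sqe N R)))

lemma wExp_eq_fExp (N : ℕ) (R Q : ℤ) (L : List (Tri × ℤ)) (c0 c1 : ℤ) (y : ℕ → ℝ) :
    (wExp N R Q L ⟨c0, c1, 0, 0⟩).eval y
      = (h3e N R).eval y ^ 2 * (fExp N R Q L c0 c1).eval y := by
  simp only [wExp, fExp, Ex.eval, epow_eval]
  push_cast
  ring

/-- A checked posterior form. -/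
theorem uChk_sound {N : ℕ} {R : ℤ} {K D : ℕ} {L : List (Tri × ℤ)} {p : P4} {T : Box.TrM}
    (hR : 0 < R) (hok : okTri N L = true)
    (h : T.chkM K D [ordExp] (uExp N R L p) (uBox R) = true) {a : Spin → ℝ} (ha : InS a) :
    0 ≤ hsum N L a + p.val a :=
  uChk_gen hR hok h ha fun _ _ _ he => absurd he List.not_mem_nil

/-- A checked image form. -/
theorem wChk_sound {N : ℕ} {R Q P0 P1 : ℤ} {K D : ℕ} {L : List (Tri × ℤ)} {p : P4}
    {T : Box.TrM} (hR : 0 < R) (hQ : 0 < Q) (hP : 0 < P0)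
    (hok : okTri N L = true)
    (h : T.chkM K D (wGuard N R Q) (wExp N R Q L p) (wBox R P0 P1) = true)
    {s : ℝ} (h0 : (P0 : ℝ) ≤ s * Q) (h1 : s * Q ≤ P1)
    {u : Spin → ℝ} (hu : InS u) (hs : s ≤ 1 / 2) :
    0 ≤ ((csum L : ℝ) - hsum N L (img (-s) u)) / s ^ 2 + p.val u :=
  wChk_gen (G' := []) hR hQ hP hok (by rw [List.append_nil]; exact h) h0 h1 hu hs
    fun _ _ _ _ he => absurd he List.not_mem_nil

end Vale.Agent.P154.Ly
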