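import Mathlib

/-!
Scalar bounds for the Poisson step: `exp (-z) - 1 + z` lies between `z ^ 2` times explicit
polynomials on `[0, 4]`.  The bounds follow from alternating Taylor polynomials and a
Bernstein sign test on finitely many subintervals.
-/

open scoped BigOperators

namespace Vale.Agent.P154.Ly.Scal

/-! ### Taylor polynomials of `exp (-z)` -/

/-- Taylor polynomial of `exp (-z)` with `n` terms. -/
noncomputable def tay : ℕ → ℝ → ℝ
  | 0, _ => 0
  | n + 1, z => tay n z + (-z) ^ n / (n.factorial : ℝ)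

lemma tay_succ_zero : ∀ n, tay (n + 1) 0 = 1
  | 0 => by simp [tay]
  | n + 1 => by rw [tay, tay_succ_zero n]; simp

lemma hasDerivAt_tay : ∀ (n : ℕ) (z : ℝ), HasDerivAt (tay (n + 1)) (-tay n z) z
  | 0, z => by
    have : tay 1 = fun _ => (1 : ℝ) := by funext z; simp [tay]
    rw [this]
    simpa [tay] using hasDerivAt_const z (1 : ℝ)
  | n + 1, z => by
    have h1 := hasDerivAt_tay n z
    have h2 : HasDerivAt (fun y : ℝ => (-y) ^ (n + 1) / ((n + 1).factorial : ℝ))
        (-((-z) ^ n / (n.factorial : ℝ))) z := by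
      have h := ((hasDerivAt_id z).neg.pow (n + 1)).div_const ((n + 1).factorial : ℝ)
      refine h.congr_deriv ?_
      have hn : (n.factorial : ℝ) ≠ 0 := Nat.cast_ne_zero.2 n.factorial_ne_zero
      simp only [Nat.factorial_succ, Nat.cast_mul, Nat.cast_add, Nat.cast_one, id_eq,
        Nat.add_sub_cancel, Pi.neg_apply]
      field_simp
    have := h1.add h2
    refine (this.congr_of_eventuallyEq (Filter.Eventually.of_forall fun y => rfl)).congr_deriv ?_
    simp only [tay]; ring

/-- The Taylor polynomials bound `exp (-z)` alternately. -/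
lemma tay_alt : ∀ (n : ℕ) {z : ℝ}, 0 ≤ z → 0 ≤ (-1 : ℝ) ^ n * (Real.exp (-z) - tay n z)
  | 0, z, _ => by simpa [tay] using (Real.exp_pos (-z)).le
  | n + 1, z, hz => by
    let g : ℝ → ℝ := fun y => (-1 : ℝ) ^ (n + 1) * (Real.exp (-y) - tay (n + 1) y)
    have hd : ∀ y, HasDerivAt g ((-1 : ℝ) ^ n * (Real.exp (-y) - tay n y)) y := fun y => by
      have h := (((hasDerivAt_id y).neg.exp).sub (hasDerivAt_tay n y)).const_mul
        ((-1 : ℝ) ^ (n + 1))
      refine h.congr_deriv ?_
      simp only [id_eq, pow_succ, Pi.neg_apply]; ring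
    have hm : MonotoneOn g (Set.Ici 0) := by
      refine monotoneOn_of_deriv_nonneg (convex_Ici 0)
        (fun y _ => (hd y).continuousAt.continuousWithinAt)
        (fun y _ => (hd y).differentiableAt.differentiableWithinAt) fun y hy => ?_
      rw [interior_Ici] at hy
      rw [(hd y).deriv]
      exact tay_alt n (le_of_lt hy)
    have := hm Set.self_mem_Ici hz hz
    simpa [g, tay_succ_zero] using this

lemma tay_le_exp {n : ℕ} (hn : Even n) {z : ℝ} (hz : 0 ≤ z) : tay n z ≤ Real.exp (-z) := by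
  have := tay_alt n hz
  rw [hn.neg_one_pow, one_mul] at this; linarith

lemma exp_le_tay {n : ℕ} (hn : Odd n) {z : ℝ} (hz : 0 ≤ z) : Real.exp (-z) ≤ tay n z := by
  have := tay_alt n hz
  rw [hn.neg_one_pow] at this; linarith

/-! ### Sign test for univariate integer polynomials -/

/-- Horner evaluation. -/
noncomputable def hev : List ℤ → ℝ → ℝ
  | [], _ => 0
  | c :: P, z => (c : ℝ) + z * hev P z

/-- Sum of coefficient lists. -/
def ladd : List ℤ → List ℤ → List ℤ
  | [], q => q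
  | a :: p, [] => a :: p
  | a :: p, b :: q => (a + b) :: ladd p q

/-- Multiple of a coefficient list. -/
def lsmul (k : ℤ) : List ℤ → List ℤ
  | [] => []
  | a :: p => k * a :: lsmul k p

/-- Product with `u + v t`. -/
def lmul (p : List ℤ) (u v : ℤ) : List ℤ := ladd (lsmul u p) (0 :: lsmul v p)

lemma hev_ladd : ∀ (p q : List ℤ) (z : ℝ), hev (ladd p q) z = hev p z + hev q z
  | [], q, z => by simp [ladd, hev]
  | a :: p, [], z => by simp [ladd, hev]
  | a :: p, b :: q, z => by simp only [ladd, hev, hev_ladd p q z]; push_cast; ring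

lemma hev_lsmul (k : ℤ) : ∀ (p : List ℤ) (z : ℝ), hev (lsmul k p) z = (k : ℝ) * hev p z
  | [], z => by simp [lsmul, hev]
  | a :: p, z => by simp only [lsmul, hev, hev_lsmul k p z]; push_cast; ring

lemma hev_lmul (p : List ℤ) (u v : ℤ) (z : ℝ) :
    hev (lmul p u v) z = ((u : ℝ) + (v : ℝ) * z) * hev p z := by
  simp only [lmul, hev_ladd, hev, hev_lsmul]; push_cast; ring

/-- The homogenised polynomial on the segment from `a` to `b` and the homogenising factor. -/
def hom (a b : ℤ) : List ℤ → List ℤ × List ℤ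
  | [] => ([], [1])
  | c :: D =>
    let r := hom a b D
    let W := lmul r.2 1 1
    (ladd (lsmul c W) (lmul r.1 a b), W)

lemma hev_hom (a b : ℤ) {t z : ℝ} (ht : 0 ≤ t) (h : z * (1 + t) = (a : ℝ) + (b : ℝ) * t) :
    ∀ D, hev (hom a b D).1 t = hev D z * hev (hom a b D).2 t ∧ 0 < hev (hom a b D).2 t
  | [] => by simp [hom, hev]
  | c :: D => by
    obtain ⟨h1, h2⟩ := hev_hom a b ht h D
    simp only [hom, hev, hev_ladd, hev_lsmul, hev_lmul, h1]
    push_cast
    refine ⟨?_, mul_pos (by linarith) h2⟩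
    linear_combination -(hev D z * hev (hom a b D).2 t) * h

/-- All coefficients are nonnegative. -/
def allNN : List ℤ → Bool
  | [] => true
  | c :: p => decide (0 ≤ c) && allNN p

lemma hev_nonneg : ∀ {p : List ℤ}, allNN p = true → ∀ {z : ℝ}, 0 ≤ z → 0 ≤ hev p z
  | [], _, z, _ => le_refl _
  | c :: p, h, z, hz => by
    simp only [allNN, Bool.and_eq_true, decide_eq_true_eq] at h
    exact add_nonneg (Int.cast_nonneg h.1) (mul_nonneg hz (hev_nonneg h.2 hz))

/-- Integer evaluation. -/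
def iev : List ℤ → ℤ → ℤ
  | [], _ => 0
  | c :: P, z => c + z * iev P z

lemma cast_iev : ∀ (P : List ℤ) (z : ℤ), ((iev P z : ℤ) : ℝ) = hev P (z : ℝ)
  | [], z => by simp [iev, hev]
  | c :: P, z => by simp [iev, hev, cast_iev P z]

/-- Nonnegativity on the consecutive segments between the listed points. -/
def chk (D : List ℤ) : ℤ → List ℤ → Bool
  | a, [] => decide (0 ≤ iev D a)
  | a, b :: ps => allNN (hom a b D).1 && decide (a ≤ b) && chk D b ps

/-- The last point. -/
def lastPt : ℤ → List ℤ → ℤ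
  | a, [] => a
  | _, b :: ps => lastPt b ps

theorem nonneg_of_chk (D : List ℤ) : ∀ (ps : List ℤ) (a : ℤ), chk D a ps = true →
    ∀ {z : ℝ}, (a : ℝ) ≤ z → z ≤ (lastPt a ps : ℝ) → 0 ≤ hev D z
  | [], a, h, z, h1, h2 => by
    simp only [chk, decide_eq_true_eq] at h
    rw [le_antisymm h2 h1, lastPt, ← cast_iev]
    exact Int.cast_nonneg h
  | b :: ps, a, h, z, h1, h2 => by
    simp only [chk, Bool.and_eq_true, decide_eq_true_eq] at h
    obtain ⟨⟨hc, _⟩, hr⟩ := h
    rcases lt_or_ge z (b : ℝ) with hz | hz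
    · have hbz : 0 < (b : ℝ) - z := by linarith
      have ht : 0 ≤ (z - a) / ((b : ℝ) - z) := div_nonneg (by linarith) hbz.le
      have he : z * (1 + (z - a) / ((b : ℝ) - z)) =
          (a : ℝ) + (b : ℝ) * ((z - a) / ((b : ℝ) - z)) := by
        field_simp; ring
      obtain ⟨e1, e2⟩ := hev_hom a b ht he D
      have := hev_nonneg hc ht
      rw [e1] at this
      exact nonneg_of_mul_nonneg_left this e2
    · exact nonneg_of_chk D ps b hr hz h2

/-- Coefficients in the variable `M z`. -/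
def scaleC (M : ℤ) : List ℤ → List ℤ
  | [] => []
  | c :: D => c * M ^ D.length :: scaleC M D

lemma hev_scaleC (M : ℤ) (z : ℝ) :
    ∀ D, (M : ℝ) * hev (scaleC M D) ((M : ℝ) * z) = (M : ℝ) ^ D.length * hev D z
  | [] => by simp [scaleC, hev]
  | c :: D => by
    simp only [scaleC, hev, List.length_cons, pow_succ]
    push_cast
    linear_combination ((M : ℝ) * z) * hev_scaleC M z D

/-! ### The bounds -/

/-- `20! * 10 ^ 8` times the lower Taylor polynomial of `(exp (-z) - 1 + z) / z ^ 2`. -/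
def taylo : List ℤ := (List.range 18).map fun k : ℕ =>
  (-1) ^ k * 100000000 * ((Nat.factorial 20 / Nat.factorial (k + 2) : ℕ) : ℤ)

/-- `20! * 10 ^ 8` times the upper Taylor polynomial of `(exp (-z) - 1 + z) / z ^ 2`. -/
def tayup : List ℤ := taylo.take 17

/-- The test that `P / 10 ^ 8` is a lower bound. -/
def chkLo (M : ℕ) (pts : List ℤ) (P : List ℤ) : Bool :=
  Nat.blt 0 M && decide (lastPt 0 pts = 4 * (M : ℤ)) &&
    chk (scaleC M (ladd taylo (lsmul (-(Nat.factorial 20 : ℕ)) P))) 0 pts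

/-- The test that `P / 10 ^ 8` is an upper bound. -/
def chkUp (M : ℕ) (pts : List ℤ) (P : List ℤ) : Bool :=
  Nat.blt 0 M && decide (lastPt 0 pts = 4 * (M : ℤ)) &&
    chk (scaleC M (ladd (lsmul (Nat.factorial 20 : ℕ) P) (lsmul (-1) tayup))) 0 pts

lemma taylo_eval (z : ℝ) : z ^ 2 * hev taylo z =
    100000000 * (Nat.factorial 20 : ℕ) * (tay 20 z - 1 + z) := by
  simp [taylo, List.range_succ, hev, tay, Nat.factorial]
  ring

lemma tayup_eval (z : ℝ) : z ^ 2 * hev tayup z =
    100000000 * (Nat.factorial 20 : ℕ) * (tay 19 z - 1 + z) := by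
  simp [tayup, taylo, List.range_succ, hev, tay, Nat.factorial]
  ring

lemma nonneg_of_chk_scale {D : List ℤ} {M : ℕ} {pts : List ℤ}
    (h : (Nat.blt 0 M && decide (lastPt 0 pts = 4 * (M : ℤ)) && chk (scaleC M D) 0 pts) = true)
    {z : ℝ} (h0 : 0 ≤ z) (h4 : z ≤ 4) : 0 ≤ hev D z := by
  simp only [Bool.and_eq_true, decide_eq_true_eq, Nat.blt, Nat.ble_eq] at h
  obtain ⟨⟨hM, hl⟩, hc⟩ := h
  have hMr : (0 : ℝ) < ((M : ℤ) : ℝ) := by exact_mod_cast hM
  have hn := nonneg_of_chk (scaleC (M : ℤ) D) pts 0 hc (z := ((M : ℤ) : ℝ) * z)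
    (by simpa using mul_nonneg hMr.le h0) (by rw [hl]; push_cast; nlinarith)
  have := hev_scaleC (M : ℤ) z D
  have hp : (0 : ℝ) < ((M : ℤ) : ℝ) ^ D.length := pow_pos hMr _
  exact nonneg_of_mul_nonneg_right (this ▸ mul_nonneg hMr.le hn) hp

/-- A checked list gives a lower bound for `exp (-z) - 1 + z`. -/
theorem lower_of_chk {M : ℕ} {pts P : List ℤ} (h : chkLo M pts P = true) {z : ℝ} (h0 : 0 ≤ z)
    (h4 : z ≤ 4) : z ^ 2 * (hev P z / 100000000) ≤ Real.exp (-z) - 1 + z := by
  have hn := nonneg_of_chk_scale h h0 h4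
  have e := taylo_eval z
  have ht := tay_le_exp (n := 20) (by decide) h0
  rw [hev_ladd, hev_lsmul] at hn
  push_cast at hn
  have hF : (0 : ℝ) < (Nat.factorial 20 : ℕ) := Nat.cast_pos.2 (Nat.factorial_pos _)
  generalize ((Nat.factorial 20 : ℕ) : ℝ) = F at hn e hF
  have h1 : z ^ 2 * (F * hev P z) ≤ 100000000 * F * (tay 20 z - 1 + z) := by
    rw [← e]; exact mul_le_mul_of_nonneg_left (by linarith) (sq_nonneg z)
  have h2 : z ^ 2 * hev P z ≤ 100000000 * (tay 20 z - 1 + z) :=
    le_of_mul_le_mul_left (a := F) (by nlinarith) hF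
  linarith

/-- A checked list gives an upper bound for `exp (-z) - 1 + z`. -/
theorem upper_of_chk {M : ℕ} {pts P : List ℤ} (h : chkUp M pts P = true) {z : ℝ} (h0 : 0 ≤ z)
    (h4 : z ≤ 4) : Real.exp (-z) - 1 + z ≤ z ^ 2 * (hev P z / 100000000) := by
  have hn := nonneg_of_chk_scale h h0 h4
  have e := tayup_eval z
  have ht := exp_le_tay (n := 19) (by decide) h0
  rw [hev_ladd, hev_lsmul, hev_lsmul] at hn
  push_cast at hn
  have hF : (0 : ℝ) < (Nat.factorial 20 : ℕ) := Nat.cast_pos.2 (Nat.factorial_pos _)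
  generalize ((Nat.factorial 20 : ℕ) : ℝ) = F at hn e hF
  have h1 : 100000000 * F * (tay 19 z - 1 + z) ≤ z ^ 2 * (F * hev P z) := by
    rw [← e]; exact mul_le_mul_of_nonneg_left (by linarith) (sq_nonneg z)
  have h2 : 100000000 * (tay 19 z - 1 + z) ≤ z ^ 2 * hev P z :=
    le_of_mul_le_mul_left (a := F) (by nlinarith) hF
  linarith

/-- Lower bound of degree four. -/
def lo4 : List ℤ := [49974826, -16505792, 3825808, -562876, 37967]
/-- Upper bound of degree four. -/
def up4 : List ℤ := [50000372, -16505792, 3825808, -562876, 37967]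
/-- Lower bound of degree five. -/
def lo5 : List ℤ := [49997023, -16640354, 4087155, -742119, 88412, -4986]
/-- Upper bound of degree five. -/
def up5 : List ℤ := [50000120, -16640354, 4087155, -742119, 88412, -4986]

/-- Within `3e-4` of each other. -/
theorem exp_bounds4 {z : ℝ} (h0 : 0 ≤ z) (h4 : z ≤ 4) :
    z ^ 2 * (hev lo4 z / 100000000) ≤ Real.exp (-z) - 1 + z ∧
      Real.exp (-z) - 1 + z ≤ z ^ 2 * (hev up4 z / 100000000) :=
  ⟨lower_of_chk (M := 2) (pts := [1, 2, 4, 8]) (by decide +kernel) h0 h4,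
    upper_of_chk (M := 1) (pts := [2, 4]) (by decide +kernel) h0 h4⟩

/-- Within `4e-5` of each other. -/
theorem exp_bounds5 {z : ℝ} (h0 : 0 ≤ z) (h4 : z ≤ 4) :
    z ^ 2 * (hev lo5 z / 100000000) ≤ Real.exp (-z) - 1 + z ∧
      Real.exp (-z) - 1 + z ≤ z ^ 2 * (hev up5 z / 100000000) :=
  ⟨lower_of_chk (M := 2) (pts := [1, 2, 4, 6, 8]) (by decide +kernel) h0 h4,
    upper_of_chk (M := 1) (pts := [1, 2, 4]) (by decide +kernel) h0 h4⟩

end Vale.Agent.P154.Ly.Scal
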