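import Vale.Agent.P154.LyStep
import Vale.Agent.P154.LyScal

/-!
A decidable certificate for the scalar inequality of a drop: a tree of boxes for the mean
coordinates, with lower lines for `c exp (-t)` on every leaf and multipliers for the facets.
All data and all computations are in integers.
-/

open scoped BigOperators

namespace Vale.Agent.P154.Ly

variable {m N : ℕ}

/-! ### Facets -/

/-- An affine inequality `0 ≤ ∑ e_j z_(j+1) + c1 z_0 + c0` on the mean coordinates. -/
structure Facet (m : ℕ) where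
  /-- coefficients of the affinity coordinates -/
  e : Fin m → ℤ
  /-- coefficient of the second moment -/
  c1 : ℤ
  /-- constant -/
  c0 : ℤ

/-- The polynomial part of the image form of a facet. -/
def Facet.p (f : Facet m) : P4 := ⟨f.c0, f.c1, 0, 0⟩

/-- The affine function of a facet. -/
noncomputable def Facet.eval (f : Facet m) (z : Fin (m + 1) → ℝ) : ℝ :=
  ∑ j, (f.e j : ℝ) * z j.succ + ((f.c1 : ℝ) * z 0 + (f.c0 : ℝ))

/-- A facet holds at a point. -/
def Facet.holds (f : Facet m) (z : Fin (m + 1) → ℝ) : Prop := 0 ≤ f.eval z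

/-- The region of the mean coordinates: nonnegative and inside all facets. -/
def XF (Fs : List (Facet m)) (z : Fin (m + 1) → ℝ) : Prop :=
  (∀ i, 0 ≤ z i) ∧ ∀ f ∈ Fs, f.holds z

/-- Image forms which are nonnegative on the simplex put every mean inside their facets. -/
theorem xf_of_forms {ks : Fin m → Tri} {Fs : List (Facet m)} {s : ℝ} (hN : 0 < N)
    (hk : ∀ j, ∑ i, tri (ks j) i = N) (hs : s ≤ 1 / 2) (hs0 : 0 < s)
    (hF : ∀ f ∈ Fs, ∀ u, InS u →
      0 ≤ ((csum (pairs ks f.e) : ℝ) - hsum N (pairs ks f.e) (img (-s) u)) / s ^ 2 + f.p.val u) :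
    ∀ E, IsLaw E → XF Fs fun i => E (coord N ks s i) := by
  classical
  intro E hE
  have hFb := bdd_coord hN ks hk hs hs0.le
  refine ⟨fun i => hE.nonneg (hFb i) fun u hu => ?_, fun f hf => ?_⟩
  · refine Fin.cases ?_ (fun j => ?_) i
    · simpa [coord] using (sq_mem hu).1
    · simp only [coord, Fin.cons_succ]
      exact mul_nonneg (by positivity)
        (TestFn.nonneg (testFn_defect_img hN (hk j) (by linarith) (by linarith)) hu)
  · have b1 : Bdd fun u => ∑ j, (f.e j : ℝ) * coord N ks s j.succ u :=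
      bdd_sum _ fun j _ => (hFb j.succ).smul _
    have b2 : Bdd fun u => (f.c1 : ℝ) * coord N ks s 0 u := (hFb 0).smul _
    have h := hE.nonneg (b1.add (b2.add (bdd_const (f.c0 : ℝ)))) fun u hu => by
      have := hF f hf u hu
      rw [wterm_eq] at this
      simp only [Facet.p, P4.val, Int.cast_zero] at this
      rw [show coord N ks s 0 u = sq u by simp [coord]]
      linarith
    rw [hE.add _ _ b1 (b2.add (bdd_const _)), hE.add _ _ b2 (bdd_const _), hE.const,
      hE.comb Finset.univ _ (φ := fun j : Fin m => coord N ks s j.succ) (fun j => hFb j.succ),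
      hE.smul _ _ (hFb 0)] at h
    exact h

/-- A nonnegative integer combination of facets, as one facet. -/
def fcomb : List (Facet m × ℕ) → Facet m
  | [] => ⟨fun _ => 0, 0, 0⟩
  | (f, w) :: r =>
    ⟨fun j => (w : ℤ) * f.e j + (fcomb r).e j, (w : ℤ) * f.c1 + (fcomb r).c1,
      (w : ℤ) * f.c0 + (fcomb r).c0⟩

lemma fcomb_holds {z : Fin (m + 1) → ℝ} :
    ∀ L : List (Facet m × ℕ), (∀ q ∈ L, q.1.holds z) → (fcomb L).holds z
  | [], _ => by simp [fcomb, Facet.holds, Facet.eval]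
  | (f, w) :: r, h => by
    have h1 : 0 ≤ f.eval z := h (f, w) (List.mem_cons_self ..)
    have h2 : 0 ≤ (fcomb r).eval z :=
      fcomb_holds r fun q hq => h q (List.mem_cons_of_mem _ hq)
    have e : (fcomb ((f, w) :: r)).eval z = (w : ℝ) * f.eval z + (fcomb r).eval z := by
      simp only [fcomb, Facet.eval, Int.cast_add, Int.cast_mul, Int.cast_natCast, add_mul,
        mul_assoc, Finset.sum_add_distrib, ← Finset.mul_sum]
      ring
    rw [Facet.holds, e]
    exact add_nonneg (mul_nonneg (Nat.cast_nonneg w) h1) h2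

/-! ### Integer bounds for `exp (-T / d)` -/

/-- Horner recursion for the Taylor polynomials: positive part, negative part, denominator. -/
def horner (T d : ℕ) : ℕ → ℕ → ℕ → ℕ → ℕ × ℕ × ℕ
  | 0, A, B, F => (A, B, F)
  | n + 1, A, B, F =>
    horner T d n (Nat.add (Nat.mul F (Nat.mul n.succ d)) (Nat.mul T B)) (Nat.mul T A)
      (Nat.mul F (Nat.mul n.succ d))

lemma horner_spec (T : ℕ) {d : ℕ} (hd : 0 < d) : ∀ n A B F, ∃ P R Q : ℕ,
    horner T d n A B F = (P, R, Q) ∧
    (Q : ℝ) = (F : ℝ) * ((n.factorial : ℝ) * (d : ℝ) ^ n) ∧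
    (P : ℝ) - R = (Q : ℝ) * Scal.tay n ((T : ℝ) / d) + ((A : ℝ) - B) * (-(T : ℝ)) ^ n
  | 0, A, B, F => ⟨A, B, F, rfl, by simp, by simp [Scal.tay]⟩
  | n + 1, A, B, F => by
    obtain ⟨P, R, Q, e, hQ, hP⟩ := horner_spec T hd n (Nat.add (Nat.mul F (Nat.mul n.succ d))
      (Nat.mul T B)) (Nat.mul T A) (Nat.mul F (Nat.mul n.succ d))
    simp only [Nat.add_eq, Nat.mul_eq, Nat.succ_eq_add_one] at e hQ hP
    push_cast at hQ hP
    refine ⟨P, R, Q, by simpa [horner] using e, ?_, ?_⟩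
    · rw [hQ, Nat.factorial_succ]
      push_cast
      ring
    · rw [show Scal.tay (n + 1) ((T : ℝ) / d) = Scal.tay n ((T : ℝ) / d)
        + (-((T : ℝ) / d)) ^ n / (n.factorial : ℝ) from rfl]
      have hd' : (d : ℝ) ≠ 0 := by positivity
      have hf : (n.factorial : ℝ) ≠ 0 := Nat.cast_ne_zero.2 (Nat.factorial_ne_zero _)
      rw [hP, mul_add, add_assoc]
      congr 1
      rw [hQ, ← neg_div, div_pow]
      field_simp
      ring

/-- `max 0 x`, cheap in the kernel. -/
def ipos : ℤ → ℤ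
  | .ofNat n => .ofNat n
  | .negSucc _ => 0

/-- `min a b`, cheap in the kernel. -/
def imin (a b : ℤ) : ℤ :=
  match b - a with
  | .ofNat _ => a
  | .negSucc _ => b

lemma ipos_eq : ∀ x, ipos x = max 0 x
  | .ofNat n => (max_eq_right (Int.natCast_nonneg n)).symm
  | .negSucc n => (max_eq_left (Int.negSucc_lt_zero n).le).symm

lemma imin_eq (a b : ℤ) : imin a b = min a b := by
  unfold imin
  split
  · rename_i k hk
    rw [Int.ofNat_eq_natCast] at hk
    exact (min_eq_left (by omega)).symm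
  · rename_i k hk
    exact (min_eq_right (by omega)).symm

/-- Lower and upper bounds for `D exp (-T / d)` from `2 n + 2` and `2 n + 1` terms. -/
def expI (D : ℕ) (n : ℕ) (T : ℤ) (d : ℕ) : ℤ × ℤ :=
  match horner T.toNat d (2 * n + 1) 1 0 1 with
  | (P, R, Q) =>
    (ipos ((D : ℤ) * ((P : ℤ) - R) / (Q : ℤ)),
      imin (D : ℤ) (-(-((D : ℤ) * ((P : ℤ) - R + (T.toNat ^ (2 * n + 1) : ℕ))) / (Q : ℤ))))

lemma ediv_le_real {a b : ℤ} {x : ℝ} (hb : 0 < b) (h : (a : ℝ) ≤ x * (b : ℝ)) :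
    ((a / b : ℤ) : ℝ) ≤ x := by
  have h1 : ((a / b : ℤ) : ℝ) * (b : ℝ) ≤ (a : ℝ) := by
    exact_mod_cast Int.ediv_mul_le a hb.ne'
  exact le_of_mul_le_mul_right (h1.trans h) (by exact_mod_cast hb)

lemma le_ceil_real {a b : ℤ} {x : ℝ} (hb : 0 < b) (h : x * (b : ℝ) ≤ (a : ℝ)) :
    x ≤ ((-(-a / b) : ℤ) : ℝ) := by
  have := ediv_le_real (a := -a) (x := -x) hb (by push_cast; linarith)
  push_cast
  linarith

lemma expI_spec (D n : ℕ) {T : ℤ} {d : ℕ} (hd : 0 < d) (hT : 0 ≤ T) :
    ((expI D n T d).1 : ℝ) ≤ (D : ℝ) * Real.exp (-((T : ℝ) / d)) ∧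
      (D : ℝ) * Real.exp (-((T : ℝ) / d)) ≤ ((expI D n T d).2 : ℝ) := by
  lift T to ℕ using hT
  obtain ⟨P, R, Q, e, hQ, hP⟩ := horner_spec T hd (2 * n + 1) 1 0 1
  simp only [Nat.cast_one, Nat.cast_zero, sub_zero, one_mul] at hQ hP
  have hQ0 : (0 : ℤ) < (Q : ℤ) := by
    have : (0 : ℝ) < (Q : ℝ) := by rw [hQ]; positivity
    exact_mod_cast this
  simp only [Int.cast_natCast]
  set z : ℝ := (T : ℝ) / d with hz
  have hz0 : 0 ≤ z := by positivity
  have hlo := Scal.tay_le_exp (n := 2 * n + 1 + 1) ⟨n + 1, by omega⟩ hz0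
  have hup := Scal.exp_le_tay (n := 2 * n + 1) ⟨n, rfl⟩ hz0
  have hodd : (-(T : ℝ)) ^ (2 * n + 1) = -(T : ℝ) ^ (2 * n + 1) := Odd.neg_pow ⟨n, rfl⟩ _
  have hPw : (P : ℝ) - R + (T : ℝ) ^ (2 * n + 1) = (Q : ℝ) * Scal.tay (2 * n + 1) z := by
    linarith
  have hP1 : (P : ℝ) - R = (Q : ℝ) * Scal.tay (2 * n + 1 + 1) z := by
    rw [hP, show Scal.tay (2 * n + 1 + 1) z = Scal.tay (2 * n + 1) z
      + (-z) ^ (2 * n + 1) / ((2 * n + 1).factorial : ℝ) from rfl, hQ, hz]
    have hd' : (d : ℝ) ≠ 0 := by positivity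
    have hf : ((2 * n + 1).factorial : ℝ) ≠ 0 := Nat.cast_ne_zero.2 (Nat.factorial_ne_zero _)
    rw [mul_add, ← neg_div ((d : ℝ)), div_pow]
    field_simp
  have hD : (0 : ℝ) ≤ D := Nat.cast_nonneg D
  have hQr : (0 : ℝ) ≤ (Q : ℝ) := Nat.cast_nonneg Q
  simp only [expI, ipos_eq, imin_eq, Int.toNat_natCast, e]
  refine ⟨?_, ?_⟩
  · push_cast
    refine max_le (by positivity) (ediv_le_real hQ0 ?_)
    push_cast
    rw [hP1, mul_right_comm (D : ℝ) _ (Q : ℝ), mul_assoc]
    exact mul_le_mul_of_nonneg_left (mul_le_mul_of_nonneg_left hlo hQr) hD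
  · rw [Int.cast_min]
    refine le_min ?_ (le_ceil_real hQ0 ?_)
    · have : Real.exp (-z) ≤ 1 := Real.exp_le_one_iff.2 (by linarith)
      push_cast
      exact mul_le_of_le_one_right hD this
    · push_cast
      rw [hPw, mul_right_comm (D : ℝ) _ (Q : ℝ), mul_assoc]
      exact mul_le_mul_of_nonneg_left (mul_le_mul_of_nonneg_left hup hQr) hD

/-! ### Lower lines -/

/-- The intercept of a line of slope `be` below the values `V / d` and `W / d` at the two ends. -/
def icpt (d : ℕ) (be lo hi V W : ℤ) : ℤ := imin ((V - be * lo) / (d : ℤ)) ((W - be * hi) / (d : ℤ))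

/-- A line below `D c exp (-t)` for `lo ≤ t d ≤ hi`: the chord for `c < 0`, the tangent at
`T0 / d` for `c > 0`. -/
def eline (D n : ℕ) (d : ℕ) (c lo hi T0 : ℤ) : ℤ × ℤ :=
  if c = 0 then (0, 0)
  else if c < 0 then
    let V := c * (expI D n lo d).2 * (d : ℤ)
    let W := c * (expI D n hi d).2 * (d : ℤ)
    let be := (W - V) / (hi - lo)
    (icpt d be lo hi V W, be)
  else
    let E := expI D n (ipos T0) d
    let be := -(c * E.1)
    let x := (d : ℤ) + ipos T0 - lo
    let y := (d : ℤ) + ipos T0 - hi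
    (icpt d be lo hi (c * imin (E.1 * x) (E.2 * x)) (c * imin (E.1 * y) (E.2 * y)), be)

lemma icpt_spec {d : ℕ} (hd : 0 < d) (be lo hi V W : ℤ) :
    (icpt d be lo hi V W : ℝ) + be * ((lo : ℝ) / d) ≤ (V : ℝ) / d ∧
      (icpt d be lo hi V W : ℝ) + be * ((hi : ℝ) / d) ≤ (W : ℝ) / d := by
  have hd' : (0 : ℝ) < d := by exact_mod_cast hd
  have hdz : (0 : ℤ) < d := by exact_mod_cast hd
  have key : ∀ X V : ℤ, (((V - be * X) / (d : ℤ) : ℤ) : ℝ) + be * ((X : ℝ) / d) ≤ (V : ℝ) / d := by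
    intro X V
    have h := ediv_le_real (a := V - be * X) (x := (V : ℝ) / d - be * ((X : ℝ) / d)) hdz (by
      push_cast
      field_simp
      ring_nf
      rfl)
    linarith
  simp only [icpt, imin_eq, Int.cast_min]
  exact ⟨le_trans (add_le_add (min_le_left _ _) le_rfl) (key lo V),
    le_trans (add_le_add (min_le_right _ _) le_rfl) (key hi W)⟩

lemma affine_nonneg {a b lo hi t : ℝ} (h0 : 0 ≤ a + b * lo) (h1 : 0 ≤ a + b * hi) (h2 : lo ≤ t)
    (h3 : t ≤ hi) : 0 ≤ a + b * t := by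
  rcases le_total 0 b with hb | hb
  · linarith [mul_le_mul_of_nonneg_left h2 hb]
  · linarith [mul_le_mul_of_nonpos_left h3 hb]

/-- The lines are lower bounds. -/
theorem eline_spec (D n : ℕ) {d : ℕ} (hd : 0 < d) (c : ℤ) {lo hi : ℤ} (T0 : ℤ) (hlo : 0 ≤ lo)
    {t : ℝ} (h1 : (lo : ℝ) ≤ t * d) (h2 : t * d ≤ hi) :
    ((eline D n d c lo hi T0).1 : ℝ) + ((eline D n d c lo hi T0).2 : ℝ) * t
      ≤ (D : ℝ) * c * Real.exp (-t) := by
  have hd' : (0 : ℝ) < d := by exact_mod_cast hd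
  have t1 : (lo : ℝ) / d ≤ t := by rw [div_le_iff₀ hd']; exact h1
  have t2 : t ≤ (hi : ℝ) / d := by rw [le_div_iff₀ hd']; exact h2
  have hhi : 0 ≤ hi := by
    have : (lo : ℝ) ≤ hi := h1.trans h2
    exact hlo.trans (by exact_mod_cast this)
  rcases lt_trichotomy c 0 with hc | hc | hc
  · simp only [eline, hc.ne, hc, if_false, if_true]
    have hcr : (c : ℝ) ≤ 0 := by exact_mod_cast hc.le
    set V := c * (expI D n lo d).2 * (d : ℤ) with hV
    set W := c * (expI D n hi d).2 * (d : ℤ) with hW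
    obtain ⟨a1, a2⟩ := icpt_spec hd ((W - V) / (hi - lo)) lo hi V W
    refine line_le_exp_of_nonpos (mul_nonpos_of_nonneg_of_nonpos (Nat.cast_nonneg D) hcr) t1 t2
      (a1.trans ?_) (a2.trans ?_)
    · rw [hV]
      push_cast
      rw [mul_div_cancel_right₀ _ hd'.ne', mul_comm (D : ℝ) (c : ℝ), mul_assoc]
      exact mul_le_mul_of_nonpos_left (expI_spec D n hd hlo).2 hcr
    · rw [hW]
      push_cast
      rw [mul_div_cancel_right₀ _ hd'.ne', mul_comm (D : ℝ) (c : ℝ), mul_assoc]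
      exact mul_le_mul_of_nonpos_left (expI_spec D n hd hhi).2 hcr
  · simp [eline, hc]
  · simp only [eline, ipos_eq, imin_eq, hc.ne', not_lt.2 hc.le, if_false]
    have hcr : (0 : ℝ) ≤ c := by exact_mod_cast hc.le
    set T := max 0 T0 with hTdef
    obtain ⟨eL, eU⟩ := expI_spec D n hd (T := T) (le_max_left _ _)
    set E := expI D n T d
    set be := -(c * E.1) with hbe
    set V := c * min (E.1 * ((d : ℤ) + T - lo)) (E.2 * ((d : ℤ) + T - lo)) with hV
    set W := c * min (E.1 * ((d : ℤ) + T - hi)) (E.2 * ((d : ℤ) + T - hi)) with hW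
    obtain ⟨a1, a2⟩ := icpt_spec hd be lo hi V W
    set G : ℝ := (D : ℝ) * c * Real.exp (-((T : ℝ) / d)) with hG
    have hend : ∀ X : ℤ,
        ((c * min (E.1 * ((d : ℤ) + T - X)) (E.2 * ((d : ℤ) + T - X)) : ℤ) : ℝ) / d
          ≤ G * (1 + (T : ℝ) / d - (X : ℝ) / d) := by
      intro X
      rw [div_le_iff₀ hd', hG]
      push_cast
      have e : (D : ℝ) * c * Real.exp (-((T : ℝ) / d)) * (1 + (T : ℝ) / d - (X : ℝ) / d) * d
          = (c : ℝ) * ((D : ℝ) * Real.exp (-((T : ℝ) / d)) * ((d : ℝ) + T - X)) := by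
        field_simp
      rw [e]
      refine mul_le_mul_of_nonneg_left ?_ hcr
      rcases le_total 0 ((d : ℝ) + T - X) with hx | hx
      · exact (min_le_left _ _).trans (mul_le_mul_of_nonneg_right eL hx)
      · exact (min_le_right _ _).trans (mul_le_mul_of_nonpos_right eU hx)
    have q1 := a1.trans (hend lo)
    have q2 := a2.trans (hend hi)
    have hmid := affine_nonneg (a := G * (1 + (T : ℝ) / d) - (icpt d be lo hi V W : ℝ))
      (b := -G - (be : ℝ)) (by linarith) (by linarith) t1 t2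
    have htan := line_le_exp_of_nonneg (c := (D : ℝ) * c) (z0 := (T : ℝ) / d)
      (mul_nonneg (Nat.cast_nonneg D) hcr) t
    rw [hG] at hmid
    linarith

/-! ### The tree -/

/-- A tree of boxes. A leaf lists multipliers for the facets, in units of `1 / D`, and tangent
points in units of `1 / d`; a missing point is the middle of the interval. A cut at `v` has first
the part below and then the part above. -/
inductive STree (m : ℕ) where
  /-- a leaf -/
  | leaf (nu : List ℕ) (pts : List ℤ)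
  /-- a cut of one coordinate -/
  | cut (i : Fin (m + 1)) (v : ℤ) (below above : STree m)

/-- A box is empty, or the certificate bounds the difference on it. -/
def Step.leafChk (S : Step m) (Fs : List (Facet m)) (D n d : ℕ) (nu : List ℕ) (pts : List ℤ)
    (lo hi : Fin (m + 1) → ℤ) : Bool :=
  decide (∃ i, hi i < ipos (lo i)) ||
    let F := fcomb (Fs.zip nu)
    let r0 := -((D : ℤ) * S.A 0) - F.c1
    decide (0 ≤ (-((D : ℤ) * S.A0) - F.c0) * (d : ℤ) + imin (r0 * ipos (lo 0)) (r0 * hi 0)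
      + ∑ j : Fin m,
        match eline D n d (S.c j) (ipos (lo j.succ)) (hi j.succ)
            (pts.getD j.val ((ipos (lo j.succ) + hi j.succ) / 2)) with
        | (al, be) =>
          let r := be - (D : ℤ) * S.A j.succ - F.e j
          al * (d : ℤ) + imin (r * ipos (lo j.succ)) (r * hi j.succ))

/-- All leaves of a tree are checked. -/
def Step.treeChk (S : Step m) (Fs : List (Facet m)) (D n d : ℕ) :
    STree m → (Fin (m + 1) → ℤ) → (Fin (m + 1) → ℤ) → Bool
  | .leaf nu pts, lo, hi => S.leafChk Fs D n d nu pts lo hi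
  | .cut i v b a, lo, hi =>
    S.treeChk Fs D n d b lo (Function.update hi i v)
      && S.treeChk Fs D n d a (Function.update lo i v) hi

/-- The certificate of a scalar inequality: boxes are in units of `1 / (dh r)`, exponentials are
rounded to `1 / 2 ^ K` after about `2 n` terms. -/
def Step.scalarChk (S : Step m) (dh : ℕ) (H : Fin (m + 1) → ℤ) (Fs : List (Facet m))
    (r n K : ℕ) (T : STree m) : Bool :=
  decide (0 < dh * r)
    && S.treeChk Fs (2 ^ K) n (dh * r) T (fun i => if i = S.a then S.L * r else 0)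
      (fun i => H i * r)

lemma min_le_mul {r lo hi : ℤ} {x : ℝ} (h1 : (lo : ℝ) ≤ x) (h2 : x ≤ hi) :
    ((min (r * lo) (r * hi) : ℤ) : ℝ) ≤ r * x := by
  push_cast
  rcases le_total (0 : ℝ) r with hr | hr
  · exact (min_le_left _ _).trans (mul_le_mul_of_nonneg_left h1 hr)
  · exact (min_le_right _ _).trans (mul_le_mul_of_nonpos_left h2 hr)

lemma Step.leaf_sound (S : Step m) {Fs : List (Facet m)} {D n d : ℕ} {nu : List ℕ}
    {pts : List ℤ} {lo hi : Fin (m + 1) → ℤ} (hD : 0 < D) (hd : 0 < d)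
    (h : S.leafChk Fs D n d nu pts lo hi = true) {z : Fin (m + 1) → ℝ}
    (hlo : ∀ i, (lo i : ℝ) ≤ z i * d) (hhi : ∀ i, z i * d ≤ hi i) (hX : XF Fs z) :
    (S.A0 : ℝ) + ∑ i, (S.A i : ℝ) * z i ≤ ∑ j, (S.c j : ℝ) * Real.exp (-(z j.succ)) := by
  have hd' : (0 : ℝ) < d := by exact_mod_cast hd
  have hlo' : ∀ i, ((max 0 (lo i) : ℤ) : ℝ) ≤ z i * d := fun i => by
    push_cast
    exact max_le (mul_nonneg (hX.1 i) hd'.le) (hlo i)
  simp only [Step.leafChk, ipos_eq, imin_eq, Bool.or_eq_true, decide_eq_true_eq] at h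
  rcases h with ⟨i, hi'⟩ | h
  · have h' : ((hi i : ℤ) : ℝ) < ((max 0 (lo i) : ℤ) : ℝ) := by exact_mod_cast hi'
    exact absurd ((hlo' i).trans (hhi i)) (not_le.2 h')
  have hF := fcomb_holds (z := z) (Fs.zip nu) fun q hq => hX.2 q.1 (List.of_mem_zip hq).1
  set F := fcomb (Fs.zip nu)
  rw [Facet.holds, Facet.eval] at hF
  set ln : Fin m → ℤ × ℤ := fun j => eline D n d (S.c j) (max 0 (lo j.succ)) (hi j.succ)
    (pts.getD j.val ((max 0 (lo j.succ) + hi j.succ) / 2)) with hln
  set r0 := -((D : ℤ) * S.A 0) - F.c1 with hr0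
  have hsum : (0 : ℝ) ≤ ((-((D : ℝ) * S.A0) - F.c0) * d)
      + (r0 : ℝ) * (z 0 * d)
      + ∑ j, (((ln j).1 : ℝ) * d
        + (((ln j).2 : ℝ) - (D : ℝ) * S.A j.succ - F.e j) * (z j.succ * d)) := by
    have hc := (Int.cast_le (R := ℝ)).2 h
    push_cast at hc
    refine hc.trans (add_le_add (add_le_add le_rfl ?_) (Finset.sum_le_sum fun j _ => ?_))
    · have := min_le_mul (r := r0) (hlo' 0) (hhi 0)
      push_cast at this
      exact this
    · have := min_le_mul (r := (ln j).2 - (D : ℤ) * S.A j.succ - F.e j) (hlo' j.succ)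
        (hhi j.succ)
      simp only [hln] at this ⊢
      push_cast at this ⊢
      linarith
  have hL : ∀ j, ((ln j).1 : ℝ) + ((ln j).2 : ℝ) * z j.succ
      ≤ (D : ℝ) * S.c j * Real.exp (-(z j.succ)) := fun j =>
    eline_spec D n hd (S.c j) _ (le_max_left _ _) (hlo' j.succ) (hhi j.succ)
  have hsum' : (0 : ℝ) ≤ (-((D : ℝ) * S.A0) - F.c0) + (r0 : ℝ) * z 0
      + ∑ j, (((ln j).1 : ℝ)
        + (((ln j).2 : ℝ) - (D : ℝ) * S.A j.succ - F.e j) * z j.succ) := by
    refine nonneg_of_mul_nonneg_right (a := (d : ℝ)) (le_of_le_of_eq hsum ?_) hd'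
    rw [mul_add, mul_add, Finset.mul_sum]
    refine congrArg₂ (· + ·) (by ring) (Finset.sum_congr rfl fun j _ => by ring)
  simp only [hr0, sub_mul, ← add_sub_assoc, Finset.sum_sub_distrib] at hsum'
  push_cast at hsum'
  have hS := Finset.sum_le_sum fun j (_ : j ∈ Finset.univ) => hL j
  simp only [mul_assoc, ← Finset.mul_sum] at hS hsum'
  rw [Fin.sum_univ_succ]
  refine le_of_mul_le_mul_left ?_ (show (0 : ℝ) < D by exact_mod_cast hD)
  linarith

lemma Step.tree_sound (S : Step m) {Fs : List (Facet m)} {D n d : ℕ} (hD : 0 < D) (hd : 0 < d) :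
    ∀ (T : STree m) (lo hi : Fin (m + 1) → ℤ), S.treeChk Fs D n d T lo hi = true →
      ∀ z : Fin (m + 1) → ℝ, (∀ i, (lo i : ℝ) ≤ z i * d) → (∀ i, z i * d ≤ hi i) → XF Fs z →
        (S.A0 : ℝ) + ∑ i, (S.A i : ℝ) * z i ≤ ∑ j, (S.c j : ℝ) * Real.exp (-(z j.succ))
  | .leaf nu pts, lo, hi, h, z, hlo, hhi, hX => S.leaf_sound hD hd h hlo hhi hX
  | .cut i v b a, lo, hi, h, z, hlo, hhi, hX => by
    simp only [Step.treeChk, Bool.and_eq_true] at h
    rcases le_total (z i * d) (v : ℝ) with hv | hv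
    · refine S.tree_sound hD hd b _ _ h.1 z hlo (fun k => ?_) hX
      rcases eq_or_ne k i with rfl | hne
      · rw [Function.update_self]; exact hv
      · rw [Function.update_of_ne hne]; exact hhi k
    · refine S.tree_sound hD hd a _ _ h.2 z (fun k => ?_) hhi hX
      rcases eq_or_ne k i with rfl | hne
      · rw [Function.update_self]; exact hv
      · rw [Function.update_of_ne hne]; exact hlo k

/-- A checked tree gives the scalar inequality. -/
theorem Step.scalar_of_chk (S : Step m) {dh : ℕ} {H : Fin (m + 1) → ℤ} {Fs : List (Facet m)}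
    {r n K : ℕ} {T : STree m} (h : S.scalarChk dh H Fs r n K T = true) :
    S.Scalar dh H (XF Fs) := by
  simp only [Step.scalarChk, Bool.and_eq_true, decide_eq_true_eq] at h
  intro z hH hL hX
  have hdr := h.1
  refine S.tree_sound (Nat.pos_of_ne_zero (by positivity)) hdr T _ _ h.2 z (fun i => ?_)
    (fun i => ?_) hX
  · rcases eq_or_ne i S.a with rfl | hne
    · simp only [if_true]
      push_cast
      rw [← mul_assoc]
      exact mul_le_mul_of_nonneg_right hL (Nat.cast_nonneg r)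
    · simp only [hne, if_false, Int.cast_zero]
      exact mul_nonneg (hX.1 i) (Nat.cast_nonneg _)
  · push_cast
    rw [← mul_assoc]
    exact mul_le_mul_of_nonneg_right (hH i) (Nat.cast_nonneg r)

/-- A drop from its two forms, the forms of the facets and a checked tree. -/
theorem Step.dropGain_of_chk (S : Step m) {ks : Fin m → Tri} {dh : ℕ} {H : Fin (m + 1) → ℤ}
    {Fs : List (Facet m)} {r n K : ℕ} {T : STree m} {s : ℝ} (hN : 0 < N)
    (hk : ∀ j, ∑ i, tri (ks j) i = N) (hs : s ≤ 1 / 2) (hs0 : 0 < s) (hok : S.ok dh H = true)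
    (hW : ∀ u, InS u → 0 ≤ ((csum (pairs ks S.e) : ℝ) - hsum N (pairs ks S.e) (img (-s) u)) / s ^ 2
      + S.p.val u)
    (hU : ∀ u, InS u → 0 ≤ hsum N (pairs ks fun j => -S.c j) u + S.q.val u)
    (hF : ∀ f ∈ Fs, ∀ u, InS u →
      0 ≤ ((csum (pairs ks f.e) : ℝ) - hsum N (pairs ks f.e) (img (-s) u)) / s ^ 2 + f.p.val u)
    (h : S.scalarChk dh H Fs r n K T = true) :
    DropGain (-s) (1 / s ^ 2) (coord N ks s) (fun i => (H i : ℝ) / dh) S.a ((S.L : ℝ) / dh) :=
  S.dropGain hN hk hs hs0 hok hW hU (xf_of_forms hN hk hs hs0 hF) (S.scalar_of_chk h)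

end Vale.Agent.P154.Ly
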