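import Vale.Agent.P154.LyTree
import Vale.Agent.P154.DeDom
import Vale.Agent.P154.Limit

/-!
The second moment of the root posterior is nonincreasing in the depth, so a gain of one level is
only needed stagewise: on each range of second moments some bounded combination of affinities
grows, which pushes the second moment into the next lower range for good.
-/

open scoped BigOperators ENNReal
open Filter

namespace Vale.Agent.P154.Ly

variable {l d : ℝ}

lemma test_le_sum {H : (Fin 3 → ℝ) → ℝ} (hH : De.Test H) {α : Type} (s : Finset α)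
    (v : α → Spin → ℝ) (hv : ∀ a ∈ s, ∀ i, 0 ≤ v a i) :
    H (fun i => ∑ a ∈ s, v a i) ≤ ∑ a ∈ s, H (v a) := by
  classical
  induction s using Finset.induction_on with
  | empty =>
    simp only [Finset.sum_empty]
    have h := hH.smul 0 (fun _ => 0) le_rfl fun _ => le_rfl
    rw [zero_smul, zero_mul] at h
    exact h.le
  | insert x s hx ih =>
    simp only [Finset.sum_insert hx]
    have hx' := hv x (Finset.mem_insert_self x s)
    have hs := fun a ha => hv a (Finset.mem_insert_of_mem (b := x) (a := a) ha)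
    have h := hH.add_le (v x) (fun i => ∑ a ∈ s, v a i) hx'
      fun i => Finset.sum_nonneg fun a ha => hs a ha i
    exact h.trans (add_le_add le_rfl (ih hs))

lemma expect_sq_eq_persp {ι : Type} [Fintype ι] (f : ι → Spin → ℝ) :
    expect sq f = ∑ c, De.persp sq (f c) := rfl

/-- One more level cannot increase the second moment of the posterior. -/
theorem expect_sq_trunc (hl : -(1 / 2) ≤ l) (hu : l ≤ 1) (n : ℕ) (T : Tr (n + 1)) :
    expect sq (lik l (n + 1) T) ≤ expect sq (lik l n (KS.trunc n T)) := by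
  have h3 : -(1 / (((3 : ℕ) : ℝ) - 1)) ≤ l := by norm_num; linarith
  rw [expect_sq_eq_persp, expect_sq_eq_persp, ← Equiv.sum_comp (KS.cfgEquiv (n + 1) T),
    ← Equiv.sum_comp (KS.cfgEquiv n (KS.trunc n T))]
  have e : ∀ (m : ℕ) (U : Tr m) (c : KS.CfgQ 3 m U),
      lik l m U (KS.cfgEquiv m U c) = KS.likQ 3 l m U c := fun m U c =>
    funext fun i => (KS.likQ_three l m U c i).symm
  simp only [e]
  have hker := KS.ker_nonneg (q := 3) (by norm_num) h3 hu n T
  have hlik := KS.likQ_nonneg (q := 3) (by norm_num) h3 hu n (KS.trunc n T)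
  calc ∑ c, De.persp sq (KS.likQ 3 l (n + 1) T c)
      ≤ ∑ c, ∑ c', KS.ker 3 l n T c' c * De.persp sq (KS.likQ 3 l n (KS.trunc n T) c') :=
        Finset.sum_le_sum fun c _ => by
          rw [show KS.likQ 3 l (n + 1) T c = fun i => ∑ c',
              (KS.ker 3 l n T c' c • KS.likQ 3 l n (KS.trunc n T) c') i from funext fun i => by
            simp only [KS.likQ_factor n T c i, Pi.smul_apply, smul_eq_mul, mul_comm]]
          refine (test_le_sum De.test_sq _ _ fun c' _ i => mul_nonneg (hker c' c) (hlik c' i)).trans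
            (le_of_eq (Finset.sum_congr rfl fun c' _ => ?_))
          exact De.test_sq.smul _ _ (hker c' c) (hlik c')
    _ = _ := by
        rw [Finset.sum_comm]
        simp only [← Finset.sum_mul, KS.sum_ker, one_mul]

/-- The averaged second moment is nonincreasing. -/
theorem mean_sq_antitone (hl : -(1 / 2) ≤ l) (hu : l ≤ 1) (hd : 0 ≤ d) :
    Antitone fun n => mean l d n sq := by
  refine antitone_nat_of_succ_le fun n => ?_
  have h0 : ∀ a, InS a → 0 ≤ sq a := fun a ha => (sq_mem ha).1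
  rw [← ENNReal.ofReal_le_ofReal_iff (mean_nonneg hl hu n h0),
    ofReal_mean hl hu hd _ bdd_sq h0, ofReal_mean hl hu hd _ bdd_sq h0]
  exact (ENNReal.tsum_le_tsum fun T => mul_le_mul' le_rfl
    (ENNReal.ofReal_le_ofReal (expect_sq_trunc hl hu n T))).trans (le_of_eq
      (KS.tsum_trunc _ (poissonLaw_sum hd) n fun T => ENNReal.ofReal (expect sq (lik l n T))))

/-- Some combination of affinities gains a positive amount in one level, whatever the law with
second moment in `[X, Y]`. -/
def StageGain (l d X Y : ℝ) : Prop :=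
  ∃ (m N : ℕ) (k : Fin m → Spin → ℕ) (c : Fin m → ℝ) (g : ℝ),
    0 < N ∧ (∀ j, ∑ i, k j i = N) ∧ 0 < g ∧
    ∀ E : ((Spin → ℝ) → ℝ) → ℝ, IsLaw E → X ≤ E sq → E sq ≤ Y →
      g ≤ ∑ j, c j *
        (Real.exp (-(d * (1 - E (fun a => sHel N (k j) (img l a))))) - E (sHel N (k j)))

lemma abs_comb_le (hl : -(1 / 2) ≤ l) (hu : l ≤ 1) (hd : 0 ≤ d) {m N : ℕ} {k : Fin m → Spin → ℕ}
    (c : Fin m → ℝ) (hN : 0 < N) (hk : ∀ j, ∑ i, k j i = N) (n : ℕ) :
    |∑ j, c j * mean l d n (sHel N (k j))| ≤ ∑ j, |c j| * 3 := by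
  refine (Finset.abs_sum_le_sum_abs _ _).trans (Finset.sum_le_sum fun j _ => ?_)
  rw [abs_mul]
  exact mul_le_mul_of_nonneg_left (mean_abs_le hl hu hd n fun a ha => abs_le.mpr
    ⟨by linarith [(sHel_mem hN (hk j) ha).1], (sHel_mem hN (hk j) ha).2⟩) (abs_nonneg _)

/-- A stage is left after finitely many levels, and never entered again. -/
theorem eventually_le_of_stage (hl : -(1 / 2) ≤ l) (hu : l ≤ 1) (hd : 0 ≤ d) {X Y : ℝ}
    (hS : StageGain l d X Y) {n0 : ℕ} (h0 : mean l d n0 sq ≤ Y) :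
    ∃ n1, mean l d n1 sq ≤ X := by
  obtain ⟨m, N, k, c, g, hN, hk, hg, h⟩ := hS
  by_contra hc
  simp only [not_exists, not_le] at hc
  set S : ℕ → ℝ := fun n => ∑ j, c j * mean l d n (sHel N (k j)) with hSdef
  have hstep : ∀ i, g ≤ S (n0 + i + 1) - S (n0 + i) := fun i => by
    simp only [hSdef]
    rw [← Finset.sum_sub_distrib]
    refine (h _ (isLaw_mean hl hu hd (n0 + i)) (hc _).le
      ((mean_sq_antitone hl hu hd (by omega)).trans h0)).trans
      (le_of_eq (Finset.sum_congr rfl fun j _ => ?_))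
    rw [mean_sHel_succ hl hu hd _ hN (hk j), mul_sub]
  have hsum : ∀ i : ℕ, (i : ℝ) * g ≤ S (n0 + i) - S n0 := fun i => by
    induction i with
    | zero => simp
    | succ i ih =>
      have h' := hstep i
      rw [show n0 + (i + 1) = n0 + i + 1 from rfl]
      push_cast
      linarith
  obtain ⟨i, hi⟩ := exists_nat_gt ((2 * ∑ j, |c j| * 3) / g)
  rw [div_lt_iff₀ hg] at hi
  have := hsum i
  linarith [(abs_le.mp (abs_comb_le hl hu hd c hN hk (n0 + i))).2,
    (abs_le.mp (abs_comb_le hl hu hd c hN hk n0)).1]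

/-- A chain of stages above a gain near zero gives nonreconstruction on the Poisson tree. -/
theorem tendsto_gwTV_of_stages {m N : ℕ} {k : Fin m → Spin → ℕ} {c : Fin m → ℝ} {η : ℝ}
    (hN : 0 < N) (hk : ∀ j, ∑ i, k j i = N) (hη : 0 < η) (hl : -(1 / 2) ≤ l) (hu : l ≤ 1)
    (hd : 0 ≤ d) (X : ℕ → ℝ) (K : ℕ) (hX : 1 ≤ X K)
    (hstage : ∀ j < K, StageGain l d (X j) (X (j + 1)))
    (hbot : ∀ E : ((Spin → ℝ) → ℝ) → ℝ, IsLaw E → E sq ≤ X 0 →
      η * E sq ^ 2 ≤ ∑ j, c j *
        (Real.exp (-(d * (1 - E (fun a => sHel N (k j) (img l a))))) - E (sHel N (k j)))) :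
    Tendsto (gwTV (poissonLaw d) l) atTop (nhds 0) := by
  have down : ∀ i, i ≤ K → ∃ n0, mean l d n0 sq ≤ X (K - i) := by
    intro i
    induction i with
    | zero =>
      exact fun _ => ⟨0, le_trans ((le_abs_self _).trans (mean_abs_le hl hu hd 0 fun a ha =>
        abs_le.mpr ⟨by linarith [(sq_mem ha).1], (sq_mem ha).2⟩)) hX⟩
    | succ i ih =>
      intro hi
      obtain ⟨n0, h0⟩ := ih (by omega)
      rw [show K - i = K - (i + 1) + 1 by omega] at h0
      exact eventually_le_of_stage hl hu hd (hstage (K - (i + 1)) (by omega)) h0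
  obtain ⟨n0, hn0⟩ := down K le_rfl
  rw [Nat.sub_self] at hn0
  set x : ℕ → ℝ := fun n => mean l d (n0 + n) sq with hx
  set S : ℕ → ℝ := fun n => ∑ j, c j * mean l d (n0 + n) (sHel N (k j)) with hS
  have hx0 : ∀ n, 0 ≤ x n := fun n => mean_nonneg hl hu _ fun a ha => (sq_mem ha).1
  have hstep : ∀ n, η * x n ^ 2 ≤ S (n + 1) - S n := fun n => by
    simp only [hS]
    rw [← Finset.sum_sub_distrib]
    refine (hbot _ (isLaw_mean hl hu hd (n0 + n))
      ((mean_sq_antitone hl hu hd (Nat.le_add_right n0 n)).trans hn0)).trans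
      (le_of_eq (Finset.sum_congr rfl fun j _ => ?_))
    rw [← mean_sHel_succ hl hu hd (n0 + n) hN (hk j), mul_sub]
    rfl
  have hsum : ∀ n, ∑ i ∈ Finset.range n, η * x i ^ 2 ≤ 2 * ∑ j, |c j| * 3 := fun n => by
    refine (Finset.sum_le_sum fun i _ => hstep i).trans ?_
    rw [Finset.sum_range_sub S]
    linarith [(abs_le.mp (abs_comb_le hl hu hd c hN hk (n0 + n))).2,
      (abs_le.mp (abs_comb_le hl hu hd c hN hk (n0 + 0))).1]
  have hsm : Tendsto (fun n => η * x n ^ 2) atTop (nhds 0) :=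
    (summable_of_sum_range_le (fun n => by positivity) hsum).tendsto_atTop_zero
  rw [ENNReal.tendsto_nhds_zero]
  intro ε hε
  rcases eq_or_ne ε ⊤ with rfl | hε'
  · exact Eventually.of_forall fun _ => le_top
  have he : 0 < ε.toReal / 2 := by linarith [ENNReal.toReal_pos hε.ne' hε']
  set e := ε.toReal / 2 with hedef
  obtain ⟨n1, hn1⟩ :=
    (hsm.eventually_lt_const (show 0 < η * (e * e) ^ 2 by positivity)).exists
  filter_upwards [eventually_ge_atTop (n0 + n1)] with n hn
  have hxe : mean l d n sq ≤ e * e := (mean_sq_antitone hl hu hd hn).trans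
    (lt_of_pow_lt_pow_left₀ 2 (by positivity) (lt_of_mul_lt_mul_left hn1 hη.le)).le
  refine (gwTV_le_mean hl hu hd n he).trans ?_
  rw [← ENNReal.ofReal_toReal hε']
  refine ENNReal.ofReal_le_ofReal ?_
  have : mean l d n sq / e ≤ e := by rw [div_le_iff₀ he]; exact hxe
  linarith

end Vale.Agent.P154.Ly
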