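import Vale.Agent.P154.LyChain
import Vale.Agent.P154.LyForms

/-!
One drop of the chain from two checked forms and one scalar inequality on the mean coordinates.
-/

open scoped BigOperators

namespace Vale.Agent.P154.Ly

variable {m N : ℕ}

/-- The coordinates of a band: the squared distance and the scaled defects of the affinities. -/
noncomputable def coord (N : ℕ) (ks : Fin m → Tri) (s : ℝ) : Fin (m + 1) → (Spin → ℝ) → ℝ :=
  Fin.cons sq fun j u => 1 / s ^ 2 * (1 - sHel N (tri (ks j)) (img (-s) u))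

/-- The list attached to a coefficient vector. -/
def pairs (ks : Fin m → Tri) (c : Fin m → ℤ) : List (Tri × ℤ) :=
  List.ofFn fun j => (ks j, c j)

lemma csum_eq (L : List (Tri × ℤ)) : csum L = (L.map Prod.snd).sum := by
  induction L with
  | nil => rfl
  | cons q r ih => obtain ⟨k, c⟩ := q; simp [csum, ih]

lemma hsum_eq (a : Spin → ℝ) (L : List (Tri × ℤ)) :
    hsum N L a = (L.map fun q => (q.2 : ℝ) * sHel N (tri q.1) a).sum := by
  induction L with
  | nil => rfl
  | cons q r ih => obtain ⟨k, c⟩ := q; simp [hsum, ih]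

lemma hsum_pairs (ks : Fin m → Tri) (c : Fin m → ℤ) (a : Spin → ℝ) :
    hsum N (pairs ks c) a = ∑ j, (c j : ℝ) * sHel N (tri (ks j)) a := by
  simp [hsum_eq, pairs, List.sum_ofFn, Function.comp_def]

lemma csum_pairs (ks : Fin m → Tri) (c : Fin m → ℤ) :
    ((csum (pairs ks c) : ℤ) : ℝ) = ∑ j, (c j : ℝ) := by
  simp [csum_eq, pairs, List.sum_ofFn, Function.comp_def]

lemma wterm_eq (ks : Fin m → Tri) (e : Fin m → ℤ) (s : ℝ) (u : Spin → ℝ) :
    ((csum (pairs ks e) : ℝ) - hsum N (pairs ks e) (img (-s) u)) / s ^ 2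
      = ∑ j, (e j : ℝ) * coord N ks s j.succ u := by
  simp only [csum_pairs, hsum_pairs, coord, Fin.cons_succ, ← Finset.sum_sub_distrib,
    div_eq_inv_mul, Finset.mul_sum]
  exact Finset.sum_congr rfl fun j _ => by ring

/-- The data of a drop: all weights are in units of `1 / den`, the bounds in units of `1 / dh`. -/
structure Step (m : ℕ) where
  /-- unit of the weights -/
  den : ℕ
  /-- coordinate which drops -/
  a : Fin (m + 1)
  /-- new bound -/
  L : ℤ
  /-- coefficients of the affinities -/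
  c : Fin m → ℤ
  /-- constant of the affine minorant -/
  A0 : ℤ
  /-- slopes of the affine minorant -/
  A : Fin (m + 1) → ℤ
  /-- weights of the upper bounds -/
  mu : Fin (m + 1) → ℕ
  /-- weight of the lower bound -/
  nu : ℕ
  /-- gain -/
  g : ℕ
  /-- coefficients of the image form -/
  e : Fin m → ℤ
  /-- polynomial part of the image form -/
  p : P4
  /-- polynomial part of the posterior form -/
  q : P4

/-- The linear bookkeeping between the two forms, the minorant and the multipliers. -/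
def Step.ok (S : Step m) (dh : ℕ) (H : Fin (m + 1) → ℤ) : Bool :=
  decide (0 < S.den) && decide (0 < dh) && decide (0 < S.g)
    && decide ((S.p.c0 + S.q.c0) * dh = S.A0 * dh - (∑ i, (S.mu i : ℤ) * H i) + S.nu * S.L
      - S.g * dh)
    && decide (S.p.c1 + S.q.c1 = S.A 0 + S.mu 0 - (if S.a = 0 then (S.nu : ℤ) else 0))
    && decide (S.p.c2 + S.q.c2 = 0) && decide (S.p.c3 + S.q.c3 = 0)
    && decide (∀ j : Fin m,
      S.e j = S.A j.succ + S.mu j.succ - (if S.a = j.succ then (S.nu : ℤ) else 0))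

/-- The scalar inequality of a drop on the mean coordinates. -/
def Step.Scalar (S : Step m) (dh : ℕ) (H : Fin (m + 1) → ℤ) (X : (Fin (m + 1) → ℝ) → Prop) :
    Prop :=
  ∀ z : Fin (m + 1) → ℝ, (∀ i, z i * dh ≤ H i) → (S.L : ℝ) ≤ z S.a * dh → X z →
    (S.A0 : ℝ) + ∑ i, (S.A i : ℝ) * z i ≤ ∑ j, (S.c j : ℝ) * Real.exp (-(z j.succ))

lemma bdd_coord {s : ℝ} (hN : 0 < N) (ks : Fin m → Tri) (hk : ∀ j, ∑ i, tri (ks j) i = N)
    (hs : s ≤ 1 / 2) (hs0 : 0 ≤ s) : ∀ i, Bdd (coord N ks s i) := by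
  intro i
  refine Fin.cases ?_ (fun j => ?_) i
  · simpa [coord] using bdd_sq
  · simp only [coord, Fin.cons_succ]
    exact (bdd_defect_img hN (hk j) (by linarith) (by linarith)).smul _

/-- A step whose two forms are nonnegative in sum gives the drop. -/
theorem Step.dropGain_of_sum (S : Step m) {ks : Fin m → Tri} {dh : ℕ} {H : Fin (m + 1) → ℤ}
    {X : (Fin (m + 1) → ℝ) → Prop} {s : ℝ} (hN : 0 < N) (hk : ∀ j, ∑ i, tri (ks j) i = N)
    (hs : s ≤ 1 / 2) (hs0 : 0 < s) (hok : S.ok dh H = true)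
    (hWU : ∀ u, InS u → 0 ≤ ((csum (pairs ks S.e) : ℝ) - hsum N (pairs ks S.e) (img (-s) u)) / s ^ 2
      + S.p.val u + (hsum N (pairs ks fun j => -S.c j) u + S.q.val u))
    (hX : ∀ E, IsLaw E → X fun i => E (coord N ks s i))
    (hsc : S.Scalar dh H X) :
    DropGain (-s) (1 / s ^ 2) (coord N ks s) (fun i => (H i : ℝ) / dh) S.a ((S.L : ℝ) / dh) := by
  classical
  simp only [Step.ok, Bool.and_eq_true, decide_eq_true_eq] at hok
  obtain ⟨⟨⟨⟨⟨⟨⟨hD, hdh⟩, hg⟩, e0⟩, e1⟩, e2⟩, e3⟩, ej⟩ := hok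
  have hD' : (0 : ℝ) < S.den := by exact_mod_cast hD
  have hdh' : (0 : ℝ) < dh := by exact_mod_cast hdh
  have hFb := bdd_coord hN ks hk hs hs0.le
  have hi : ∀ j, Bdd fun u => sHel N (tri (ks j)) u := fun j => bdd_sHel hN (hk j)
  refine ⟨m, N, fun j => tri (ks j), fun j => (S.c j : ℝ) / S.den, (S.g : ℝ) / S.den, hN, hk,
    by positivity, fun E hE hH hL => ?_⟩
  set z : Fin (m + 1) → ℝ := fun i => E (coord N ks s i) with hz
  have hH' : ∀ i, z i * dh ≤ H i := fun i => (le_div_iff₀ hdh').1 (hH i)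
  have hL' : (S.L : ℝ) ≤ z S.a * dh := (div_le_iff₀ hdh').1 hL
  have hsca := hsc z hH' hL' (hX E hE)
  -- the mean of the two forms
  have b1 : Bdd fun u => ((csum (pairs ks S.e) : ℝ) - hsum N (pairs ks S.e) (img (-s) u)) / s ^ 2
      + (S.p.val u + S.q.val u) + hsum N (pairs ks fun j => -S.c j) u := by
    simp only [wterm_eq]; simp only [hsum_pairs, P4.val]
    exact ((bdd_sum Finset.univ fun (j : Fin m) _ => (hFb j.succ).smul _).add
      (((((bdd_const _).add (bdd_sq.smul _)).add (bdd_cub.smul _)).add ((bdd_sq.pow 2).smul _)).add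
        ((((bdd_const _).add (bdd_sq.smul _)).add (bdd_cub.smul _)).add ((bdd_sq.pow 2).smul _)))).add
      (bdd_sum _ fun j _ => (hi j).smul _)
  have hm := hE.nonneg b1 fun u hu => by linarith [hWU u hu]
  have e2' : (S.p.c2 : ℝ) + S.q.c2 = 0 := by exact_mod_cast e2
  have e3' : (S.p.c3 : ℝ) + S.q.c3 = 0 := by exact_mod_cast e3
  have e1' : (S.p.c1 : ℝ) + S.q.c1 = (S.A 0 : ℝ) + S.mu 0 - (if S.a = 0 then (S.nu : ℝ) else 0) := by
    have := congrArg (Int.cast (R := ℝ)) e1
    push_cast at this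
    exact this
  have ej' : ∀ j : Fin m, (S.e j : ℝ)
      = (S.A j.succ : ℝ) + S.mu j.succ - (if S.a = j.succ then (S.nu : ℝ) else 0) := fun j => by
    have := congrArg (Int.cast (R := ℝ)) (ej j)
    push_cast at this
    exact this
  have e0' : ((S.p.c0 : ℝ) + S.q.c0) * dh = (S.A0 : ℝ) * dh - (∑ i, (S.mu i : ℝ) * H i)
      + S.nu * S.L - S.g * dh := by exact_mod_cast e0
  have b2 : Bdd fun u => ∑ i, ((S.A i : ℝ) + S.mu i - (if S.a = i then (S.nu : ℝ) else 0))
      * coord N ks s i u := bdd_sum _ fun i _ => (hFb i).smul _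
  have b3 : Bdd fun u => ∑ j, (-(S.c j : ℝ)) * sHel N (tri (ks j)) u :=
    bdd_sum _ fun j _ => (hi j).smul _
  have ev : E (fun u => ((csum (pairs ks S.e) : ℝ) - hsum N (pairs ks S.e) (img (-s) u)) / s ^ 2
      + (S.p.val u + S.q.val u) + hsum N (pairs ks fun j => -S.c j) u)
      = ((S.p.c0 : ℝ) + S.q.c0) + ∑ i, ((S.A i : ℝ) + S.mu i
          - (if S.a = i then (S.nu : ℝ) else 0)) * z i
        + ∑ j, (-(S.c j : ℝ)) * E (sHel N (tri (ks j))) := by
    have : (fun u => ((csum (pairs ks S.e) : ℝ) - hsum N (pairs ks S.e) (img (-s) u)) / s ^ 2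
        + (S.p.val u + S.q.val u) + hsum N (pairs ks fun j => -S.c j) u)
        = fun u => (((S.p.c0 : ℝ) + S.q.c0) + ∑ i, ((S.A i : ℝ) + S.mu i
          - (if S.a = i then (S.nu : ℝ) else 0)) * coord N ks s i u)
          + ∑ j, (-(S.c j : ℝ)) * sHel N (tri (ks j)) u := by
      funext u
      rw [wterm_eq]
      simp only [hsum_pairs, Int.cast_neg, P4.val, Fin.sum_univ_succ, ej']
      rw [show coord N ks s 0 u = sq u by simp [coord]]
      linear_combination (sq u) * e1' + (cub u) * e2' + (sq u ^ 2) * e3'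
    rw [this, hE.add _ _ ((bdd_const _).add b2) b3, hE.add _ _ (bdd_const _) b2, hE.const,
      hE.comb Finset.univ _ hFb, hE.comb Finset.univ _ hi]
  rw [ev] at hm
  -- the multipliers have the right sign
  have hmu : ∑ i, (S.mu i : ℝ) * z i ≤ (∑ i, (S.mu i : ℝ) * H i) / dh := by
    rw [le_div_iff₀ hdh', Finset.sum_mul]
    exact Finset.sum_le_sum fun i _ => by
      rw [mul_assoc]; exact mul_le_mul_of_nonneg_left (hH' i) (by positivity)
  have hnu : (S.nu : ℝ) * S.L / dh ≤ S.nu * z S.a := by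
    rw [div_le_iff₀ hdh', mul_assoc]; exact mul_le_mul_of_nonneg_left hL' (by positivity)
  have hsplit : ∑ i, ((S.A i : ℝ) + S.mu i - (if S.a = i then (S.nu : ℝ) else 0)) * z i
      = ∑ i, (S.A i : ℝ) * z i + ∑ i, (S.mu i : ℝ) * z i - S.nu * z S.a := by
    simp [sub_mul, add_mul, Finset.sum_add_distrib, Finset.sum_sub_distrib, ite_mul]
  have hc0 : (S.p.c0 : ℝ) + S.q.c0 = (S.A0 : ℝ) - (∑ i, (S.mu i : ℝ) * H i) / dh
      + S.nu * S.L / dh - S.g := by
    field_simp
    linear_combination e0'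
  have hexp : ∀ j, Real.exp (-(1 / s ^ 2 * (1 - E (fun u => sHel N (tri (ks j)) (img (-s) u)))))
      = Real.exp (-(z j.succ)) := fun j => by
    have hbi := bdd_sHel_img hN (hk j) (l := -s) (by linarith) (by linarith)
    simp only [hz, coord, Fin.cons_succ]
    rw [hE.smul _ _ ((bdd_const 1).sub hbi), hE.sub (bdd_const 1) hbi, hE.const]
  simp only [hexp]
  rw [div_le_iff₀ hD', Finset.sum_mul]
  have hgoal : ∑ j, (S.c j : ℝ) / S.den * (Real.exp (-(z j.succ)) - E (sHel N (tri (ks j)))) * S.den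
      = ∑ j, (S.c j : ℝ) * Real.exp (-(z j.succ))
        + ∑ j, (-(S.c j : ℝ)) * E (sHel N (tri (ks j))) := by
    rw [← Finset.sum_add_distrib]
    exact Finset.sum_congr rfl fun j _ => by field_simp; ring
  rw [hgoal]
  linarith

/-- A checked step gives the drop at every parameter of the band. -/
theorem Step.dropGain (S : Step m) {ks : Fin m → Tri} {dh : ℕ} {H : Fin (m + 1) → ℤ}
    {X : (Fin (m + 1) → ℝ) → Prop} {s : ℝ} (hN : 0 < N) (hk : ∀ j, ∑ i, tri (ks j) i = N)
    (hs : s ≤ 1 / 2) (hs0 : 0 < s) (hok : S.ok dh H = true)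
    (hW : ∀ u, InS u → 0 ≤ ((csum (pairs ks S.e) : ℝ) - hsum N (pairs ks S.e) (img (-s) u)) / s ^ 2
      + S.p.val u)
    (hU : ∀ u, InS u → 0 ≤ hsum N (pairs ks fun j => -S.c j) u + S.q.val u)
    (hX : ∀ E, IsLaw E → X fun i => E (coord N ks s i))
    (hsc : S.Scalar dh H X) :
    DropGain (-s) (1 / s ^ 2) (coord N ks s) (fun i => (H i : ℝ) / dh) S.a ((S.L : ℝ) / dh) :=
  S.dropGain_of_sum hN hk hs hs0 hok (fun u hu => add_nonneg (hW u hu) (hU u hu)) hX hsc

end Vale.Agent.P154.Ly
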