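import Vale.Agent.P154.Moments

/-!
Normal forms in the three moments of the directional derivatives of the potential
monomials, and the multiplication of a normal form by the first moment.
-/

set_option linter.unusedVariables false

namespace Vale.Agent.P154

/-- Coefficients of a normal form. -/
@[ext] structure NForm where
  /-- Constant coefficient. -/
  k0 : ℝ
  /-- Coefficient of the first power. -/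
  k1 : ℝ
  /-- Coefficient of the square. -/
  k2 : ℝ
  /-- Coefficient of the cube. -/
  k3 : ℝ
  /-- Coefficient of the fourth power. -/
  k4 : ℝ
  /-- Coefficient of the fifth power. -/
  k5 : ℝ
  /-- Coefficient of the second moment. -/
  kp : ℝ
  /-- Coefficient of the third moment. -/
  kR : ℝ

/-- Value of a normal form. -/
def NForm.ev (K : NForm) (w p R : ℝ) : ℝ :=
  K.k0 + K.k1 * w + K.k2 * w ^ 2 + K.k3 * w ^ 3 + K.k4 * w ^ 4 + K.k5 * w ^ 5 + K.kp * p + K.kR * R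

/-- Orbit average of a normal form. -/
def NForm.avg (K : NForm) (s t S T : ℝ) : ℝ :=
  K.k0 + 2 * K.k2 * (s * S) + 2 * K.k3 * (t * T) + 6 * K.k4 * (s * S) ^ 2
    + 10 * K.k5 * (s * S) * (t * T)

/-- A normal form times the first moment, plus a multiple of another one. -/
def NForm.step (K B : NForm) (c s t S T : ℝ) : NForm where
  k0 := c * B.k0 + (2 * t * S * K.kp + 2 * s * T * K.kR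
    - 4 * (s ^ 3 * T ^ 2 + S ^ 3 * t ^ 2 - s ^ 3 * S ^ 3) * K.k5)
  k1 := c * B.k1 + (K.k0 - 12 * (s * S) * (t * T) * K.k5)
  k2 := c * B.k2 + (K.k1 - 9 * (s * S) ^ 2 * K.k5)
  k3 := c * B.k3 + (K.k2 + 4 * (t * T) * K.k5)
  k4 := c * B.k4 + (K.k3 + 6 * (s * S) * K.k5)
  k5 := c * B.k5 + K.k4
  kp := c * B.kp + S * K.kR
  kR := c * B.kR + s * K.kp

/-- Normal form of a normal form times a polynomial in the first moment. -/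
def NForm.mulPoly (B : NForm) (s t S T : ℝ) : List ℝ → NForm
  | [] => ⟨0, 0, 0, 0, 0, 0, 0, 0⟩
  | c :: cs => (B.mulPoly s t S T cs).step B c s t S T

/-- A polynomial given by its coefficients. -/
def polyVal (w : ℝ) : List ℝ → ℝ
  | [] => 0
  | c :: cs => c + w * polyVal w cs

/-- The relations between the moments. -/
structure Rels (s t S T w p R : ℝ) : Prop where
  hwp : w*p = 2*t*S + s*R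
  hwR : w*R = S*p + 2*s*T
  hpp : p^2 = 2*t*R - s*w^2 + 4*s^2*S
  hRR : R^2 = 2*T*p - S*w^2 + 4*s*S^2
  hpR : p*R = 4*t*T - w^3 + 4*s*S*w
  hw6 : w^6 = 6*(s*S)*w^4 + 4*(t*T)*w^3 - 9*(s*S)^2*w^2 - 12*(s*S)*(t*T)*w
      - 4*(s^3*T^2 + S^3*t^2 - s^3*S^3)

lemma ev_mulPoly {s t S T w p R : ℝ} (h : Rels s t S T w p R) (B : NForm) :
    ∀ cs : List ℝ, (B.mulPoly s t S T cs).ev w p R = B.ev w p R * polyVal w cs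
  | [] => by simp [NForm.mulPoly, NForm.ev, polyVal]
  | c :: cs => by
    have ih := ev_mulPoly h B cs
    simp only [NForm.mulPoly, polyVal, NForm.ev, NForm.step] at ih ⊢
    linear_combination w * ih - (B.mulPoly s t S T cs).kp * h.hwp
      - (B.mulPoly s t S T cs).kR * h.hwR - (B.mulPoly s t S T cs).k5 * h.hw6

lemma rels (a b c d : ℝ) :
    Rels (sI a b) (tI a b) (sI c d) (tI c d) (wM a b c d) (pM a b c d) (rM a b c d) :=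
  ⟨rel_wp a b c d, rel_wR a b c d, rel_pp a b c d, rel_RR a b c d, rel_pR a b c d, rel_w6 a b c d⟩

lemma orbit_ev (a b c d : ℝ) (K : NForm) :
    orbit c d (fun x y => K.ev (wM a b x y) (pM a b x y) (rM a b x y))
      = 6 * K.avg (sI a b) (tI a b) (sI c d) (tI c d) :=
  orbit_normal a b c d K.k0 K.k1 K.k2 K.k3 K.k4 K.k5 K.kp K.kR

set_option maxHeartbeats 2000000 in
/-- Normal form of the order-2 directional derivative. -/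
noncomputable def base2 (e4 e0 e2 e1 e3 s t S T : ℝ) : NForm :=
  ⟨(e4 * ((-30)*t^2*S + 21*s*t*S + 9*s^2*S) + e0 * (1*S + (-2)*t*S + 1*s*S) + e2 * (4*t*S + (-8)*t^2*S + (-8)*s*t*S + 12*s^2*S) + e1 * (4*t*S + 2*s*S + (-12)*s*t*S + 6*s^2*S) + e3 * (12*s*t*S + 3*s^2*S + (-30)*s^2*t*S + 15*s^3*S)),
    0,
    (e4 * (15*t^2 + ((-9)/4)*s + (-15)*s*t + (9/4)*s^2) + e0 * ((-1) + 1*s) + e2 * ((-4)*t + 10*s*t + (-6)*s^2) + e1 * (1 + (-7)*s + 6*s^2) + e3 * (3*s + (-18)*s^2 + 15*s^3)),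
    0,
    0,
    0,
    0,
    (e4 * ((15/2)*t + (-12)*s*t + (9/2)*s^2) + e0 * (1 + (-1)*s) + e2 * (4*t + 3*s + (-4)*s*t + (-3)*s^2) + e1 * (2*t + 4*s + (-6)*s^2) + e3 * (6*s*t + 9*s^2 + (-15)*s^3))⟩

set_option maxHeartbeats 2000000 in
lemma ev_base2 (e4 e0 e2 e1 e3 : ℝ) {s t S T w p R l q t1 t2 t3 : ℝ} (h : Rels s t S T w p R)
    (hl : l = w + p - 2*s*w) (hq : q = S*(1+s) + s*w^2 + R - w^2 - w*p)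
    (ht1 : t1 = 3/2*(p + s*w - 2*t*w))
    (ht2 : t2 = 3/2*(R + s*R + 2*t*w^2 + 4*s*S - 2*w*p - 2*s*w^2))
    (ht3 : t3 = 1/2*(2*T + 3*S*w + 3*S*p + 4*t*T - w^3 + 3*s*S*w
      - 3*w*(R*(1+s) + 4*s*S) + 3*w^2*(p + s*w) - 2*t*w^3)) :
    (base2 e4 e0 e2 e1 e3 s t S T).ev w p R = e4*(t1^2 + 2*t*t2) + e0*q + e2*(s*t2 + l*t1 + q*t) + e1*(l^2 + 2*s*q) + e3*(3*s*l^2 + 3*s^2*q) := by
  subst hl hq ht1 ht2 ht3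
  simp only [base2, NForm.ev]
  linear_combination -((e4 * ((9/4)) + e2 * ((3/2)) + e1 * (1) + e3 * (3*s)) * h.hpp + (e4 * ((-15)*t + (9/2)*s) + e0 * ((-1)) + e2 * ((3/2) + (-4)*t + ((-9)/2)*s) + e1 * (2 + (-6)*s) + e3 * (6*s + (-15)*s^2)) * h.hwp)

set_option maxHeartbeats 2000000 in
/-- Normal form of the order-3 directional derivative. -/
noncomputable def base3 (e4 e2 e1 e3 s t S T : ℝ) : NForm :=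
  ⟨(e4 * (20*t*T + 4*t^2*T + (-42)*s*t*T + 9*s^2*T + 36*s^2*t*T + (-27)*s^3*T) + e2 * (12*t*T + 4*s*T + (-16)*s*t*T + (-12)*s^2*T + 12*s^2*t*T) + e1 * (8*t*T + 4*s*T + (-8)*s*t*T + (-16)*s^2*T + 12*s^3*T) + e3 * (8*t^2*T + 36*s*t*T + 18*s^2*T + (-48)*s^2*t*T + (-74)*s^3*T + 60*s^4*T)),
    (e4 * (3*t*S + 60*t^2*S + 18*s*S + (-81)*s*t*S) + e2 * ((-12)*t*S + 12*t^2*S + 21*s*S + 6*s*t*S + (-27)*s^2*S) + e1 * (2*S + (-8)*t*S + 6*s*S + 12*s*t*S + (-12)*s^2*S) + e3 * (6*t*S + 6*s*S + (-42)*s*t*S + 30*s^2*S + 60*s^2*t*S + (-60)*s^3*S)),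
    0,
    (e4 * (((-9)/2) + (-1)*t + (-20)*t^2 + (9/2)*s + 30*s*t + (-9)*s^2) + e2 * ((-3) + 6*t + (-2)*s + (-10)*s*t + 9*s^2) + e1 * ((-4) + 8*s + (-4)*s^2) + e3 * (1 + (-2)*t + (-21)*s + 42*s^2 + (-20)*s^3)),
    0,
    0,
    (e4 * ((-27)*t*S + (45/2)*s*S + 18*s*t*S + ((-27)/2)*s^2*S) + e2 * (3*S + (-12)*t*S + 3*s*S + 6*s*t*S) + e1 * (4*S + (-4)*t*S + (-6)*s*S + 6*s^2*S) + e3 * (6*t*S + 15*s*S + (-24)*s*t*S + (-27)*s^2*S + 30*s^3*S)),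
    0⟩

set_option maxHeartbeats 2000000 in
lemma ev_base3 (e4 e2 e1 e3 : ℝ) {s t S T w p R l q t1 t2 t3 : ℝ} (h : Rels s t S T w p R)
    (hl : l = w + p - 2*s*w) (hq : q = S*(1+s) + s*w^2 + R - w^2 - w*p)
    (ht1 : t1 = 3/2*(p + s*w - 2*t*w))
    (ht2 : t2 = 3/2*(R + s*R + 2*t*w^2 + 4*s*S - 2*w*p - 2*s*w^2))
    (ht3 : t3 = 1/2*(2*T + 3*S*w + 3*S*p + 4*t*T - w^3 + 3*s*S*w
      - 3*w*(R*(1+s) + 4*s*S) + 3*w^2*(p + s*w) - 2*t*w^3)) :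
    (base3 e4 e2 e1 e3 s t S T).ev w p R = e4*(2*t*t3 + 2*t1*t2) + e2*(s*t3 + l*t2 + q*t1) + e1*(2*l*q) + e3*(l^3 + 6*s*l*q) := by
  subst hl hq ht1 ht2 ht3
  simp only [base3, NForm.ev]
  linear_combination -((e4 * ((9/2) + (9/2)*s) + e2 * (3 + (3/2)*s) + e1 * (2) + e3 * (2*t + 6*s)) * h.hpR + (e4 * ((-9)*w) + e2 * (((-9)/2)*w) + e1 * ((-2)*w) + e3 * (1*p + 3*w + (-12)*s*w)) * h.hpp + (e4 * (30*t*w + (-18)*s*w) + e2 * (((-9)/2)*w + 6*t*w + (9/2)*s*w) + e1 * ((-4)*w + 6*s*w) + e3 * (3*w + (-25)*s*w + 30*s^2*w)) * h.hwp + (e4 * ((-30)*t + (9/2)*s + 18*s*t + ((-27)/2)*s^2) + e2 * ((3/2) + (-12)*t + (-6)*s + 6*s*t) + e1 * (2 + (-4)*t + (-8)*s + 6*s^2) + e3 * (6*t + 9*s + (-24)*s*t + (-37)*s^2 + 30*s^3)) * h.hwR)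

set_option maxHeartbeats 2000000 in
/-- Normal form of the order-4 directional derivative. -/
noncomputable def base4 (e4 e2 e1 e3 s t S T : ℝ) : NForm :=
  ⟨(e4 * (9*t*S^2 + 72*t^2*S^2 + 9*s*S^2 + (-120)*s*t*S^2 + (-24)*s*t^2*S^2 + 72*s^2*S^2 + 27*s^2*t*S^2 + 9*s^3*S^2) + e2 * ((-6)*t*S^2 + 24*t^2*S^2 + 12*s*S^2 + (-28)*s*t*S^2 + (-8)*s*t^2*S^2 + 18*s^2*S^2 + 6*s^2*t*S^2) + e1 * (1*S^2 + (-8)*t*S^2 + 4*t^2*S^2 + 6*s*S^2 + 4*s*t*S^2 + 1*s^2*S^2 + (-4)*s^2*t*S^2) + e3 * ((18*t*S^2 + (-36)*t^2*S^2 + 3*s*S^2 + (-60)*s*t*S^2) + (72*s*t^2*S^2 + 30*s^2*S^2 + 54*s^2*t*S^2 + 15*s^3*S^2 + (-60)*s^3*t*S^2))),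
    (e4 * ((-60)*t*T + (-12)*t^2*T + 3*s*T + 42*s*t*T + (-30)*s^2*T + (-24)*s^2*t*T + 27*s^3*T) + e2 * (1*T + (-22)*t*T + (-8)*s*T + 8*s*t*T + 5*s^2*T + (-8)*s^2*t*T + 6*s^3*T) + e1 * ((-8)*t*T + (-4)*s*T + 4*s*t*T + 8*s^2*T + (-4)*s^3*T) + e3 * (24*t*T + (-24)*t^2*T + 6*s*T + (-108)*s*t*T + (-60)*s^2*T + 72*s^2*t*T + 114*s^3*T + (-60)*s^4*T)),
    (e4 * (((-9)/4)*S + (-12)*t*S + (-60)*t^2*S + ((-117)/2)*s*S + 117*s*t*S + ((-207)/4)*s^2*S) + e2 * (11*t*S + (-8)*t^2*S + ((-87)/2)*s*S + 18*s^2*S) + e1 * ((-3)*S + 4*t*S + (-8)*s*S + (-4)*s*t*S + 6*s^2*S) + e3 * (3*S + (-24)*t*S + 3*s*S + 54*s*t*S + (-111)*s^2*S + (-60)*s^2*t*S + 90*s^3*S)),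
    0,
    (e4 * ((27/2) + 3*t + 15*t^2 + ((-3)/2)*s + (-30)*s*t + (27/2)*s^2) + e2 * ((11/2) + (-4)*t + 4*s + 5*s*t + (-6)*s^2) + e1 * (3 + (-3)*s + 1*s^2) + e3 * ((-9) + 6*t + 45*s + (-48)*s^2 + 15*s^3)),
    0,
    (e4 * ((15/2)*T + 6*t*T + 9*s*T + (9/2)*s^2*T) + e2 * (4*T + 2*t*T + 3*s*T) + e1 * (2*T) + e3 * (12*t*T + 6*s*T)),
    (e4 * (9*t*S + (45/2)*s*S + 36*s*t*S + (-42)*s^2*S + (-12)*s^2*t*S + (27/2)*s^3*S) + e2 * ((3/2)*S + 3*t*S + 6*s*S + 12*s*t*S + ((-25)/2)*s^2*S + (-4)*s^2*t*S + 3*s^3*S) + e1 * (2*S + (-2)*s*S + 2*s*t*S + 2*s^2*S + (-2)*s^3*S) + e3 * (6*t*S + 15*s*S + (-12)*s*t*S + (-24)*s^2*S + 36*s^2*t*S + 27*s^3*S + (-30)*s^4*S))⟩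

set_option maxHeartbeats 2000000 in
lemma ev_base4 (e4 e2 e1 e3 : ℝ) {s t S T w p R l q t1 t2 t3 : ℝ} (h : Rels s t S T w p R)
    (hl : l = w + p - 2*s*w) (hq : q = S*(1+s) + s*w^2 + R - w^2 - w*p)
    (ht1 : t1 = 3/2*(p + s*w - 2*t*w))
    (ht2 : t2 = 3/2*(R + s*R + 2*t*w^2 + 4*s*S - 2*w*p - 2*s*w^2))
    (ht3 : t3 = 1/2*(2*T + 3*S*w + 3*S*p + 4*t*T - w^3 + 3*s*S*w
      - 3*w*(R*(1+s) + 4*s*S) + 3*w^2*(p + s*w) - 2*t*w^3)) :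
    (base4 e4 e2 e1 e3 s t S T).ev w p R = e4*(t2^2 + 2*t1*t3) + e2*(l*t3 + q*t2) + e1*q^2 + e3*(3*l^2*q + 3*s*q^2) := by
  subst hl hq ht1 ht2 ht3
  simp only [base4, NForm.ev]
  linear_combination -((e4 * (((-27)/2)*w + ((-27)/2)*s*w) + e2 * ((-6)*w + (-3)*s*w) + e1 * ((-2)*w) + e3 * (3*p + 6*w + (-6)*t*w + (-18)*s*w)) * h.hpR + (e4 * ((27/2)*w^2 + (9/2)*S) + e2 * ((9/2)*w^2 + (3/2)*S) + e1 * (1*w^2) + e3 * ((-3)*w*p + (-9)*w^2 + 3*S + 18*s*w^2 + 3*s*S)) * h.hpp + (e4 * ((9/4) + (9/2)*s + (9/4)*s^2) + e2 * ((3/2) + (3/2)*s) + e1 * (1) + e3 * (3*s)) * h.hRR + (e4 * (((-3)/2)*w^2 + (9/2)*S + (-30)*t*w^2 + 36*t*S + 27*s*w^2 + (-60)*s*S + (-12)*s*t*S + (27/2)*s^2*S) + e2 * (4*w^2 + (-3)*S + (-4)*t*w^2 + 12*t*S + ((-3)/2)*s*w^2 + (-14)*s*S + (-4)*s*t*S + 3*s^2*S) + e1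 * (2*w^2 + (-4)*S + 2*t*S + (-2)*s*w^2 + 2*s*S + (-2)*s^2*S) + e3 * (((-12)*w^2 + 9*S + (-18)*t*S + 39*s*w^2) + ((-30)*s*S + 36*s*t*S + (-30)*s^2*w^2 + 27*s^2*S + (-30)*s^3*S))) * h.hwp + (e4 * (45*t*w + (-15)*s*w + (-12)*s*t*w + (27/2)*s^2*w) + e2 * ((-3)*w + 12*t*w + (5/2)*s*w + (-4)*s*t*w + 3*s^2*w) + e1 * ((-2)*w + 2*t*w + 4*s*w + (-2)*s^2*w) + e3 * (3*w + (-18)*t*w + (-30)*s*w + 36*s*t*w + 57*s^2*w + (-30)*s^3*w)) * h.hwR)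

set_option maxHeartbeats 2000000 in
/-- Normal form of the order-5 directional derivative. -/
noncomputable def base5 (e4 e2 e3 s t S T : ℝ) : NForm :=
  ⟨(e4 * (((-12)*t*S*T + (-24)*t^2*S*T + 21*s*S*T + (-30)*s*t*S*T) + ((-75)*s^2*S*T + (-60)*s^2*t*S*T + 39*s^3*S*T + 6*s^3*t*S*T + (-9)*s^4*S*T)) + e2 * ((1*S*T + (-4)*t^2*S*T + 1*s*S*T + (-10)*s*t*S*T) + ((-16)*s^2*S*T + (-8)*s^2*t*S*T + 13*s^3*S*T + 2*s^3*t*S*T + (-3)*s^4*S*T)) + e3 * ((36*t*S*T + (-48)*t^2*S*T + 12*s*S*T + (-24)*s*t*S*T + (-30)*s^2*S*T) + (12*s^2*t*S*T + 6*s^3*S*T + (-48)*s^3*t*S*T + (-18)*s^4*S*T + 30*s^5*S*T))),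
    (e4 * ((-21)*t*S^2 + (-42)*t^2*S^2 + 18*s*S^2 + 102*s*t*S^2 + 6*s*t^2*S^2 + (-108)*s^2*S^2 + (-9)*s^2*t*S^2 + (-18)*s^3*S^2) + e2 * ((3/2)*S^2 + (-1)*t*S^2 + (-8)*t^2*S^2 + (-3)*s*S^2 + 16*s*t*S^2 + 2*s*t^2*S^2 + ((-33)/2)*s^2*S^2 + (-3)*s^2*t*S^2) + e3 * ((3*S^2 + (-42)*t*S^2 + 36*t^2*S^2 + 36*s*S^2 + 30*s*t*S^2) + ((-48)*s*t^2*S^2 + (-33)*s^2*S^2 + (-18)*s^2*t*S^2 + (-30)*s^3*S^2 + 30*s^3*t*S^2))),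
    (e4 * (60*t*T + 12*t^2*T + (-9)*s*T + (-18)*s*t*T + 30*s^2*T + 6*s^2*t*T + (-9)*s^3*T) + e2 * ((-1)*T + 10*t*T + 3*s*T + 1*s^2*T + 2*s^2*t*T + (-3)*s^3*T) + e3 * ((-48)*t*T + 24*t^2*T + (-18)*s*T + 108*s*t*T + 66*s^2*T + (-48)*s^2*t*T + (-78)*s^3*T + 30*s^4*T)),
    (e4 * (15*t*S + 30*t^2*S + (105/2)*s*S + (-75)*s*t*S + (135/2)*s^2*S) + e2 * ((-2)*S + (-3)*t*S + 2*t^2*S + 22*s*S + (-1)*s*t*S + (-3)*s^2*S) + e3 * ((-15)*S + 30*t*S + (-30)*s*S + (-30)*s*t*S + 120*s^2*S + 30*s^2*t*S + (-60)*s^3*S)),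
    0,
    (e4 * (((-27)/2) + (-3)*t + (-6)*t^2 + ((-3)/2)*s + 15*s*t + (-9)*s^2) + e2 * (((-5)/2) + 1*t + (-2)*s + (-1)*s*t + (3/2)*s^2) + e3 * (15 + (-6)*t + (-39)*s + 27*s^2 + (-6)*s^3)),
    (e4 * ((9/2)*S^2 + (-18)*t*S^2 + ((-39)/2)*s*S^2 + (-21)*s*t*S^2 + (39/2)*s^2*S^2 + 3*s^2*t*S^2 + ((-9)/2)*s^3*S^2) + e2 * ((3/2)*S^2 + (-3)*t*S^2 + ((-13)/2)*s*S^2 + (-4)*s*t*S^2 + (13/2)*s^2*S^2 + 1*s^2*t*S^2 + ((-3)/2)*s^3*S^2) + e3 * (9*S^2 + (-12)*t*S^2 + (-9)*s*S^2 + 6*s*t*S^2 + 6*s^2*S^2 + (-24)*s^2*t*S^2 + (-9)*s^3*S^2 + 15*s^4*S^2)),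
    (e4 * (3*T + 6*t*T + (-12)*s*T + (-6)*s*t*T + (-18)*s^2*T + (-9)*s^3*T) + e2 * (1*T + 2*t*T + (-4)*s*T + (-2)*s*t*T + (-3)*s^2*T) + e3 * (12*t*T + 6*s*T + (-24)*s*t*T + (-12)*s^2*T))⟩

set_option maxHeartbeats 2000000 in
lemma ev_base5 (e4 e2 e3 : ℝ) {s t S T w p R l q t1 t2 t3 : ℝ} (h : Rels s t S T w p R)
    (hl : l = w + p - 2*s*w) (hq : q = S*(1+s) + s*w^2 + R - w^2 - w*p)
    (ht1 : t1 = 3/2*(p + s*w - 2*t*w))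
    (ht2 : t2 = 3/2*(R + s*R + 2*t*w^2 + 4*s*S - 2*w*p - 2*s*w^2))
    (ht3 : t3 = 1/2*(2*T + 3*S*w + 3*S*p + 4*t*T - w^3 + 3*s*S*w
      - 3*w*(R*(1+s) + 4*s*S) + 3*w^2*(p + s*w) - 2*t*w^3)) :
    (base5 e4 e2 e3 s t S T).ev w p R = e4*(2*t2*t3) + e2*q*t3 + e3*(3*l*q^2) := by
  subst hl hq ht1 ht2 ht3
  simp only [base5, NForm.ev]
  linear_combination -((e4 * ((27/2)*w^2 + (9/2)*S + (27/2)*s*w^2 + (9/2)*s*S) + e2 * (3*w^2 + (3/2)*S + (3/2)*s*w^2) + e3 * (3*R + (-6)*w*p + (-12)*w^2 + 6*S + 6*t*w^2 + 18*s*w^2 + 6*s*S)) * h.hpR + (e4 * ((-9)*w^3 + (-9)*S*w) + e2 * (((-3)/2)*w^3 + ((-3)/2)*S*w) + e3 * (3*w^2*p + 9*w^3 + (-6)*S*w + (-12)*s*w^3 + (-6)*s*S*w)) * h.hpp + (e4 * (((-9)/2)*w + (-9)*s*w + ((-9)/2)*s^2*w) + e2 * (((-3)/2)*w + ((-3)/2)*s*w) + e3 * (3*w + (-6)*s*w))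 * h.hRR + (e4 * ((3*w^3 + (-15)*T + ((-21)/2)*S*w + 15*t*w^3 + (-12)*t*T + (-21)*t*S*w) + ((-18)*s*w^3 + (-18)*s*T + 51*s*S*w + 3*s*t*S*w + (-9)*s^2*T + ((-9)/2)*s^2*S*w)) + e2 * (((-1)*w^3 + (-4)*T + ((-1)/2)*S*w + 1*t*w^3 + (-2)*t*T) + ((-4)*t*S*w + (-3)*s*T + 8*s*S*w + 1*s*t*S*w + ((-3)/2)*s^2*S*w)) + e3 * ((15*w^3 + 6*T + (-21)*S*w + (-24)*t*T + 18*t*S*w + (-27)*s*w^3) + ((-12)*s*T + 15*s*S*w + (-24)*s*t*S*w + 15*s^2*w^3 + (-9)*s^2*S*w + 15*s^3*S*w))) * h.hwp + (e4 * ((((-3)/2)*w^2 + (9/2)*S + (-30)*t*w^2 + (-18)*t*S + 15*s*w^2 + ((-75)/2)*s*S) + (3*s*t*w^2 + (-21)*s*t*S + ((-9)/2)*s^2*w^2 + (39/2)*s^2*S + 3*s^2*t*S + ((-9)/2)*s^3*S)) + e2 * ((1*w^2 + (-4)*t*w^2 + (-3)*t*S + (1/2)*s*w^2 + (-8)*s*S) + (1*s*t*w^2 + (-4)*s*t*S + ((-3)/2)*s^2*w^2 + (13/2)*s^2*S + 1*s^2*t*S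 + ((-3)/2)*s^3*S)) + e3 * (((-9)*w^2 + 6*S + 18*t*w^2 + (-12)*t*S + 33*s*w^2 + (-15)*s*S + (-24)*s*t*w^2) + (6*s*t*S + (-39)*s^2*w^2 + 3*s^2*S + (-24)*s^2*t*S + 15*s^3*w^2 + (-9)*s^3*S + 15*s^4*S))) * h.hwR)

set_option maxHeartbeats 2000000 in
/-- Normal form of the order-6 directional derivative. -/
noncomputable def base6 (e4 e3 s t S T : ℝ) : NForm :=
  ⟨(e4 * (((1*T^2 + 4*t*T^2 + 4*t^2*T^2 + (-1)*t^2*S^3 + (-4)*t^3*S^3 + (-4)*t^4*S^3) + ((-6)*s*T^2 + (-12)*s*t*T^2 + 6*s*t^2*S^3 + 12*s*t^3*S^3 + 9*s^2*T^2 + 9*s^2*S^3)) + (((-9)*s^2*t^2*S^3 + (-1)*s^3*T^2 + 19*s^3*S^3 + (-4)*s^3*t*T^2 + 4*s^3*t*S^3 + (-4)*s^3*t^2*T^2) + (4*s^3*t^2*S^3 + 6*s^4*T^2 + 3*s^4*S^3 + 12*s^4*t*T^2 + (-12)*s^4*t*S^3 + (-9)*s^5*T^2 + 9*s^5*S^3))) + e3 * (((1*S^3 + 8*t*T^2 + (-20)*t*S^3 + 40*t^2*S^3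 + (-8)*t^3*S^3 + 15*s*S^3) + ((-24)*s*t*T^2 + (-12)*s*t*S^3 + (-48)*s*t^2*S^3 + (-12)*s^2*T^2 + 15*s^2*S^3 + 24*s^2*t*T^2 + 6*s^2*t*S^3)) + ((36*s^2*t^2*S^3 + 40*s^3*T^2 + (-27)*s^3*S^3 + (-8)*s^3*t*T^2 + 8*s^3*t*S^3 + (-4)*s^3*t^2*S^3) + ((-48)*s^4*T^2 + 48*s^4*S^3 + (-6)*s^4*t*S^3 + 24*s^5*T^2 + (-24)*s^5*S^3 + (-4)*s^6*T^2 + 4*s^6*S^3)))),
    (e4 * ((3*S*T + 3*t*S*T + 12*t^2*S*T + (-18)*s*S*T + (-57)*s*t*S*T) + ((-12)*s*t^2*S*T + (-12)*s*t^3*S*T + 27*s^2*S*T + 9*s^2*t*S*T + 36*s^2*t^2*S*T + (-27)*s^3*t*S*T)) + e3 * (((-36)*t*S*T + 24*t^2*S*T + (-6)*s*S*T + 84*s*t*S*T + (-24)*s*t^2*S*T) + ((-144)*s^2*t*S*T + 12*s^3*S*T + 84*s^3*t*S*T + (-12)*s^4*t*S*T + (-6)*s^5*S*T))),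
    (e4 * (((9/4)*S^2 + 9*t*S^2 + 9*t^2*S^2 + ((-99)/4)*s*S^2 + (-27)*s*t*S^2) + (((-9)/2)*s^2*S^2 + (-9)*s^2*t*S^2 + (-9)*s^2*t^2*S^2 + (9/4)*s^3*S^2 + 27*s^3*t*S^2 + ((-81)/4)*s^4*S^2)) + e3 * (((-6)*S^2 + 24*t*S^2 + (-12)*t^2*S^2 + (-42)*s*S^2 + 12*s*t^2*S^2) + (66*s^2*S^2 + (-18)*s^2*t*S^2 + (-93)*s^3*S^2 + (-6)*s^3*t*S^2 + 54*s^4*S^2 + (-9)*s^5*S^2))),
    (e4 * ((-1)*T + (-3)*t*T + 4*t^3*T + 6*s*T + 6*s*t*T + (-12)*s*t^2*T + (-9)*s^2*T + 9*s^2*t*T) + e3 * (((-2)*T + (-4)*t*T + 12*s*T + 12*s*t*T) + ((-24)*s^2*T + (-12)*s^2*t*T + 20*s^3*T + 4*s^3*t*T + (-6)*s^4*T))),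
    (e4 * (((3/4)*S + (-6)*t*S + (-6)*t^2*S + 15*s*S) + (24*s*t*S + 6*s*t^2*S + ((-81)/4)*s^2*S + (-18)*s^2*t*S + (27/2)*s^3*S)) + e3 * (12*S + (-12)*t*S + (-21)*s*S + 18*s*t*S + 30*s^2*S + (-6)*s^2*t*S + (-21)*s^3*S + 6*s^4*S)),
    0,
    (e4 * ((9/2)*s*S*T + 9*s^2*S*T + (9/2)*s^3*S*T) + e3 * (6*S*T + (-12)*t*S*T + 12*s*t*S*T + 6*s^2*S*T)),
    (e4 * ((9/2)*t*S^2 + 9*s*t*S^2 + (9/2)*s^2*t*S^2) + e3 * (3*S^2 + 6*s*t*S^2 + (-3)*s^2*S^2 + 3*s^3*S^2 + 6*s^3*t*S^2 + (-3)*s^5*S^2))⟩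

set_option maxHeartbeats 2000000 in
lemma ev_base6 (e4 e3 : ℝ) {s t S T w p R l q t1 t2 t3 : ℝ} (h : Rels s t S T w p R)
    (hl : l = w + p - 2*s*w) (hq : q = S*(1+s) + s*w^2 + R - w^2 - w*p)
    (ht1 : t1 = 3/2*(p + s*w - 2*t*w))
    (ht2 : t2 = 3/2*(R + s*R + 2*t*w^2 + 4*s*S - 2*w*p - 2*s*w^2))
    (ht3 : t3 = 1/2*(2*T + 3*S*w + 3*S*p + 4*t*T - w^3 + 3*s*S*w
      - 3*w*(R*(1+s) + 4*s*S) + 3*w^2*(p + s*w) - 2*t*w^3)) :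
    (base6 e4 e3 s t S T).ev w p R = e4*t3^2 + e3*q^3 := by
  subst hl hq ht1 ht2 ht3
  simp only [base6, NForm.ev]
  linear_combination -((e4 * (((-9)/2)*w^3 + ((-9)/2)*S*w + ((-9)/2)*s*w^3 + ((-9)/2)*s*S*w) + e3 * ((-3)*w*R + 3*w^2*p + 6*w^3 + 2*T + (-6)*S*w + (-2)*t*w^3 + (-6)*s*w^3 + (-6)*s*S*w)) * h.hpR + (e4 * ((9/4)*w^4 + (9/2)*S*w^2 + (9/4)*S^2) + e3 * ((-1)*w^3*p + (-3)*w^4 + 3*S*w^2 + 3*s*w^4 + 3*s*S*w^2)) * h.hpp + (e4 * ((9/4)*w^2 + (9/2)*s*w^2 + (9/4)*s^2*w^2) + e3 * (1*R + (-3)*w^2 + 3*S + 3*s*w^2 + 3*s*S)) * h.hRR + (e4 * ((((-3)/2)*w^4 + (15/2)*T*w + (9/2)*S*w^2 + (-3)*t*w^4 + 6*t*T*w + (9/2)*t*S*w^2) + (9*t*S^2 + (9/2)*s*w^4 + 9*s*T*w + ((-27)/2)*s*S*w^2 + (9/2)*s*t*S^2 + (9/2)*s^2*T*w)) + e3 * (((-6)*w^4 + (-6)*T*w + 12*S*w^2 + (-10)*S^2 + 12*t*T*w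 + (-6)*t*S*w^2 + 6*t*S^2 + 7*s*w^4) + (6*s*T*w + (-6)*s*S^2 + 6*s*t*S*w^2 + (-3)*s^2*w^4 + 3*s^2*S^2 + 6*s^2*t*S^2 + (-3)*s^3*S*w^2 + (-3)*s^4*S^2))) * h.hwp + (e4 * (((3/2)*w^3 + (-3)*T + ((-9)/2)*S*w + (15/2)*t*w^3 + (-6)*t*T + 9*t*S*w) + (((-9)/2)*s*w^3 + (9/2)*s*T + (27/2)*s*S*w + (9/2)*s*t*S*w + 9*s^2*T + (9/2)*s^3*T)) + e3 * ((6*w^3 + (-7)*S*w + (-6)*t*w^3 + (-12)*t*T + 6*t*S*w + (-12)*s*w^3 + (-6)*s*T) + (6*s*t*w^3 + 12*s*t*T + 10*s^2*w^3 + 6*s^2*T + 6*s^2*S*w + 6*s^2*t*S*w + (-3)*s^3*w^3 + (-3)*s^4*S*w))) * h.hwR + (e4 * ((19/4) + 1*t + 1*t^2 + (3/4)*s + (-3)*s*t + (9/4)*s^2) + e3 * ((-7) + 2*t + 12*s + (-6)*s^2 + 1*s^3)) * h.hw6)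

end Vale.Agent.P154
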