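import Vale.Agent.P154.KS

/-!
Symmetric experiments with `q` states, joining through an edge of the Potts channel, and the
certificate for the invariant method.
-/

open scoped BigOperators

namespace Vale.Agent.P154.QInv

variable {q : ℕ}

/-- Posterior ratio vectors: nonnegative, with mean one. -/
def InS (a : Fin q → ℝ) : Prop := (∀ i, 0 ≤ a i) ∧ ∑ i, a i = (q : ℝ)

/-- The squared distance to the uniform vector, equal to one at the vertices. -/
noncomputable def sqd (a : Fin q → ℝ) : ℝ := (∑ i, (a i - 1) ^ 2) / ((q : ℝ) * ((q : ℝ) - 1))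

/-- The normalising weight of two children. -/
noncomputable def zw (a b : Fin q → ℝ) : ℝ := (∑ i, a i * b i) / (q : ℝ)

/-- The combined posterior. -/
noncomputable def comb (a b : Fin q → ℝ) : Fin q → ℝ := fun i => a i * b i / zw a b

/-- The image of a posterior ratio under the channel. -/
def img (l : ℝ) (y : Fin q → ℝ) : Fin q → ℝ := fun i => 1 + l * (y i - 1)

/-- The join of two posteriors averaged over the relabellings of the second. -/
noncomputable def avgJoin (φ : (Fin q → ℝ) → ℝ) (a b : Fin q → ℝ) : ℝ :=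
  1 / (q.factorial : ℝ) * ∑ σ : Equiv.Perm (Fin q),
    zw a (fun i => b (σ i)) * φ (comb a (fun i => b (σ i)))

/-- A certificate for the invariant method: with `J` of nonnegative mean, the second moment is
subadditive under joining, with a gain of third order, and the sign of the mean of `J`
propagates. -/
structure QCert (q : ℕ) (J gA gA' gB gB' : (Fin q → ℝ) → ℝ) (kA kB dl : ℝ) (th : ℝ → ℝ) :
    Prop where
  one : 0 ≤ J fun _ => 1
  leaf : ∀ c : Fin q, 0 ≤ J fun i => if i = c then (q : ℝ) else 0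
  gA_nonneg : ∀ a, InS a → 0 ≤ gA a
  gA'_nonneg : ∀ a, InS a → 0 ≤ gA' a
  gB_nonneg : ∀ a, InS a → 0 ≤ gB a
  gB'_nonneg : ∀ a, InS a → 0 ≤ gB' a
  kA_nonneg : 0 ≤ kA
  kB_nonneg : 0 ≤ kB
  dl_pos : 0 < dl
  th_nonneg : ∀ l, 0 ≤ l → l ≤ 1 → 0 ≤ th l
  edge : ∀ l y, 0 ≤ l → l ≤ 1 → InS y → th l * J y ≤ J (img l y)
  upper : ∀ a b, InS a → InS b → avgJoin sqd a b ≤
    sqd a + sqd b - (J a * gA b + gA' a * J b + kA * (J a * J b)) - dl * (sqd a * sqd b * (sqd a + sqd b))
  lower : ∀ a b, InS a → InS b →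
    J a * gB b + gB' a * J b + kB * (J a * J b) ≤ avgJoin J a b

/-- Probability of one observation. -/
noncomputable def wt (g : Fin q → ℝ) : ℝ := (∑ i, g i) / (q : ℝ)

/-- Posterior ratio of one observation (the uniform vector if it has probability zero). -/
noncomputable def post (g : Fin q → ℝ) : Fin q → ℝ :=
  if wt g = 0 then fun _ => 1 else fun i => g i / wt g

/-- Likelihood pushed through one edge. -/
noncomputable def push (l : ℝ) (g : Fin q → ℝ) (i : Fin q) : ℝ :=
  ∑ s, KS.chanQ q l i s * g s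

variable {ι κ : Type} [Fintype ι] [Fintype κ]

/-- A family of likelihood vectors of a symmetric experiment. -/
structure Fam (f : ι → Fin q → ℝ) : Prop where
  nonneg : ∀ k i, 0 ≤ f k i
  mass : ∀ i, ∑ k, f k i = 1
  equiv : ∀ σ : Equiv.Perm (Fin q), ∃ e : ι ≃ ι, ∀ k i, f (e k) i = f k (σ i)

/-- Expectation of a function of the posterior ratio. -/
noncomputable def expect (φ : (Fin q → ℝ) → ℝ) (f : ι → Fin q → ℝ) : ℝ :=
  ∑ k, wt (f k) * φ (post (f k))

/-- Joining a family with a child family through an edge. -/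
noncomputable def join (l : ℝ) (f : ι → Fin q → ℝ) (g : κ → Fin q → ℝ) :
    ι × κ → Fin q → ℝ := fun p i => f p.1 i * push l (g p.2) i

lemma chanQ_nonneg' {l : ℝ} (h0 : 0 ≤ l) (h1 : l ≤ 1) (i j : Fin q) :
    0 ≤ KS.chanQ q l i j := by
  have : 0 ≤ (1 - l) / (q : ℝ) := div_nonneg (by linarith) (Nat.cast_nonneg q)
  unfold KS.chanQ
  split_ifs <;> linarith

variable [NeZero q]

lemma cast_ne : (q : ℝ) ≠ 0 := (KS.cast_q_pos q).ne'

lemma wt_nonneg {g : Fin q → ℝ} (h : ∀ i, 0 ≤ g i) : 0 ≤ wt g :=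
  div_nonneg (Finset.sum_nonneg fun i _ => h i) (Nat.cast_nonneg q)

lemma post_inS {g : Fin q → ℝ} (h : ∀ i, 0 ≤ g i) : InS (post g) := by
  unfold post
  split_ifs with h0
  · exact ⟨fun i => zero_le_one, by simp⟩
  · refine ⟨fun i => div_nonneg (h i) (wt_nonneg h), ?_⟩
    rw [← Finset.sum_div, div_eq_iff h0, wt, mul_div_assoc', mul_div_cancel_left₀ _ cast_ne]

lemma wt_mul_post {g : Fin q → ℝ} (h : ∀ i, 0 ≤ g i) (i : Fin q) : wt g * post g i = g i := by
  unfold post
  split_ifs with h0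
  · have hs : ∑ j, g j = 0 := by
      unfold wt at h0
      exact (div_eq_zero_iff.mp h0).resolve_right cast_ne
    have := (Finset.sum_eq_zero_iff_of_nonneg (fun j _ => h j)).mp hs i (Finset.mem_univ i)
    simp [h0, this]
  · field_simp

lemma img_post {l : ℝ} {g : Fin q → ℝ} (h : ∀ i, 0 ≤ g i) (i : Fin q) :
    push l g i = wt g * img l (post g) i := by
  have := wt_mul_post h i
  rw [push, KS.sum_chanQ_mul, img, mul_add, mul_one, mul_left_comm, mul_sub, mul_one, this]
  simp only [wt]; ring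

lemma join_term {l : ℝ} (φ : (Fin q → ℝ) → ℝ) {u v : Fin q → ℝ}
    (hu : ∀ i, 0 ≤ u i) (hv : ∀ i, 0 ≤ v i) :
    wt (fun i => u i * push l v i) * φ (post fun i => u i * push l v i)
      = wt u * wt v * (zw (post u) (img l (post v)) * φ (comb (post u) (img l (post v)))) := by
  have e : ∀ i, u i * push l v i = wt u * wt v * (post u i * img l (post v) i) := fun i => by
    rw [img_post hv]; nth_rewrite 1 [← wt_mul_post hu i]; ring
  have hw : wt (fun i => u i * push l v i) = wt u * wt v * zw (post u) (img l (post v)) := by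
    simp only [wt, zw, e, ← Finset.mul_sum]; ring
  by_cases h0 : wt (fun i => u i * push l v i) = 0
  · rw [h0, zero_mul, ← mul_assoc, ← hw, h0, zero_mul]
  · have hz : zw (post u) (img l (post v)) ≠ 0 := fun hz => h0 (by rw [hw, hz, mul_zero])
    have huv : wt u * wt v ≠ 0 := fun hz' => h0 (by rw [hw, hz', zero_mul])
    have hp : post (fun i => u i * push l v i) = comb (post u) (img l (post v)) := by
      rw [post, if_neg h0]; funext i
      rw [e i, hw, comb, mul_div_mul_left _ _ huv]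
    rw [hp, hw]; ring

omit [NeZero q] in
lemma post_perm {g h : Fin q → ℝ} (σ : Equiv.Perm (Fin q)) (e : ∀ i, h i = g (σ i)) :
    wt h = wt g ∧ ∀ i, post h i = post g (σ i) := by
  have hw : wt h = wt g := by
    simp only [wt, e]; rw [Equiv.sum_comp σ g]
  refine ⟨hw, fun i => ?_⟩
  simp only [post, hw]; split_ifs <;> simp [e i]

lemma Fam.join {l : ℝ} (h0 : 0 ≤ l) (h1 : l ≤ 1)
    {f : ι → Fin q → ℝ} {g : κ → Fin q → ℝ} (hf : Fam f) (hg : Fam g) :
    Fam (QInv.join l f g) := by
  refine ⟨fun p i => mul_nonneg (hf.nonneg _ _) (Finset.sum_nonneg fun j _ =>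
    mul_nonneg (chanQ_nonneg' h0 h1 i j) (hg.nonneg _ _)), fun i => ?_, fun σ => ?_⟩
  · simp only [QInv.join, push, Fintype.sum_prod_type, ← Finset.mul_sum]
    rw [← Finset.sum_mul, hf.mass, one_mul, Finset.sum_comm]
    simp only [← Finset.mul_sum, hg.mass, mul_one, KS.sum_chanQ]
  · obtain ⟨e, he⟩ := hf.equiv σ
    obtain ⟨e', he'⟩ := hg.equiv σ
    refine ⟨e.prodCongr e', fun p i => ?_⟩
    have hs : ∑ j, g (e' p.2) j = ∑ j, g p.2 j := by
      rw [← Equiv.sum_comp σ (g p.2)]; exact Finset.sum_congr rfl fun j _ => he' _ j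
    simp only [QInv.join, Equiv.prodCongr_apply, Prod.map_fst, Prod.map_snd, push,
      KS.sum_chanQ_mul, he, hs]
    rw [he']

lemma sum_wt {f : ι → Fin q → ℝ} (hf : Fam f) : ∑ j, wt (f j) = 1 := by
  simp only [wt, ← Finset.sum_div]
  rw [Finset.sum_comm]
  simp only [hf.mass, Finset.sum_const, Finset.card_univ, Fintype.card_fin, nsmul_eq_mul, mul_one]
  exact div_self cast_ne

/-- The joined expectation is the averaged pointwise one. -/
lemma expect_join_eq {l : ℝ} (φ : (Fin q → ℝ) → ℝ) {f : ι → Fin q → ℝ} {g : κ → Fin q → ℝ}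
    (hf : Fam f) (hg : Fam g) :
    expect φ (join l f g) = ∑ j, ∑ k, wt (f j) * wt (g k) *
      avgJoin φ (post (f j)) (img l (post (g k))) := by
  let F : (Fin q → ℝ) → (Fin q → ℝ) → ℝ := fun a b => zw a b * φ (comb a b)
  have h1 : expect φ (join l f g) = ∑ j, ∑ k, wt (f j) * wt (g k) *
      F (post (f j)) (img l (post (g k))) := by
    simp only [expect, Fintype.sum_prod_type]
    exact Finset.sum_congr rfl fun j _ => Finset.sum_congr rfl fun k _ =>
      join_term φ (hf.nonneg j) (hg.nonneg k)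
  have h2 : ∀ σ : Equiv.Perm (Fin q), ∀ j, ∑ k, wt (f j) * wt (g k) *
      F (post (f j)) (img l (post (g k))) = ∑ k, wt (f j) * wt (g k) *
      F (post (f j)) (fun i => img l (post (g k)) (σ i)) := fun σ j => by
    obtain ⟨e, he⟩ := hg.equiv σ
    rw [← Equiv.sum_comp e (fun k => wt (f j) * wt (g k) * F (post (f j)) (img l (post (g k))))]
    refine Finset.sum_congr rfl fun k _ => ?_
    obtain ⟨hw, hp⟩ := post_perm σ (he k)
    have : img l (post (g (e k))) = fun i => img l (post (g k)) (σ i) := by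
      funext i; simp [img, hp i]
    rw [hw, this]
  have h3 : ∀ j, ∑ k, wt (f j) * wt (g k) * F (post (f j)) (img l (post (g k)))
      = ∑ k, wt (f j) * wt (g k) * avgJoin φ (post (f j)) (img l (post (g k))) := fun j => by
    have hN : (Fintype.card (Equiv.Perm (Fin q)) : ℝ) = (q.factorial : ℝ) := by
      rw [Fintype.card_perm, Fintype.card_fin]
    have hN0 : (q.factorial : ℝ) ≠ 0 := Nat.cast_ne_zero.2 q.factorial_ne_zero
    calc ∑ k, wt (f j) * wt (g k) * F (post (f j)) (img l (post (g k)))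
        = 1 / (q.factorial : ℝ) * ∑ _σ : Equiv.Perm (Fin q),
            ∑ k, wt (f j) * wt (g k) * F (post (f j)) (img l (post (g k))) := by
          rw [Finset.sum_const, Finset.card_univ, nsmul_eq_mul, hN, one_div,
            inv_mul_cancel_left₀ hN0]
      _ = _ := by
          rw [Finset.sum_congr rfl fun σ _ => h2 σ j, Finset.sum_comm, Finset.mul_sum]
          refine Finset.sum_congr rfl fun k _ => ?_
          rw [← Finset.mul_sum, avgJoin]
          ring
  rw [h1, Finset.sum_congr rfl fun j _ => h3 j]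

omit [NeZero q] in
lemma sum_split (f : ι → Fin q → ℝ) (g : κ → Fin q → ℝ) (φ ψ : (Fin q → ℝ) → ℝ) :
    ∑ j, ∑ k, wt (f j) * wt (g k) * (φ (post (f j)) * ψ (post (g k))) =
      expect φ f * expect ψ g := by
  rw [expect, expect, Finset.sum_mul_sum]
  exact Finset.sum_congr rfl fun j _ => Finset.sum_congr rfl fun k _ => by ring

lemma sum_left {f : ι → Fin q → ℝ} {g : κ → Fin q → ℝ} (hg : Fam g) (φ : (Fin q → ℝ) → ℝ) :
    ∑ j, ∑ k, wt (f j) * wt (g k) * φ (post (f j)) = expect φ f := by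
  refine Finset.sum_congr rfl fun j _ => ?_
  rw [← Finset.sum_mul, ← Finset.mul_sum, sum_wt hg, mul_one]

lemma sum_right {f : ι → Fin q → ℝ} {g : κ → Fin q → ℝ} (hf : Fam f) (ψ : (Fin q → ℝ) → ℝ) :
    ∑ j, ∑ k, wt (f j) * wt (g k) * ψ (post (g k)) = expect ψ g := by
  rw [Finset.sum_comm]
  refine Finset.sum_congr rfl fun k _ => ?_
  rw [← Finset.sum_mul, ← Finset.sum_mul, sum_wt hf, one_mul]

lemma expect_nonneg {f : ι → Fin q → ℝ} (hf : Fam f) {φ : (Fin q → ℝ) → ℝ}
    (h : ∀ a, InS a → 0 ≤ φ a) : 0 ≤ expect φ f :=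
  Finset.sum_nonneg fun j _ => mul_nonneg (wt_nonneg (hf.nonneg j)) (h _ (post_inS (hf.nonneg j)))

omit [NeZero q] in
lemma sqd_nonneg (a : Fin q → ℝ) : 0 ≤ sqd a := by
  unfold sqd
  rcases le_or_gt q 1 with h | h
  · interval_cases q <;> simp
  · have h1 : (2 : ℝ) ≤ q := by exact_mod_cast h
    have : (0 : ℝ) ≤ (q : ℝ) * ((q : ℝ) - 1) := by nlinarith
    exact div_nonneg (Finset.sum_nonneg fun i _ => sq_nonneg _) this

lemma expect_sqd_nonneg {f : ι → Fin q → ℝ} (hf : Fam f) : 0 ≤ expect sqd f :=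
  expect_nonneg hf fun a _ => sqd_nonneg a

omit [NeZero q] in
lemma img_inS {l : ℝ} (h0 : 0 ≤ l) (h1 : l ≤ 1) {y : Fin q → ℝ} (hy : InS y) :
    InS (img l y) := by
  refine ⟨fun i => ?_, ?_⟩
  · have := mul_nonneg h0 (hy.1 i)
    simp only [img]; linarith
  · simp only [img, Finset.sum_add_distrib, ← Finset.mul_sum, Finset.sum_sub_distrib, hy.2]
    simp

omit [NeZero q] in
lemma sqd_img (l : ℝ) (y : Fin q → ℝ) : sqd (img l y) = l ^ 2 * sqd y := by
  simp only [sqd, img, add_sub_cancel_left, mul_pow, ← Finset.mul_sum]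
  ring

end Vale.Agent.P154.QInv
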