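import Vale.Agent.P154.Basic
import Vale.Agent.P154.Normal

/-!
The potential, its exact Taylor expansion along a join, and crude bounds.
-/

set_option linter.unusedVariables false

namespace Vale.Agent.P154

/-- The coefficients of the potential. -/
structure Coef where
  /-- Coefficient of the squared quadratic invariant. -/
  e1 : ℝ
  /-- Coefficient of the mixed product. -/
  e2 : ℝ
  /-- Coefficient of the cubed quadratic invariant. -/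
  e3 : ℝ
  /-- Coefficient of the squared cubic invariant. -/
  e4 : ℝ

/-- The potential in the invariants. -/
def Coef.val (E : Coef) (s t : ℝ) : ℝ :=
  s + E.e1 * s ^ 2 + E.e2 * (s * t) + E.e3 * s ^ 3 + E.e4 * t ^ 2

/-- The potential of a posterior ratio. -/
noncomputable def Coef.phi (E : Coef) (a : Spin → ℝ) : ℝ :=
  E.val (sI (a 0 - 1) (a 1 - 1)) (tI (a 0 - 1) (a 1 - 1))

/-- First-order directional derivative. -/
def Coef.d1 (E : Coef) (s t l t1 : ℝ) : ℝ :=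
  l + E.e1 * (2 * s * l) + E.e2 * (t * l + s * t1) + E.e3 * (3 * s ^ 2 * l) + E.e4 * (2 * t * t1)

/-- Second-order directional derivative. -/
def Coef.d2 (E : Coef) (s t l q t1 t2 : ℝ) : ℝ :=
  E.e4 * (t1^2 + 2*t*t2) + 1 * q + E.e2 * (s*t2 + l*t1 + q*t) + E.e1 * (l^2 + 2*s*q)
    + E.e3 * (3*s*l^2 + 3*s^2*q)

/-- Third-order directional derivative. -/
def Coef.d3 (E : Coef) (s t l q t1 t2 t3 : ℝ) : ℝ :=
  E.e4 * (2*t*t3 + 2*t1*t2) + E.e2 * (s*t3 + l*t2 + q*t1) + E.e1 * (2*l*q)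
    + E.e3 * (l^3 + 6*s*l*q)

/-- Fourth-order directional derivative. -/
def Coef.d4 (E : Coef) (s l q t1 t2 t3 : ℝ) : ℝ :=
  E.e4 * (t2^2 + 2*t1*t3) + E.e2 * (l*t3 + q*t2) + E.e1 * q^2 + E.e3 * (3*l^2*q + 3*s*q^2)

/-- Fifth-order directional derivative. -/
def Coef.d5 (E : Coef) (l q t2 t3 : ℝ) : ℝ :=
  E.e4 * (2*t2*t3) + E.e2 * (q*t3) + E.e3 * (3*l*q^2)

/-- Sixth-order directional derivative. -/
def Coef.d6 (E : Coef) (q t3 : ℝ) : ℝ := E.e4 * t3^2 + E.e3 * q^3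

lemma sI_add (a b v v' Z : ℝ) (hZ : Z ≠ 0) :
    sI (a + v / Z) (b + v' / Z) = sI a b + lI a b v v' / Z + sI v v' / Z ^ 2 := by
  simp only [sI, lI]; field_simp; ring

lemma tI_add (a b v v' Z : ℝ) (hZ : Z ≠ 0) :
    tI (a + v / Z) (b + v' / Z)
      = tI a b + t1I a b v v' / Z + t2I a b v v' / Z ^ 2 + tI v v' / Z ^ 3 := by
  simp only [tI, t1I, t2I]; field_simp; ring

lemma val_taylor (E : Coef) (s t l q t1 t2 t3 Z : ℝ) (hZ : Z ≠ 0) :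
    Z * E.val (s + l / Z + q / Z ^ 2) (t + t1 / Z + t2 / Z ^ 2 + t3 / Z ^ 3)
      = Z * E.val s t + E.d1 s t l t1 + E.d2 s t l q t1 t2 * (1 / Z)
        + E.d3 s t l q t1 t2 t3 * (1 / Z ^ 2) + E.d4 s l q t1 t2 t3 * (1 / Z ^ 3)
        + E.d5 l q t2 t3 * (1 / Z ^ 4) + E.d6 q t3 * (1 / Z ^ 5) := by
  simp only [Coef.val, Coef.d1, Coef.d2, Coef.d3, Coef.d4, Coef.d5, Coef.d6]
  field_simp
  ring

/-- The simplex of centred posteriors, in two coordinates. -/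
structure Dom (a b : ℝ) : Prop where
  h0 : -1 ≤ a
  h1 : -1 ≤ b
  h2 : a + b ≤ 1

lemma Dom.prod {a b : ℝ} (h : Dom a b) : 3 * sI a b - 1 ≤ 2 * tI a b := by
  have := mul_nonneg (mul_nonneg (by linarith [h.h0] : 0 ≤ 1 + a) (by linarith [h.h1] : 0 ≤ 1 + b))
    (by linarith [h.h2] : 0 ≤ 1 - a - b)
  have e : 2 * tI a b - (3 * sI a b - 1) = (1 + a) * (1 + b) * (1 - a - b) := by
    simp only [sI, tI]; ring
  linarith

lemma Dom.sI_le_one {a b : ℝ} (h : Dom a b) : sI a b ≤ 1 := by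
  have p1 := mul_nonneg (by linarith [h.h0] : 0 ≤ 1 + a) (by linarith [h.h1] : 0 ≤ 1 + b)
  have p2 := mul_nonneg (by linarith [h.h0] : 0 ≤ 1 + a) (by linarith [h.h2] : 0 ≤ 1 - a - b)
  have p3 := mul_nonneg (by linarith [h.h1] : 0 ≤ 1 + b) (by linarith [h.h2] : 0 ≤ 1 - a - b)
  simp only [sI]; linarith

/-- Membership of the invariants of a point of the simplex. -/
structure Inv (s t : ℝ) : Prop where
  nonneg : 0 ≤ s
  le_one : s ≤ 1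
  sq_le : t ^ 2 ≤ s ^ 3
  prod : 3 * s - 1 ≤ 2 * t

lemma Dom.inv {a b : ℝ} (h : Dom a b) : Inv (sI a b) (tI a b) :=
  ⟨sI_nonneg a b, h.sI_le_one, tI_sq_le a b, h.prod⟩

lemma Dom.pairing {a b c d : ℝ} (hx : Dom a b) (hz : Dom c d) :
    -1 ≤ wM a b c d ∧ wM a b c d ≤ 2 := by
  have e : 1 + wM a b c d
      = ((1 + a) * (1 + c) + (1 + b) * (1 + d) + (1 - a - b) * (1 - c - d)) / 3 := by
    simp only [wM]; ring
  constructor
  · nlinarith [mul_nonneg (by linarith [hx.h0] : 0 ≤ 1 + a) (by linarith [hz.h0] : 0 ≤ 1 + c),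
      mul_nonneg (by linarith [hx.h1] : 0 ≤ 1 + b) (by linarith [hz.h1] : 0 ≤ 1 + d),
      mul_nonneg (by linarith [hx.h2] : 0 ≤ 1 - a - b) (by linarith [hz.h2] : 0 ≤ 1 - c - d)]
  · nlinarith [mul_nonneg (by linarith [hx.h0] : 0 ≤ 1 + a) (by linarith [hz.h1] : 0 ≤ 1 + d),
      mul_nonneg (by linarith [hx.h0] : 0 ≤ 1 + a) (by linarith [hz.h2] : 0 ≤ 1 - c - d),
      mul_nonneg (by linarith [hx.h1] : 0 ≤ 1 + b) (by linarith [hz.h0] : 0 ≤ 1 + c),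
      mul_nonneg (by linarith [hx.h1] : 0 ≤ 1 + b) (by linarith [hz.h2] : 0 ≤ 1 - c - d),
      mul_nonneg (by linarith [hx.h2] : 0 ≤ 1 - a - b) (by linarith [hz.h0] : 0 ≤ 1 + c),
      mul_nonneg (by linarith [hx.h2] : 0 ≤ 1 - a - b) (by linarith [hz.h1] : 0 ≤ 1 + d)]

/-- Absolute values of the coefficients. -/
def Coef.Bounded (E : Coef) (A : Coef) : Prop :=
  |E.e1| ≤ A.e1 ∧ |E.e2| ≤ A.e2 ∧ |E.e3| ≤ A.e3 ∧ |E.e4| ≤ A.e4

/-- Majorant of the second derivative. -/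
def Coef.b2 (A : Coef) (R : ℝ) : ℝ :=
  1 + A.e1 * (6 * R ^ 2) + A.e2 * (10 * R ^ 3) + (A.e3 + A.e4) * (15 * R ^ 4)

/-- Majorant of the third derivative. -/
def Coef.b3 (A : Coef) (R : ℝ) : ℝ :=
  A.e1 * (4 * R) + A.e2 * (10 * R ^ 2) + (A.e3 + A.e4) * (20 * R ^ 3)

/-- Majorant of the fourth derivative. -/
def Coef.b4 (A : Coef) (R : ℝ) : ℝ :=
  A.e1 + A.e2 * (5 * R) + (A.e3 + A.e4) * (15 * R ^ 2)

/-- Majorant of the fifth derivative. -/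
def Coef.b5 (A : Coef) (R : ℝ) : ℝ := A.e2 + (A.e3 + A.e4) * (6 * R)

/-- Majorant of the sixth derivative. -/
def Coef.b6 (A : Coef) : ℝ := A.e3 + A.e4

lemma abs_d_le (E : Coef) {R V s t l q t1 t2 t3 : ℝ} (hR : 0 ≤ R) (hV : 0 ≤ V)
    (hs : s = R ^ 2) (hq : q = V ^ 2) (ht : |t| ≤ R ^ 3) (hl : |l| ≤ 2 * R * V)
    (h1 : |t1| ≤ 3 * R ^ 2 * V) (h2 : |t2| ≤ 3 * R * V ^ 2) (h3 : |t3| ≤ V ^ 3) :
    let A : Coef := ⟨|E.e1|, |E.e2|, |E.e3|, |E.e4|⟩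
    |E.d2 s t l q t1 t2| ≤ A.b2 R * V ^ 2 ∧ |E.d3 s t l q t1 t2 t3| ≤ A.b3 R * V ^ 3 ∧
    |E.d4 s l q t1 t2 t3| ≤ A.b4 R * V ^ 4 ∧ |E.d5 l q t2 t3| ≤ A.b5 R * V ^ 5 ∧
    |E.d6 q t3| ≤ A.b6 * V ^ 6 := by
  subst hs hq
  have hm : ∀ {x y X Y : ℝ}, |x| ≤ X → |y| ≤ Y → |x * y| ≤ X * Y := fun {x y X Y} hx hy => by
    rw [abs_mul]; exact mul_le_mul hx hy (abs_nonneg _) ((abs_nonneg _).trans hx)
  have ha : ∀ {x y X Y : ℝ}, |x| ≤ X → |y| ≤ Y → |x + y| ≤ X + Y := fun {x y X Y} hx hy =>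
    (abs_add_le x y).trans (add_le_add hx hy)
  have hp : ∀ {x X : ℝ} (n : ℕ), |x| ≤ X → |x ^ n| ≤ X ^ n := fun {x X} n hx => by
    rw [abs_pow]; exact pow_le_pow_left₀ (abs_nonneg _) hx n
  have hc : ∀ c : ℝ, |c| ≤ |c| := fun c => le_rfl
  have hn : ∀ {c : ℝ}, 0 ≤ c → |c| ≤ c := fun {c} h => (abs_of_nonneg h).le
  have hRR : |R ^ 2| ≤ R ^ 2 := hn (sq_nonneg R)
  have hVV : |V ^ 2| ≤ V ^ 2 := hn (sq_nonneg V)
  have n2 : |(2 : ℝ)| ≤ 2 := hn (by norm_num)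
  have n3 : |(3 : ℝ)| ≤ 3 := hn (by norm_num)
  have n6 : |(6 : ℝ)| ≤ 6 := hn (by norm_num)
  have n1 : |(1 : ℝ)| ≤ 1 := hn (by norm_num)
  refine ⟨?_, ?_, ?_, ?_, ?_⟩
  · refine le_of_le_of_eq (ha (ha (ha (ha (hm (hc E.e4) (ha (hp 2 h1) (hm (hm n2 ht) h2)))
      (hm n1 hVV)) (hm (hc E.e2) (ha (ha (hm hRR h2) (hm hl h1)) (hm hVV ht))))
      (hm (hc E.e1) (ha (hp 2 hl) (hm (hm n2 hRR) hVV))))
      (hm (hc E.e3) (ha (hm (hm n3 hRR) (hp 2 hl)) (hm (hm n3 (hp 2 hRR)) hVV)))) ?_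
    simp only [Coef.b2]; ring
  · refine le_of_le_of_eq (ha (ha (ha (hm (hc E.e4) (ha (hm (hm n2 ht) h3) (hm (hm n2 h1) h2)))
      (hm (hc E.e2) (ha (ha (hm hRR h3) (hm hl h2)) (hm hVV h1))))
      (hm (hc E.e1) (hm (hm n2 hl) hVV)))
      (hm (hc E.e3) (ha (hp 3 hl) (hm (hm (hm n6 hRR) hl) hVV)))) ?_
    simp only [Coef.b3]; ring
  · refine le_of_le_of_eq (ha (ha (ha (hm (hc E.e4) (ha (hp 2 h2) (hm (hm n2 h1) h3)))
      (hm (hc E.e2) (ha (hm hl h3) (hm hVV h2)))) (hm (hc E.e1) (hp 2 hVV)))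
      (hm (hc E.e3) (ha (hm (hm n3 (hp 2 hl)) hVV) (hm (hm n3 hRR) (hp 2 hVV))))) ?_
    simp only [Coef.b4]; ring
  · refine le_of_le_of_eq (ha (ha (hm (hc E.e4) (hm (hm n2 h2) h3)) (hm (hc E.e2) (hm hVV h3)))
      (hm (hc E.e3) (hm (hm n3 hl) (hp 2 hVV)))) ?_
    simp only [Coef.b5]; ring
  · refine le_of_le_of_eq (ha (hm (hc E.e4) (hp 2 h3)) (hm (hc E.e3) (hp 3 hVV))) ?_
    simp only [Coef.b6]; ring

/-- The bounds on the derivatives at a point, given two bounds on the velocity. -/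
lemma deriv_le (E : Coef) {a b c d r : ℝ} (hx : Dom a b) (hr : 0 ≤ r)
    (hS : sI c d ≤ r ^ 2) {M2 M3 M4 M5 M6 : ℝ}
    (hM : ∀ R g : ℝ, 0 ≤ R → R ≤ 1 → 0 ≤ g → g ≤ 1 + R → g ≤ 2 * (1 - R ^ 2) →
      let A : Coef := ⟨|E.e1|, |E.e2|, |E.e3|, |E.e4|⟩
      A.b2 R * g ^ 2 ≤ M2 ∧ A.b3 R * g ^ 3 ≤ M3 ∧ A.b4 R * g ^ 4 ≤ M4 ∧ A.b5 R * g ^ 5 ≤ M5 ∧
      A.b6 * g ^ 6 ≤ M6) :
    let s := sI a b; let t := tI a b
    let v := vA a b c d; let v' := vB a b c d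
    let l := lI a b v v'; let q := sI v v'
    let t1 := t1I a b v v'; let t2 := t2I a b v v'; let t3 := tI v v'
    |E.d2 s t l q t1 t2| ≤ M2 * r ^ 2 ∧ |E.d3 s t l q t1 t2 t3| ≤ M3 * r ^ 3 ∧
    |E.d4 s l q t1 t2 t3| ≤ M4 * r ^ 4 ∧ |E.d5 l q t2 t3| ≤ M5 * r ^ 5 ∧
    |E.d6 q t3| ≤ M6 * r ^ 6 := by
  intro s t v v' l q t1 t2 t3
  obtain ⟨hs0, hs1, ht, hprod⟩ := hx.inv
  set R := Real.sqrt s with hRdef
  have hR : 0 ≤ R := Real.sqrt_nonneg _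
  have hRs : s = R ^ 2 := (Real.sq_sqrt hs0).symm
  have hR1 : R ≤ 1 := Real.sqrt_le_one.mpr hs1
  set V := Real.sqrt q with hVdef
  have hV : 0 ≤ V := Real.sqrt_nonneg _
  have hVq : q = V ^ 2 := (Real.sq_sqrt (sI_nonneg v v')).symm
  have hRs' : sI a b = R ^ 2 := hRs
  have hVq' : sI v v' = V ^ 2 := hVq
  have e0 := tI_sq_le a b
  have e1 := l_sq_le a b v v'
  have e2 := t1_sq_le a b v v'
  have e3 := t2_sq_le a b v v'
  have e4 := tI_sq_le v v'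
  rw [hRs'] at e0 e1 e2 e3
  rw [hVq'] at e1 e2 e3 e4
  have htR : |t| ≤ R ^ 3 :=
    abs_le_of_sq_le_sq (le_of_le_of_eq e0 (by ring)) (by positivity)
  have hl : |l| ≤ 2 * R * V :=
    abs_le_of_sq_le_sq (le_of_le_of_eq e1 (by ring)) (by positivity)
  have h1 : |t1| ≤ 3 * R ^ 2 * V :=
    abs_le_of_sq_le_sq (le_of_le_of_eq e2 (by ring)) (by positivity)
  have h2 : |t2| ≤ 3 * R * V ^ 2 :=
    abs_le_of_sq_le_sq (le_of_le_of_eq e3 (by ring)) (by positivity)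
  have h3 : |t3| ≤ V ^ 3 :=
    abs_le_of_sq_le_sq (le_of_le_of_eq e4 (by ring)) (by positivity)
  have hb := abs_d_le E hR hV hRs hVq htR hl h1 h2 h3
  have hA : (0 : ℝ) ≤ 1 - s := sub_nonneg.mpr hs1
  obtain ⟨htl, htu⟩ := abs_le.mp htR
  set G := min (R + R ^ 2) (1 - s) with hG
  have hG0 : 0 ≤ G := le_min (by positivity) hA
  have hB : sI a b + sI a b ^ 2 - 2 * tI a b ≤ G ^ 2 := by
    show s + s ^ 2 - 2 * t ≤ G ^ 2
    rcases min_choice (R + R ^ 2) (1 - s) with h | h <;> rw [hG, h]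
    · rw [hRs]; nlinarith
    · have : 3 * s - 1 ≤ 2 * t := hprod
      nlinarith
  set g := (1 - s) + G with hg
  have hg0 : 0 ≤ g := by positivity
  have hgV : V ≤ g * r := by
    have h := (q_le a b c d hG0 hs1 hB).trans (mul_le_mul_of_nonneg_left hS (sq_nonneg _))
    rw [hVdef, ← Real.sqrt_sq (mul_nonneg hg0 hr)]
    exact Real.sqrt_le_sqrt (le_of_le_of_eq h (by rw [mul_pow, hg]))
  have hm := hM R g hR hR1 hg0 (by rw [hg, hRs]; linarith [min_le_left (R + R ^ 2) (1 - s)])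
    (by rw [hg, ← hRs]; linarith [min_le_right (R + R ^ 2) (1 - s)])
  have key : ∀ (x B M : ℝ) (n : ℕ), |x| ≤ B * V ^ n → 0 ≤ B → B * g ^ n ≤ M →
      |x| ≤ M * r ^ n := fun x B M n hxB hB0 hBM => by
    refine hxB.trans ((mul_le_mul_of_nonneg_left (pow_le_pow_left₀ hV hgV n) hB0).trans ?_)
    rw [mul_pow, ← mul_assoc]
    exact mul_le_mul_of_nonneg_right hBM (pow_nonneg hr n)
  obtain ⟨b2, b3, b4, b5, b6⟩ := hb
  obtain ⟨m2, m3, m4, m5, m6⟩ := hm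
  exact ⟨key _ _ _ _ b2 (by simp only [Coef.b2]; positivity) m2,
    key _ _ _ _ b3 (by simp only [Coef.b3]; positivity) m3,
    key _ _ _ _ b4 (by simp only [Coef.b4]; positivity) m4,
    key _ _ _ _ b5 (by simp only [Coef.b5]; positivity) m5,
    key _ _ _ _ b6 (by simp only [Coef.b6]; positivity) m6⟩

/-- A product exceeds its approximation by at most a multiple of the squared first moment. -/
lemma weighted_le {x y p ε B w : ℝ} (hε : |y - p| ≤ ε * w ^ 2) (hx : |x| ≤ B) :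
    x * y ≤ x * p + ε * B * w ^ 2 := by
  have h := abs_mul x (y - p)
  have h' : |x| * |y - p| ≤ B * (ε * w ^ 2) :=
    mul_le_mul hx hε (abs_nonneg _) ((abs_nonneg _).trans hx)
  nlinarith [le_abs_self (x * (y - p))]

/-- A point of an interval in unit coordinates. -/
lemma unit_coord {lo hi r : ℝ} (h : lo < hi) (h1 : lo ≤ r) (h2 : r ≤ hi) :
    ∃ A, 0 ≤ A ∧ 0 ≤ 1 - A ∧ r = lo + (hi - lo) * A := by
  refine ⟨(r - lo) / (hi - lo), div_nonneg (by linarith) (by linarith), ?_, ?_⟩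
  · rw [sub_nonneg, div_le_one (by linarith)]; linarith
  · rw [mul_div_cancel₀ _ (by linarith : hi - lo ≠ 0)]; ring

lemma interp {lo hi x : ℝ} (h1 : lo ≤ x) (h2 : x ≤ hi) :
    ∃ θ, 0 ≤ θ ∧ θ ≤ 1 ∧ x = lo + (hi - lo) * θ := by
  rcases eq_or_lt_of_le (h1.trans h2) with h | h
  · exact ⟨0, le_rfl, zero_le_one, by linarith⟩
  · obtain ⟨A, a, b, e⟩ := unit_coord h h1 h2
    exact ⟨A, a, by linarith, e⟩

lemma lin_endpoint {s S b c : ℝ} (hs : 0 ≤ s) (hS : s ≤ S) (h1 : S * b + c ≤ 0) (h0 : c ≤ 0) :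
    s * b + c ≤ 0 := by
  rcases le_total 0 b with hb | hb
  · exact le_trans (by linarith [mul_le_mul_of_nonneg_right hS hb]) h1
  · linarith [mul_nonpos_of_nonneg_of_nonpos hs hb]

end Vale.Agent.P154
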