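import Vale.Agent.P154.Basic

/-!
Finite rooted trees of given height, leaf observations, and the bound of the
potential at the root by the potentials of the children.
-/

open scoped BigOperators

namespace Vale.Agent.P154

/-- Rooted trees truncated at height `n`: a root with an ordered finite list of subtrees. -/
def Tr : ℕ → Type
  | 0 => Unit
  | n + 1 => Σ k : ℕ, Fin k → Tr n

/-- Spin configurations on the vertices at distance `n` from the root. -/
def Cfg : (n : ℕ) → Tr n → Type
  | 0, _ => Spin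
  | n + 1, T => (j : Fin T.1) → Cfg n (T.2 j)

noncomputable instance cfgFintype : ∀ (n : ℕ) (T : Tr n), Fintype (Cfg n T)
  | 0, _ => inferInstanceAs (Fintype Spin)
  | n + 1, T =>
    haveI : ∀ j, Fintype (Cfg n (T.2 j)) := fun j => cfgFintype n (T.2 j)
    inferInstanceAs (Fintype ((j : Fin T.1) → Cfg n (T.2 j)))

/-- The probability of a leaf configuration given the root spin. -/
noncomputable def lik (l : ℝ) : (n : ℕ) → (T : Tr n) → Cfg n T → Spin → ℝ
  | 0, _, c => fun i => let c' : Spin := c; if i = c' then 1 else 0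
  | n + 1, T, c => fun i => ∏ j, ∑ s, chan l i s * lik l n (T.2 j) (c j) s

/-- Probability of a leaf configuration, the root spin being uniform. -/
noncomputable def prob (l : ℝ) (n : ℕ) (T : Tr n) (c : Cfg n T) : ℝ :=
  ∑ i, (1 / 3 : ℝ) * lik l n T c i

/-- Expected total variation distance between the root posterior and the uniform law. -/
noncomputable def tv (l : ℝ) (n : ℕ) (T : Tr n) : ℝ :=
  ∑ c, prob l n T c *
    ((1 / 2 : ℝ) * ∑ i, |(1 / 3 : ℝ) * lik l n T c i / prob l n T c - 1 / 3|)

/-- The `d`-ary tree of height `n`. -/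
def regular (d : ℕ) : (n : ℕ) → Tr n
  | 0 => ()
  | n + 1 => ⟨d, fun _ => regular d n⟩

section fold

variable {l : ℝ}

/-- The family of all children together. -/
noncomputable def kids (l : ℝ) {k : ℕ} {ι : Fin k → Type} (g : ∀ j, ι j → Spin → ℝ) :
    (∀ j, ι j) → Spin → ℝ := fun c i => ∏ j, push l (g j (c j)) i

lemma expect_reindex {ι κ : Type} [Fintype ι] [Fintype κ] (e : ι ≃ κ) (f : κ → Spin → ℝ)
    (φ : (Spin → ℝ) → ℝ) : expect φ (fun k => f (e k)) = expect φ f :=
  e.sum_comp fun k => wt (f k) * φ (post (f k))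

lemma Fam.reindex {ι κ : Type} [Fintype ι] [Fintype κ] (e : ι ≃ κ) {f : κ → Spin → ℝ}
    (h : Fam fun k => f (e k)) : Fam f := by
  refine ⟨fun k i => by simpa using h.nonneg (e.symm k) i, fun i => ?_, fun σ => ?_⟩
  · rw [← e.sum_comp fun k => f k i]; exact h.mass i
  · obtain ⟨e', he⟩ := h.equiv σ
    exact ⟨(e.symm.trans e').trans e, fun k i => by simpa using he (e.symm k) i⟩

/-- Splitting off the first child. -/
def splitFirst {k : ℕ} (ι : Fin (k + 1) → Type) :
    (∀ j : Fin k, ι j.succ) × ι 0 ≃ ∀ j, ι j :=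
  (Equiv.prodComm _ _).trans (Fin.consEquiv ι)

lemma kids_split {k : ℕ} {ι : Fin (k + 1) → Type} (g : ∀ j, ι j → Spin → ℝ) :
    (fun p => kids l g (splitFirst ι p))
      = join l (kids l fun j => g j.succ) (g 0) := by
  funext p i
  simp [kids, join, splitFirst, Fin.prod_univ_succ, mul_comm]

lemma kids_nil {ι : Fin 0 → Type} (g : ∀ j, ι j → Spin → ℝ) (c : ∀ j, ι j) :
    kids l g c = fun _ => 1 := by
  funext i; simp [kids]

lemma post_one : post (fun _ : Spin => (1 : ℝ)) = fun _ => 1 := by
  funext i; simp [post, wt]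

lemma Fam.kids (hl : -(1 / 2) ≤ l) (hu : l ≤ 1) : ∀ {k : ℕ} {ι : Fin k → Type}
    [∀ j, Fintype (ι j)] {g : ∀ j, ι j → Spin → ℝ}, (∀ j, Fam (g j)) → Fam (P154.kids l g) := by
  intro k
  induction k with
  | zero =>
    intro ι _ g _
    refine ⟨fun c i => by rw [kids_nil]; exact zero_le_one, fun i => ?_,
      fun σ => ⟨Equiv.refl _, fun c i => by simp [kids_nil]⟩⟩
    simp [kids_nil]
  | succ k ih =>
    intro ι _ g hg
    refine Fam.reindex (splitFirst ι) ?_
    rw [kids_split]
    exact Fam.join hl hu (ih fun j => hg j.succ) (hg 0)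

lemma expect_kids_le {c C dl : ℝ} {φ : (Spin → ℝ) → ℝ} (hl : -(1 / 2) ≤ l) (hu : l ≤ 1)
    (hd : 0 ≤ dl) (hP : Pot l c C dl φ) : ∀ {k : ℕ} {ι : Fin k → Type}
    [∀ j, Fintype (ι j)] {g : ∀ j, ι j → Spin → ℝ}, (∀ j, Fam (g j)) →
      expect φ (P154.kids l g) ≤ l ^ 2 * ∑ j, expect φ (g j) := by
  intro k
  induction k with
  | zero =>
    intro ι _ g _
    simp [expect, kids_nil, post_one, hP.one]
  | succ k ih =>
    intro ι _ g hg
    rw [← expect_reindex (splitFirst ι), kids_split, Fin.sum_univ_succ, mul_add]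
    have h1 := expect_join_le hP (Fam.kids hl hu fun j => hg j.succ) (hg 0)
    have h2 := ih fun j : Fin k => hg j.succ
    have h3 : ∀ {α : Type} [Fintype α] {f : α → Spin → ℝ}, Fam f → 0 ≤ expect sq f :=
      fun {α} _ {f} hf => Finset.sum_nonneg fun k _ => mul_nonneg (wt_nonneg (hf.nonneg k))
        (div_nonneg (add_nonneg (add_nonneg (sq_nonneg _) (sq_nonneg _)) (sq_nonneg _))
          (by norm_num))
    have h4 := mul_nonneg (mul_nonneg (mul_nonneg hd (sq_nonneg l))
      (h3 (Fam.kids hl hu fun j => hg j.succ))) (h3 (hg 0))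
    linarith

lemma expect_sq_single (hl : -(1 / 2) ≤ l) (hu : l ≤ 1) {ι : Fin 1 → Type}
    [∀ j, Fintype (ι j)] {g : ∀ j, ι j → Spin → ℝ} (hg : ∀ j, Fam (g j)) :
    expect sq (P154.kids l g) = l ^ 2 * expect sq (g 0) := by
  rw [← expect_reindex (splitFirst ι), kids_split]
  simp only [expect, Fintype.sum_prod_type]
  rw [Fintype.sum_unique, Finset.mul_sum]
  refine Finset.sum_congr rfl fun k _ => ?_
  rw [show join l (P154.kids l fun j => g j.succ) (g 0) (default, k)
      = fun i => P154.kids l (fun j => g j.succ) default i * push l (g 0 k) i from rfl,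
    join_term sq (fun i => by rw [kids_nil]; exact zero_le_one) ((hg 0).nonneg k), kids_nil,
    post_one]
  obtain ⟨_, hp⟩ := post_inS ((hg 0).nonneg k)
  have hz : zw (fun _ => 1) (img l (post (g 0 k))) = 1 := by
    simp only [zw, img, Fin.sum_univ_three, one_mul]
    linear_combination (l / 3) * hp
  have hw : wt (fun _ : Spin => (1 : ℝ)) = 1 := by simp [wt]
  rw [hz, hw]
  unfold comb; rw [hz]; simp only [sq, img]; ring

lemma expect_kids_le_gain {c C dl : ℝ} {φ : (Spin → ℝ) → ℝ} (hl : -(1 / 2) ≤ l) (hu : l ≤ 1)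
    (hd : 0 ≤ dl) (hP : Pot l c C dl φ) : ∀ {k : ℕ} {ι : Fin (k + 2) → Type}
    [∀ j, Fintype (ι j)] {g : ∀ j, ι j → Spin → ℝ}, (∀ j, Fam (g j)) →
      expect φ (P154.kids l g) + dl * l ^ 4 * (expect sq (g (Fin.last k).castSucc) *
        expect sq (g (Fin.last (k + 1)))) ≤ l ^ 2 * ∑ j, expect φ (g j) := by
  intro k
  induction k with
  | zero =>
    intro ι _ g hg
    rw [← expect_reindex (splitFirst ι), kids_split, Fin.sum_univ_succ, mul_add]
    have h1 := expect_join_le hP (Fam.kids hl hu fun j => hg j.succ) (hg 0)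
    have h2 := expect_kids_le hl hu hd hP fun j : Fin 1 => hg j.succ
    rw [expect_sq_single hl hu fun j => hg j.succ] at h1
    have e1 : dl * l ^ 4 * (expect sq (g (Fin.last 0).castSucc) * expect sq (g (Fin.last 1)))
        = dl * l ^ 2 * (l ^ 2 * expect sq (g (Fin.succ 0))) * expect sq (g 0) := by
      rw [show ((Fin.last 0).castSucc : Fin 2) = 0 from rfl,
        show (Fin.last 1 : Fin 2) = Fin.succ 0 from rfl]
      ring
    linarith
  | succ k ih =>
    intro ι _ g hg
    rw [← expect_reindex (splitFirst ι), kids_split, Fin.sum_univ_succ, mul_add]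
    have h1 := expect_join_le hP (Fam.kids hl hu fun j => hg j.succ) (hg 0)
    have h2 := ih fun j : Fin (k + 2) => hg j.succ
    have h3 : ∀ {α : Type} [Fintype α] {f : α → Spin → ℝ}, Fam f → 0 ≤ expect sq f :=
      fun {α} _ {f} hf => Finset.sum_nonneg fun k _ => mul_nonneg (wt_nonneg (hf.nonneg k))
        (div_nonneg (add_nonneg (add_nonneg (sq_nonneg _) (sq_nonneg _)) (sq_nonneg _))
          (by norm_num))
    have h4 := mul_nonneg (mul_nonneg (mul_nonneg hd (sq_nonneg l))
      (h3 (Fam.kids hl hu fun j => hg j.succ))) (h3 (hg 0))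
    have e1 : ((Fin.last k).castSucc.succ : Fin (k + 3)) = (Fin.last (k + 1)).castSucc := rfl
    have e2 : ((Fin.last (k + 1)).succ : Fin (k + 3)) = Fin.last (k + 2) := rfl
    rw [e1, e2] at h2
    linarith

end fold

lemma lik_succ (l : ℝ) (n : ℕ) (T : Tr (n + 1)) :
    lik l (n + 1) T = kids l (fun j => lik l n (T.2 j)) := rfl

lemma fam_lik {l : ℝ} (hl : -(1 / 2) ≤ l) (hu : l ≤ 1) :
    ∀ (n : ℕ) (T : Tr n), Fam (lik l n T)
  | 0, _ => by
    refine ⟨fun (c : Spin) i => ?_, fun i => ?_, fun σ => ⟨σ.symm, fun (c : Spin) i => ?_⟩⟩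
    · simp only [lik]; split_ifs <;> norm_num
    · show ∑ c : Spin, (if i = c then (1 : ℝ) else 0) = 1
      simp
    · show (if i = σ.symm c then (1 : ℝ) else 0) = if σ i = c then 1 else 0
      simp only [Equiv.eq_symm_apply]
  | n + 1, T => by
    rw [lik_succ]
    exact @Fam.kids l hl hu T.1 (fun j => Cfg n (T.2 j)) (fun j => cfgFintype n (T.2 j))
      (fun j => lik l n (T.2 j)) (fun j => fam_lik hl hu n (T.2 j))

lemma tv_le {l : ℝ} (hl : -(1 / 2) ≤ l) (hu : l ≤ 1) (n : ℕ) (T : Tr n) {ε : ℝ} (hε : 0 < ε) :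
    tv l n T ≤ ε + expect sq (lik l n T) / ε := by
  have hF := fam_lik hl hu n T
  have hsum : ∑ c, wt (lik l n T c) = 1 := by
    simp only [wt, ← Finset.sum_div]; rw [Finset.sum_comm, Fin.sum_univ_three, hF.mass, hF.mass,
      hF.mass]; norm_num
  have hw : ∀ c, prob l n T c = wt (lik l n T c) := fun c => by
    simp only [prob, wt, ← Finset.mul_sum]; ring
  calc tv l n T ≤ ∑ c, wt (lik l n T c) * (ε + sq (post (lik l n T c)) / ε) := by
        refine Finset.sum_le_sum fun c _ => ?_
        rw [hw c]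
        by_cases h0 : wt (lik l n T c) = 0
        · rw [h0, zero_mul, zero_mul]
        · refine mul_le_mul_of_nonneg_left ?_ (wt_nonneg (hF.nonneg c))
          have e : ∀ i, (1 / 3 : ℝ) * lik l n T c i / wt (lik l n T c) - 1 / 3
              = (post (lik l n T c) i - 1) / 3 := fun i => by
            rw [post, if_neg h0]; ring
          have h : ∀ x : ℝ, |x / 3| / 2 ≤ ε / 6 + x ^ 2 / (6 * ε) := fun x => by
            rw [abs_div, abs_of_pos (by norm_num : (0 : ℝ) < 3), ← sq_abs x,
              div_add_div _ _ (by norm_num) (by positivity), div_div,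
              div_le_div_iff₀ (by norm_num) (by positivity)]
            nlinarith [sq_nonneg (ε - |x|), abs_nonneg x]
          have h0' := h (post (lik l n T c) 0 - 1)
          have h1' := h (post (lik l n T c) 1 - 1)
          have h2' := h (post (lik l n T c) 2 - 1)
          have e6 : ∀ x : ℝ, x ^ 2 / (6 * ε) = x ^ 2 / 6 / ε := fun x => by rw [div_div]
          rw [Fin.sum_univ_three, e, e, e, sq, add_div, add_div, add_div, add_div, ← e6, ← e6,
            ← e6]
          linarith
    _ = ε + expect sq (lik l n T) / ε := by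
        simp only [mul_add, Finset.sum_add_distrib, ← Finset.sum_mul, hsum, one_mul, expect,
          Finset.sum_div, mul_div_assoc]

end Vale.Agent.P154
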