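import Vale.Agent.P154.UniPoly

/-!
Coordinates on the region of the invariants, and the reduction of a range of edge parameters
to its end point.
-/

namespace Vale.Agent.P154.Uni

open Set

/-- Coordinates of a point of the region of the invariants. -/
lemma exists_coord {s t : ℝ} (h : Inv s t) : ∃ r w : ℝ, (0 ≤ r ∧ r ≤ 1) ∧ (0 ≤ w ∧ w ≤ 1) ∧
    4 * s = r ^ 2 * (4 - 6 * w + 3 * w ^ 2) ∧ 8 * t = r ^ 3 * (8 - 18 * w + 9 * w ^ 2) ∧
    4 * s ≤ (r * (2 - w)) ^ 2 := by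
  obtain ⟨h0, h1, ht, hp⟩ := h
  rcases eq_or_lt_of_le h0 with hs | hs
  · have : t = 0 := by rw [← hs] at ht; simpa using le_antisymm ht (by simpa using sq_nonneg t)
    exact ⟨0, 0, by norm_num, by norm_num, by simp [← hs], by simp [this], by simp [← hs]⟩
  set R := Real.sqrt s with hR
  have hR0 : 0 < R := Real.sqrt_pos.mpr hs
  have hR2 : R ^ 2 = s := Real.sq_sqrt h0
  have hR1 : R ≤ 1 := Real.sqrt_le_one.mpr h1
  have hR3 : 0 < R ^ 3 := by positivity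
  set τ := t / R ^ 3 with hτ
  have htR : |t| ≤ R ^ 3 := abs_le_of_sq_le_sq
    (ht.trans_eq (by rw [← hR2]; ring)) hR3.le
  obtain ⟨τ0, τ1⟩ : -1 ≤ τ ∧ τ ≤ 1 := by
    rw [← abs_le, hτ, abs_div, abs_of_pos hR3, div_le_one hR3]; exact htR
  let g : ℝ → ℝ := fun w =>
    (8 - 18 * w + 9 * w ^ 2) - τ * Real.sqrt (4 - 6 * w + 3 * w ^ 2) ^ 3
  have hg : ContinuousOn g (Icc 0 1) := by fun_prop
  have g0 : 0 ≤ g 0 := by
    have : Real.sqrt (4 - 6 * (0 : ℝ) + 3 * 0 ^ 2) = 2 := by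
      rw [show (4 : ℝ) - 6 * 0 + 3 * 0 ^ 2 = 2 ^ 2 by norm_num, Real.sqrt_sq]; norm_num
    simp only [g, this]; linarith
  have g1 : g 1 ≤ 0 := by
    have : Real.sqrt (4 - 6 * (1 : ℝ) + 3 * 1 ^ 2) = 1 := by norm_num
    simp only [g, this]; linarith
  obtain ⟨w, ⟨w0, w1⟩, hw⟩ := intermediate_value_Icc' zero_le_one hg ⟨g1, g0⟩
  set Q := 4 - 6 * w + 3 * w ^ 2 with hQ
  set C := 8 - 18 * w + 9 * w ^ 2 with hC
  set y := Real.sqrt Q with hy
  have hQ1 : 1 ≤ Q := by nlinarith [sq_nonneg (w - 1)]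
  have hy2 : y ^ 2 = Q := Real.sq_sqrt (by linarith)
  have hy0 : 0 < y := Real.sqrt_pos.mpr (by linarith)
  have hCy : C = τ * y ^ 3 := sub_eq_zero.mp hw
  set r := 2 * R / y with hr
  have hr0 : 0 ≤ r := by positivity
  have hry : r * y = 2 * R := div_mul_cancel₀ _ hy0.ne'
  have es : 4 * s = r ^ 2 * Q := by rw [← hy2, ← mul_pow, hry, mul_pow, hR2]; ring
  have et : 8 * t = r ^ 3 * C := by
    rw [hCy, mul_left_comm, ← mul_pow, hry, hτ]
    field_simp
    ring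
  have hQw : Q ≤ (2 - w) ^ 2 := by nlinarith [mul_nonneg w0 (sub_nonneg.mpr w1)]
  refine ⟨r, w, ⟨hr0, ?_⟩, ⟨w0, w1⟩, es, et, es.trans_le ?_⟩
  · by_contra hlt
    rw [not_le] at hlt
    have hf : 3 * (r ^ 2 * Q) - r ^ 3 * C - 4 ≤ 0 := by rw [← es, ← et]; linarith
    have hid : 3 * Q - C - 4 = 0 := by rw [hQ, hC]; ring
    have hCle : C ≤ y ^ 3 := by
      rw [hCy]; exact mul_le_of_le_one_left (by positivity) τ1
    have hryl : r * y ≤ 2 := by linarith
    have key : 0 < 3 * Q * (r + 1) - C * (r ^ 2 + r + 1) := by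
      have a1 : C * (r ^ 2 + r + 1) ≤ y ^ 3 * (r ^ 2 + r + 1) :=
        mul_le_mul_of_nonneg_right hCle (by positivity)
      have a2 : y ^ 3 * (r ^ 2 + r + 1) * r ≤ 2 * y ^ 2 * (r ^ 2 + r + 1) := by
        calc y ^ 3 * (r ^ 2 + r + 1) * r = y ^ 2 * (r ^ 2 + r + 1) * (r * y) := by ring
          _ ≤ y ^ 2 * (r ^ 2 + r + 1) * 2 :=
            mul_le_mul_of_nonneg_left hryl (by positivity)
          _ = _ := by ring
      have a3 : 0 < y ^ 2 * (r - 1) * (r + 2) := by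
        have : 0 < r - 1 := by linarith
        positivity
      rw [← hy2]
      nlinarith
    nlinarith [mul_pos (sub_pos.mpr hlt) key]
  · rw [mul_pow]
    exact mul_le_mul_of_nonneg_left hQw (sq_nonneg r)

/-- The value at a point shrunk towards the uniform one. -/
lemma val_img_le (E : Coef) (h1 : 0 < E.e1) (h3 : E.e3 = 0) (h4 : 0 ≤ E.e4)
    (h : 9 * E.e2 ^ 2 ≤ 32 * (E.e1 * E.e4)) {m : ℝ} (m0 : 0 ≤ m) (m1 : m ≤ 1) (s t : ℝ) :
    E.val (m ^ 2 * s) (m ^ 3 * t) ≤ m ^ 2 * E.val s t := by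
  set A := E.e1 * (1 + m)
  set B := E.e2 * (1 + m + m ^ 2)
  set C := E.e4 * ((1 + m) * (1 + m ^ 2))
  have hA : 0 < A := mul_pos h1 (by linarith)
  have hAC : B ^ 2 ≤ 4 * A * C := by
    have hm : 8 * (1 + m + m ^ 2) ^ 2 ≤ 9 * ((1 + m) ^ 2 * (1 + m ^ 2)) := by
      have : 0 ≤ (1 - m) ^ 2 * (1 + 4 * m + m ^ 2) := by positivity
      linarith
    have a1 := mul_le_mul_of_nonneg_right h (sq_nonneg (1 + m + m ^ 2))
    have a2 := mul_le_mul_of_nonneg_left hm (mul_nonneg h1.le h4)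
    simp only [A, B, C]
    linarith
  have hq : 0 ≤ A * s ^ 2 + B * (s * t) + C * t ^ 2 := by
    have e : 0 ≤ (2 * A * s + B * t) ^ 2 + (4 * A * C - B ^ 2) * t ^ 2 :=
      add_nonneg (sq_nonneg _) (mul_nonneg (sub_nonneg.mpr hAC) (sq_nonneg t))
    refine nonneg_of_mul_nonneg_right (a := 4 * A) ?_ (by linarith)
    linarith
  have hm' := mul_nonneg (mul_nonneg (sq_nonneg m) (sub_nonneg.mpr m1)) hq
  simp only [Coef.val, h3, A, B, C] at hm' ⊢
  linarith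

/-- A potential at one edge parameter serves at every parameter between it and zero. -/
theorem pot_scale {E : Coef} {L c C dl : ℝ} (hP : Pot L c C dl E.phi) (h1 : 0 < E.e1)
    (h3 : E.e3 = 0) (h4 : 0 ≤ E.e4) (h : 9 * E.e2 ^ 2 ≤ 32 * (E.e1 * E.e4))
    {m : ℝ} (m0 : 0 ≤ m) (m1 : m ≤ 1) : Pot (L * m) c C dl E.phi := by
  refine ⟨hP.one, hP.low, hP.high, fun a y ha hy => ?_⟩
  have hy' : InS (img m y) := by
    refine ⟨fun i => ?_, ?_⟩
    · have := mul_nonneg m0 (hy.1 i)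
      simp only [img]; linarith
    · simp only [img]; linear_combination m * hy.2
  have key := hP.sub a (img m y) ha hy'
  have e1 : ∀ i, img L (img m y) i = img (L * m) y i := fun i => by simp only [img]; ring
  have e2 : sq (img m y) = m ^ 2 * sq y := by simp only [sq, img]; ring
  have e3 : E.phi (img m y) ≤ m ^ 2 * E.phi y := by
    have es : sI (img m y 0 - 1) (img m y 1 - 1) = m ^ 2 * sI (y 0 - 1) (y 1 - 1) := by
      simp only [sI, img]; ring
    have et : tI (img m y 0 - 1) (img m y 1 - 1) = m ^ 3 * tI (y 0 - 1) (y 1 - 1) := by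
      simp only [tI, img]; ring
    rw [Coef.phi, es, et]
    exact val_img_le E h1 h3 h4 h m0 m1 _ _
  simp only [e1, e2] at key
  refine key.trans ?_
  have := mul_le_mul_of_nonneg_left e3 (sq_nonneg L)
  linarith

/-- The bounds of the potential by the quadratic invariant. -/
lemma val_bounds (E : Coef) (h1 : 0 < E.e1) (h3 : E.e3 = 0) (h : E.e2 ^ 2 ≤ 4 * (E.e1 * E.e4))
    (hC : E.e1 + |E.e2| + |E.e4| ≤ 1) {s t : ℝ} (hi : Inv s t) :
    1 * s ≤ E.val s t ∧ E.val s t ≤ 2 * s := by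
  obtain ⟨s0, s1, ht, -⟩ := hi
  simp only [Coef.val, h3]
  constructor
  · have e : 0 ≤ (2 * E.e1 * s + E.e2 * t) ^ 2 + (4 * (E.e1 * E.e4) - E.e2 ^ 2) * t ^ 2 :=
      add_nonneg (sq_nonneg _) (mul_nonneg (sub_nonneg.mpr h) (sq_nonneg t))
    have : 0 ≤ E.e1 * s ^ 2 + E.e2 * (s * t) + E.e4 * t ^ 2 :=
      nonneg_of_mul_nonneg_right (a := 4 * E.e1) (by linarith) (by linarith)
    linarith
  · have ht2 : t ^ 2 ≤ s ^ 2 := ht.trans (pow_le_pow_of_le_one s0 s1 (by norm_num))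
    have hts : |t| ≤ s := abs_le_of_sq_le_sq ht2 s0
    have a1 : E.e2 * (s * t) ≤ |E.e2| * s := by
      refine (le_abs_self _).trans ?_
      rw [abs_mul, abs_mul, abs_of_nonneg s0]
      exact mul_le_mul_of_nonneg_left
        (mul_le_of_le_one_right s0 (hts.trans s1)) (abs_nonneg _)
    have a2 : E.e4 * t ^ 2 ≤ |E.e4| * s := by
      refine (le_abs_self _).trans ?_
      rw [abs_mul, abs_of_nonneg (sq_nonneg t)]
      exact mul_le_mul_of_nonneg_left (ht2.trans (by nlinarith)) (abs_nonneg _)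
    have a3 : E.e1 * s ^ 2 ≤ E.e1 * s := mul_le_mul_of_nonneg_left (by nlinarith) h1.le
    have := mul_le_mul_of_nonneg_right hC s0
    linarith

/-- The certified polynomial gives the final inequality. -/
lemma final_of_cert {D : Data} {L dl K : ℝ} {z : List ((ℕ × ℕ × ℕ) × List (ℤ × ℕ × ℕ))}
    {P : Bern.MP 4} (hc : targetCheck z P = true) (hP : Bern.Good 4 [] P) (hK : 0 < K)
    (c2 : 0 ≤ D.c2) (c3 : 0 ≤ D.c3) (c4 : 0 ≤ D.c4) (c5 : 0 ≤ D.c5) (c6 : 0 ≤ D.c6)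
    (hid : ∀ p q p' q' h : ℝ, K * (L ^ 2 * D.E.val (p' / 4) (q' / 8)
      - D.avgPart (p / 4) (q / 8) (L ^ 2 * (p' / 4)) (L ^ 3 * (q' / 8))
      - 2 * (p / 4) * (L ^ 2 * (p' / 4)) * D.err (|L| * (h / 2))
      - dl * L ^ 2 * (p / 4) * (p' / 4)) = valZ p q p' q' h z)
    (s t sz tz rz : ℝ) (hst : Inv s t) (hz : Inv sz tz) (hrz : 0 ≤ rz) (hsz : sz = rz ^ 2) :
    D.avgPart s t (L ^ 2 * sz) (L ^ 3 * tz) + 2 * s * (L ^ 2 * sz) * D.err (|L| * rz)
      + dl * L ^ 2 * s * sz ≤ L ^ 2 * D.E.val sz tz := by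
  obtain ⟨r, w, hr, hw, es, et, -⟩ := exists_coord hst
  obtain ⟨r', w', hr', hw', es', et', hle⟩ := exists_coord hz
  have key := valZ_nonneg hc hP hr hw hr' hw'
  rw [← es, ← et, ← es', ← et'] at key
  rw [← hid] at key
  have key' := nonneg_of_mul_nonneg_right (a := K) key hK
  simp only [mul_div_cancel_left₀ _ (show (4 : ℝ) ≠ 0 by norm_num),
    mul_div_cancel_left₀ _ (show (8 : ℝ) ≠ 0 by norm_num)] at key'
  have hh : 0 ≤ r' * (2 - w') := mul_nonneg hr'.1 (by linarith [hw'.2])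
  have hρ : rz ≤ r' * (2 - w') / 2 := by
    have : (2 * rz) ^ 2 ≤ (r' * (2 - w')) ^ 2 := by rw [mul_pow, ← hsz]; linarith
    have := (pow_le_pow_iff_left₀ (by linarith) hh two_ne_zero).1 this
    linarith
  have hmono : D.err (|L| * rz) ≤ D.err (|L| * (r' * (2 - w') / 2)) := by
    have hx := mul_le_mul_of_nonneg_left hρ (abs_nonneg L)
    have h0 : 0 ≤ |L| * rz := mul_nonneg (abs_nonneg L) hrz
    simp only [Data.err]
    gcongr
  have hs0 : 0 ≤ 2 * s * (L ^ 2 * sz) := by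
    have := hst.nonneg; have := hz.nonneg; positivity
  have := mul_le_mul_of_nonneg_left hmono hs0
  linarith

end Vale.Agent.P154.Uni

namespace Vale.Agent.P154.Uni

/-- The error of a polynomial approximation of a negative power. -/
lemma approx_of {k : ℕ} {w ε G : ℝ} {p : List ℝ} (hw : 0 < 1 + w)
    (hG : (1 + w) ^ k * polyVal w p - 1 = w ^ 2 * G) (hb : |G| ≤ ε * (1 + w) ^ k) :
    |1 / (1 + w) ^ k - polyVal w p| ≤ ε * w ^ 2 := by
  have hk : 0 < (1 + w) ^ k := pow_pos hw k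
  have e : 1 / (1 + w) ^ k - polyVal w p = -(w ^ 2 * G) / (1 + w) ^ k := by
    rw [← hG]; field_simp; ring
  rw [e, abs_div, abs_neg, abs_mul, abs_of_pos hk, abs_of_nonneg (sq_nonneg w),
    div_le_iff₀ hk]
  calc w ^ 2 * |G| ≤ w ^ 2 * (ε * (1 + w) ^ k) := mul_le_mul_of_nonneg_left hb (sq_nonneg w)
    _ = _ := by ring

end Vale.Agent.P154.Uni
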