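import Vale.Agent.P154.BinBern

/-!
A fast verified check that an integer polynomial is nonnegative on a dyadic box: all coefficients
in the Bernstein basis of the box are read off from one integer, the value of the transformed
polynomial at a large power of two.
-/

namespace Vale.Agent.P154.Pack

open Bern

variable {R : Type} [CommRing R] {α : Type}

/-- The polynomial with the given coefficients under `f`, at `y`. -/
def sumY (f : α → R) (y : R) : List α → R
  | [] => 0
  | c :: r => f c + y * sumY f y r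

/-- The homogenised value of a list of numbers. -/
def horR (l w : R) : List R → R
  | [] => 0
  | c :: r => c * w ^ r.length + l * horR l w r

/-- The homogenised value of a list of integers, for fast evaluation. -/
def hor (l : ℤ) (w : ℕ) : List ℤ → ℤ
  | [] => 0
  | c :: r => Int.add (Int.mul c (Int.ofNat (Nat.pow w r.length))) (Int.mul l (hor l w r))

lemma hor_eq (l : ℤ) (w : ℕ) : ∀ L : List ℤ, hor l w L = horR l (w : ℤ) L
  | [] => rfl
  | c :: r => by
    show Int.add (Int.mul c (Int.ofNat (w ^ r.length))) (Int.mul l (hor l w r)) = _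
    rw [hor_eq l w r]
    show c * ((w ^ r.length : ℕ) : ℤ) + l * horR l (w : ℤ) r = _
    push_cast
    rfl

/-- The coefficients of the power `k` of `q * (1 + y)`. -/
def pwl (q : ℤ) : ℕ → List ℤ
  | 0 => [1]
  | k + 1 => zipPad (· + ·) ((pwl q k).map (q * ·)) (0 :: (pwl q k).map (q * ·))

/-- Multiplication by `a + b * y`. -/
def mulLin (n : ℕ) (a b : ℤ) (L : List (MP n)) : List (MP n) :=
  zipPad (add n) (L.map (smul n a)) (zero n :: L.map (smul n b))

/-- The change of variable `t = (lo + (lo + 1) * y) / (q * (1 + y))`, homogenised. -/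
def bx (n : ℕ) (q lo : ℤ) : List (MP n) → List (MP n)
  | [] => []
  | c :: r => zipPad (add n) ((pwl q r.length).map (fun k => smul n k c))
      (mulLin n lo (lo + 1) (bx n q lo r))

/-- The change of variable in all the variables, for the box (level, position). -/
def box : (n : ℕ) → List (ℕ × ℕ) → MP n → MP n
  | 0, _, a => a
  | n + 1, s, a => bx n ((2 ^ (s.headD (0, 0)).1 : ℕ) : ℤ) ((s.headD (0, 0)).2 : ℤ)
      (List.map (box n s.tail) a)

lemma sumY_zipPad (f : α → R) (g : α → α → α) (hg : ∀ a b, f (g a b) = f a + f b) (y : R) :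
    ∀ a b : List α, sumY f y (zipPad g a b) = sumY f y a + sumY f y b
  | [], b => by cases b <;> simp [zipPad, sumY]
  | _ :: _, [] => by simp [zipPad, sumY]
  | c :: a, e :: b => by
    simp only [zipPad, sumY, hg, sumY_zipPad f g hg y a b]
    ring

lemma sumY_map {β : Type} (f : α → R) (g : β → R) (h : β → α) (k : R)
    (hk : ∀ c, f (h c) = k * g c) (y : R) : ∀ L : List β, sumY f y (L.map h) = k * sumY g y L
  | [] => by simp [sumY]
  | c :: r => by
    simp only [List.map_cons, sumY, hk, sumY_map f g h k hk y r]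
    ring

lemma sumY_pwl (y : R) (q : ℤ) : ∀ k : ℕ,
    sumY (fun c : ℤ => (c : R)) y (pwl q k) = ((q : R) * (1 + y)) ^ k
  | 0 => by simp [pwl, sumY]
  | k + 1 => by
    have h := sumY_map (fun c : ℤ => (c : R)) (fun c : ℤ => (c : R)) (q * ·) (q : R)
      (fun c => Int.cast_mul q c) y (pwl q k)
    simp only [pwl, sumY_zipPad (fun c : ℤ => (c : R)) (· + ·) Int.cast_add, sumY, h,
      sumY_pwl y q k, Int.cast_zero, pow_succ]
    ring

/-- A linear evaluation passes through the change of variable. -/
lemma sumY_bx {n : ℕ} (f : MP n → R) (fa : ∀ a b, f (add n a b) = f a + f b)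
    (fs : ∀ k a, f (smul n k a) = (k : R) * f a) (f0 : f (zero n) = 0) (q lo : ℤ) (y : R) :
    ∀ L : List (MP n), sumY f y (bx n q lo L)
      = horR ((lo : R) + ((lo : R) + 1) * y) ((q : R) * (1 + y)) (L.map f)
  | [] => rfl
  | c :: r => by
    have h1 := sumY_map f (fun k : ℤ => (k : R)) (fun k => smul n k c) (f c)
      (fun k => by rw [fs]; ring) y (pwl q r.length)
    have ha := sumY_map f f (smul n lo) (lo : R) (fs lo) y (bx n q lo r)
    have hb := sumY_map f f (smul n (lo + 1)) ((lo : R) + 1) (fun a => by rw [fs]; push_cast; ring) y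
      (bx n q lo r)
    simp only [bx, mulLin, sumY_zipPad f (add n) fa, sumY, List.map_cons, horR, h1, sumY_pwl, ha,
      hb, f0, List.length_map, sumY_bx f fa fs f0 q lo y r]
    ring

lemma length_zipPad (f : α → α → α) : ∀ a b : List α,
    (zipPad f a b).length = max a.length b.length
  | [], b => by cases b <;> simp [zipPad]
  | _ :: _, [] => by simp [zipPad]
  | _ :: a, _ :: b => by simp [zipPad, length_zipPad f a b, Nat.succ_max_succ]

lemma length_pwl (q : ℤ) : ∀ k, (pwl q k).length = k + 1
  | 0 => rfl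
  | k + 1 => by simp [pwl, length_zipPad, length_pwl q k]

lemma length_bx (n : ℕ) (q lo : ℤ) : ∀ L : List (MP n), (bx n q lo L).length = L.length
  | [] => rfl
  | c :: r => by
    simp [bx, mulLin, length_zipPad, length_pwl, length_bx n q lo r]

lemma ev_eq_sumY (n : ℕ) (x : ℕ → ℝ) : ∀ a : List (MP n),
    ev (n + 1) a x = sumY (fun c => ev n c (fun i => x (i + 1))) (x 0) a
  | [] => rfl
  | c :: r => by rw [ev_succ_cons, ev_eq_sumY n x r]; rfl

/-- The value at integers. -/
def evI : (n : ℕ) → List ℕ → MP n → ℤ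
  | 0, _, a => a
  | n + 1, ys, a => List.foldr (fun c r => evI n ys.tail c + (ys.headD 0 : ℕ) * r) 0 a

lemma evI_succ (n : ℕ) (ys : List ℕ) : ∀ a : List (MP n),
    evI (n + 1) ys a = sumY (evI n ys.tail) ((ys.headD 0 : ℕ) : ℤ) a
  | [] => rfl
  | c :: r => by
    show evI n ys.tail c + _ * evI (n + 1) ys r = _
    rw [evI_succ n ys r]
    rfl

lemma evI_add : ∀ (n : ℕ) (ys : List ℕ) (a b : MP n),
    evI n ys (add n a b) = evI n ys a + evI n ys b
  | 0, _, _, _ => rfl
  | n + 1, ys, a, b =>
    (evI_succ n ys (zipPad (add n) a b)).trans ((sumY_zipPad _ _ (evI_add n ys.tail) _ a b).trans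
      (congrArg₂ (· + ·) (evI_succ n ys a).symm (evI_succ n ys b).symm))

lemma evI_smul : ∀ (n : ℕ) (ys : List ℕ) (k : ℤ) (a : MP n),
    evI n ys (smul n k a) = k * evI n ys a
  | 0, _, _, _ => rfl
  | n + 1, ys, k, a =>
    (evI_succ n ys (List.map (smul n k) a)).trans
      ((sumY_map _ _ _ _ (evI_smul n ys.tail k) _ a).trans
        (congrArg (k * ·) (evI_succ n ys a).symm))

lemma evI_zero : ∀ (n : ℕ) (ys : List ℕ), evI n ys (zero n) = 0
  | 0, _ => rfl
  | _ + 1, _ => rfl

/-- Fast evaluation of the transformed polynomial. -/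
def pk (f : ℤ → ℤ) : (n : ℕ) → List (ℕ × ℕ) → List ℕ → MP n → ℤ
  | 0, _, _, a => f a
  | n + 1, s, ys, a =>
    hor (Int.ofNat (Nat.add (s.headD (0, 0)).2
        (Nat.mul (Nat.add (s.headD (0, 0)).2 1) (ys.headD 0))))
      (Nat.mul (Nat.pow 2 (s.headD (0, 0)).1) (Nat.add 1 (ys.headD 0)))
      (List.map (pk f n s.tail ys.tail) a)

lemma evI_box : ∀ (n : ℕ) (s : List (ℕ × ℕ)) (ys : List ℕ) (a : MP n),
    evI n ys (box n s a) = pk (fun c => c) n s ys a
  | 0, _, _, _ => rfl
  | n + 1, s, ys, a => by
    suffices key : ∀ L : List (MP n), evI (n + 1) ys (box (n + 1) s L)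
        = pk (fun c => c) (n + 1) s ys L from key a
    intro L
    show evI (n + 1) ys (bx n _ _ _) = hor _ _ _
    rw [evI_succ, sumY_bx _ (evI_add n ys.tail) (evI_smul n ys.tail) (evI_zero n ys.tail),
      hor_eq, List.map_map]
    simp only [Int.ofNat_eq_natCast, Nat.add_eq, Nat.mul_eq, Nat.pow_eq]
    have hf : List.map (evI n ys.tail ∘ box n s.tail) L
        = List.map (pk (fun c => c) n s.tail ys.tail) L :=
      List.map_congr_left fun c _ => evI_box n s.tail ys.tail c
    rw [hf]
    push_cast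
    rfl

/-- The sum of the absolute values of the coefficients. -/
def absS : (n : ℕ) → MP n → ℤ
  | 0, a => |(show ℤ from a)|
  | n + 1, a => ((show List (MP n) from a).map (absS n)).sum

lemma absS_nonneg : ∀ (n : ℕ) (a : MP n), 0 ≤ absS n a
  | 0, _ => abs_nonneg _
  | n + 1, a => List.sum_nonneg fun v hv => by
    obtain ⟨c, -, rfl⟩ := List.mem_map.mp hv
    exact absS_nonneg n c

lemma absS_zero : ∀ n : ℕ, absS n (zero n) = 0
  | 0 => rfl
  | _ + 1 => rfl

lemma sum_zipPad_le (f : α → ℤ) (g : α → α → α) (hg : ∀ a b, f (g a b) ≤ f a + f b) :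
    ∀ a b : List α, ((zipPad g a b).map f).sum ≤ (a.map f).sum + (b.map f).sum
  | [], b => by cases b <;> simp [zipPad]
  | _ :: _, [] => by simp [zipPad]
  | c :: a, e :: b => by
    simp only [zipPad, List.map_cons, List.sum_cons]
    linarith [hg c e, sum_zipPad_le f g hg a b]

lemma sum_map_le {β : Type} (f : α → ℤ) (g : β → ℤ) (h : β → α) (k : ℤ)
    (hk : ∀ c, f (h c) ≤ k * g c) : ∀ L : List β, ((L.map h).map f).sum ≤ k * (L.map g).sum
  | [] => by simp
  | c :: r => by
    simp only [List.map_cons, List.sum_cons]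
    linarith [hk c, sum_map_le f g h k hk r]

lemma absS_add : ∀ (n : ℕ) (a b : MP n), absS n (add n a b) ≤ absS n a + absS n b
  | 0, a, b => abs_add_le _ _
  | n + 1, a, b => sum_zipPad_le _ _ (absS_add n) a b

lemma absS_smul : ∀ (n : ℕ) (k : ℤ) (a : MP n), absS n (smul n k a) ≤ |k| * absS n a
  | 0, k, a => le_of_eq (abs_mul k _)
  | n + 1, k, a => sum_map_le _ _ _ _ (absS_smul n k) a

lemma sum_pwl (q : ℤ) (hq : 0 ≤ q) : ∀ k, ((pwl q k).map fun c => |c|).sum ≤ (2 * q) ^ k
  | 0 => by simp [pwl]
  | k + 1 => by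
    have h := sum_map_le (fun c => |c|) (fun c => |c|) (q * ·) q
      (fun c => le_of_eq (by rw [abs_mul, abs_of_nonneg hq])) (pwl q k)
    refine le_trans (sum_zipPad_le _ _ (fun a b => abs_add_le a b) _ _) ?_
    simp only [List.map_cons, List.sum_cons, abs_zero, zero_add]
    have h2 := mul_le_mul_of_nonneg_left (sum_pwl q hq k) hq
    rw [pow_succ]
    linarith [show (List.map abs (List.map (fun x => q * x) (pwl q k))).sum
      ≤ q * (List.map abs (pwl q k)).sum from h, show q * (List.map abs (pwl q k)).sum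
      ≤ q * (2 * q) ^ k from h2]

lemma absS_bx (n : ℕ) (q lo : ℤ) (hq : 0 ≤ q) (hlo : 0 ≤ lo) : ∀ L : List (MP n),
    ((bx n q lo L).map (absS n)).sum ≤ horR (2 * lo + 1) (2 * q) (L.map (absS n))
  | [] => le_refl _
  | c :: r => by
    have ih := absS_bx n q lo hq hlo r
    have h1 := sum_map_le (absS n) (fun k => |k|) (fun k => smul n k c) (absS n c)
      (fun k => le_trans (absS_smul n k c) (le_of_eq (mul_comm _ _))) (pwl q r.length)
    have h2 := mul_le_mul_of_nonneg_left (sum_pwl q hq r.length) (absS_nonneg n c)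
    have ha := sum_map_le (absS n) (absS n) (smul n lo) lo
      (fun a => le_trans (absS_smul n lo a) (by rw [abs_of_nonneg hlo])) (bx n q lo r)
    have hb := sum_map_le (absS n) (absS n) (smul n (lo + 1)) (lo + 1)
      (fun a => le_trans (absS_smul n _ a) (by rw [abs_of_nonneg (by linarith : 0 ≤ lo + 1)]))
      (bx n q lo r)
    have hz := sum_zipPad_le (absS n) (add n) (absS_add n)
      ((pwl q r.length).map fun k => smul n k c) (mulLin n lo (lo + 1) (bx n q lo r))
    have hm := sum_zipPad_le (absS n) (add n) (absS_add n)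
      ((bx n q lo r).map (smul n lo)) (zero n :: (bx n q lo r).map (smul n (lo + 1)))
    rw [List.map_cons (f := absS n), List.sum_cons, absS_zero, zero_add] at hm
    have h3 := mul_le_mul_of_nonneg_left ih (show (0 : ℤ) ≤ 2 * lo + 1 by linarith)
    simp only [bx, List.map_cons, horR, List.length_map]
    simp only [mulLin] at hz ⊢
    linarith

lemma horR_mono {l w : ℤ} (hl : 0 ≤ l) (hw : 0 ≤ w) {β : Type} (f g : β → ℤ)
    (h : ∀ c, f c ≤ g c) : ∀ L : List β, horR l w (L.map f) ≤ horR l w (L.map g)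
  | [] => le_refl _
  | c :: r => by
    simp only [List.map_cons, horR, List.length_map]
    have := mul_le_mul_of_nonneg_left (horR_mono hl hw f g h r) hl
    have := mul_le_mul_of_nonneg_right (h c) (pow_nonneg hw r.length)
    linarith

/-- The absolute value, for fast evaluation. -/
def absC (c : ℤ) : ℤ := Int.ofNat c.natAbs

lemma absS_box : ∀ (n : ℕ) (s : List (ℕ × ℕ)) (a : MP n),
    absS n (box n s a) ≤ pk absC n s (List.replicate n 1) a
  | 0, _, a => le_of_eq (Int.natCast_natAbs (show ℤ from a)).symm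
  | n + 1, s, a => by
    suffices key : ∀ L : List (MP n),
        absS (n + 1) (box (n + 1) s L) ≤ pk absC (n + 1) s (List.replicate (n + 1) 1) L from key a
    intro L
    show ((bx n _ _ _).map (absS n)).sum ≤ hor _ _ _
    refine le_trans (absS_bx n _ _ (Int.natCast_nonneg _) (Int.natCast_nonneg _) _) ?_
    simp only [List.replicate_succ, List.headD_cons, List.tail_cons, hor_eq, List.map_map,
      Int.ofNat_eq_natCast, Nat.add_eq, Nat.mul_eq, Nat.pow_eq]
    refine le_trans (horR_mono (by positivity) (by positivity) _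
      (pk absC n s.tail (List.replicate n 1)) (fun c => absS_box n s.tail c) _) (le_of_eq ?_)
    congr 1
    · push_cast; ring
    · push_cast; ring

/-- The base of the outer packing. -/
def base (B : ℕ) : List ℕ → ℕ
  | [] => B
  | d :: ds => Nat.pow (base B ds) d

/-- The packing point. -/
def yl (B : ℕ) : List ℕ → List ℕ
  | [] => []
  | _ :: ds => base B ds :: yl B ds

/-- The polynomial has the given shape. -/
def rect : (n : ℕ) → List ℕ → MP n → Bool
  | 0, ds, _ => ds.isEmpty
  | _ + 1, [], _ => false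
  | n + 1, d :: ds, a => decide (List.length a = d) && List.all a (rect n ds)

lemma evI_le {B : ℕ} (hB : 1 ≤ B) : ∀ (n : ℕ) (ds : List ℕ) (a : MP n), rect n ds a = true →
    |evI n (yl B ds) a| * B ≤ absS n a * base B ds
  | 0, [], _, _ => le_refl _
  | 0, _ :: _, _, h => by simp [rect] at h
  | n + 1, [], _, h => by simp [rect] at h
  | n + 1, d :: ds, a, h => by
    revert h
    suffices key : ∀ L : List (MP n), rect (n + 1) (d :: ds) L = true →
        |evI (n + 1) (yl B (d :: ds)) L| * B ≤ absS (n + 1) L * base B (d :: ds) from key a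
    intro a h
    simp only [rect, Bool.and_eq_true, decide_eq_true_eq, List.all_eq_true] at h
    obtain ⟨hl, ha⟩ := h
    subst hl
    show |evI (n + 1) (base B ds :: yl B ds) a| * B
      ≤ absS (n + 1) a * ((base B ds ^ List.length a : ℕ) : ℤ)
    rw [evI_succ]
    show |sumY (evI n (yl B ds)) (base B ds : ℤ) a| * B
      ≤ ((show List (MP n) from a).map (absS n)).sum * ((base B ds ^ List.length a : ℕ) : ℤ)
    have hM : (1 : ℤ) ≤ base B ds := by
      have : ∀ l, 1 ≤ base B l := fun l => by
        induction l with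
        | nil => exact hB
        | cons e l ih => exact Nat.one_le_pow _ _ ih
      exact_mod_cast this ds
    induction a with
    | nil => simp [sumY]
    | cons c r ih =>
      have h1 := evI_le hB n ds c (ha c (List.mem_cons_self ..))
      have h2 := ih fun e he => ha e (List.mem_cons_of_mem _ he)
      have hp : (base B ds : ℤ) ≤ (base B ds : ℤ) ^ (r.length + 1) := le_self_pow₀ hM (by omega)
      have hM0 : (0 : ℤ) ≤ base B ds := le_trans zero_le_one hM
      simp only [sumY, List.map_cons, List.sum_cons, List.length_cons]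
      push_cast at h2 ⊢
      have h3 := abs_add_le (evI n (yl B ds) c) ((base B ds : ℤ) * sumY (evI n (yl B ds)) (base B ds : ℤ) r)
      rw [abs_mul, abs_of_nonneg hM0] at h3
      have h4 := mul_le_mul_of_nonneg_right h3 (Int.natCast_nonneg B)
      have h5 := mul_le_mul_of_nonneg_left h2 hM0
      have h6 := mul_le_mul_of_nonneg_left hp (absS_nonneg n c)
      rw [pow_succ] at h6 ⊢
      nlinarith [h1, h4, h5, h6]

/-- The sum of `h * M ^ i` for `i < d`. -/
def geo (h M : ℕ) : ℕ → ℕ
  | 0 => 0
  | d + 1 => Nat.add h (Nat.mul M (geo h M d))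

/-- The mask of the top bits of all the slots. -/
def mask (B : ℕ) : List ℕ → ℕ
  | [] => Nat.div B 2
  | d :: ds => geo (mask B ds) (base B ds) d

/-- All packed coefficients are nonnegative, tested with one bitwise operation. -/
def allNN (B : ℕ) (ds : List ℕ) (v : ℤ) : Bool :=
  decide (Nat.land (Int.natAbs (Int.add v (Int.ofNat (mask B ds)))) (mask B ds) = mask B ds)

/-- All coefficients are nonnegative. -/
def NN : (n : ℕ) → MP n → Prop
  | 0, a => 0 ≤ (show ℤ from a)
  | n + 1, a => ∀ c ∈ (show List (MP n) from a), NN n c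

lemma base_pow (W : ℕ) : ∀ ds : List ℕ, ∃ k, base (2 ^ (W + 1)) ds = 2 ^ (k + 1) ∨
    base (2 ^ (W + 1)) ds = 1
  | [] => ⟨W, Or.inl rfl⟩
  | d :: ds => by
    show ∃ k, base (2 ^ (W + 1)) ds ^ d = 2 ^ (k + 1) ∨ base (2 ^ (W + 1)) ds ^ d = 1
    obtain ⟨k, hk | hk⟩ := base_pow W ds
    · cases d with
      | zero => exact ⟨0, Or.inr (pow_zero _)⟩
      | succ d => exact ⟨(k + 1) * (d + 1) - 1, Or.inl (by
          rw [hk, ← pow_mul, Nat.sub_add_cancel (Nat.one_le_iff_ne_zero.mpr (by simp))])⟩
    · exact ⟨0, Or.inr (by rw [hk, one_pow])⟩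

lemma land_split {k x x' h h' : ℕ} (hx : x < 2 ^ k) (hh : h < 2 ^ k)
    (e : (x + 2 ^ k * x') &&& (h + 2 ^ k * h') = h + 2 ^ k * h') :
    x &&& h = h ∧ x' &&& h' = h' := by
  constructor
  · have := congrArg (· % 2 ^ k) e
    simpa [Nat.and_mod_two_pow, Nat.add_mul_mod_self_left, Nat.mod_eq_of_lt hx,
      Nat.mod_eq_of_lt hh] using this
  · have := congrArg (· / 2 ^ k) e
    simpa [Nat.and_div_two_pow, Nat.add_mul_div_left _ _ (Nat.two_pow_pos k),
      Nat.div_eq_of_lt hx, Nat.div_eq_of_lt hh] using this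

lemma mask_lt (W : ℕ) : ∀ ds : List ℕ, mask (2 ^ (W + 1)) ds < base (2 ^ (W + 1)) ds
  | [] => Nat.div_lt_self (Nat.two_pow_pos _) (le_refl 2)
  | d :: ds => by
    show geo _ _ d < base (2 ^ (W + 1)) ds ^ d
    have hm := mask_lt W ds
    induction d with
    | zero => simp [geo]
    | succ d ih =>
      simp only [geo, Nat.add_eq, Nat.mul_eq]
      rw [pow_succ (base (2 ^ (W + 1)) ds) d]
      have := Nat.mul_le_mul_left (base (2 ^ (W + 1)) ds) ih
      rw [Nat.mul_succ] at this
      linarith [Nat.mul_comm (base (2 ^ (W + 1)) ds) (base (2 ^ (W + 1)) ds ^ d)]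

/-- What the mask test says. -/
lemma NN_of_mask (W : ℕ) : ∀ (n : ℕ) (ds : List ℕ) (a : MP n), rect n ds a = true →
    2 * absS n a < (2 ^ (W + 1) : ℕ) →
    ∃ E : ℕ, evI n (yl (2 ^ (W + 1)) ds) a + mask (2 ^ (W + 1)) ds = E ∧
      E < base (2 ^ (W + 1)) ds ∧
      (E &&& mask (2 ^ (W + 1)) ds = mask (2 ^ (W + 1)) ds → NN n a)
  | 0, [], a, _, h => by
    change 2 * |(show ℤ from a)| < _ at h
    revert h
    suffices key : ∀ z : ℤ, 2 * |z| < ((2 ^ (W + 1) : ℕ) : ℤ) →
        ∃ E : ℕ, z + (((2 ^ (W + 1) : ℕ) / 2 : ℕ) : ℤ) = E ∧ E < 2 ^ (W + 1) ∧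
          (E &&& (2 ^ (W + 1) : ℕ) / 2 = (2 ^ (W + 1) : ℕ) / 2 → 0 ≤ z) from key a
    intro a h
    obtain ⟨h1, h2⟩ := abs_lt.mp (show |2 * a| < ((2 ^ (W + 1) : ℕ) : ℤ) by
      rw [abs_mul]; simpa using h)
    have hB : (2 ^ (W + 1) : ℕ) / 2 = 2 ^ W := by rw [pow_succ, Nat.mul_div_cancel _ two_pos]
    rw [hB]
    push_cast at h1 h2 ⊢
    rw [pow_succ] at h1 h2
    refine ⟨(a + 2 ^ W).toNat, (Int.toNat_of_nonneg (by linarith)).symm, ?_, ?_⟩
    · rw [Int.toNat_lt (by linarith)]
      push_cast
      rw [pow_succ]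
      linarith
    · intro he
      have h3 : 2 ^ W ≤ (a + 2 ^ W).toNat := he ▸ Nat.and_le_left
      have h4 : ((2 ^ W : ℕ) : ℤ) ≤ a + 2 ^ W :=
        le_trans (Int.ofNat_le.mpr h3) (le_of_eq (Int.toNat_of_nonneg (by linarith)))
      push_cast at h4
      linarith
  | 0, _ :: _, _, h, _ => by simp [rect] at h
  | n + 1, [], _, h, _ => by simp [rect] at h
  | n + 1, d :: ds, a, h, hs => by
    revert h hs
    suffices key : ∀ L : List (MP n), rect (n + 1) (d :: ds) L = true →
        2 * absS (n + 1) L < (2 ^ (W + 1) : ℕ) →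
        ∃ E : ℕ, evI (n + 1) (yl (2 ^ (W + 1)) (d :: ds)) L + mask (2 ^ (W + 1)) (d :: ds) = E ∧
          E < base (2 ^ (W + 1)) (d :: ds) ∧
          (E &&& mask (2 ^ (W + 1)) (d :: ds) = mask (2 ^ (W + 1)) (d :: ds) → NN (n + 1) L)
      from key a
    intro a h hs
    simp only [rect, Bool.and_eq_true, decide_eq_true_eq, List.all_eq_true] at h
    obtain ⟨hl, ha⟩ := h
    subst hl
    rw [evI_succ]
    change 2 * (a.map (absS n)).sum < _ at hs
    show ∃ E : ℕ, sumY (evI n (yl (2 ^ (W + 1)) ds)) (base (2 ^ (W + 1)) ds : ℤ) a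
      + (geo (mask (2 ^ (W + 1)) ds) (base (2 ^ (W + 1)) ds) a.length : ℕ) = E ∧
      E < base (2 ^ (W + 1)) ds ^ a.length ∧ _
    induction a with
    | nil =>
      refine ⟨0, by simp [sumY, geo], by simp, fun _ => ?_⟩
      show ∀ c ∈ ([] : List (MP n)), NN n c
      simp
    | cons c r ih =>
      simp only [List.map_cons, List.sum_cons] at hs
      have hr : 0 ≤ (r.map (absS n)).sum := List.sum_nonneg fun v hv => by
        obtain ⟨e, -, rfl⟩ := List.mem_map.mp hv
        exact absS_nonneg n e
      have hc0 := absS_nonneg n c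
      obtain ⟨E, e1, e2, e3⟩ := NN_of_mask W n ds c (ha c (List.mem_cons_self ..)) (by linarith)
      obtain ⟨F, f1, f2, f3⟩ := ih (fun e he => ha e (List.mem_cons_of_mem _ he)) (by linarith)
      refine ⟨E + base (2 ^ (W + 1)) ds * F, ?_, ?_, fun he => ?_⟩
      · simp only [sumY, List.length_cons, geo, Nat.add_eq, Nat.mul_eq]
        push_cast at e1 f1 ⊢
        linear_combination e1 + (base (2 ^ (W + 1)) ds : ℤ) * f1
      · rw [List.length_cons, pow_succ (base (2 ^ (W + 1)) ds) r.length]
        have := Nat.mul_le_mul_left (base (2 ^ (W + 1)) ds) f2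
        rw [Nat.mul_succ] at this
        linarith [Nat.mul_comm (base (2 ^ (W + 1)) ds) (base (2 ^ (W + 1)) ds ^ r.length)]
      · change (E + base (2 ^ (W + 1)) ds * F) &&& (mask (2 ^ (W + 1)) ds
          + base (2 ^ (W + 1)) ds * geo _ _ r.length) = mask (2 ^ (W + 1)) ds
          + base (2 ^ (W + 1)) ds * geo _ _ r.length at he
        obtain ⟨k, hk⟩ : ∃ k, base (2 ^ (W + 1)) ds = 2 ^ k := by
          obtain ⟨k, hk | hk⟩ := base_pow W ds
          · exact ⟨k + 1, hk⟩
          · exact ⟨0, by rw [hk, pow_zero]⟩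
        have hm := mask_lt W ds
        rw [hk] at he e2 hm
        obtain ⟨h1, h2⟩ := land_split e2 hm he
        intro e he'
        rcases List.mem_cons.mp he' with rfl | he'
        · exact e3 h1
        · exact f3 (by simp only [mask, hk]; exact h2) e he'

lemma NN_of_allNN (W : ℕ) {n : ℕ} {ds : List ℕ} {a : MP n} (hr : rect n ds a = true)
    (hs : 2 * absS n a < (2 ^ (W + 1) : ℕ))
    (h : allNN (2 ^ (W + 1)) ds (evI n (yl (2 ^ (W + 1)) ds) a) = true) : NN n a := by
  obtain ⟨E, e1, -, e3⟩ := NN_of_mask W n ds a hr hs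
  refine e3 ?_
  have := of_decide_eq_true h
  change Int.natAbs (_ + ((mask (2 ^ (W + 1)) ds : ℕ) : ℤ)) &&& _ = _ at this
  rwa [e1, Int.natAbs_natCast] at this

lemma ev_nonneg_of_NN : ∀ (n : ℕ) (a : MP n), NN n a → ∀ x : ℕ → ℝ, (∀ i, 0 ≤ x i) →
    0 ≤ ev n a x
  | 0, a, h, _, _ => Int.cast_nonneg h
  | n + 1, a, h, x, hx => by
    change ∀ c ∈ (show List (MP n) from a), NN n c at h
    suffices key : ∀ L : List (MP n), (∀ c ∈ L, NN n c) → 0 ≤ ev (n + 1) L x from key a h
    intro L hL
    induction L with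
    | nil => exact le_refl _
    | cons c r ih =>
      rw [ev_succ_cons]
      exact add_nonneg (ev_nonneg_of_NN n c (hL c (List.mem_cons_self ..)) _ fun i => hx (i + 1))
        (mul_nonneg (hx 0) (ih fun e he => hL e (List.mem_cons_of_mem _ he)))

lemma all_bx {n : ℕ} {q lo : ℤ} (P : MP n → Prop) (pa : ∀ a b, P a → P b → P (add n a b))
    (pz : ∀ a, P a → P (add n (zero n) a)) (ps : ∀ k a, P a → P (smul n k a))
    (paz : ∀ a, P a → P (add n a (zero n))) :
    ∀ L : List (MP n), (∀ c ∈ L, P c) → ∀ c ∈ bx n q lo L, P c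
  | [], _ => by simp [bx]
  | c :: r, h => by
    have ih := all_bx (q := q) (lo := lo) P pa pz ps paz r fun e he => h e (List.mem_cons_of_mem _ he)
    have hh := h c (List.mem_cons_self ..)
    have hz : ∀ a b : List (MP n), (∀ e ∈ a, P e) → (∀ e ∈ b, P e) → ∀ e ∈ zipPad (add n) a b, P e := by
      intro a b
      induction a generalizing b with
      | nil => cases b <;> simp [zipPad]
      | cons e a iha =>
        cases b with
        | nil => intro h1 _; simpa [zipPad] using h1
        | cons f b =>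
          intro h1 h2 g hg
          rcases List.mem_cons.mp hg with rfl | hg
          · exact pa e f (h1 e (List.mem_cons_self ..)) (h2 f (List.mem_cons_self ..))
          · exact iha b (fun e he => h1 e (List.mem_cons_of_mem _ he))
              (fun e he => h2 e (List.mem_cons_of_mem _ he)) g hg
    intro e he
    simp only [bx, mulLin] at he
    obtain ⟨p, ps', hp⟩ : ∃ p ps', (pwl q r.length).map (fun k => smul n k c) = p :: ps' := by
      cases hk : (pwl q r.length).map (fun k => smul n k c) with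
      | nil => simp [length_pwl] at hk; exact absurd (congrArg List.length hk) (by simp [length_pwl])
      | cons p ps' => exact ⟨p, ps', rfl⟩
    have hP : ∀ e ∈ (pwl q r.length).map (fun k => smul n k c), P e := by
      simp only [List.mem_map]; rintro e ⟨k, -, rfl⟩; exact ps k c hh
    rw [hp] at hP he
    cases hb : bx n q lo r with
    | nil =>
      rw [hb] at he
      simp only [List.map_nil, zipPad] at he
      rcases List.mem_cons.mp he with rfl | he
      · exact paz p (hP p (List.mem_cons_self ..))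
      · exact hP e (List.mem_cons_of_mem _ (by cases ps' <;> simp_all [zipPad]))
    | cons b bs =>
      rw [hb] at he ih
      simp only [List.map_cons, zipPad] at he
      rcases List.mem_cons.mp he with rfl | he
      · exact pa p _ (hP p (List.mem_cons_self ..)) (paz _ (ps lo b (ih b (List.mem_cons_self ..))))
      · refine hz _ _ (fun e he => hP e (List.mem_cons_of_mem _ he)) (hz _ _ ?_ ?_) e he
        · simp only [List.mem_map]; rintro e ⟨k, hk, rfl⟩
          exact ps lo k (ih k (List.mem_cons_of_mem _ hk))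
        · intro e he
          rcases List.mem_cons.mp he with rfl | he
          · exact ps _ b (ih b (List.mem_cons_self ..))
          · obtain ⟨k, hk, rfl⟩ := List.mem_map.mp he
            exact ps _ k (ih k (List.mem_cons_of_mem _ hk))

lemma rect_add_zero : ∀ (n : ℕ) (ds : List ℕ) (a : MP n), rect n ds a = true →
    rect n ds (add n (zero n) a) = true ∧ rect n ds (add n a (zero n)) = true
  | 0, _, _, h => ⟨h, h⟩
  | n + 1, ds, a, h => by
    revert h
    suffices key : ∀ L : List (MP n), rect (n + 1) ds L = true →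
        rect (n + 1) ds (add (n + 1) (zero (n + 1)) L) = true ∧
          rect (n + 1) ds (add (n + 1) L (zero (n + 1))) = true from key a
    intro a h
    constructor
    · show rect (n + 1) ds (zipPad (add n) [] a) = true
      cases a <;> simpa [zipPad] using h
    · show rect (n + 1) ds (zipPad (add n) a []) = true
      cases a <;> simpa [zipPad] using h

lemma rect_add : ∀ (n : ℕ) (ds : List ℕ) (a b : MP n), rect n ds a = true → rect n ds b = true →
    rect n ds (add n a b) = true
  | 0, _, _, _, h, _ => h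
  | n + 1, [], _, _, h, _ => by simp [rect] at h
  | n + 1, d :: ds, a, b, ha, hb => by
    revert ha hb
    suffices key : ∀ L M : List (MP n), rect (n + 1) (d :: ds) L = true →
        rect (n + 1) (d :: ds) M = true → rect (n + 1) (d :: ds) (add (n + 1) L M) = true from key a b
    intro a b ha hb
    simp only [rect, Bool.and_eq_true, decide_eq_true_eq, List.all_eq_true] at ha hb
    show rect (n + 1) (d :: ds) (zipPad (add n) a b) = true
    simp only [rect, Bool.and_eq_true, decide_eq_true_eq, List.all_eq_true]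
    refine ⟨by rw [length_zipPad, ha.1, hb.1, max_self], ?_⟩
    obtain ⟨la, pa⟩ := ha
    obtain ⟨lb, pb⟩ := hb
    clear la lb
    induction a generalizing b with
    | nil => cases b <;> simp_all [zipPad]
    | cons e a iha =>
      cases b with
      | nil => simpa [zipPad] using pa
      | cons f b =>
        intro g hg
        rcases List.mem_cons.mp hg with rfl | hg
        · exact rect_add n ds e f (pa e (List.mem_cons_self ..)) (pb f (List.mem_cons_self ..))
        · exact iha b (fun e he => pa e (List.mem_cons_of_mem _ he))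
            (fun e he => pb e (List.mem_cons_of_mem _ he)) g hg

lemma rect_smul : ∀ (n : ℕ) (ds : List ℕ) (k : ℤ) (a : MP n), rect n ds a = true →
    rect n ds (smul n k a) = true
  | 0, _, _, _, h => h
  | n + 1, [], _, _, h => by simp [rect] at h
  | n + 1, d :: ds, k, a, h => by
    revert h
    suffices key : ∀ L : List (MP n), rect (n + 1) (d :: ds) L = true →
        rect (n + 1) (d :: ds) (smul (n + 1) k L) = true from key a
    intro a h
    simp only [rect, Bool.and_eq_true, decide_eq_true_eq, List.all_eq_true] at h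
    show rect (n + 1) (d :: ds) (List.map (smul n k) a) = true
    simp only [rect, Bool.and_eq_true, decide_eq_true_eq, List.all_eq_true, List.length_map]
    refine ⟨h.1, fun c hc => ?_⟩
    obtain ⟨e, he, rfl⟩ := List.mem_map.mp hc
    exact rect_smul n ds k e (h.2 e he)

lemma rect_box : ∀ (n : ℕ) (ds : List ℕ) (s : List (ℕ × ℕ)) (a : MP n), rect n ds a = true →
    rect n ds (box n s a) = true
  | 0, _, _, _, h => h
  | n + 1, [], _, _, h => by simp [rect] at h
  | n + 1, d :: ds, s, a, h => by
    simp only [rect, Bool.and_eq_true, decide_eq_true_eq, List.all_eq_true] at h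
    show rect (n + 1) (d :: ds) (bx n _ _ (List.map (box n s.tail) a)) = true
    simp only [rect, Bool.and_eq_true, decide_eq_true_eq, List.all_eq_true]
    refine ⟨(length_bx n _ _ _).trans ((List.length_map ..).trans h.1), ?_⟩
    refine all_bx (fun c => rect n ds c = true) (rect_add n ds)
      (fun c hc => (rect_add_zero n ds c hc).1) (rect_smul n ds)
      (fun c hc => (rect_add_zero n ds c hc).2) _ fun c hc => ?_
    obtain ⟨e, he, rfl⟩ := List.mem_map.mp hc
    exact rect_box n ds s.tail e (List.all_eq_true.mp h.2 e he)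

/-- The point of the box with homogeneous coordinates `y`. -/
noncomputable def pt : List (ℕ × ℕ) → (ℕ → ℝ) → ℕ → ℝ
  | s, y, 0 => ((s.headD (0, 0)).2 + ((s.headD (0, 0)).2 + 1) * y 0) /
      (2 ^ (s.headD (0, 0)).1 * (1 + y 0))
  | s, y, i + 1 => pt s.tail (fun j => y (j + 1)) i

/-- The positive factor of the change of variable. -/
noncomputable def fac : List ℕ → List (ℕ × ℕ) → (ℕ → ℝ) → ℝ
  | [], _, _ => 1
  | d :: ds, s, y => (2 ^ (s.headD (0, 0)).1 * (1 + y 0)) ^ (d - 1) *
      fac ds s.tail (fun j => y (j + 1))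

lemma ev_box : ∀ (n : ℕ) (ds : List ℕ) (s : List (ℕ × ℕ)) (a : MP n) (y : ℕ → ℝ),
    (∀ i, 0 ≤ y i) → rect n ds a = true →
    ev n (box n s a) y = fac ds s y * ev n a (pt s y)
  | 0, [], _, a, y, _, _ => (one_mul _).symm
  | 0, _ :: _, _, _, _, _, h => by simp [rect] at h
  | n + 1, [], _, _, _, _, h => by simp [rect] at h
  | n + 1, d :: ds, s, a, y, hy, h => by
    revert h
    suffices key : ∀ L : List (MP n), rect (n + 1) (d :: ds) L = true →
        ev (n + 1) (box (n + 1) s L) y = fac (d :: ds) s y * ev (n + 1) L (pt s y) from key a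
    intro a h
    simp only [rect, Bool.and_eq_true, decide_eq_true_eq] at h
    obtain ⟨hl, hall⟩ := h
    have ha : ∀ c ∈ a, rect n ds c = true := List.all_eq_true.mp hall
    clear hall
    subst hl
    obtain ⟨m, l, hs⟩ : ∃ m l : ℕ, s.headD (0, 0) = (m, l) := ⟨_, _, rfl⟩
    show ev (n + 1) (bx n _ _ (List.map (box n s.tail) a)) y = _
    rw [ev_eq_sumY, sumY_bx _ (fun a b => ev_add n a b _) (fun k a => ev_smul n k a _)
      (ev_zero n _), List.map_map, hs, fac, hs]
    have hw : (0 : ℝ) < 2 ^ m * (1 + y 0) := by have := hy 0; positivity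
    have hd : (2 : ℝ) ^ m * (1 + y 0) * pt s y 0 = l + (l + 1) * y 0 := by
      simp only [pt, hs]
      rw [mul_div_cancel₀ _ hw.ne']
    push_cast
    induction a with
    | nil => simp [horR, ev_succ_nil]
    | cons c r ih =>
      have ih := ih fun e he => ha e (List.mem_cons_of_mem _ he)
      have hc := ev_box n ds s.tail c (fun i => y (i + 1)) (fun i => hy (i + 1))
        (ha c (List.mem_cons_self ..))
      rw [ev_succ_cons]
      simp only [List.map_cons, Function.comp, horR, List.length_map, List.length_cons,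
        Nat.add_sub_cancel, hc] at ih ⊢
      have hpt : (fun i => pt s y (i + 1)) = pt s.tail (fun j => y (j + 1)) := rfl
      rw [hpt, ← hd]
      rw [← hd] at ih
      cases r with
      | nil => simp [horR, ev_succ_nil]
      | cons e r =>
        simp only [List.length_cons, Nat.add_sub_cancel, pow_succ] at ih ⊢
        rw [ih]
        ring

/-- The point lies in the box, its right edges excluded. -/
def InBox : (n : ℕ) → List (ℕ × ℕ) → (ℕ → ℝ) → Prop
  | 0, _, _ => True
  | n + 1, s, x => ((s.headD (0, 0)).2 ≤ 2 ^ (s.headD (0, 0)).1 * x 0 ∧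
      2 ^ (s.headD (0, 0)).1 * x 0 < (s.headD (0, 0)).2 + 1) ∧
      InBox n s.tail (fun i => x (i + 1))

/-- Nonnegativity on a box. -/
def Ok (n : ℕ) (s : List (ℕ × ℕ)) (a : MP n) : Prop := ∀ x, InBox n s x → 0 ≤ ev n a x

/-- The test for one box. -/
def check (n : ℕ) (ds : List ℕ) (W : ℕ) (s : List (ℕ × ℕ)) (a : MP n) : Bool :=
  rect n ds a &&
    decide (Int.mul 2 (pk absC n s (List.replicate n 1) a) < Int.ofNat (Nat.pow 2 (Nat.add W 1))) &&
    allNN (Nat.pow 2 (Nat.add W 1)) ds (pk (fun c => c) n s (yl (Nat.pow 2 (Nat.add W 1)) ds) a)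

lemma fac_pos : ∀ (ds : List ℕ) (s : List (ℕ × ℕ)) (y : ℕ → ℝ), (∀ i, 0 ≤ y i) → 0 < fac ds s y
  | [], _, _, _ => one_pos
  | d :: ds, s, y, hy => mul_pos (pow_pos (mul_pos (pow_pos two_pos _)
      (by linarith [hy 0])) _) (fac_pos ds s.tail _ fun i => hy (i + 1))

lemma exists_pt : ∀ (n : ℕ) (s : List (ℕ × ℕ)) (x : ℕ → ℝ), InBox n s x →
    ∃ y : ℕ → ℝ, (∀ i, 0 ≤ y i) ∧ ∀ i < n, pt s y i = x i
  | 0, _, _, _ => ⟨fun _ => 0, fun _ => le_refl _, fun i hi => absurd hi (Nat.not_lt_zero i)⟩
  | n + 1, s, x, ⟨⟨h1, h2⟩, h⟩ => by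
    obtain ⟨y, y0, ye⟩ := exists_pt n s.tail _ h
    obtain ⟨m, l, hs⟩ : ∃ m l : ℕ, s.headD (0, 0) = (m, l) := ⟨_, _, rfl⟩
    rw [hs] at h1 h2
    refine ⟨fun i => if i = 0 then (2 ^ m * x 0 - l) / (l + 1 - 2 ^ m * x 0) else y (i - 1),
      fun i => ?_, fun i hi => ?_⟩
    · dsimp only
      split_ifs
      · exact div_nonneg (by linarith) (by linarith)
      · exact y0 _
    · cases i with
      | zero =>
        have h3 : (0 : ℝ) < l + 1 - 2 ^ m * x 0 := by linarith
        simp only [pt, hs, if_pos]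
        field_simp
        ring
      | succ i =>
        show pt s.tail (fun j => if j + 1 = 0 then _ else y (j + 1 - 1)) i = _
        simpa using ye i (by omega)

lemma ev_congr : ∀ (n : ℕ) (a : MP n) (x y : ℕ → ℝ), (∀ i < n, x i = y i) → ev n a x = ev n a y
  | 0, _, _, _, _ => rfl
  | n + 1, a, x, y, h => by
    show List.foldr _ 0 a = List.foldr _ 0 a
    congr 1
    funext c r
    rw [ev_congr n c _ (fun i => y (i + 1)) fun i hi => h (i + 1) (by omega), h 0 (by omega)]

/-- A box that passes the test is a box of nonnegativity. -/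
theorem ok_leaf {n : ℕ} {ds : List ℕ} {W : ℕ} {s : List (ℕ × ℕ)} {a : MP n}
    (h : check n ds W s a = true) : Ok n s a := by
  simp only [check, Bool.and_eq_true, decide_eq_true_eq] at h
  obtain ⟨⟨hr, hs⟩, hd⟩ := h
  intro x hx
  obtain ⟨y, y0, ye⟩ := exists_pt n s x hx
  have hn : NN n (box n s a) := by
    refine NN_of_allNN W (ds := ds) (rect_box n ds s a hr) ?_ ?_
    · exact lt_of_le_of_lt (mul_le_mul_of_nonneg_left (absS_box n s a) two_pos.le) hs
    · rw [evI_box]; exact hd
  have := ev_nonneg_of_NN n _ hn y y0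
  rw [ev_box n ds s a y y0 hr, ev_congr n a _ x ye] at this
  exact nonneg_of_mul_nonneg_right this (fac_pos ds s y y0)

lemma inBox_split : ∀ (n i : ℕ) (s : List (ℕ × ℕ)) (m l : ℕ) (x : ℕ → ℝ), s[i]? = some (m, l) →
    InBox n s x → InBox n (s.set i (m + 1, 2 * l)) x ∨ InBox n (s.set i (m + 1, 2 * l + 1)) x
  | 0, _, _, _, _, _, _, _ => Or.inl trivial
  | n + 1, 0, e :: s, m, l, x, hs, ⟨⟨h1, h2⟩, h⟩ => by
    simp only [List.getElem?_cons_zero, Option.some.injEq] at hs
    subst hs
    simp only [List.headD_cons, List.tail_cons] at h1 h2 h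
    by_cases hm : (2 : ℝ) ^ (m + 1) * x 0 < 2 * l + 1
    · refine Or.inl ⟨?_, h⟩
      simp only [List.set_cons_zero, List.headD_cons]
      push_cast
      rw [pow_succ] at hm ⊢
      constructor <;> linarith
    · refine Or.inr ⟨?_, h⟩
      simp only [List.set_cons_zero, List.headD_cons]
      push_cast
      rw [pow_succ] at hm ⊢
      constructor <;> linarith [not_lt.mp hm]
  | n + 1, i + 1, e :: s, m, l, x, hs, ⟨hh, h⟩ => by
    simp only [List.getElem?_cons_succ] at hs
    exact (inBox_split n i s m l _ hs h).imp (fun h' => ⟨hh, h'⟩) (fun h' => ⟨hh, h'⟩)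
  | _ + 1, _, [], _, _, _, hs, _ => by simp at hs

/-- Joining the two halves of a box. -/
theorem ok_node {n : ℕ} {s : List (ℕ × ℕ)} {a : MP n} (i m l : ℕ) (hs : s[i]? = some (m, l))
    (hl : Ok n (s.set i (m + 1, 2 * l)) a) (hr : Ok n (s.set i (m + 1, 2 * l + 1)) a) :
    Ok n s a := fun x hx => (inBox_split n i s m l x hs hx).elim (hl x) (hr x)

lemma continuous_ev : ∀ (n : ℕ) (a : MP n), Continuous (fun x : ℕ → ℝ => ev n a x)
  | 0, _ => continuous_const
  | n + 1, a => by
    induction (show List (MP n) from a) with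
    | nil => exact continuous_const
    | cons c r ih =>
      have hc : Continuous (fun x : ℕ → ℝ => ev n c (fun i => x (i + 1))) :=
        (continuous_ev n c).comp (continuous_pi fun i => continuous_apply (i + 1))
      exact hc.add ((continuous_apply 0).mul ih)

lemma inBox_unit : ∀ (n : ℕ) (x : ℕ → ℝ), (∀ i, 0 ≤ x i ∧ x i < 1) →
    InBox n (List.replicate n (0, 0)) x
  | 0, _, _ => trivial
  | n + 1, x, h => by
    simp only [List.replicate_succ, InBox, List.headD_cons, List.tail_cons]
    refine ⟨?_, inBox_unit n _ fun i => h (i + 1)⟩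
    simp [h 0]

/-- Nonnegativity on the whole cube, its boundary included. -/
theorem good_of_ok {n : ℕ} {a : MP n} (h : Ok n (List.replicate n (0, 0)) a) : Good n [] a := by
  intro x hx
  show 0 ≤ ev n a x
  have hc : Filter.Tendsto (fun k : ℕ => ev n a (fun i => (1 - 1 / ((k : ℝ) + 1)) * x i))
      Filter.atTop (nhds (ev n a x)) := by
    refine ((continuous_ev n a).tendsto x).comp (tendsto_pi_nhds.mpr fun i => ?_)
    simpa using ((tendsto_const_nhds (x := (1 : ℝ))).sub
      tendsto_one_div_add_atTop_nhds_zero_nat).mul_const (x i)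
  refine ge_of_tendsto' hc fun k => h _ (inBox_unit n _ fun i => ?_)
  have h1 : 1 / ((k : ℝ) + 1) ≤ 1 := by
    rw [div_le_one (by positivity)]; linarith [Nat.cast_nonneg (α := ℝ) k]
  have h2 : 0 < 1 / ((k : ℝ) + 1) := by positivity
  constructor
  · exact mul_nonneg (by linarith) (hx i).1
  · nlinarith [(hx i).1, (hx i).2]

end Vale.Agent.P154.Pack
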