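import Vale.Agent.P154.UniNegCoef
import Vale.Agent.P154.UniPack

/-!
Generated subdivision certificate.
-/

namespace Vale.Agent.P154.Uni.Neg

open Bern

theorem good1 : Pack.Ok 4 [(4, 0), (1, 0), (2, 0), (1, 0)] poly :=
  Pack.ok_leaf (ds := [15, 13, 7, 9]) (W := 192) (by decide +kernel)

theorem good2 : Pack.Ok 4 [(4, 0), (1, 0), (2, 1), (1, 0)] poly :=
  Pack.ok_leaf (ds := [15, 13, 7, 9]) (W := 196) (by decide +kernel)

theorem good3 : Pack.Ok 4 [(4, 0), (1, 0), (1, 0), (1, 0)] poly :=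
  Pack.ok_node 2 1 0 rfl good1 good2

theorem good4 : Pack.Ok 4 [(4, 1), (1, 0), (1, 0), (1, 0)] poly :=
  Pack.ok_leaf (ds := [15, 13, 7, 9]) (W := 189) (by decide +kernel)

theorem good5 : Pack.Ok 4 [(3, 0), (1, 0), (1, 0), (1, 0)] poly :=
  Pack.ok_node 0 3 0 rfl good3 good4

theorem good6 : Pack.Ok 4 [(3, 1), (1, 0), (1, 0), (1, 0)] poly :=
  Pack.ok_leaf (ds := [15, 13, 7, 9]) (W := 177) (by decide +kernel)

theorem good7 : Pack.Ok 4 [(2, 0), (1, 0), (1, 0), (1, 0)] poly :=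
  Pack.ok_node 0 2 0 rfl good5 good6

theorem good8 : Pack.Ok 4 [(2, 0), (1, 0), (1, 1), (1, 0)] poly :=
  Pack.ok_leaf (ds := [15, 13, 7, 9]) (W := 165) (by decide +kernel)

theorem good9 : Pack.Ok 4 [(2, 0), (1, 0), (0, 0), (1, 0)] poly :=
  Pack.ok_node 2 0 0 rfl good7 good8

theorem good10 : Pack.Ok 4 [(2, 1), (1, 0), (0, 0), (1, 0)] poly :=
  Pack.ok_leaf (ds := [15, 13, 7, 9]) (W := 161) (by decide +kernel)

theorem good11 : Pack.Ok 4 [(1, 0), (1, 0), (0, 0), (1, 0)] poly :=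
  Pack.ok_node 0 1 0 rfl good9 good10

theorem good12 : Pack.Ok 4 [(1, 0), (1, 0), (0, 0), (1, 1)] poly :=
  Pack.ok_leaf (ds := [15, 13, 7, 9]) (W := 146) (by decide +kernel)

theorem good13 : Pack.Ok 4 [(1, 0), (1, 0), (0, 0), (0, 0)] poly :=
  Pack.ok_node 3 0 0 rfl good11 good12

theorem good14 : Pack.Ok 4 [(1, 1), (1, 0), (0, 0), (0, 0)] poly :=
  Pack.ok_leaf (ds := [15, 13, 7, 9]) (W := 144) (by decide +kernel)

theorem good15 : Pack.Ok 4 [(0, 0), (1, 0), (0, 0), (0, 0)] poly :=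
  Pack.ok_node 0 0 0 rfl good13 good14

theorem good16 : Pack.Ok 4 [(3, 0), (2, 2), (2, 0), (1, 0)] poly :=
  Pack.ok_leaf (ds := [15, 13, 7, 9]) (W := 192) (by decide +kernel)

theorem good17 : Pack.Ok 4 [(3, 0), (2, 2), (2, 1), (1, 0)] poly :=
  Pack.ok_leaf (ds := [15, 13, 7, 9]) (W := 194) (by decide +kernel)

theorem good18 : Pack.Ok 4 [(3, 0), (2, 2), (1, 0), (1, 0)] poly :=
  Pack.ok_node 2 1 0 rfl good16 good17

theorem good19 : Pack.Ok 4 [(3, 0), (2, 2), (1, 0), (1, 1)] poly :=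
  Pack.ok_leaf (ds := [15, 13, 7, 9]) (W := 189) (by decide +kernel)

theorem good20 : Pack.Ok 4 [(3, 0), (2, 2), (1, 0), (0, 0)] poly :=
  Pack.ok_node 3 0 0 rfl good18 good19

theorem good21 : Pack.Ok 4 [(3, 1), (2, 2), (1, 0), (0, 0)] poly :=
  Pack.ok_leaf (ds := [15, 13, 7, 9]) (W := 182) (by decide +kernel)

theorem good22 : Pack.Ok 4 [(2, 0), (2, 2), (1, 0), (0, 0)] poly :=
  Pack.ok_node 0 2 0 rfl good20 good21

theorem good23 : Pack.Ok 4 [(2, 1), (2, 2), (1, 0), (0, 0)] poly :=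
  Pack.ok_leaf (ds := [15, 13, 7, 9]) (W := 172) (by decide +kernel)

theorem good24 : Pack.Ok 4 [(1, 0), (2, 2), (1, 0), (0, 0)] poly :=
  Pack.ok_node 0 1 0 rfl good22 good23

theorem good25 : Pack.Ok 4 [(1, 1), (2, 2), (1, 0), (0, 0)] poly :=
  Pack.ok_leaf (ds := [15, 13, 7, 9]) (W := 164) (by decide +kernel)

theorem good26 : Pack.Ok 4 [(0, 0), (2, 2), (1, 0), (0, 0)] poly :=
  Pack.ok_node 0 0 0 rfl good24 good25

theorem good27 : Pack.Ok 4 [(3, 0), (2, 3), (2, 0), (1, 0)] poly :=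
  Pack.ok_leaf (ds := [15, 13, 7, 9]) (W := 192) (by decide +kernel)

theorem good28 : Pack.Ok 4 [(3, 0), (2, 3), (2, 1), (1, 0)] poly :=
  Pack.ok_leaf (ds := [15, 13, 7, 9]) (W := 194) (by decide +kernel)

theorem good29 : Pack.Ok 4 [(3, 0), (2, 3), (1, 0), (1, 0)] poly :=
  Pack.ok_node 2 1 0 rfl good27 good28

theorem good30 : Pack.Ok 4 [(3, 1), (2, 3), (1, 0), (1, 0)] poly :=
  Pack.ok_leaf (ds := [15, 13, 7, 9]) (W := 190) (by decide +kernel)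

theorem good31 : Pack.Ok 4 [(2, 0), (2, 3), (1, 0), (1, 0)] poly :=
  Pack.ok_node 0 2 0 rfl good29 good30

theorem good32 : Pack.Ok 4 [(2, 0), (2, 3), (1, 0), (1, 1)] poly :=
  Pack.ok_leaf (ds := [15, 13, 7, 9]) (W := 176) (by decide +kernel)

theorem good33 : Pack.Ok 4 [(2, 0), (2, 3), (1, 0), (0, 0)] poly :=
  Pack.ok_node 3 0 0 rfl good31 good32

theorem good34 : Pack.Ok 4 [(2, 1), (2, 3), (1, 0), (0, 0)] poly :=
  Pack.ok_leaf (ds := [15, 13, 7, 9]) (W := 173) (by decide +kernel)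

theorem good35 : Pack.Ok 4 [(1, 0), (2, 3), (1, 0), (0, 0)] poly :=
  Pack.ok_node 0 1 0 rfl good33 good34

theorem good36 : Pack.Ok 4 [(1, 1), (2, 3), (1, 0), (0, 0)] poly :=
  Pack.ok_leaf (ds := [15, 13, 7, 9]) (W := 165) (by decide +kernel)

theorem good37 : Pack.Ok 4 [(0, 0), (2, 3), (1, 0), (0, 0)] poly :=
  Pack.ok_node 0 0 0 rfl good35 good36

theorem good38 : Pack.Ok 4 [(0, 0), (1, 1), (1, 0), (0, 0)] poly :=
  Pack.ok_node 1 1 1 rfl good26 good37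

theorem good39 : Pack.Ok 4 [(1, 0), (1, 1), (1, 1), (1, 0)] poly :=
  Pack.ok_leaf (ds := [15, 13, 7, 9]) (W := 153) (by decide +kernel)

theorem good40 : Pack.Ok 4 [(2, 2), (2, 2), (1, 1), (1, 0)] poly :=
  Pack.ok_leaf (ds := [15, 13, 7, 9]) (W := 184) (by decide +kernel)

theorem good41 : Pack.Ok 4 [(2, 2), (3, 6), (1, 1), (1, 0)] poly :=
  Pack.ok_leaf (ds := [15, 13, 7, 9]) (W := 197) (by decide +kernel)

theorem good42 : Pack.Ok 4 [(2, 2), (3, 7), (3, 4), (2, 0)] poly :=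
  Pack.ok_leaf (ds := [15, 13, 7, 9]) (W := 217) (by decide +kernel)

theorem good43 : Pack.Ok 4 [(2, 2), (3, 7), (3, 5), (2, 0)] poly :=
  Pack.ok_leaf (ds := [15, 13, 7, 9]) (W := 217) (by decide +kernel)

theorem good44 : Pack.Ok 4 [(2, 2), (3, 7), (2, 2), (2, 0)] poly :=
  Pack.ok_node 2 2 2 rfl good42 good43

theorem good45 : Pack.Ok 4 [(2, 2), (3, 7), (2, 2), (2, 1)] poly :=
  Pack.ok_leaf (ds := [15, 13, 7, 9]) (W := 212) (by decide +kernel)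

theorem good46 : Pack.Ok 4 [(2, 2), (3, 7), (2, 2), (1, 0)] poly :=
  Pack.ok_node 3 1 0 rfl good44 good45

theorem good47 : Pack.Ok 4 [(2, 2), (3, 7), (2, 3), (2, 0)] poly :=
  Pack.ok_leaf (ds := [15, 13, 7, 9]) (W := 211) (by decide +kernel)

theorem good48 : Pack.Ok 4 [(2, 2), (3, 7), (2, 3), (2, 1)] poly :=
  Pack.ok_leaf (ds := [15, 13, 7, 9]) (W := 212) (by decide +kernel)

theorem good49 : Pack.Ok 4 [(2, 2), (3, 7), (2, 3), (1, 0)] poly :=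
  Pack.ok_node 3 1 0 rfl good47 good48

theorem good50 : Pack.Ok 4 [(2, 2), (3, 7), (1, 1), (1, 0)] poly :=
  Pack.ok_node 2 1 1 rfl good46 good49

theorem good51 : Pack.Ok 4 [(2, 2), (2, 3), (1, 1), (1, 0)] poly :=
  Pack.ok_node 1 2 3 rfl good41 good50

theorem good52 : Pack.Ok 4 [(2, 2), (1, 1), (1, 1), (1, 0)] poly :=
  Pack.ok_node 1 1 1 rfl good40 good51

theorem good53 : Pack.Ok 4 [(2, 3), (2, 2), (2, 2), (1, 0)] poly :=
  Pack.ok_leaf (ds := [15, 13, 7, 9]) (W := 193) (by decide +kernel)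

theorem good54 : Pack.Ok 4 [(2, 3), (2, 3), (2, 2), (1, 0)] poly :=
  Pack.ok_leaf (ds := [15, 13, 7, 9]) (W := 195) (by decide +kernel)

theorem good55 : Pack.Ok 4 [(2, 3), (1, 1), (2, 2), (1, 0)] poly :=
  Pack.ok_node 1 1 1 rfl good53 good54

theorem good56 : Pack.Ok 4 [(2, 3), (2, 2), (2, 3), (2, 0)] poly :=
  Pack.ok_leaf (ds := [15, 13, 7, 9]) (W := 202) (by decide +kernel)

theorem good57 : Pack.Ok 4 [(2, 3), (2, 2), (2, 3), (2, 1)] poly :=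
  Pack.ok_leaf (ds := [15, 13, 7, 9]) (W := 203) (by decide +kernel)

theorem good58 : Pack.Ok 4 [(2, 3), (2, 2), (2, 3), (1, 0)] poly :=
  Pack.ok_node 3 1 0 rfl good56 good57

theorem good59 : Pack.Ok 4 [(2, 3), (2, 3), (2, 3), (1, 0)] poly :=
  Pack.ok_leaf (ds := [15, 13, 7, 9]) (W := 196) (by decide +kernel)

theorem good60 : Pack.Ok 4 [(2, 3), (1, 1), (2, 3), (1, 0)] poly :=
  Pack.ok_node 1 1 1 rfl good58 good59

theorem good61 : Pack.Ok 4 [(2, 3), (1, 1), (1, 1), (1, 0)] poly :=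
  Pack.ok_node 2 1 1 rfl good55 good60

theorem good62 : Pack.Ok 4 [(1, 1), (1, 1), (1, 1), (1, 0)] poly :=
  Pack.ok_node 0 1 1 rfl good52 good61

theorem good63 : Pack.Ok 4 [(0, 0), (1, 1), (1, 1), (1, 0)] poly :=
  Pack.ok_node 0 0 0 rfl good39 good62

theorem good64 : Pack.Ok 4 [(0, 0), (1, 1), (1, 1), (1, 1)] poly :=
  Pack.ok_leaf (ds := [15, 13, 7, 9]) (W := 144) (by decide +kernel)

theorem good65 : Pack.Ok 4 [(0, 0), (1, 1), (1, 1), (0, 0)] poly :=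
  Pack.ok_node 3 0 0 rfl good63 good64

theorem good66 : Pack.Ok 4 [(0, 0), (1, 1), (0, 0), (0, 0)] poly :=
  Pack.ok_node 2 0 0 rfl good38 good65

theorem good67 : Pack.Ok 4 [(0, 0), (0, 0), (0, 0), (0, 0)] poly :=
  Pack.ok_node 1 0 0 rfl good15 good66

theorem good : Bern.Good 4 [] poly := Pack.good_of_ok (n := 4) good67

end Vale.Agent.P154.Uni.Neg
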