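import Vale.Agent.P154.UniNegData
import Vale.Agent.P154.UniNegTree

/-!
The potential certified at the edge parameter -3/20.
-/

namespace Vale.Agent.P154.Uni.Neg

open Bern

/-- A polynomial in one variable. -/
def u0 : List ℤ := [50192, -781632, 3964032, -6348132, 3173337, 0]

theorem u0_1 : Bern.Good 1 [(0, 5, false), (0, 5, false), (0, 5, false)] (uni u0) :=
  Bern.good_leaf (by decide +kernel)

theorem u0_2 : Bern.Good 1 [(0, 5, false), (0, 5, false), (0, 5, true)] (uni u0) :=
  Bern.good_leaf (by decide +kernel)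

theorem u0_3 : Bern.Good 1 [(0, 5, false), (0, 5, false)] (uni u0) :=
  Bern.good_node 0 5 (by norm_num) (by decide +kernel) u0_1 u0_2

theorem u0_4 : Bern.Good 1 [(0, 5, false), (0, 5, true)] (uni u0) :=
  Bern.good_leaf (by decide +kernel)

theorem u0_5 : Bern.Good 1 [(0, 5, false)] (uni u0) :=
  Bern.good_node 0 5 (by norm_num) (by decide +kernel) u0_3 u0_4

theorem u0_6 : Bern.Good 1 [(0, 5, true), (0, 5, false)] (uni u0) :=
  Bern.good_leaf (by decide +kernel)

theorem u0_7 : Bern.Good 1 [(0, 5, true), (0, 5, true)] (uni u0) :=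
  Bern.good_leaf (by decide +kernel)

theorem u0_8 : Bern.Good 1 [(0, 5, true)] (uni u0) :=
  Bern.good_node 0 5 (by norm_num) (by decide +kernel) u0_6 u0_7

theorem u0_9 : Bern.Good 1 [] (uni u0) :=
  Bern.good_node 0 5 (by norm_num) (by decide +kernel) u0_5 u0_8

theorem u0_good : Bern.Good 1 [] (uni u0) := u0_9

/-- A polynomial in one variable. -/
def u1 : List ℤ := [1328, 814752, -3964032, 6348132, -3173337, 0]

theorem u1_1 : Bern.Good 1 [(0, 5, false)] (uni u1) :=
  Bern.good_leaf (by decide +kernel)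

theorem u1_2 : Bern.Good 1 [(0, 5, true)] (uni u1) :=
  Bern.good_leaf (by decide +kernel)

theorem u1_3 : Bern.Good 1 [] (uni u1) :=
  Bern.good_node 0 5 (by norm_num) (by decide +kernel) u1_1 u1_2

theorem u1_good : Bern.Good 1 [] (uni u1) := u1_3

/-- A polynomial in one variable. -/
def u2 : List ℤ := [1930448, -15399504, 37398888, -7285140, -15451155, 0]

theorem u2_1 : Bern.Good 1 [(0, 5, false), (0, 5, false)] (uni u2) :=
  Bern.good_leaf (by decide +kernel)

theorem u2_2 : Bern.Good 1 [(0, 5, false), (0, 5, true)] (uni u2) :=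
  Bern.good_leaf (by decide +kernel)

theorem u2_3 : Bern.Good 1 [(0, 5, false)] (uni u2) :=
  Bern.good_node 0 5 (by norm_num) (by decide +kernel) u2_1 u2_2

theorem u2_4 : Bern.Good 1 [(0, 5, true)] (uni u2) :=
  Bern.good_leaf (by decide +kernel)

theorem u2_5 : Bern.Good 1 [] (uni u2) :=
  Bern.good_node 0 5 (by norm_num) (by decide +kernel) u2_3 u2_4

theorem u2_good : Bern.Good 1 [] (uni u2) := u2_5

/-- A polynomial in one variable. -/
def u3 : List ℤ := [113744, 53790768, -109756296, 21855420, 46353465, 0]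

theorem u3_1 : Bern.Good 1 [(0, 5, false)] (uni u3) :=
  Bern.good_leaf (by decide +kernel)

theorem u3_2 : Bern.Good 1 [(0, 5, true)] (uni u3) :=
  Bern.good_leaf (by decide +kernel)

theorem u3_3 : Bern.Good 1 [] (uni u3) :=
  Bern.good_node 0 5 (by norm_num) (by decide +kernel) u3_1 u3_2

theorem u3_good : Bern.Good 1 [] (uni u3) := u3_3

/-- A polynomial in one variable. -/
def u4 : List ℤ := [78406088, -193936476, 74605374, 228400803, 73854990, 0]

theorem u4_1 : Bern.Good 1 [] (uni u4) :=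
  Bern.good_leaf (by decide +kernel)

theorem u4_good : Bern.Good 1 [] (uni u4) := u4_1

/-- A polynomial in one variable. -/
def u5 : List ℤ := [512536, 116037868, 8169498, -69054039, -24618330, 0]

theorem u5_1 : Bern.Good 1 [] (uni u5) :=
  Bern.good_leaf (by decide +kernel)

theorem u5_good : Bern.Good 1 [] (uni u5) := u5_1

/-- A polynomial in one variable. -/
def u6 : List ℤ := [1951353424, -3753216064, 50973624, 6526705896, 4616655669, 944193510, 0]

theorem u6_1 : Bern.Good 1 [] (uni u6) :=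
  Bern.good_leaf (by decide +kernel)

theorem u6_good : Bern.Good 1 [] (uni u6) := u6_1

/-- A polynomial in one variable. -/
def u7 : List ℤ := [114787312, 26608113408, 14647384872, -13237129512, -12830558193, -2832580530, 0]

theorem u7_1 : Bern.Good 1 [] (uni u7) :=
  Bern.good_leaf (by decide +kernel)

theorem u7_good : Bern.Good 1 [] (uni u7) := u7_1

/-- A polynomial in one variable. -/
def u8 : List ℤ := [1111053559456, 1621637869680, 1177300118160, 475650075960, 101336810130, 8811232731, 0]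

theorem u8_1 : Bern.Good 1 [] (uni u8) :=
  Bern.good_leaf (by decide +kernel)

theorem u8_good : Bern.Good 1 [] (uni u8) := u8_1

/-- A polynomial in one variable. -/
def u9 : List ℤ := [2420618784, 224403417520, 389370108240, 281552212440, 96226782570, 12840657759, 0]

theorem u9_1 : Bern.Good 1 [] (uni u9) :=
  Bern.good_leaf (by decide +kernel)

theorem u9_good : Bern.Good 1 [] (uni u9) := u9_1

/-- A polynomial in one variable. -/
def u10 : List ℤ := [151, -1587, 4339, 16609, 9877, -6057, -7647, -2565, -288, 0, 0, 0]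

theorem u10_1 : Bern.Good 1 [(0, 11, false)] (uni u10) :=
  Bern.good_leaf (by decide +kernel)

theorem u10_2 : Bern.Good 1 [(0, 11, true)] (uni u10) :=
  Bern.good_leaf (by decide +kernel)

theorem u10_3 : Bern.Good 1 [] (uni u10) :=
  Bern.good_node 0 11 (by norm_num) (by decide +kernel) u10_1 u10_2

theorem u10_good : Bern.Good 1 [] (uni u10) := u10_3

/-- A polynomial in one variable. -/
def u11 : List ℤ := [2517, -46440, 241200, 156640, -189590, -168840, 22280, 56720, 18585, 1920, 0, 0, 0, 0]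

theorem u11_1 : Bern.Good 1 [(0, 13, false), (0, 13, false)] (uni u11) :=
  Bern.good_leaf (by decide +kernel)

theorem u11_2 : Bern.Good 1 [(0, 13, false), (0, 13, true)] (uni u11) :=
  Bern.good_leaf (by decide +kernel)

theorem u11_3 : Bern.Good 1 [(0, 13, false)] (uni u11) :=
  Bern.good_node 0 13 (by norm_num) (by decide +kernel) u11_1 u11_2

theorem u11_4 : Bern.Good 1 [(0, 13, true)] (uni u11) :=
  Bern.good_leaf (by decide +kernel)

theorem u11_5 : Bern.Good 1 [] (uni u11) :=
  Bern.good_node 0 13 (by norm_num) (by decide +kernel) u11_3 u11_4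

theorem u11_good : Bern.Good 1 [] (uni u11) := u11_5

/-- A polynomial in one variable. -/
def u12 : List ℤ := [279, 70659, 165996, -131028, -168350, 69722, 88860, -772, -19073, -6021, -576, 0, 0, 0, 0, 0]

theorem u12_1 : Bern.Good 1 [] (uni u12) :=
  Bern.good_leaf (by decide +kernel)

theorem u12_good : Bern.Good 1 [] (uni u12) := u12_1

/-- A polynomial in one variable. -/
def u13 : List ℤ := [153, 96066, -2295, -142920, 43410, 87404, -18054, -30600, -1195, 4770, 1437, 128, 0, 0, 0, 0, 0, 0]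

theorem u13_1 : Bern.Good 1 [] (uni u13) :=
  Bern.good_leaf (by decide +kernel)

theorem u13_good : Bern.Good 1 [] (uni u13) := u13_1

/-- A polynomial in one variable. -/
def u14 : List ℤ := [3, 2916, -3402, -540, 3105, -504, -1324, 168, 345, 20, -42, -12, -1, 0, 0, 0, 0, 0, 0, 0]

theorem u14_1 : Bern.Good 1 [] (uni u14) :=
  Bern.good_leaf (by decide +kernel)

theorem u14_good : Bern.Good 1 [] (uni u14) := u14_1

set_option maxHeartbeats 1000000 in
lemma base2R_eq (s t S T : ℝ) :
    base2R.val (v4 s t S T) = scaleN (2000 : ℝ) (P154.base2 coefE.e4 1 coefE.e2 coefE.e1 coefE.e3 s t S T) := by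
  simp only [base2R, R8.val, R8.mk', ev_ofList, val4, scaleN, P154.base2, coefE, NForm.mk.injEq]
  push_cast
  and_intros <;> ring

set_option maxHeartbeats 1000000 in
lemma base3R_eq (s t S T : ℝ) :
    base3R.val (v4 s t S T) = scaleN (2000 : ℝ) (P154.base3 coefE.e4 coefE.e2 coefE.e1 coefE.e3 s t S T) := by
  simp only [base3R, R8.val, R8.mk', ev_ofList, val4, scaleN, P154.base3, coefE, NForm.mk.injEq]
  push_cast
  and_intros <;> ring

set_option maxHeartbeats 1000000 in
lemma base4R_eq (s t S T : ℝ) :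
    base4R.val (v4 s t S T) = scaleN (2000 : ℝ) (P154.base4 coefE.e4 coefE.e2 coefE.e1 coefE.e3 s t S T) := by
  simp only [base4R, R8.val, R8.mk', ev_ofList, val4, scaleN, P154.base4, coefE, NForm.mk.injEq]
  push_cast
  and_intros <;> ring

set_option maxHeartbeats 1000000 in
lemma base5R_eq (s t S T : ℝ) :
    base5R.val (v4 s t S T) = scaleN (2000 : ℝ) (P154.base5 coefE.e4 coefE.e2 coefE.e3 s t S T) := by
  simp only [base5R, R8.val, R8.mk', ev_ofList, val4, scaleN, P154.base5, coefE, NForm.mk.injEq]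
  push_cast
  and_intros <;> ring

set_option maxHeartbeats 1000000 in
lemma base6R_eq (s t S T : ℝ) :
    base6R.val (v4 s t S T) = scaleN (2000 : ℝ) (P154.base6 coefE.e4 coefE.e3 s t S T) := by
  simp only [base6R, R8.val, R8.mk', ev_ofList, val4, scaleN, P154.base6, coefE, NForm.mk.injEq]
  push_cast
  and_intros <;> ring

theorem avg_check :
    avgCheck base2R base3R base4R base5R base6R cs2 cs3 cs4 cs5 cs6 avgList = true := by decide +kernel

theorem target_check : targetCheck target poly = true := by decide +kernel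

lemma avg_eq (s t S T : ℝ) : (2000 : ℝ) * 1000 * data.avgPart s t S T = val4 s t S T avgList :=
  avgPart_eq (by norm_num) s t S T (base2R_eq s t S T) (base3R_eq s t S T) (base4R_eq s t S T)
    (base5R_eq s t S T) (base6R_eq s t S T) rfl rfl rfl rfl rfl avg_check

set_option maxHeartbeats 2000000 in
set_option maxRecDepth 20000 in
lemma target_eq (p q p' q' h : ℝ) : ((335544320000000000000000 : ℝ) / 9) * (((-3 : ℝ) / 20) ^ 2 * data.E.val (p' / 4) (q' / 8)
      - data.avgPart (p / 4) (q / 8) (((-3 : ℝ) / 20) ^ 2 * (p' / 4)) (((-3 : ℝ) / 20) ^ 3 * (q' / 8))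
      - 2 * (p / 4) * (((-3 : ℝ) / 20) ^ 2 * (p' / 4)) * data.err (|((-3 : ℝ) / 20)| * (h / 2))
      - ((1 : ℝ) / 2000) * ((-3 : ℝ) / 20) ^ 2 * (p / 4) * (p' / 4)) = valZ p q p' q' h target := by
  have ha := avg_eq (p / 4) (q / 8) (((-3 : ℝ) / 20) ^ 2 * (p' / 4)) (((-3 : ℝ) / 20) ^ 3 * (q' / 8))
  simp only [val4, avgList] at ha
  push_cast at ha
  rw [show |((-3 : ℝ) / 20)| = ((3 : ℝ) / 20) by norm_num]
  simp only [Data.err, data, coefE, Coef.val, valZ, valA, target] at ha ⊢
  push_cast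
  linear_combination ((-167772160000000000 : ℝ) / 9) * ha

lemma valid : data.Valid ((69 : ℝ) / 100000) ((1883 : ℝ) / 50000) ((43701 : ℝ) / 50000) ((233061 : ℝ) / 100000) ((1053169 : ℝ) / 50000)
    ((401 : ℝ) / 100) ((5937 : ℝ) / 1000) ((1089 : ℝ) / 100) ((10773 : ℝ) / 1000) ((549 : ℝ) / 125) ((-3 : ℝ) / 10) ((3 : ℝ) / 20) where
  pos w h _ := by linarith
  approx w h1 h2 := by
    have hw : 0 < 1 + w := by linarith
    obtain ⟨x, x0, x1, rfl⟩ := P154.interp h1 h2
    refine ⟨?_, ?_, ?_, ?_, ?_⟩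
    · simp only [data, cs2]
      rw [show (1 : ℝ) + (((-3 : ℝ) / 10) + (((3 : ℝ) / 20) - ((-3 : ℝ) / 10)) * x) = (1 + (((-3 : ℝ) / 10) + (((3 : ℝ) / 20) - ((-3 : ℝ) / 10)) * x)) ^ 1 from (pow_one _).symm]
      refine approx_of (k := 1) (G := (0 : ℝ) * (((-3 : ℝ) / 10) + (((3 : ℝ) / 20) - ((-3 : ℝ) / 10)) * x) ^ 0 + ((9 : ℝ) / 1000) * (((-3 : ℝ) / 10) + (((3 : ℝ) / 20) - ((-3 : ℝ) / 10)) * x) ^ 1 + ((1 : ℝ) / 40) * (((-3 : ℝ) / 10) + (((3 : ℝ) / 20) - ((-3 : ℝ) / 10)) * x) ^ 2 + ((-87 : ℝ) / 200) * (((-3 : ℝ) / 10) + (((3 : ℝ) / 20) - ((-3 : ℝ) / 10)) * x) ^ 3 + ((-1451 : ℝ) / 1000) * (((-3 : ℝ) / 10) + (((3 : ℝ) / 20) - ((-3 : ℝ) / 10)) * x) ^ 4) hw ?_ ?_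
      · simp only [pR, List.map_cons, List.map_nil, polyVal]
        push_cast
        ring
      · have a := val1_nonneg u0_good x0 x1
        have b := val1_nonneg u1_good x0 x1
        simp only [val1, u0, u1] at a b
        push_cast at a b
        rw [abs_le]
        constructor
        · linarith
        · linarith
    · simp only [data, cs3]
      refine approx_of (k := 2) (G := ((-1 : ℝ) / 50) * (((-3 : ℝ) / 10) + (((3 : ℝ) / 20) - ((-3 : ℝ) / 10)) * x) ^ 0 + ((-193 : ℝ) / 1000) * (((-3 : ℝ) / 10) + (((3 : ℝ) / 20) - ((-3 : ℝ) / 10)) * x) ^ 1 + ((1739 : ℝ) / 1000) * (((-3 : ℝ) / 10) + (((3 : ℝ) / 20) - ((-3 : ℝ) / 10)) * x) ^ 2 + ((9977 : ℝ) / 1000) * (((-3 : ℝ) / 10) + (((3 : ℝ) / 20) - ((-3 : ℝ) / 10)) * x) ^ 3 + ((1413 : ℝ) / 200) * (((-3 : ℝ) / 10) + (((3 : ℝ) / 20) - ((-3 : ℝ) / 10)) * x) ^ 4) hw ?_ ?_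
      · simp only [pR, List.map_cons, List.map_nil, polyVal]
        push_cast
        ring
      · have a := val1_nonneg u2_good x0 x1
        have b := val1_nonneg u3_good x0 x1
        simp only [val1, u2, u3] at a b
        push_cast at a b
        rw [abs_le]
        constructor
        · linarith
        · linarith
    · simp only [data, cs4]
      refine approx_of (k := 3) (G := ((39 : ℝ) / 100) * (((-3 : ℝ) / 10) + (((3 : ℝ) / 20) - ((-3 : ℝ) / 10)) * x) ^ 0 + ((-1169 : ℝ) / 500) * (((-3 : ℝ) / 10) + (((3 : ℝ) / 20) - ((-3 : ℝ) / 10)) * x) ^ 1 + ((-12177 : ℝ) / 500) * (((-3 : ℝ) / 10) + (((3 : ℝ) / 20) - ((-3 : ℝ) / 10)) * x) ^ 2 + ((-17067 : ℝ) / 500) * (((-3 : ℝ) / 10) + (((3 : ℝ) / 20) - ((-3 : ℝ) / 10)) * x) ^ 3 + ((-3377 : ℝ) / 250) * (((-3 : ℝ) / 10) + (((3 : ℝ) / 20) - ((-3 : ℝ) / 10)) * x) ^ 4) hw ?_ ?_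
      · simp only [pR, List.map_cons, List.map_nil, polyVal]
        push_cast
        ring
      · have a := val1_nonneg u4_good x0 x1
        have b := val1_nonneg u5_good x0 x1
        simp only [val1, u4, u5] at a b
        push_cast at a b
        rw [abs_le]
        constructor
        · linarith
        · linarith
    · simp only [data, cs5]
      refine approx_of (k := 4) (G := ((957 : ℝ) / 1000) * (((-3 : ℝ) / 10) + (((3 : ℝ) / 20) - ((-3 : ℝ) / 10)) * x) ^ 0 + ((-2477 : ℝ) / 500) * (((-3 : ℝ) / 10) + (((3 : ℝ) / 20) - ((-3 : ℝ) / 10)) * x) ^ 1 + ((-32193 : ℝ) / 500) * (((-3 : ℝ) / 10) + (((3 : ℝ) / 20) - ((-3 : ℝ) / 10)) * x) ^ 2 + ((-16608 : ℝ) / 125) * (((-3 : ℝ) / 10) + (((3 : ℝ) / 20) - ((-3 : ℝ) / 10)) * x) ^ 3 + ((-104171 : ℝ) / 1000) * (((-3 : ℝ) / 10) + (((3 : ℝ) / 20) - ((-3 : ℝ) / 10)) * x) ^ 4 + ((-14391 : ℝ) / 500) * (((-3 : ℝ) / 10) + (((3 : ℝ) / 20) - ((-3 : ℝ) / 10)) * x) ^ 5) hw ?_ ?_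
      · simp only [pR, List.map_cons, List.map_nil, polyVal]
        push_cast
        ring
      · have a := val1_nonneg u6_good x0 x1
        have b := val1_nonneg u7_good x0 x1
        simp only [val1, u6, u7] at a b
        push_cast at a b
        rw [abs_le]
        constructor
        · linarith
        · linarith
    · simp only [data, cs6]
      refine approx_of (k := 5) (G := ((3079 : ℝ) / 1000) * (((-3 : ℝ) / 10) + (((3 : ℝ) / 20) - ((-3 : ℝ) / 10)) * x) ^ 0 + ((10079 : ℝ) / 200) * (((-3 : ℝ) / 10) + (((3 : ℝ) / 20) - ((-3 : ℝ) / 10)) * x) ^ 1 + ((13579 : ℝ) / 100) * (((-3 : ℝ) / 10) + (((3 : ℝ) / 20) - ((-3 : ℝ) / 10)) * x) ^ 2 + ((15679 : ℝ) / 100) * (((-3 : ℝ) / 10) + (((3 : ℝ) / 20) - ((-3 : ℝ) / 10)) * x) ^ 3 + ((17079 : ℝ) / 200) * (((-3 : ℝ) / 10) + (((3 : ℝ) / 20) - ((-3 : ℝ) / 10)) * x) ^ 4 + ((18079 : ℝ) / 1000) * (((-3 : ℝ) / 10) + (((3 : ℝ) / 20) - ((-3 : ℝ) / 10)) * x) ^ 5) hw ?_ ?_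
      · simp only [pR, List.map_cons, List.map_nil, polyVal]
        push_cast
        ring
      · have a := val1_nonneg u8_good x0 x1
        have b := val1_nonneg u9_good x0 x1
        simp only [val1, u8, u9] at a b
        push_cast at a b
        rw [abs_le]
        constructor
        · linarith
        · linarith
  major Rr g r0 r1 g0 g1 g2 := by
    have a1 : |data.E.e1| = ((1 : ℝ) / 20) := by norm_num [data, coefE]
    have a2 : |data.E.e2| = ((261 : ℝ) / 1000) := by norm_num [data, coefE]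
    have a3 : |data.E.e3| = (0 : ℝ) := by norm_num [data, coefE]
    have a4 : |data.E.e4| = ((48 : ℝ) / 125) := by norm_num [data, coefE]
    simp only [a1, a2, a3, a4, Coef.b2, Coef.b3, Coef.b4, Coef.b5, Coef.b6]
    refine ⟨?_, ?_, ?_, ?_, ?_⟩
    · rcases le_total Rr (1 / 2) with hR | hR
      · have hb : (1 + ((1 : ℝ) / 20) * (6 * Rr ^ 2) + ((261 : ℝ) / 1000) * (10 * Rr ^ 3) + ((0 : ℝ) + ((48 : ℝ) / 125)) * (15 * Rr ^ 4)) ≤ ((1409 : ℝ) / 800) := by
          have h2 := pow_le_pow_left₀ r0 hR 2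
          have h3 := pow_le_pow_left₀ r0 hR 3
          have h4 := pow_le_pow_left₀ r0 hR 4
          linarith
        have hg := pow_le_pow_left₀ g0 (show g ≤ (3 : ℝ) / 2 by linarith) 2
        exact le_trans (mul_le_mul hb hg (pow_nonneg g0 _) (by norm_num)) (by norm_num)
      · have a := val1_nonneg u10_good (x := 2 * Rr - 1) (by linarith) (by linarith)
        simp only [val1, u10] at a
        push_cast at a
        refine le_trans (mul_le_mul_of_nonneg_left (pow_le_pow_left₀ g0 g2 2) (by positivity)) ?_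
        linarith
    · rcases le_total Rr (1 / 2) with hR | hR
      · have hb : (((1 : ℝ) / 20) * (4 * Rr) + ((261 : ℝ) / 1000) * (10 * Rr ^ 2) + ((0 : ℝ) + ((48 : ℝ) / 125)) * (20 * Rr ^ 3)) ≤ ((137 : ℝ) / 80) := by
          have h2 := pow_le_pow_left₀ r0 hR 2
          have h3 := pow_le_pow_left₀ r0 hR 3
          have h4 := pow_le_pow_left₀ r0 hR 4
          linarith
        have hg := pow_le_pow_left₀ g0 (show g ≤ (3 : ℝ) / 2 by linarith) 3
        exact le_trans (mul_le_mul hb hg (pow_nonneg g0 _) (by norm_num)) (by norm_num)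
      · have a := val1_nonneg u11_good (x := 2 * Rr - 1) (by linarith) (by linarith)
        simp only [val1, u11] at a
        push_cast at a
        refine le_trans (mul_le_mul_of_nonneg_left (pow_le_pow_left₀ g0 g2 3) (by positivity)) ?_
        linarith
    · rcases le_total Rr (1 / 2) with hR | hR
      · have hb : (((1 : ℝ) / 20) + ((261 : ℝ) / 1000) * (5 * Rr) + ((0 : ℝ) + ((48 : ℝ) / 125)) * (15 * Rr ^ 2)) ≤ ((857 : ℝ) / 400) := by
          have h2 := pow_le_pow_left₀ r0 hR 2
          have h3 := pow_le_pow_left₀ r0 hR 3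
          have h4 := pow_le_pow_left₀ r0 hR 4
          linarith
        have hg := pow_le_pow_left₀ g0 (show g ≤ (3 : ℝ) / 2 by linarith) 4
        exact le_trans (mul_le_mul hb hg (pow_nonneg g0 _) (by norm_num)) (by norm_num)
      · have a := val1_nonneg u12_good (x := 2 * Rr - 1) (by linarith) (by linarith)
        simp only [val1, u12] at a
        push_cast at a
        refine le_trans (mul_le_mul_of_nonneg_left (pow_le_pow_left₀ g0 g2 4) (by positivity)) ?_
        linarith
    · rcases le_total Rr (1 / 2) with hR | hR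
      · have hb : (((261 : ℝ) / 1000) + ((0 : ℝ) + ((48 : ℝ) / 125)) * (6 * Rr)) ≤ ((1413 : ℝ) / 1000) := by
          have h2 := pow_le_pow_left₀ r0 hR 2
          have h3 := pow_le_pow_left₀ r0 hR 3
          have h4 := pow_le_pow_left₀ r0 hR 4
          linarith
        have hg := pow_le_pow_left₀ g0 (show g ≤ (3 : ℝ) / 2 by linarith) 5
        exact le_trans (mul_le_mul hb hg (pow_nonneg g0 _) (by norm_num)) (by norm_num)
      · have a := val1_nonneg u13_good (x := 2 * Rr - 1) (by linarith) (by linarith)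
        simp only [val1, u13] at a
        push_cast at a
        refine le_trans (mul_le_mul_of_nonneg_left (pow_le_pow_left₀ g0 g2 5) (by positivity)) ?_
        linarith
    · rcases le_total Rr (1 / 2) with hR | hR
      · have hb : ((0 : ℝ) + ((48 : ℝ) / 125)) ≤ ((48 : ℝ) / 125) := by
          have h2 := pow_le_pow_left₀ r0 hR 2
          have h3 := pow_le_pow_left₀ r0 hR 3
          have h4 := pow_le_pow_left₀ r0 hR 4
          linarith
        have hg := pow_le_pow_left₀ g0 (show g ≤ (3 : ℝ) / 2 by linarith) 6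
        exact le_trans (mul_le_mul hb hg (pow_nonneg g0 _) (by norm_num)) (by norm_num)
      · have a := val1_nonneg u14_good (x := 2 * Rr - 1) (by linarith) (by linarith)
        simp only [val1, u14] at a
        push_cast at a
        refine le_trans (mul_le_mul_of_nonneg_left (pow_le_pow_left₀ g0 g2 6) (by positivity)) ?_
        linarith
  e2 := by norm_num [data]
  e3 := by norm_num [data]
  e4 := by norm_num [data]
  e5 := by norm_num [data]
  e6 := by norm_num [data]

/-- The potential at the end point. -/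
theorem pot : Pot ((-3 : ℝ) / 20) 1 2 ((1 : ℝ) / 2000) coefE.phi := by
  refine pot_of_cert valid (fun x h1 h2 => ⟨by linarith, by linarith⟩)
    (fun s t h => (val_bounds coefE ?_ ?_ ?_ ?_ h).1) (fun s t h => (val_bounds coefE ?_ ?_ ?_ ?_ h).2)
    (final_of_cert target_check good (K := ((335544320000000000000000 : ℝ) / 9)) ?_ ?_ ?_ ?_ ?_ ?_ target_eq)
  all_goals norm_num [coefE, data]

/-- The potential at every parameter between the end point and zero. -/
theorem pot_range {m : ℝ} (m0 : 0 ≤ m) (m1 : m ≤ 1) : Pot (((-3 : ℝ) / 20) * m) 1 2 ((1 : ℝ) / 2000) coefE.phi :=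
  pot_scale pot (by norm_num [coefE]) (by norm_num [coefE]) (by norm_num [coefE])
    (by norm_num [coefE]) m0 m1

end Vale.Agent.P154.Uni.Neg
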