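import Vale.Agent.P154.UniPosCoef
import Vale.Agent.P154.UniPack

/-!
Generated subdivision certificate.
-/

namespace Vale.Agent.P154.Uni.Pos

open Bern

theorem good1 : Pack.Ok 4 [(4, 0), (0, 0), (2, 0), (1, 0)] poly :=
  Pack.ok_leaf (ds := [17, 15, 9, 11]) (W := 249) (by decide +kernel)

theorem good2 : Pack.Ok 4 [(4, 0), (0, 0), (2, 1), (1, 0)] poly :=
  Pack.ok_leaf (ds := [17, 15, 9, 11]) (W := 252) (by decide +kernel)

theorem good3 : Pack.Ok 4 [(4, 0), (0, 0), (1, 0), (1, 0)] poly :=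
  Pack.ok_node 2 1 0 rfl good1 good2

theorem good4 : Pack.Ok 4 [(4, 1), (0, 0), (1, 0), (1, 0)] poly :=
  Pack.ok_leaf (ds := [17, 15, 9, 11]) (W := 244) (by decide +kernel)

theorem good5 : Pack.Ok 4 [(3, 0), (0, 0), (1, 0), (1, 0)] poly :=
  Pack.ok_node 0 3 0 rfl good3 good4

theorem good6 : Pack.Ok 4 [(3, 1), (0, 0), (1, 0), (1, 0)] poly :=
  Pack.ok_leaf (ds := [17, 15, 9, 11]) (W := 230) (by decide +kernel)

theorem good7 : Pack.Ok 4 [(2, 0), (0, 0), (1, 0), (1, 0)] poly :=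
  Pack.ok_node 0 2 0 rfl good5 good6

theorem good8 : Pack.Ok 4 [(2, 0), (0, 0), (1, 1), (1, 0)] poly :=
  Pack.ok_leaf (ds := [17, 15, 9, 11]) (W := 216) (by decide +kernel)

theorem good9 : Pack.Ok 4 [(2, 0), (0, 0), (0, 0), (1, 0)] poly :=
  Pack.ok_node 2 0 0 rfl good7 good8

theorem good10 : Pack.Ok 4 [(2, 1), (0, 0), (0, 0), (1, 0)] poly :=
  Pack.ok_leaf (ds := [17, 15, 9, 11]) (W := 210) (by decide +kernel)

theorem good11 : Pack.Ok 4 [(1, 0), (0, 0), (0, 0), (1, 0)] poly :=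
  Pack.ok_node 0 1 0 rfl good9 good10

theorem good12 : Pack.Ok 4 [(1, 0), (0, 0), (0, 0), (1, 1)] poly :=
  Pack.ok_leaf (ds := [17, 15, 9, 11]) (W := 194) (by decide +kernel)

theorem good13 : Pack.Ok 4 [(1, 0), (0, 0), (0, 0), (0, 0)] poly :=
  Pack.ok_node 3 0 0 rfl good11 good12

theorem good14 : Pack.Ok 4 [(1, 1), (1, 0), (0, 0), (0, 0)] poly :=
  Pack.ok_leaf (ds := [17, 15, 9, 11]) (W := 204) (by decide +kernel)

theorem good15 : Pack.Ok 4 [(1, 1), (1, 1), (0, 0), (1, 0)] poly :=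
  Pack.ok_leaf (ds := [17, 15, 9, 11]) (W := 216) (by decide +kernel)

theorem good16 : Pack.Ok 4 [(1, 1), (2, 2), (0, 0), (1, 1)] poly :=
  Pack.ok_leaf (ds := [17, 15, 9, 11]) (W := 232) (by decide +kernel)

theorem good17 : Pack.Ok 4 [(1, 1), (2, 3), (0, 0), (2, 2)] poly :=
  Pack.ok_leaf (ds := [17, 15, 9, 11]) (W := 243) (by decide +kernel)

theorem good18 : Pack.Ok 4 [(2, 2), (2, 3), (1, 0), (2, 3)] poly :=
  Pack.ok_leaf (ds := [17, 15, 9, 11]) (W := 263) (by decide +kernel)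

theorem good19 : Pack.Ok 4 [(2, 2), (3, 6), (1, 1), (2, 3)] poly :=
  Pack.ok_leaf (ds := [17, 15, 9, 11]) (W := 282) (by decide +kernel)

theorem good20 : Pack.Ok 4 [(2, 2), (3, 7), (2, 2), (2, 3)] poly :=
  Pack.ok_leaf (ds := [17, 15, 9, 11]) (W := 290) (by decide +kernel)

theorem good21 : Pack.Ok 4 [(2, 2), (3, 7), (2, 3), (2, 3)] poly :=
  Pack.ok_leaf (ds := [17, 15, 9, 11]) (W := 292) (by decide +kernel)

theorem good22 : Pack.Ok 4 [(2, 2), (3, 7), (1, 1), (2, 3)] poly :=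
  Pack.ok_node 2 1 1 rfl good20 good21

theorem good23 : Pack.Ok 4 [(2, 2), (2, 3), (1, 1), (2, 3)] poly :=
  Pack.ok_node 1 2 3 rfl good19 good22

theorem good24 : Pack.Ok 4 [(2, 2), (2, 3), (0, 0), (2, 3)] poly :=
  Pack.ok_node 2 0 0 rfl good18 good23

theorem good25 : Pack.Ok 4 [(2, 3), (2, 3), (1, 0), (2, 3)] poly :=
  Pack.ok_leaf (ds := [17, 15, 9, 11]) (W := 267) (by decide +kernel)

theorem good26 : Pack.Ok 4 [(2, 3), (2, 3), (1, 1), (2, 3)] poly :=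
  Pack.ok_leaf (ds := [17, 15, 9, 11]) (W := 274) (by decide +kernel)

theorem good27 : Pack.Ok 4 [(2, 3), (2, 3), (0, 0), (2, 3)] poly :=
  Pack.ok_node 2 0 0 rfl good25 good26

theorem good28 : Pack.Ok 4 [(1, 1), (2, 3), (0, 0), (2, 3)] poly :=
  Pack.ok_node 0 1 1 rfl good24 good27

theorem good29 : Pack.Ok 4 [(1, 1), (2, 3), (0, 0), (1, 1)] poly :=
  Pack.ok_node 3 1 1 rfl good17 good28

theorem good30 : Pack.Ok 4 [(1, 1), (1, 1), (0, 0), (1, 1)] poly :=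
  Pack.ok_node 1 1 1 rfl good16 good29

theorem good31 : Pack.Ok 4 [(1, 1), (1, 1), (0, 0), (0, 0)] poly :=
  Pack.ok_node 3 0 0 rfl good15 good30

theorem good32 : Pack.Ok 4 [(1, 1), (0, 0), (0, 0), (0, 0)] poly :=
  Pack.ok_node 1 0 0 rfl good14 good31

theorem good33 : Pack.Ok 4 [(0, 0), (0, 0), (0, 0), (0, 0)] poly :=
  Pack.ok_node 0 0 0 rfl good13 good32

theorem good : Bern.Good 4 [] poly := Pack.good_of_ok (n := 4) good33

end Vale.Agent.P154.Uni.Pos
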