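import Vale.Agent.P154.UniPosData
import Vale.Agent.P154.UniPosTree

/-!
The potential certified at the edge parameter 177/500.
-/

namespace Vale.Agent.P154.Uni.Pos

open Bern

/-- A polynomial in one variable. -/
def u0 : List ℤ := [15728685318461, -286557696397665, 2403830405266740, -6735125437286220, 7700166744736455, -3081736240010523, 0]

theorem u0_1 : Bern.Good 1 [(0, 6, false), (0, 6, false)] (uni u0) :=
  Bern.good_leaf (by decide +kernel)

theorem u0_2 : Bern.Good 1 [(0, 6, false), (0, 6, true)] (uni u0) :=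
  Bern.good_leaf (by decide +kernel)

theorem u0_3 : Bern.Good 1 [(0, 6, false)] (uni u0) :=
  Bern.good_node 0 6 (by norm_num) (by decide +kernel) u0_1 u0_2

theorem u0_4 : Bern.Good 1 [(0, 6, true)] (uni u0) :=
  Bern.good_leaf (by decide +kernel)

theorem u0_5 : Bern.Good 1 [] (uni u0) :=
  Bern.good_node 0 6 (by norm_num) (by decide +kernel) u0_3 u0_4

theorem u0_good : Bern.Good 1 [] (uni u0) := u0_5

/-- A polynomial in one variable. -/
def u1 : List ℤ := [5430121721, 5304097608435, -40742888224860, 114154668428580, -130511300758245, 52232817627297, 0]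

theorem u1_1 : Bern.Good 1 [(0, 6, false)] (uni u1) :=
  Bern.good_leaf (by decide +kernel)

theorem u1_2 : Bern.Good 1 [(0, 6, true), (0, 6, false)] (uni u1) :=
  Bern.good_leaf (by decide +kernel)

theorem u1_3 : Bern.Good 1 [(0, 6, true), (0, 6, true)] (uni u1) :=
  Bern.good_leaf (by decide +kernel)

theorem u1_4 : Bern.Good 1 [(0, 6, true)] (uni u1) :=
  Bern.good_node 0 6 (by norm_num) (by decide +kernel) u1_2 u1_3

theorem u1_5 : Bern.Good 1 [] (uni u1) :=
  Bern.good_node 0 6 (by norm_num) (by decide +kernel) u1_1 u1_4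

theorem u1_good : Bern.Good 1 [] (uni u1) := u1_5

/-- A polynomial in one variable. -/
def u2 : List ℤ := [5890832637207431, -129717987859023458, 964200717289448685, -1678445479828285740, -626336365821352335, 3443936405887437102, -1965176763133285701, 0]

theorem u2_1 : Bern.Good 1 [(0, 7, false), (0, 7, false), (0, 7, false)] (uni u2) :=
  Bern.good_leaf (by decide +kernel)

theorem u2_2 : Bern.Good 1 [(0, 7, false), (0, 7, false), (0, 7, true)] (uni u2) :=
  Bern.good_leaf (by decide +kernel)

theorem u2_3 : Bern.Good 1 [(0, 7, false), (0, 7, false)] (uni u2) :=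
  Bern.good_node 0 7 (by norm_num) (by decide +kernel) u2_1 u2_2

theorem u2_4 : Bern.Good 1 [(0, 7, false), (0, 7, true)] (uni u2) :=
  Bern.good_leaf (by decide +kernel)

theorem u2_5 : Bern.Good 1 [(0, 7, false)] (uni u2) :=
  Bern.good_node 0 7 (by norm_num) (by decide +kernel) u2_3 u2_4

theorem u2_6 : Bern.Good 1 [(0, 7, true)] (uni u2) :=
  Bern.good_leaf (by decide +kernel)

theorem u2_7 : Bern.Good 1 [] (uni u2) :=
  Bern.good_node 0 7 (by norm_num) (by decide +kernel) u2_5 u2_6

theorem u2_good : Bern.Good 1 [] (uni u2) := u2_7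

/-- A polynomial in one variable. -/
def u3 : List ℤ := [350336838377707, 448411705077070374, -2843893389118346055, 5035336439484857220, 1879009097464057005, -10331809217662311306, 5895530289399857103, 0]

theorem u3_1 : Bern.Good 1 [(0, 7, false)] (uni u3) :=
  Bern.good_leaf (by decide +kernel)

theorem u3_2 : Bern.Good 1 [(0, 7, true)] (uni u3) :=
  Bern.good_leaf (by decide +kernel)

theorem u3_3 : Bern.Good 1 [] (uni u3) :=
  Bern.good_node 0 7 (by norm_num) (by decide +kernel) u3_1 u3_2

theorem u3_good : Bern.Good 1 [] (uni u3) := u3_3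

/-- A polynomial in one variable. -/
def u4 : List ℤ := [2685880448542557137, -32039003420720745966, 116090996106820225995, 136764501390622321020, -333705148087873603545, -147431359326791643246, 289912141569613505373, 0]

theorem u4_1 : Bern.Good 1 [(0, 7, false), (0, 7, false)] (uni u4) :=
  Bern.good_leaf (by decide +kernel)

theorem u4_2 : Bern.Good 1 [(0, 7, false), (0, 7, true)] (uni u4) :=
  Bern.good_leaf (by decide +kernel)

theorem u4_3 : Bern.Good 1 [(0, 7, false)] (uni u4) :=
  Bern.good_node 0 7 (by norm_num) (by decide +kernel) u4_1 u4_2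

theorem u4_4 : Bern.Good 1 [(0, 7, true)] (uni u4) :=
  Bern.good_leaf (by decide +kernel)

theorem u4_5 : Bern.Good 1 [] (uni u4) :=
  Bern.good_node 0 7 (by norm_num) (by decide +kernel) u4_3 u4_4

theorem u4_good : Bern.Good 1 [] (uni u4) := u4_5

/-- A polynomial in one variable. -/
def u5 : List ℤ := [52693464879942863, 45545344733668245966, -93887072771912725995, -124597026374279821020, 333705148087873603545, 147431359326791643246, -289912141569613505373, 0]

theorem u5_1 : Bern.Good 1 [(0, 7, false)] (uni u5) :=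
  Bern.good_leaf (by decide +kernel)

theorem u5_2 : Bern.Good 1 [(0, 7, true)] (uni u5) :=
  Bern.good_leaf (by decide +kernel)

theorem u5_3 : Bern.Good 1 [] (uni u5) :=
  Bern.good_node 0 7 (by norm_num) (by decide +kernel) u5_1 u5_2

theorem u5_good : Bern.Good 1 [] (uni u5) := u5_3

/-- A polynomial in one variable. -/
def u6 : List ℤ := [47468352656903159189, -497379559138519607469, 1406604958588864097721, 4904589696376100108895, -2403055252043338369185, -10130318216038165208967, 1251033655075122232467, 6886270792063756283157, 0]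

theorem u6_1 : Bern.Good 1 [(0, 8, false), (0, 8, false)] (uni u6) :=
  Bern.good_leaf (by decide +kernel)

theorem u6_2 : Bern.Good 1 [(0, 8, false), (0, 8, true)] (uni u6) :=
  Bern.good_leaf (by decide +kernel)

theorem u6_3 : Bern.Good 1 [(0, 8, false)] (uni u6) :=
  Bern.good_node 0 8 (by norm_num) (by decide +kernel) u6_1 u6_2

theorem u6_4 : Bern.Good 1 [(0, 8, true)] (uni u6) :=
  Bern.good_leaf (by decide +kernel)

theorem u6_5 : Bern.Good 1 [] (uni u6) :=
  Bern.good_node 0 8 (by norm_num) (by decide +kernel) u6_3 u6_4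

theorem u6_good : Bern.Good 1 [] (uni u6) := u6_5

/-- A polynomial in one variable. -/
def u7 : List ℤ := [54926325469063607849, 48123126487156456840671, -36684850653820081765539, -238621832229735706424805, 162637611018991313781915, 597688774746251747329053, -73810985649432211715553, -406289976731761620706263, 0]

theorem u7_1 : Bern.Good 1 [(0, 8, false)] (uni u7) :=
  Bern.good_leaf (by decide +kernel)

theorem u7_2 : Bern.Good 1 [(0, 8, true)] (uni u7) :=
  Bern.good_leaf (by decide +kernel)

theorem u7_3 : Bern.Good 1 [] (uni u7) :=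
  Bern.good_node 0 8 (by norm_num) (by decide +kernel) u7_1 u7_2

theorem u7_good : Bern.Good 1 [] (uni u7) := u7_3

/-- A polynomial in one variable. -/
def u8 : List ℤ := [66415549792387279283, 160270590383877443301, 294563120402778384780, 799312425985546172730, 1601830162038847647195, 1584654568323584165361, 597667789262277528822, 0]

theorem u8_1 : Bern.Good 1 [] (uni u8) :=
  Bern.good_leaf (by decide +kernel)

theorem u8_good : Bern.Good 1 [] (uni u8) := u8_1

/-- A polynomial in one variable. -/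
def u9 : List ℤ := [434088690960214549, 132119092289261012583, 511862649258169259640, 736462645623124395390, 290421882352356346485, -257173014078979704117, -199222596420759176274, 0]

theorem u9_1 : Bern.Good 1 [] (uni u9) :=
  Bern.good_leaf (by decide +kernel)

theorem u9_good : Bern.Good 1 [] (uni u9) := u9_1

/-- A polynomial in one variable. -/
def u10 : List ℤ := [6839, -62496, 100932, 388032, 219978, -140576, -171836, -56960, -6345, 0, 0, 0]

theorem u10_1 : Bern.Good 1 [(0, 11, false), (0, 11, false)] (uni u10) :=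
  Bern.good_leaf (by decide +kernel)

theorem u10_2 : Bern.Good 1 [(0, 11, false), (0, 11, true)] (uni u10) :=
  Bern.good_leaf (by decide +kernel)

theorem u10_3 : Bern.Good 1 [(0, 11, false)] (uni u10) :=
  Bern.good_node 0 11 (by norm_num) (by decide +kernel) u10_1 u10_2

theorem u10_4 : Bern.Good 1 [(0, 11, true)] (uni u10) :=
  Bern.good_leaf (by decide +kernel)

theorem u10_5 : Bern.Good 1 [] (uni u10) :=
  Bern.good_node 0 11 (by norm_num) (by decide +kernel) u10_3 u10_4

theorem u10_good : Bern.Good 1 [] (uni u10) := u10_5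

/-- A polynomial in one variable. -/
def u11 : List ℤ := [2629, -50193, 275400, 172128, -216710, -187466, 26592, 63416, 20585, 2115, 0, 0, 0, 0]

theorem u11_1 : Bern.Good 1 [(0, 13, false), (0, 13, false)] (uni u11) :=
  Bern.good_leaf (by decide +kernel)

theorem u11_2 : Bern.Good 1 [(0, 13, false), (0, 13, true)] (uni u11) :=
  Bern.good_leaf (by decide +kernel)

theorem u11_3 : Bern.Good 1 [(0, 13, false)] (uni u11) :=
  Bern.good_node 0 13 (by norm_num) (by decide +kernel) u11_1 u11_2

theorem u11_4 : Bern.Good 1 [(0, 13, true)] (uni u11) :=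
  Bern.good_leaf (by decide +kernel)

theorem u11_5 : Bern.Good 1 [] (uni u11) :=
  Bern.good_node 0 13 (by norm_num) (by decide +kernel) u11_3 u11_4

theorem u11_good : Bern.Good 1 [] (uni u11) := u11_5

/-- A polynomial in one variable. -/
def u12 : List ℤ := [3147, 816426, 1848987, -1498920, -1862186, 795100, 984718, -13288, -212161, -66550, -6345, 0, 0, 0, 0, 0]

theorem u12_1 : Bern.Good 1 [] (uni u12) :=
  Bern.good_leaf (by decide +kernel)

theorem u12_good : Bern.Good 1 [] (uni u12) := u12_1

/-- A polynomial in one variable. -/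
def u13 : List ℤ := [1551, 970623, -37935, -1425015, 443190, 868598, -183262, -304270, -11285, 47515, 14269, 1269, 0, 0, 0, 0, 0, 0]

theorem u13_1 : Bern.Good 1 [] (uni u13) :=
  Bern.good_leaf (by decide +kernel)

theorem u13_good : Bern.Good 1 [] (uni u13) := u13_1

/-- A polynomial in one variable. -/
def u14 : List ℤ := [1265, 1233468, -1439046, -228420, 1313415, -213192, -560052, 71064, 145935, 8460, -17766, -5076, -423, 0, 0, 0, 0, 0, 0, 0]

theorem u14_1 : Bern.Good 1 [] (uni u14) :=
  Bern.good_leaf (by decide +kernel)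

theorem u14_good : Bern.Good 1 [] (uni u14) := u14_1

set_option maxHeartbeats 1000000 in
lemma base2R_eq (s t S T : ℝ) :
    base2R.val (v4 s t S T) = scaleN (4000 : ℝ) (P154.base2 coefE.e4 1 coefE.e2 coefE.e1 coefE.e3 s t S T) := by
  simp only [base2R, R8.val, R8.mk', ev_ofList, val4, scaleN, P154.base2, coefE, NForm.mk.injEq]
  push_cast
  and_intros <;> ring

set_option maxHeartbeats 1000000 in
lemma base3R_eq (s t S T : ℝ) :
    base3R.val (v4 s t S T) = scaleN (4000 : ℝ) (P154.base3 coefE.e4 coefE.e2 coefE.e1 coefE.e3 s t S T) := by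
  simp only [base3R, R8.val, R8.mk', ev_ofList, val4, scaleN, P154.base3, coefE, NForm.mk.injEq]
  push_cast
  and_intros <;> ring

set_option maxHeartbeats 1000000 in
lemma base4R_eq (s t S T : ℝ) :
    base4R.val (v4 s t S T) = scaleN (4000 : ℝ) (P154.base4 coefE.e4 coefE.e2 coefE.e1 coefE.e3 s t S T) := by
  simp only [base4R, R8.val, R8.mk', ev_ofList, val4, scaleN, P154.base4, coefE, NForm.mk.injEq]
  push_cast
  and_intros <;> ring

set_option maxHeartbeats 1000000 in
lemma base5R_eq (s t S T : ℝ) :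
    base5R.val (v4 s t S T) = scaleN (4000 : ℝ) (P154.base5 coefE.e4 coefE.e2 coefE.e3 s t S T) := by
  simp only [base5R, R8.val, R8.mk', ev_ofList, val4, scaleN, P154.base5, coefE, NForm.mk.injEq]
  push_cast
  and_intros <;> ring

set_option maxHeartbeats 1000000 in
lemma base6R_eq (s t S T : ℝ) :
    base6R.val (v4 s t S T) = scaleN (4000 : ℝ) (P154.base6 coefE.e4 coefE.e3 s t S T) := by
  simp only [base6R, R8.val, R8.mk', ev_ofList, val4, scaleN, P154.base6, coefE, NForm.mk.injEq]
  push_cast
  and_intros <;> ring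

theorem avg_check :
    avgCheck base2R base3R base4R base5R base6R cs2 cs3 cs4 cs5 cs6 avgList = true := by decide +kernel

theorem target_check : targetCheck target poly = true := by decide +kernel

lemma avg_eq (s t S T : ℝ) : (4000 : ℝ) * 1000 * data.avgPart s t S T = val4 s t S T avgList :=
  avgPart_eq (by norm_num) s t S T (base2R_eq s t S T) (base3R_eq s t S T) (base4R_eq s t S T)
    (base5R_eq s t S T) (base6R_eq s t S T) rfl rfl rfl rfl rfl avg_check

set_option maxHeartbeats 2000000 in
set_option maxRecDepth 20000 in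
lemma target_eq (p q p' q' h : ℝ) : ((16384000000000000000000000000000000000000 : ℝ) / 31329) * (((177 : ℝ) / 500) ^ 2 * data.E.val (p' / 4) (q' / 8)
      - data.avgPart (p / 4) (q / 8) (((177 : ℝ) / 500) ^ 2 * (p' / 4)) (((177 : ℝ) / 500) ^ 3 * (q' / 8))
      - 2 * (p / 4) * (((177 : ℝ) / 500) ^ 2 * (p' / 4)) * data.err (|((177 : ℝ) / 500)| * (h / 2))
      - ((1 : ℝ) / 2000) * ((177 : ℝ) / 500) ^ 2 * (p / 4) * (p' / 4)) = valZ p q p' q' h target := by
  have ha := avg_eq (p / 4) (q / 8) (((177 : ℝ) / 500) ^ 2 * (p' / 4)) (((177 : ℝ) / 500) ^ 3 * (q' / 8))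
  simp only [val4, avgList] at ha
  push_cast at ha
  rw [show |((177 : ℝ) / 500)| = ((177 : ℝ) / 500) by norm_num]
  simp only [Data.err, data, coefE, Coef.val, valZ, valA, target] at ha ⊢
  push_cast
  linear_combination ((-4096000000000000000000000000000000 : ℝ) / 31329) * ha

lemma valid : data.Valid ((159 : ℝ) / 50000) ((2073 : ℝ) / 100000) ((32507 : ℝ) / 100000) ((5247 : ℝ) / 5000) ((1926151 : ℝ) / 100000)
    ((4337 : ℝ) / 1000) ((6781 : ℝ) / 1000) ((12327 : ℝ) / 1000) ((12039 : ℝ) / 1000) ((2419 : ℝ) / 500) ((-177 : ℝ) / 500) ((177 : ℝ) / 250) where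
  pos w h _ := by linarith
  approx w h1 h2 := by
    have hw : 0 < 1 + w := by linarith
    obtain ⟨x, x0, x1, rfl⟩ := P154.interp h1 h2
    refine ⟨?_, ?_, ?_, ?_, ?_⟩
    · simp only [data, cs2]
      rw [show (1 : ℝ) + (((-177 : ℝ) / 500) + (((177 : ℝ) / 250) - ((-177 : ℝ) / 500)) * x) = (1 + (((-177 : ℝ) / 500) + (((177 : ℝ) / 250) - ((-177 : ℝ) / 500)) * x)) ^ 1 from (pow_one _).symm]
      refine approx_of (k := 1) (G := ((-1 : ℝ) / 500) * (((-177 : ℝ) / 500) + (((177 : ℝ) / 250) - ((-177 : ℝ) / 500)) * x) ^ 0 + ((-1 : ℝ) / 500) * (((-177 : ℝ) / 500) + (((177 : ℝ) / 250) - ((-177 : ℝ) / 500)) * x) ^ 1 + ((77 : ℝ) / 1000) * (((-177 : ℝ) / 500) + (((177 : ℝ) / 250) - ((-177 : ℝ) / 500)) * x) ^ 2 + ((-23 : ℝ) / 1000) * (((-177 : ℝ) / 500) + (((177 : ℝ) / 250) - ((-177 : ℝ) / 500)) * x) ^ 3 + ((-129 : ℝ) / 250) * (((-177 : ℝ) / 500) + (((177 : ℝ) / 250) - ((-177 : ℝ) / 500)) * x) ^ 4 + ((73 : ℝ) / 125) * (((-177 : ℝ) / 500) + (((177 : ℝ) / 250) - ((-177 : ℝ) / 500)) * x) ^ 5) hw ?_ ?_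
      · simp only [pR, List.map_cons, List.map_nil, polyVal]
        push_cast
        ring
      · have a := val1_nonneg u0_good x0 x1
        have b := val1_nonneg u1_good x0 x1
        simp only [val1, u0, u1] at a b
        push_cast at a b
        rw [abs_le]
        constructor
        · linarith
        · linarith
    · simp only [data, cs3]
      refine approx_of (k := 2) (G := ((-3 : ℝ) / 250) * (((-177 : ℝ) / 500) + (((177 : ℝ) / 250) - ((-177 : ℝ) / 500)) * x) ^ 0 + ((-13 : ℝ) / 500) * (((-177 : ℝ) / 500) + (((177 : ℝ) / 250) - ((-177 : ℝ) / 500)) * x) ^ 1 + ((583 : ℝ) / 1000) * (((-177 : ℝ) / 500) + (((177 : ℝ) / 250) - ((-177 : ℝ) / 500)) * x) ^ 2 + ((343 : ℝ) / 1000) * (((-177 : ℝ) / 500) + (((177 : ℝ) / 250) - ((-177 : ℝ) / 500)) * x) ^ 3 + ((-2081 : ℝ) / 500) * (((-177 : ℝ) / 500) + (((177 : ℝ) / 250) - ((-177 : ℝ) / 500)) * x) ^ 4 + ((1037 : ℝ) / 1000) * (((-177 : ℝ) / 500) + (((177 : ℝ) / 250) - ((-177 : ℝ) / 500)) * x) ^ 5 + ((789 : ℝ) / 200) * (((-177 : ℝ) / 500) + (((177 : ℝ) /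 250) - ((-177 : ℝ) / 500)) * x) ^ 6) hw ?_ ?_
      · simp only [pR, List.map_cons, List.map_nil, polyVal]
        push_cast
        ring
      · have a := val1_nonneg u2_good x0 x1
        have b := val1_nonneg u3_good x0 x1
        simp only [val1, u2, u3] at a b
        push_cast at a b
        rw [abs_le]
        constructor
        · linarith
        · linarith
    · simp only [data, cs4]
      refine approx_of (k := 3) (G := ((-9 : ℝ) / 250) * (((-177 : ℝ) / 500) + (((177 : ℝ) / 250) - ((-177 : ℝ) / 500)) * x) ^ 0 + ((-1409 : ℝ) / 1000) * (((-177 : ℝ) / 500) + (((177 : ℝ) / 250) - ((-177 : ℝ) / 500)) * x) ^ 1 + ((-697 : ℝ) / 1000) * (((-177 : ℝ) / 500) + (((177 : ℝ) / 250) - ((-177 : ℝ) / 500)) * x) ^ 2 + ((1407 : ℝ) / 100) * (((-177 : ℝ) / 500) + (((177 : ℝ) / 250) - ((-177 : ℝ) / 500)) * x) ^ 3 + ((2421 : ℝ) / 500) * (((-177 : ℝ) / 500) + (((177 : ℝ) / 250) - ((-177 : ℝ) / 500)) * x) ^ 4 + ((-4097 : ℝ) / 200) * (((-177 : ℝ) / 500) + (((177 : ℝ) / 250) - ((-177 : ℝ) / 500)) * x) ^ 5 + ((-12933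 : ℝ) / 1000) * (((-177 : ℝ) / 500) + (((177 : ℝ) / 250) - ((-177 : ℝ) / 500)) * x) ^ 6) hw ?_ ?_
      · simp only [pR, List.map_cons, List.map_nil, polyVal]
        push_cast
        ring
      · have a := val1_nonneg u4_good x0 x1
        have b := val1_nonneg u5_good x0 x1
        simp only [val1, u4, u5] at a b
        push_cast at a b
        rw [abs_le]
        constructor
        · linarith
        · linarith
    · simp only [data, cs5]
      refine approx_of (k := 4) (G := ((-107 : ℝ) / 1000) * (((-177 : ℝ) / 500) + (((177 : ℝ) / 250) - ((-177 : ℝ) / 500)) * x) ^ 0 + ((-4271 : ℝ) / 1000) * (((-177 : ℝ) / 500) + (((177 : ℝ) / 250) - ((-177 : ℝ) / 500)) * x) ^ 1 + ((-5649 : ℝ) / 1000) * (((-177 : ℝ) / 500) + (((177 : ℝ) / 250) - ((-177 : ℝ) / 500)) * x) ^ 2 + ((39841 : ℝ) / 1000) * (((-177 : ℝ) / 500) + (((177 : ℝ) / 250) - ((-177 : ℝ) / 500)) * x) ^ 3 + ((50179 : ℝ) / 1000) * (((-177 : ℝ) / 500) + (((177 : ℝ) / 250) - ((-177 : ℝ) / 500)) * x) ^ 4 + ((-47181 : ℝ) / 1000) * (((-177 : ℝ) / 500)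 + (((177 : ℝ) / 250) - ((-177 : ℝ) / 500)) * x) ^ 5 + ((-91167 : ℝ) / 1000) * (((-177 : ℝ) / 500) + (((177 : ℝ) / 250) - ((-177 : ℝ) / 500)) * x) ^ 6 + ((-34133 : ℝ) / 1000) * (((-177 : ℝ) / 500) + (((177 : ℝ) / 250) - ((-177 : ℝ) / 500)) * x) ^ 7) hw ?_ ?_
      · simp only [pR, List.map_cons, List.map_nil, polyVal]
        push_cast
        ring
      · have a := val1_nonneg u6_good x0 x1
        have b := val1_nonneg u7_good x0 x1
        simp only [val1, u6, u7] at a b
        push_cast at a b
        rw [abs_le]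
        constructor
        · linarith
        · linarith
    · simp only [data, cs6]
      refine approx_of (k := 5) (G := ((5867 : ℝ) / 1000) * (((-177 : ℝ) / 500) + (((177 : ℝ) / 250) - ((-177 : ℝ) / 500)) * x) ^ 0 + ((37673 : ℝ) / 1000) * (((-177 : ℝ) / 500) + (((177 : ℝ) / 250) - ((-177 : ℝ) / 500)) * x) ^ 1 + ((759 : ℝ) / 25) * (((-177 : ℝ) / 500) + (((177 : ℝ) / 250) - ((-177 : ℝ) / 500)) * x) ^ 2 + ((-1639 : ℝ) / 20) * (((-177 : ℝ) / 500) + (((177 : ℝ) / 250) - ((-177 : ℝ) / 500)) * x) ^ 3 + ((-33457 : ℝ) / 200) * (((-177 : ℝ) / 500) + (((177 : ℝ) / 250) - ((-177 : ℝ) / 500)) * x) ^ 4 + ((-112443 : ℝ) / 1000) * (((-177 : ℝ) / 500) + (((177 : ℝ) / 250) - ((-177 : ℝ) / 500)) * x) ^ 5 + ((-13331 : ℝ) / 500) * (((-177 : ℝ) / 500) + (((177 : ℝ) / 250) - ((-177 : ℝ) / 500)) * x) ^ 6) hw ?_ ?_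
      · simp only [pR, List.map_cons, List.map_nil, polyVal]
        push_cast
        ring
      · have a := val1_nonneg u8_good x0 x1
        have b := val1_nonneg u9_good x0 x1
        simp only [val1, u8, u9] at a b
        push_cast at a b
        rw [abs_le]
        constructor
        · linarith
        · linarith
  major Rr g r0 r1 g0 g1 g2 := by
    have a1 : |data.E.e1| = ((8 : ℝ) / 125) := by norm_num [data, coefE]
    have a2 : |data.E.e2| = ((31 : ℝ) / 100) := by norm_num [data, coefE]
    have a3 : |data.E.e3| = (0 : ℝ) := by norm_num [data, coefE]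
    have a4 : |data.E.e4| = ((423 : ℝ) / 1000) := by norm_num [data, coefE]
    simp only [a1, a2, a3, a4, Coef.b2, Coef.b3, Coef.b4, Coef.b5, Coef.b6]
    refine ⟨?_, ?_, ?_, ?_, ?_⟩
    · rcases le_total Rr (1 / 2) with hR | hR
      · have hb : (1 + ((8 : ℝ) / 125) * (6 * Rr ^ 2) + ((31 : ℝ) / 100) * (10 * Rr ^ 3) + ((0 : ℝ) + ((423 : ℝ) / 1000)) * (15 * Rr ^ 4)) ≤ ((30081 : ℝ) / 16000) := by
          have h2 := pow_le_pow_left₀ r0 hR 2
          have h3 := pow_le_pow_left₀ r0 hR 3
          have h4 := pow_le_pow_left₀ r0 hR 4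
          linarith
        have hg := pow_le_pow_left₀ g0 (show g ≤ (3 : ℝ) / 2 by linarith) 2
        exact le_trans (mul_le_mul hb hg (pow_nonneg g0 _) (by norm_num)) (by norm_num)
      · have a := val1_nonneg u10_good (x := 2 * Rr - 1) (by linarith) (by linarith)
        simp only [val1, u10] at a
        push_cast at a
        refine le_trans (mul_le_mul_of_nonneg_left (pow_le_pow_left₀ g0 g2 2) (by positivity)) ?_
        linarith
    · rcases le_total Rr (1 / 2) with hR | hR
      · have hb : (((8 : ℝ) / 125) * (4 * Rr) + ((31 : ℝ) / 100) * (10 * Rr ^ 2) + ((0 : ℝ) + ((423 : ℝ) / 1000)) * (20 * Rr ^ 3)) ≤ ((3921 : ℝ) / 2000) := by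
          have h2 := pow_le_pow_left₀ r0 hR 2
          have h3 := pow_le_pow_left₀ r0 hR 3
          have h4 := pow_le_pow_left₀ r0 hR 4
          linarith
        have hg := pow_le_pow_left₀ g0 (show g ≤ (3 : ℝ) / 2 by linarith) 3
        exact le_trans (mul_le_mul hb hg (pow_nonneg g0 _) (by norm_num)) (by norm_num)
      · have a := val1_nonneg u11_good (x := 2 * Rr - 1) (by linarith) (by linarith)
        simp only [val1, u11] at a
        push_cast at a
        refine le_trans (mul_le_mul_of_nonneg_left (pow_le_pow_left₀ g0 g2 3) (by positivity)) ?_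
        linarith
    · rcases le_total Rr (1 / 2) with hR | hR
      · have hb : (((8 : ℝ) / 125) + ((31 : ℝ) / 100) * (5 * Rr) + ((0 : ℝ) + ((423 : ℝ) / 1000)) * (15 * Rr ^ 2)) ≤ ((9701 : ℝ) / 4000) := by
          have h2 := pow_le_pow_left₀ r0 hR 2
          have h3 := pow_le_pow_left₀ r0 hR 3
          have h4 := pow_le_pow_left₀ r0 hR 4
          linarith
        have hg := pow_le_pow_left₀ g0 (show g ≤ (3 : ℝ) / 2 by linarith) 4
        exact le_trans (mul_le_mul hb hg (pow_nonneg g0 _) (by norm_num)) (by norm_num)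
      · have a := val1_nonneg u12_good (x := 2 * Rr - 1) (by linarith) (by linarith)
        simp only [val1, u12] at a
        push_cast at a
        refine le_trans (mul_le_mul_of_nonneg_left (pow_le_pow_left₀ g0 g2 4) (by positivity)) ?_
        linarith
    · rcases le_total Rr (1 / 2) with hR | hR
      · have hb : (((31 : ℝ) / 100) + ((0 : ℝ) + ((423 : ℝ) / 1000)) * (6 * Rr)) ≤ ((1579 : ℝ) / 1000) := by
          have h2 := pow_le_pow_left₀ r0 hR 2
          have h3 := pow_le_pow_left₀ r0 hR 3
          have h4 := pow_le_pow_left₀ r0 hR 4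
          linarith
        have hg := pow_le_pow_left₀ g0 (show g ≤ (3 : ℝ) / 2 by linarith) 5
        exact le_trans (mul_le_mul hb hg (pow_nonneg g0 _) (by norm_num)) (by norm_num)
      · have a := val1_nonneg u13_good (x := 2 * Rr - 1) (by linarith) (by linarith)
        simp only [val1, u13] at a
        push_cast at a
        refine le_trans (mul_le_mul_of_nonneg_left (pow_le_pow_left₀ g0 g2 5) (by positivity)) ?_
        linarith
    · rcases le_total Rr (1 / 2) with hR | hR
      · have hb : ((0 : ℝ) + ((423 : ℝ) / 1000)) ≤ ((423 : ℝ) / 1000) := by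
          have h2 := pow_le_pow_left₀ r0 hR 2
          have h3 := pow_le_pow_left₀ r0 hR 3
          have h4 := pow_le_pow_left₀ r0 hR 4
          linarith
        have hg := pow_le_pow_left₀ g0 (show g ≤ (3 : ℝ) / 2 by linarith) 6
        exact le_trans (mul_le_mul hb hg (pow_nonneg g0 _) (by norm_num)) (by norm_num)
      · have a := val1_nonneg u14_good (x := 2 * Rr - 1) (by linarith) (by linarith)
        simp only [val1, u14] at a
        push_cast at a
        refine le_trans (mul_le_mul_of_nonneg_left (pow_le_pow_left₀ g0 g2 6) (by positivity)) ?_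
        linarith
  e2 := by norm_num [data]
  e3 := by norm_num [data]
  e4 := by norm_num [data]
  e5 := by norm_num [data]
  e6 := by norm_num [data]

/-- The potential at the end point. -/
theorem pot : Pot ((177 : ℝ) / 500) 1 2 ((1 : ℝ) / 2000) coefE.phi := by
  refine pot_of_cert valid (fun x h1 h2 => ⟨by linarith, by linarith⟩)
    (fun s t h => (val_bounds coefE ?_ ?_ ?_ ?_ h).1) (fun s t h => (val_bounds coefE ?_ ?_ ?_ ?_ h).2)
    (final_of_cert target_check good (K := ((16384000000000000000000000000000000000000 : ℝ) / 31329)) ?_ ?_ ?_ ?_ ?_ ?_ target_eq)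
  all_goals norm_num [coefE, data]

/-- The potential at every parameter between the end point and zero. -/
theorem pot_range {m : ℝ} (m0 : 0 ≤ m) (m1 : m ≤ 1) : Pot (((177 : ℝ) / 500) * m) 1 2 ((1 : ℝ) / 2000) coefE.phi :=
  pot_scale pot (by norm_num [coefE]) (by norm_num [coefE]) (by norm_num [coefE])
    (by norm_num [coefE]) m0 m1

end Vale.Agent.P154.Uni.Pos
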