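import Vale.Agent.P154.Decay
import Vale.Agent.P154.UniNegPot
import Vale.Agent.P154.UniPosPot

/-!
The single potential on the whole range `-3/20 ≤ l ≤ 177/500`, and what it gives for regular and
Galton-Watson trees.
-/

open scoped ENNReal
open Filter

namespace Vale.Agent.P154.Uni

/-- A potential exists at every parameter of the range. -/
theorem exists_pot {l : ℝ} (h0 : -(3 / 20) ≤ l) (h1 : l ≤ 177 / 500) :
    ∃ φ : (Spin → ℝ) → ℝ, Pot l 1 2 (1 / 2000) φ := by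
  rcases le_total 0 l with h | h
  · have := Pos.pot_range (m := 500 / 177 * l) (by linarith) (by linarith)
    rw [show (177 : ℝ) / 500 * (500 / 177 * l) = l by ring] at this
    exact ⟨_, this⟩
  · have := Neg.pot_range (m := -20 / 3 * l) (by linarith) (by linarith)
    rw [show (-3 : ℝ) / 20 * (-20 / 3 * l) = l by ring] at this
    exact ⟨_, this⟩

/-- Ferromagnetic degrees from 8 and antiferromagnetic degrees from 45 lie in the range. -/
theorem range_of {d l : ℝ} (hdl : d * l ^ 2 ≤ 1) (h : (0 ≤ l ∧ 8 ≤ d) ∨ 45 ≤ d) :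
    -(3 / 20) ≤ l ∧ l ≤ 177 / 500 := by
  rcases h with ⟨hl, hd⟩ | hd
  · have : 8 * l ^ 2 ≤ d * l ^ 2 := mul_le_mul_of_nonneg_right hd (sq_nonneg l)
    constructor <;> nlinarith
  · have : 45 * l ^ 2 ≤ d * l ^ 2 := mul_le_mul_of_nonneg_right hd (sq_nonneg l)
    constructor <;> nlinarith

/-- Regular trees in the range. -/
theorem tendsto_tv_uni {d : ℕ} {l : ℝ} (h0 : -(3 / 20) ≤ l) (h1 : l ≤ 177 / 500) (h2 : 2 ≤ d)
    (hdl : (d : ℝ) * l ^ 2 ≤ 1) : Tendsto (fun n => tv l n (regular d n)) atTop (nhds 0) := by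
  obtain ⟨φ, hP⟩ := exists_pot h0 h1
  exact tendsto_tv_regular (by linarith) (by linarith) one_pos two_pos
    (by norm_num : (0 : ℝ) < 1 / 2000) hP h2 hdl

/-- Galton-Watson trees with any offspring law in the range. -/
theorem tendsto_gwTV_uni {l : ℝ} (h0 : -(3 / 20) ≤ l) (h1 : l ≤ 177 / 500) (p : ℕ → ℝ≥0∞)
    (hp : ∑' k, p k = 1) (hdl : ENNReal.ofReal (l ^ 2) * ∑' k : ℕ, (k : ℝ≥0∞) * p k ≤ 1) :
    Tendsto (gwTV p l) atTop (nhds 0) := by
  obtain ⟨φ, hP⟩ := exists_pot h0 h1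
  exact tendsto_gwTV (by linarith) (by linarith) one_pos two_pos
    (by norm_num : (0 : ℝ) < 1 / 2000) (by nlinarith) hP p hp hdl

/-- Every ferromagnetic regular tree of degree at least 8, and every one of degree at least 45. -/
theorem tendsto_tv_regular_large {d : ℕ} {l : ℝ} (hdl : (d : ℝ) * l ^ 2 ≤ 1)
    (h : (0 ≤ l ∧ 8 ≤ d) ∨ 45 ≤ d) : Tendsto (fun n => tv l n (regular d n)) atTop (nhds 0) := by
  have h' : (0 ≤ l ∧ (8 : ℝ) ≤ d) ∨ (45 : ℝ) ≤ d := by
    rcases h with ⟨a, b⟩ | b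
    · exact Or.inl ⟨a, by exact_mod_cast b⟩
    · exact Or.inr (by exact_mod_cast b)
  obtain ⟨h0, h1⟩ := range_of hdl h'
  exact tendsto_tv_uni h0 h1 (by rcases h with ⟨_, b⟩ | b <;> omega) hdl

/-- Poisson offspring of mean at least 8 (ferromagnetic) or at least 45. -/
theorem tendsto_gwTV_poisson_large {d l : ℝ} (hdl : d * l ^ 2 ≤ 1)
    (h : (0 ≤ l ∧ 8 ≤ d) ∨ 45 ≤ d) : Tendsto (gwTV (poissonLaw d) l) atTop (nhds 0) := by
  obtain ⟨h0, h1⟩ := range_of hdl h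
  have hd : 0 ≤ d := by rcases h with ⟨_, b⟩ | b <;> linarith
  refine tendsto_gwTV_uni h0 h1 _ (poissonLaw_sum hd) ?_
  rw [poissonLaw_mean hd, ← ENNReal.ofReal_mul (sq_nonneg l)]
  exact ENNReal.ofReal_le_one.mpr (by linarith)

end Vale.Agent.P154.Uni
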