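import Mathlib
import Vale.Agent.P154.BinBern
import Vale.Agent.P154.Cert

/-!
Integer polynomial reflection of the averaged part of a certificate.
-/

namespace Vale.Agent.P154.Uni

open Bern

/-! ### Arithmetic of nested coefficient lists -/

/-- A constant. -/
def cst : (n : ℕ) → ℤ → MP n
  | 0, c => c
  | n + 1, c => [cst n c]

/-- The power `i` of the first variable times a polynomial in the others. -/
def xpow (n : ℕ) : ℕ → MP n → MP (n + 1)
  | 0, a => [a]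
  | i + 1, a => zero n :: xpow n i a

/-- The product. -/
def mul : (n : ℕ) → MP n → MP n → MP n
  | 0, a, b => (Int.mul a b : ℤ)
  | n + 1, a, b =>
    List.foldr (fun c r => zipPad (add n) (List.map (mul n c) b) (zero n :: r)) [] a

/-- Powers. -/
def pw (n : ℕ) (a : MP n) : ℕ → MP n
  | 0 => cst n 1
  | k + 1 => mul n a (pw n a k)

/-- All coefficients vanish. -/
def isZero : (n : ℕ) → MP n → Bool
  | 0, a => decide ((show ℤ from a) = 0)
  | n + 1, a => List.all a (isZero n)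

lemma ev_cst : ∀ (n : ℕ) (c : ℤ) (x : ℕ → ℝ), ev n (cst n c) x = c
  | 0, _, _ => rfl
  | n + 1, c, x => by
    show ev (n + 1) [cst n c] x = _
    simp [ev_succ_cons, ev_succ_nil, ev_cst n]

lemma ev_xpow (n : ℕ) : ∀ (i : ℕ) (a : MP n) (x : ℕ → ℝ),
    ev (n + 1) (xpow n i a) x = x 0 ^ i * ev n a (fun k => x (k + 1))
  | 0, a, x => by simp [xpow, ev_succ_cons, ev_succ_nil]
  | i + 1, a, x => by
    have ih := ev_xpow n i a x
    show ev (n + 1) (zero n :: xpow n i a) x = _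
    refine (ev_succ_cons n (zero n) (xpow n i a) x).trans ?_
    rw [ev_zero, ih]
    ring

lemma ev_zipPad (n : ℕ) (a b : List (MP n)) (x : ℕ → ℝ) :
    ev (n + 1) (zipPad (add n) a b) x = ev (n + 1) a x + ev (n + 1) b x :=
  ev_add (n + 1) a b x

lemma ev_mul : ∀ (n : ℕ) (a b : MP n) (x : ℕ → ℝ), ev n (mul n a b) x = ev n a x * ev n b x
  | 0, a, b, x => by
    show ((Int.mul a b : ℤ) : ℝ) = _
    exact Int.cast_mul a b
  | n + 1, a, b, x => by
    have hb : ∀ (c : MP n) (b : List (MP n)), ev (n + 1) (List.map (mul n c) b) x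
        = ev n c (fun i => x (i + 1)) * ev (n + 1) b x := fun c b => by
      induction b with
      | nil => exact (mul_zero _).symm
      | cons e b ih =>
        refine (ev_succ_cons n (mul n c e) (List.map (mul n c) b) x).trans ?_
        rw [ev_mul n, ih, ev_succ_cons n e b x]
        ring
    show ev (n + 1) (List.foldr (fun c r => zipPad (add n) (List.map (mul n c) b) (zero n :: r))
      [] a) x = _
    induction a with
    | nil => exact (zero_mul _).symm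
    | cons c a ih =>
      refine (ev_zipPad n _ _ x).trans
        ((congrArg₂ (· + ·) (hb c b) (ev_succ_cons n (zero n) _ x)).trans ?_)
      rw [ev_zero, ih, ev_succ_cons n c a x]
      ring

lemma ev_pw (n : ℕ) (a : MP n) (x : ℕ → ℝ) : ∀ k, ev n (pw n a k) x = ev n a x ^ k
  | 0 => by simp [pw, ev_cst]
  | k + 1 => by rw [pw, ev_mul, ev_pw n a x k, pow_succ']

lemma ev_eq_zero_of_isZero : ∀ (n : ℕ) (a : MP n), isZero n a = true → ∀ x, ev n a x = 0
  | 0, a, h, x => by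
    simp only [isZero, decide_eq_true_eq] at h
    show ((show ℤ from a) : ℝ) = 0
    exact Int.cast_eq_zero.mpr h
  | n + 1, a, h, x => by
    replace h : List.all (show List (MP n) from a) (isZero n) = true := h
    show ev (n + 1) a x = 0
    induction a with
    | nil => rfl
    | cons c a ih =>
      rw [List.all_cons, Bool.and_eq_true] at h
      simp only [ev_succ_cons, ih h.2, ev_eq_zero_of_isZero n c h.1]
      ring

/-- Four variables. -/
def v4 (a b c d : ℝ) : ℕ → ℝ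
  | 0 => a
  | 1 => b
  | 2 => c
  | _ => d

/-- A monomial in four variables. -/
def mon (c : ℤ) (i j k m : ℕ) : MP 4 := xpow 3 i (xpow 2 j (xpow 1 k (xpow 0 m (show MP 0 from c))))

lemma ev_mon (c : ℤ) (i j k m : ℕ) (x : ℕ → ℝ) :
    ev 4 (mon c i j k m) x = c * x 0 ^ i * x 1 ^ j * x 2 ^ k * x 3 ^ m := by
  refine (ev_xpow 3 i _ x).trans ?_
  rw [ev_xpow 2 j, ev_xpow 1 k, ev_xpow 0 m]
  show _ * (_ * (_ * (_ * ((c : ℤ) : ℝ)))) = _
  ring

/-- The polynomial of a list of monomials. -/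
def ofList : List (ℤ × ℕ × ℕ × ℕ × ℕ) → MP 4
  | [] => zero 4
  | (c, i, j, k, m) :: r => add 4 (mon c i j k m) (ofList r)

/-- The value of a list of monomials. -/
def val4 (a b c d : ℝ) : List (ℤ × ℕ × ℕ × ℕ × ℕ) → ℝ
  | [] => 0
  | (e, i, j, k, m) :: r => e * a ^ i * b ^ j * c ^ k * d ^ m + val4 a b c d r

lemma ev_ofList (a b c d : ℝ) : ∀ l, ev 4 (ofList l) (v4 a b c d) = val4 a b c d l
  | [] => ev_zero 4 _
  | (e, i, j, k, m) :: r => by
    simp only [ofList, val4, ev_add, ev_mon, ev_ofList a b c d r, v4]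

/-! ### Normal forms -/

/-- Eight integer polynomials. -/
structure R8 where
  /-- Component. -/
  a0 : MP 4
  /-- Component. -/
  a1 : MP 4
  /-- Component. -/
  a2 : MP 4
  /-- Component. -/
  a3 : MP 4
  /-- Component. -/
  a4 : MP 4
  /-- Component. -/
  a5 : MP 4
  /-- Component. -/
  ap : MP 4
  /-- Component. -/
  aR : MP 4

/-- The value as a normal form. -/
noncomputable def R8.val (K : R8) (x : ℕ → ℝ) : NForm :=
  ⟨ev 4 K.a0 x, ev 4 K.a1 x, ev 4 K.a2 x, ev 4 K.a3 x, ev 4 K.a4 x, ev 4 K.a5 x, ev 4 K.ap x,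
    ev 4 K.aR x⟩

/-- A normal form given by lists of monomials. -/
def R8.mk' (l0 l1 l2 l3 l4 l5 lp lR : List (ℤ × ℕ × ℕ × ℕ × ℕ)) : R8 :=
  ⟨ofList l0, ofList l1, ofList l2, ofList l3, ofList l4, ofList l5, ofList lp, ofList lR⟩

/-- A multiple of a normal form. -/
def scaleN (a : ℝ) (K : NForm) : NForm :=
  ⟨a * K.k0, a * K.k1, a * K.k2, a * K.k3, a * K.k4, a * K.k5, a * K.kp, a * K.kR⟩

/-- A monomial multiple. -/
def mm (c : ℤ) (i j k m : ℕ) (a : MP 4) : MP 4 := mul 4 (mon c i j k m) a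

/-- The step of `NForm.step`. -/
def stepR (K B : R8) (c : ℤ) : R8 where
  a0 := add 4 (smul 4 c B.a0) (add 4 (mm 2 0 1 1 0 K.ap) (add 4 (mm 2 1 0 0 1 K.aR)
    (add 4 (mm (-4) 3 0 0 2 K.a5) (add 4 (mm (-4) 0 2 3 0 K.a5) (mm 4 3 0 3 0 K.a5)))))
  a1 := add 4 (smul 4 c B.a1) (add 4 K.a0 (mm (-12) 1 1 1 1 K.a5))
  a2 := add 4 (smul 4 c B.a2) (add 4 K.a1 (mm (-9) 2 0 2 0 K.a5))
  a3 := add 4 (smul 4 c B.a3) (add 4 K.a2 (mm 4 0 1 0 1 K.a5))
  a4 := add 4 (smul 4 c B.a4) (add 4 K.a3 (mm 6 1 0 1 0 K.a5))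
  a5 := add 4 (smul 4 c B.a5) K.a4
  ap := add 4 (smul 4 c B.ap) (mm 1 0 0 1 0 K.aR)
  aR := add 4 (smul 4 c B.aR) (mm 1 1 0 0 0 K.ap)

/-- The zero normal form. -/
def zero8 : R8 := ⟨zero 4, zero 4, zero 4, zero 4, zero 4, zero 4, zero 4, zero 4⟩

/-- Evaluates a normal form before passing it on. -/
def force8 (K : R8) (k : R8 → Bool) : Bool :=
  force 4 K.a0 fun b0 => force 4 K.a1 fun b1 => force 4 K.a2 fun b2 => force 4 K.a3 fun b3 =>
  force 4 K.a4 fun b4 => force 4 K.a5 fun b5 => force 4 K.ap fun bp => force 4 K.aR fun bR =>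
  k ⟨b0, b1, b2, b3, b4, b5, bp, bR⟩

lemma force8_eq (K : R8) (k : R8 → Bool) : force8 K k = k K := by simp only [force8, force_eq]

/-- The normal form times a polynomial in the first moment. -/
def mulPolyR (B : R8) : List ℤ → R8
  | [] => zero8
  | c :: cs => stepR (mulPolyR B cs) B c

/-- The same, evaluated step by step. -/
def mulPolyK (B : R8) : List ℤ → (R8 → Bool) → Bool
  | [], k => k zero8
  | c :: cs, k => mulPolyK B cs fun K => force8 (stepR K B c) k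

lemma mulPolyK_eq (B : R8) : ∀ (cs : List ℤ) (k : R8 → Bool),
    mulPolyK B cs k = k (mulPolyR B cs)
  | [], _ => rfl
  | c :: cs, k => by rw [mulPolyK, mulPolyK_eq B cs, force8_eq, mulPolyR]

/-- A polynomial from integer coefficients over a common denominator. -/
noncomputable def pR (d : ℝ) (cs : List ℤ) : List ℝ := cs.map fun (c : ℤ) => (c : ℝ) / d

lemma val_mulPolyR {B : R8} {B' : NForm} {a d s t S T : ℝ} (hd : d ≠ 0)
    (hB : B.val (v4 s t S T) = scaleN a B') : ∀ cs : List ℤ,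
    (mulPolyR B cs).val (v4 s t S T) = scaleN (a * d) (B'.mulPoly s t S T (pR d cs))
  | [] => by
    simp [mulPolyR, zero8, R8.val, pR, NForm.mulPoly, scaleN, ev_zero]
  | c :: cs => by
    have ih := val_mulPolyR hd hB cs
    simp only [R8.val, scaleN, NForm.ext_iff] at ih hB
    obtain ⟨i0, i1, i2, i3, i4, i5, ip, iR⟩ := ih
    obtain ⟨b0, b1, b2, b3, b4, b5, bp, bR⟩ := hB
    simp only [mulPolyR, R8.val, stepR, mm, ev_add, ev_mul, ev_smul, ev_mon, pR, List.map_cons,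
      NForm.mulPoly, NForm.step, scaleN, NForm.ext_iff, v4, i0, i1, i2, i3, i4, i5, ip, iR,
      b0, b1, b2, b3, b4, b5, bp, bR, Int.cast_ofNat, Int.cast_neg, Int.cast_one, pow_zero,
      pow_one, mul_one]
    refine ⟨?_, ?_, ?_, ?_, ?_, ?_, ?_, ?_⟩ <;> field_simp <;> ring

/-- The average. -/
def avgR (K : R8) : MP 4 :=
  add 4 K.a0 (add 4 (mm 2 1 0 1 0 K.a2) (add 4 (mm 2 0 1 0 1 K.a3)
    (add 4 (mm 6 2 0 2 0 K.a4) (mm 10 1 1 1 1 K.a5))))

lemma ev_avgR {K : R8} {K' : NForm} {a s t S T : ℝ} (h : K.val (v4 s t S T) = scaleN a K') :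
    ev 4 (avgR K) (v4 s t S T) = a * K'.avg s t S T := by
  simp only [R8.val, scaleN, NForm.ext_iff] at h
  obtain ⟨i0, i1, i2, i3, i4, i5, ip, iR⟩ := h
  simp only [avgR, mm, ev_add, ev_mul, ev_mon, v4, i0, i2, i3, i4, i5, NForm.avg,
    Int.cast_ofNat, pow_zero, pow_one, mul_one]
  ring

/-- The check that the averaged part is the given list of monomials. -/
def avgCheck (B2 B3 B4 B5 B6 : R8) (c2 c3 c4 c5 c6 : List ℤ)
    (l : List (ℤ × ℕ × ℕ × ℕ × ℕ)) : Bool :=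
  mulPolyK B2 c2 fun K2 => mulPolyK B3 c3 fun K3 => mulPolyK B4 c4 fun K4 =>
  mulPolyK B5 c5 fun K5 => mulPolyK B6 c6 fun K6 =>
  isZero 4 (add 4 (avgR K2) (add 4 (avgR K3) (add 4 (avgR K4) (add 4 (avgR K5)
    (add 4 (avgR K6) (smul 4 (-1) (ofList l)))))))

lemma avgPart_eq {D : Data} {B2 B3 B4 B5 B6 : R8} {c2 c3 c4 c5 c6 : List ℤ}
    {l : List (ℤ × ℕ × ℕ × ℕ × ℕ)} {a d : ℝ} (hd : d ≠ 0) (s t S T : ℝ)
    (h2 : B2.val (v4 s t S T) = scaleN a (base2 D.E.e4 1 D.E.e2 D.E.e1 D.E.e3 s t S T))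
    (h3 : B3.val (v4 s t S T) = scaleN a (base3 D.E.e4 D.E.e2 D.E.e1 D.E.e3 s t S T))
    (h4 : B4.val (v4 s t S T) = scaleN a (base4 D.E.e4 D.E.e2 D.E.e1 D.E.e3 s t S T))
    (h5 : B5.val (v4 s t S T) = scaleN a (base5 D.E.e4 D.E.e2 D.E.e3 s t S T))
    (h6 : B6.val (v4 s t S T) = scaleN a (base6 D.E.e4 D.E.e3 s t S T))
    (p2 : D.p2 = pR d c2) (p3 : D.p3 = pR d c3) (p4 : D.p4 = pR d c4) (p5 : D.p5 = pR d c5)
    (p6 : D.p6 = pR d c6) (hc : avgCheck B2 B3 B4 B5 B6 c2 c3 c4 c5 c6 l = true) :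
    a * d * D.avgPart s t S T = val4 s t S T l := by
  simp only [avgCheck, mulPolyK_eq] at hc
  have h := ev_eq_zero_of_isZero 4 _ hc (v4 s t S T)
  simp only [ev_add, ev_smul, ev_ofList, ev_avgR (val_mulPolyR hd h2 c2),
    ev_avgR (val_mulPolyR hd h3 c3), ev_avgR (val_mulPolyR hd h4 c4),
    ev_avgR (val_mulPolyR hd h5 c5), ev_avgR (val_mulPolyR hd h6 c6)] at h
  simp only [Data.avgPart, p2, p3, p4, p5, p6]
  push_cast at h
  linarith

/-! ### The target polynomial in the coordinates -/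

/-- `r ^ (2 i + 3 j) (4 - 6 w + 3 w²) ^ i (8 - 18 w + 9 w²) ^ j`. -/
def apart (i j : ℕ) : MP 4 :=
  mul 4 (mon 1 (2 * i + 3 * j) 0 0 0)
    (mul 4 (pw 4 (ofList [(4, 0, 0, 0, 0), (-6, 0, 1, 0, 0), (3, 0, 2, 0, 0)]) i)
      (pw 4 (ofList [(8, 0, 0, 0, 0), (-18, 0, 1, 0, 0), (9, 0, 2, 0, 0)]) j))

/-- The factor in the second pair of variables. -/
def ypart (k m e : ℕ) : MP 4 :=
  mul 4 (mon 1 0 0 (2 * k + 3 * m + e) 0)
    (mul 4 (pw 4 (ofList [(4, 0, 0, 0, 0), (-6, 0, 0, 0, 1), (3, 0, 0, 0, 2)]) k)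
      (mul 4 (pw 4 (ofList [(8, 0, 0, 0, 0), (-18, 0, 0, 0, 1), (9, 0, 0, 0, 2)]) m)
        (pw 4 (ofList [(2, 0, 0, 0, 0), (-1, 0, 0, 0, 1)]) e)))

/-- The sum of the first factors of a group. -/
def asum : List (ℤ × ℕ × ℕ) → MP 4
  | [] => zero 4
  | (c, i, j) :: r => add 4 (smul 4 c (apart i j)) (asum r)

/-- The value of the first factors of a group. -/
def valA (p q : ℝ) : List (ℤ × ℕ × ℕ) → ℝ
  | [] => 0
  | (c, i, j) :: r => c * p ^ i * q ^ j + valA p q r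

/-- The value of all groups. -/
def valZ (p q p' q' h : ℝ) : List ((ℕ × ℕ × ℕ) × List (ℤ × ℕ × ℕ)) → ℝ
  | [] => 0
  | ((k, m, e), l) :: r => p' ^ k * q' ^ m * h ^ e * valA p q l + valZ p q p' q' h r

/-- The groups added to an accumulator, evaluated step by step. -/
def zsumK : List ((ℕ × ℕ × ℕ) × List (ℤ × ℕ × ℕ)) → MP 4 → (MP 4 → Bool) → Bool
  | [], acc, c => c acc
  | ((k, m, e), l) :: r, acc, c =>
    force 4 (asum l) fun a => force 4 (add 4 (mul 4 (ypart k m e) a) acc) fun acc' =>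
      zsumK r acc' c

/-- The groups added to an accumulator. -/
def zsum : List ((ℕ × ℕ × ℕ) × List (ℤ × ℕ × ℕ)) → MP 4 → MP 4
  | [], acc => acc
  | ((k, m, e), l) :: r, acc => zsum r (add 4 (mul 4 (ypart k m e) (asum l)) acc)

lemma zsumK_eq : ∀ (z : List ((ℕ × ℕ × ℕ) × List (ℤ × ℕ × ℕ))) (acc : MP 4)
    (c : MP 4 → Bool), zsumK z acc c = c (zsum z acc)
  | [], _, _ => rfl
  | ((k, m, e), l) :: r, acc, c => by rw [zsumK, force_eq, force_eq, zsumK_eq r, zsum]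

/-- The groups equal the square of the third variable times the given polynomial. -/
def targetCheck (z : List ((ℕ × ℕ × ℕ) × List (ℤ × ℕ × ℕ))) (P : MP 4) : Bool :=
  force 4 (mm (-1) 0 0 2 0 P) fun N => zsumK z N (isZero 4)

lemma ev_asum (r w r' w' : ℝ) : ∀ l, ev 4 (asum l) (v4 r w r' w')
    = valA (r ^ 2 * (4 - 6 * w + 3 * w ^ 2)) (r ^ 3 * (8 - 18 * w + 9 * w ^ 2)) l
  | [] => ev_zero 4 _
  | (c, i, j) :: l => by
    simp only [asum, valA, ev_add, ev_smul, apart, ev_mul, ev_mon, ev_pw, ev_ofList, val4,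
      ev_asum r w r' w' l, v4]
    push_cast
    generalize valA _ _ l = A
    simp only [mul_pow, ← pow_mul, pow_add, Nat.mul_comm]
    ring

lemma ev_zsum (r w r' w' : ℝ) : ∀ z acc, ev 4 (zsum z acc) (v4 r w r' w')
    = valZ (r ^ 2 * (4 - 6 * w + 3 * w ^ 2)) (r ^ 3 * (8 - 18 * w + 9 * w ^ 2))
        (r' ^ 2 * (4 - 6 * w' + 3 * w' ^ 2)) (r' ^ 3 * (8 - 18 * w' + 9 * w' ^ 2))
        (r' * (2 - w')) z
      + ev 4 acc (v4 r w r' w')
  | [], acc => by simp [zsum, valZ]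
  | ((k, m, e), l) :: z, acc => by
    simp only [zsum, ev_zsum r w r' w' z, valZ, ev_add, ev_mul, ev_asum, ypart, ev_mon, ev_pw,
      ev_ofList, val4, v4]
    push_cast
    generalize valA _ _ l = A
    generalize valZ _ _ _ _ _ z = Z
    simp only [mul_pow, ← pow_mul, pow_add, Nat.mul_comm]
    ring

lemma valZ_nonneg {z : List ((ℕ × ℕ × ℕ) × List (ℤ × ℕ × ℕ))} {P : MP 4}
    (hc : targetCheck z P = true) (hP : Good 4 [] P) {r w r' w' : ℝ}
    (hr : 0 ≤ r ∧ r ≤ 1) (hw : 0 ≤ w ∧ w ≤ 1) (hr' : 0 ≤ r' ∧ r' ≤ 1) (hw' : 0 ≤ w' ∧ w' ≤ 1) :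
    0 ≤ valZ (r ^ 2 * (4 - 6 * w + 3 * w ^ 2)) (r ^ 3 * (8 - 18 * w + 9 * w ^ 2))
        (r' ^ 2 * (4 - 6 * w' + 3 * w' ^ 2)) (r' ^ 3 * (8 - 18 * w' + 9 * w' ^ 2))
        (r' * (2 - w')) z := by
  simp only [targetCheck, force_eq, zsumK_eq] at hc
  have h := ev_eq_zero_of_isZero 4 _ hc (v4 r w r' w')
  have hN : 0 ≤ ev 4 P (v4 r w r' w') := hP (v4 r w r' w') (by
    rintro (_ | _ | _ | i)
    · exact hr
    · exact hw
    · exact hr'
    · exact hw')
  simp only [ev_zsum, mm, ev_mul, ev_mon, v4, pow_zero, mul_one] at h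
  push_cast at h
  nlinarith [mul_nonneg (sq_nonneg r') hN]

/-- A polynomial in one variable from its coefficients. -/
def uni : List ℤ → MP 1
  | [] => zero 1
  | c :: cs => List.cons (show MP 0 from c) (uni cs)

/-- The value of a polynomial in one variable. -/
def val1 (x : ℝ) : List ℤ → ℝ
  | [] => 0
  | c :: cs => c + x * val1 x cs

lemma val1_nonneg {cs : List ℤ} (h : Good 1 [] (uni cs)) {x : ℝ} (h0 : 0 ≤ x) (h1 : x ≤ 1) :
    0 ≤ val1 x cs := by
  have e : ∀ cs : List ℤ, ev 1 (uni cs) (fun _ => x) = val1 x cs := by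
    intro cs
    induction cs with
    | nil => rfl
    | cons c cs ih =>
      refine (ev_succ_cons 0 (show MP 0 from c) (uni cs) _).trans ?_
      rw [show (fun i : ℕ => (fun _ : ℕ => x) (i + 1)) = fun _ => x from rfl]
      exact congrArg₂ (· + x * ·) rfl ih
  exact e cs ▸ h (fun _ => x) fun _ => ⟨h0, h1⟩

end Vale.Agent.P154.Uni
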